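import Mathlib
import Vale.Agent.P229.Defs
attribute [-instance] ProperSMul.toContinuousSMul IsTopologicalTorsor.toContinuousSMul IdemSemiring.toCanonicallyOrderedAdd IdemSemiring.toMulLeftMono IdemSemiring.toMulRightMono AddQuantale.instAddLeftMono AddQuantale.instAddRightMono Quantale.instMulLeftMono Quantale.instMulRightMono FiniteDimensional.rclike_to_real IsScalarTower.complexToReal FiniteDimensional.complexToReal

set_option linter.all false

section

section

/-!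
# P229, disproof: calculus on the plane `ℝ × ℝ`, frames `X, Y` (see `PROOF.md`, §0, §5)
-/

open scoped ContDiff Topology
open MeasureTheory Set

namespace Vale.Agent.P229.D

/-- The plane, points `p = (x, t)`. -/
abbrev Pl := ℝ × ℝ

/-- Partial derivative in the first coordinate `x`. -/
noncomputable def dx (f : Pl → ℝ) (p : Pl) : ℝ := fderiv ℝ f p (1, 0)

/-- Partial derivative in the second coordinate `t`. -/
noncomputable def dt (f : Pl → ℝ) (p : Pl) : ℝ := fderiv ℝ f p (0, 1)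

/-- `ρ² = x² + t²`. -/
def rho2 (p : Pl) : ℝ := p.1 ^ 2 + p.2 ^ 2

/-- `X f = f_x / P_x`. -/
noncomputable def XX (P f : Pl → ℝ) (p : Pl) : ℝ := dx f p / dx P p

/-- `Y f = f_t - (P_t / P_x) f_x`. -/
noncomputable def YY (P f : Pl → ℝ) (p : Pl) : ℝ := dt f p - dt P p / dx P p * dx f p

/-- Standing assumptions on the function `P` defining the frame. -/
structure Frame (P : Pl → ℝ) : Prop where
  smooth : ContDiff ℝ 3 P
  dx_near : ∀ p, |dx P p - 1| ≤ 1 / 1000
  dt_small : ∀ p, |dt P p| ≤ 1 / 1000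
  dxx_small : ∀ p, |dx (dx P) p| ≤ 1 / 1000
  dxt_small : ∀ p, |dt (dx P) p| ≤ 1 / 1000
  dtt_small : ∀ p, |dt (dt P) p| ≤ 1 / 1000
  zero : P 0 = 0

theorem contDiff_dx {n m : WithTop ℕ∞} {f : Pl → ℝ} (hf : ContDiff ℝ n f) (h : m + 1 ≤ n) :
    ContDiff ℝ m (dx f) := by
  have : ContDiff ℝ m (fderiv ℝ f) := hf.fderiv_right h
  exact this.clm_apply contDiff_const

theorem contDiff_dt {n m : WithTop ℕ∞} {f : Pl → ℝ} (hf : ContDiff ℝ n f) (h : m + 1 ≤ n) :
    ContDiff ℝ m (dt f) := by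
  have : ContDiff ℝ m (fderiv ℝ f) := hf.fderiv_right h
  exact this.clm_apply contDiff_const

end Vale.Agent.P229.D
end
end

section

section

/-!
# P229, disproof, task T1: API for `dx, dt, XX, YY`.  (Add more lemmas freely.)
-/

open scoped ContDiff Topology
open MeasureTheory Set

namespace Vale.Agent.P229.D

variable {P f g : Pl → ℝ} {p : Pl}

/-! ## directional derivatives -/

theorem fderiv_eq (f : Pl → ℝ) (p : Pl) (v : Pl) : fderiv ℝ f p v = v.1 * dx f p + v.2 * dt f p := by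
  have : v = v.1 • ((1, 0) : Pl) + v.2 • ((0, 1) : Pl) := by
    ext <;> simp
  conv_lhs => rw [this]
  rw [map_add, map_smul, map_smul]
  rfl

theorem fderiv_mul_apply (hf : DifferentiableAt ℝ f p) (hg : DifferentiableAt ℝ g p) (w : Pl) :
    fderiv ℝ (fun q => f q * g q) p w = fderiv ℝ f p w * g p + f p * fderiv ℝ g p w := by
  rw [fderiv_fun_mul hf hg]; simp only [add_apply, smul_apply, smul_eq_mul]; ring

theorem fderiv_div_apply (hf : DifferentiableAt ℝ f p)
    (hg : DifferentiableAt ℝ g p) (h0 : g p ≠ 0) (w : Pl) :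
    fderiv ℝ (fun q => f q / g q) p w = (fderiv ℝ f p w * g p - f p * fderiv ℝ g p w) / g p ^ 2 := by
  have hq : DifferentiableAt ℝ (fun q => f q / g q) p := by
    simp only [div_eq_mul_inv]; exact hf.mul (hg.inv h0)
  have h1 : fderiv ℝ (fun q => (f q / g q) * g q) p w
      = fderiv ℝ (fun q => f q / g q) p w * g p + f p / g p * fderiv ℝ g p w := by
    rw [fderiv_fun_mul hq hg]; simp only [add_apply, smul_apply, smul_eq_mul]; ring
  have h2 : (fun q => (f q / g q) * g q) =ᶠ[nhds p] f := by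
    have : ∀ᶠ q in nhds p, g q ≠ 0 := hg.continuousAt.eventually_ne h0
    filter_upwards [this] with q hq
    (clear * - hq; field_simp)
  rw [h2.fderiv_eq] at h1
  rw [h1]
  field_simp
  ring

theorem fderiv_comp_apply {φ : ℝ → ℝ} (hφ : DifferentiableAt ℝ φ (f p))
    (hf : DifferentiableAt ℝ f p) (w : Pl) :
    fderiv ℝ (fun q => φ (f q)) p w = deriv φ (f p) * fderiv ℝ f p w := by
  have := (hφ.hasDerivAt.comp_hasFDerivAt p hf.hasFDerivAt).fderiv
  have e : fderiv ℝ (fun q => φ (f q)) p = deriv φ (f p) • fderiv ℝ f p := this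
  rw [e]; simp

/-- `X` as a directional derivative. -/
theorem XX_eq_fderiv (P f : Pl → ℝ) (p : Pl) : XX P f p = fderiv ℝ f p ((dx P p)⁻¹, 0) := by
  rw [XX, fderiv_eq]; simp; ring

/-- `Y` as a directional derivative. -/
theorem YY_eq_fderiv (P f : Pl → ℝ) (p : Pl) :
    YY P f p = fderiv ℝ f p (-(dt P p / dx P p), 1) := by
  rw [YY, fderiv_eq]; simp only [neg_mul, one_mul]; ring

/-! ## partial derivatives -/

theorem dx_add (hf : DifferentiableAt ℝ f p) (hg : DifferentiableAt ℝ g p) :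
    dx (fun q => f q + g q) p = dx f p + dx g p := by
  simp only [dx]
  rw [fderiv_fun_add hf hg]; simp

theorem dx_sub (hf : DifferentiableAt ℝ f p) (hg : DifferentiableAt ℝ g p) :
    dx (fun q => f q - g q) p = dx f p - dx g p := by
  simp only [dx]
  rw [fderiv_fun_sub hf hg]; simp

theorem dx_mul (hf : DifferentiableAt ℝ f p) (hg : DifferentiableAt ℝ g p) :
    dx (fun q => f q * g q) p = dx f p * g p + f p * dx g p :=
  fderiv_mul_apply hf hg _

theorem dx_const (c : ℝ) : dx (fun _ => c) p = 0 := by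
  simp [dx]

theorem dx_const_mul (c : ℝ) (hf : DifferentiableAt ℝ f p) :
    dx (fun q => c * f q) p = c * dx f p := by
  have := dx_mul (f := fun _ => c) (differentiableAt_const _) hf
  rw [this, dx_const]; ring

theorem dx_comp {φ : ℝ → ℝ} (hφ : DifferentiableAt ℝ φ (f p)) (hf : DifferentiableAt ℝ f p) :
    dx (fun q => φ (f q)) p = deriv φ (f p) * dx f p :=
  fderiv_comp_apply hφ hf _

theorem dx_fst : dx (fun q => q.1) p = 1 := by
  have : fderiv ℝ (fun q : Pl => q.1) p = ContinuousLinearMap.fst ℝ ℝ ℝ :=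
    (ContinuousLinearMap.fst ℝ ℝ ℝ).fderiv
  rw [dx, this]; simp

theorem dx_snd : dx (fun q => q.2) p = 0 := by
  have : fderiv ℝ (fun q : Pl => q.2) p = ContinuousLinearMap.snd ℝ ℝ ℝ :=
    (ContinuousLinearMap.snd ℝ ℝ ℝ).fderiv
  rw [dx, this]; simp

theorem dt_add (hf : DifferentiableAt ℝ f p) (hg : DifferentiableAt ℝ g p) :
    dt (fun q => f q + g q) p = dt f p + dt g p := by
  simp only [dt]
  rw [fderiv_fun_add hf hg]; simp

theorem dt_sub (hf : DifferentiableAt ℝ f p) (hg : DifferentiableAt ℝ g p) :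
    dt (fun q => f q - g q) p = dt f p - dt g p := by
  simp only [dt]
  rw [fderiv_fun_sub hf hg]; simp

theorem dt_mul (hf : DifferentiableAt ℝ f p) (hg : DifferentiableAt ℝ g p) :
    dt (fun q => f q * g q) p = dt f p * g p + f p * dt g p :=
  fderiv_mul_apply hf hg _

theorem dt_const (c : ℝ) : dt (fun _ => c) p = 0 := by
  simp [dt]

theorem dt_const_mul (c : ℝ) (hf : DifferentiableAt ℝ f p) :
    dt (fun q => c * f q) p = c * dt f p := by
  have := dt_mul (f := fun _ => c) (differentiableAt_const _) hf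
  rw [this, dt_const]; ring

theorem dt_comp {φ : ℝ → ℝ} (hφ : DifferentiableAt ℝ φ (f p)) (hf : DifferentiableAt ℝ f p) :
    dt (fun q => φ (f q)) p = deriv φ (f p) * dt f p :=
  fderiv_comp_apply hφ hf _

theorem dt_fst : dt (fun q => q.1) p = 0 := by
  have : fderiv ℝ (fun q : Pl => q.1) p = ContinuousLinearMap.fst ℝ ℝ ℝ :=
    (ContinuousLinearMap.fst ℝ ℝ ℝ).fderiv
  rw [dt, this]; simp

theorem dt_snd : dt (fun q => q.2) p = 1 := by
  have : fderiv ℝ (fun q : Pl => q.2) p = ContinuousLinearMap.snd ℝ ℝ ℝ :=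
    (ContinuousLinearMap.snd ℝ ℝ ℝ).fderiv
  rw [dt, this]; simp

theorem dx_dt_comm (hf : ContDiff ℝ 2 f) (p : Pl) : dx (dt f) p = dt (dx f) p := by
  have hd : DifferentiableAt ℝ (fderiv ℝ f) p :=
    (hf.fderiv_right (m := 1) (by norm_num)).differentiable (by norm_num) p
  have hs := (hf.contDiffAt (x := p)).isSymmSndFDerivAt (by simp)
  have h1 : dx (dt f) p = fderiv ℝ (fderiv ℝ f) p (1, 0) (0, 1) := by
    have : dt f = fun q => (fderiv ℝ f q) (0, 1) := rfl
    rw [dx, this, fderiv_clm_apply hd (differentiableAt_const _)]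
    simp
  have h2 : dt (dx f) p = fderiv ℝ (fderiv ℝ f) p (0, 1) (1, 0) := by
    have : dx f = fun q => (fderiv ℝ f q) (1, 0) := rfl
    rw [dt, this, fderiv_clm_apply hd (differentiableAt_const _)]
    simp only [fderiv_fun_const, Pi.zero_apply, ContinuousLinearMap.comp_zero, zero_add, ContinuousLinearMap.flip_apply]
  rw [h1, h2]
  exact hs _ _

/-- derivative in the first variable as a one-dimensional derivative. -/
theorem hasDerivAt_fst (hf : DifferentiableAt ℝ f p) :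
    HasDerivAt (fun y => f (y, p.2)) (dx f p) p.1 := by
  have h2 : HasDerivAt (fun y : ℝ => ((y, p.2) : Pl)) ((1 : ℝ), (0 : ℝ)) p.1 :=
    (hasDerivAt_id p.1).prodMk (hasDerivAt_const p.1 p.2)
  have hf' : HasFDerivAt f (fderiv ℝ f p) (p.1, p.2) := hf.hasFDerivAt
  exact hf'.comp_hasDerivAt p.1 h2

theorem hasDerivAt_snd (hf : DifferentiableAt ℝ f p) :
    HasDerivAt (fun y => f (p.1, y)) (dt f p) p.2 := by
  have h2 : HasDerivAt (fun y : ℝ => ((p.1, y) : Pl)) ((0 : ℝ), (1 : ℝ)) p.2 :=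
    (hasDerivAt_const p.2 p.1).prodMk (hasDerivAt_id p.2)
  have hf' : HasFDerivAt f (fderiv ℝ f p) (p.1, p.2) := hf.hasFDerivAt
  exact hf'.comp_hasDerivAt p.2 h2

/-! ## frames -/

theorem Frame.dx_pos (hP : Frame P) (p : Pl) : 0 < dx P p := by
  have := abs_le.1 (hP.dx_near p); linarith only [this]

theorem Frame.dx_ne (hP : Frame P) (p : Pl) : dx P p ≠ 0 := (hP.dx_pos p).ne'

theorem XX_add (hf : DifferentiableAt ℝ f p) (hg : DifferentiableAt ℝ g p) :
    XX P (fun q => f q + g q) p = XX P f p + XX P g p := by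
  rw [XX, XX, XX, dx_add hf hg]; ring

theorem XX_sub (hf : DifferentiableAt ℝ f p) (hg : DifferentiableAt ℝ g p) :
    XX P (fun q => f q - g q) p = XX P f p - XX P g p := by
  rw [XX, XX, XX, dx_sub hf hg]; ring

theorem XX_mul (hf : DifferentiableAt ℝ f p) (hg : DifferentiableAt ℝ g p) :
    XX P (fun q => f q * g q) p = XX P f p * g p + f p * XX P g p := by
  rw [XX, XX, XX, dx_mul hf hg]; ring

theorem XX_const (c : ℝ) : XX P (fun _ => c) p = 0 := by
  rw [XX, dx_const]; simp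

theorem XX_const_mul (c : ℝ) (hf : DifferentiableAt ℝ f p) :
    XX P (fun q => c * f q) p = c * XX P f p := by
  rw [XX, XX, dx_const_mul c hf]; ring

theorem XX_comp {φ : ℝ → ℝ} (hφ : DifferentiableAt ℝ φ (f p)) (hf : DifferentiableAt ℝ f p) :
    XX P (fun q => φ (f q)) p = deriv φ (f p) * XX P f p := by
  rw [XX, XX, dx_comp hφ hf]; ring

theorem XX_self (hP : Frame P) : XX P P p = 1 := by
  rw [XX, div_self (hP.dx_ne p)]

theorem XX_snd : XX P (fun q => q.2) p = 0 := by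
  rw [XX, dx_snd]; simp

theorem YY_add (hf : DifferentiableAt ℝ f p) (hg : DifferentiableAt ℝ g p) :
    YY P (fun q => f q + g q) p = YY P f p + YY P g p := by
  rw [YY, YY, YY, dx_add hf hg, dt_add hf hg]; ring

theorem YY_sub (hf : DifferentiableAt ℝ f p) (hg : DifferentiableAt ℝ g p) :
    YY P (fun q => f q - g q) p = YY P f p - YY P g p := by
  rw [YY, YY, YY, dx_sub hf hg, dt_sub hf hg]; ring

theorem YY_mul (hf : DifferentiableAt ℝ f p) (hg : DifferentiableAt ℝ g p) :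
    YY P (fun q => f q * g q) p = YY P f p * g p + f p * YY P g p := by
  rw [YY, YY, YY, dx_mul hf hg, dt_mul hf hg]; ring

theorem YY_const (c : ℝ) : YY P (fun _ => c) p = 0 := by
  rw [YY, dx_const, dt_const]; simp

theorem YY_const_mul (c : ℝ) (hf : DifferentiableAt ℝ f p) :
    YY P (fun q => c * f q) p = c * YY P f p := by
  rw [YY, YY, dx_const_mul c hf, dt_const_mul c hf]; ring

theorem YY_comp {φ : ℝ → ℝ} (hφ : DifferentiableAt ℝ φ (f p)) (hf : DifferentiableAt ℝ f p) :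
    YY P (fun q => φ (f q)) p = deriv φ (f p) * YY P f p := by
  rw [YY, YY, dx_comp hφ hf, dt_comp hφ hf]; ring

theorem YY_self (hP : Frame P) : YY P P p = 0 := by
  have := hP.dx_ne p
  rw [YY]; field_simp; ring

theorem YY_snd : YY P (fun q => q.2) p = 1 := by
  rw [YY, dx_snd, dt_snd]; simp

theorem Frame.differentiableAt (hP : Frame P) (p : Pl) : DifferentiableAt ℝ P p :=
  hP.smooth.differentiable (by norm_num) p

/-- functions of `P` -/
theorem XX_comp_P (hP : Frame P) {φ : ℝ → ℝ} (hφ : DifferentiableAt ℝ φ (P p)) :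
    XX P (fun q => φ (P q)) p = deriv φ (P p) := by
  rw [XX_comp hφ (hP.differentiableAt p), XX_self hP, mul_one]

theorem YY_comp_P (hP : Frame P) {φ : ℝ → ℝ} (hφ : DifferentiableAt ℝ φ (P p)) :
    YY P (fun q => φ (P q)) p = 0 := by
  rw [YY_comp hφ (hP.differentiableAt p), YY_self hP, mul_zero]

/-- functions of `t` -/
theorem XX_comp_snd {φ : ℝ → ℝ} (hφ : DifferentiableAt ℝ φ p.2) :
    XX P (fun q => φ q.2) p = 0 := by
  rw [XX_comp (f := fun q : Pl => q.2) hφ differentiableAt_snd, XX_snd, mul_zero]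

theorem YY_comp_snd {φ : ℝ → ℝ} (hφ : DifferentiableAt ℝ φ p.2) :
    YY P (fun q => φ q.2) p = deriv φ p.2 := by
  rw [YY_comp (f := fun q : Pl => q.2) hφ differentiableAt_snd, YY_snd, mul_one]

theorem Frame.contDiff_dx (hP : Frame P) {m : WithTop ℕ∞} (hm : m ≤ 2) :
    ContDiff ℝ m (dx P) :=
  (Vale.Agent.P229.D.contDiff_dx (m := 2) hP.smooth (by norm_num)).of_le hm

theorem Frame.contDiff_dt (hP : Frame P) {m : WithTop ℕ∞} (hm : m ≤ 2) :
    ContDiff ℝ m (dt P) :=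
  (Vale.Agent.P229.D.contDiff_dt (m := 2) hP.smooth (by norm_num)).of_le hm

theorem contDiff_XX (hP : Frame P) {n m : WithTop ℕ∞} (hf : ContDiff ℝ n f) (h : m + 1 ≤ n)
    (hm : m ≤ 2) : ContDiff ℝ m (XX P f) := by
  unfold XX
  exact (contDiff_dx hf h).div (hP.contDiff_dx hm) hP.dx_ne

theorem contDiff_YY (hP : Frame P) {n m : WithTop ℕ∞} (hf : ContDiff ℝ n f) (h : m + 1 ≤ n)
    (hm : m ≤ 2) : ContDiff ℝ m (YY P f) := by
  unfold YY
  exact (contDiff_dt hf h).sub
    (((hP.contDiff_dt hm).div (hP.contDiff_dx hm) hP.dx_ne).mul (contDiff_dx hf h))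

theorem XX_YY_comm (hP : Frame P) (hf : ContDiff ℝ 2 f) (p : Pl) :
    YY P (XX P f) p = XX P (YY P f) p := by
  have e1 : XX P f = fun p => dx f p / dx P p := rfl
  have e2 : YY P f = fun p => dt f p - dt P p / dx P p * dx f p := rfl
  have hP2 : ContDiff ℝ 2 P := hP.smooth.of_le (by norm_num)
  have dPx : DifferentiableAt ℝ (dx P) p := (contDiff_dx (m := 1) hP2 (by norm_num)).differentiable (by norm_num) p
  have dPt : DifferentiableAt ℝ (dt P) p := (contDiff_dt (m := 1) hP2 (by norm_num)).differentiable (by norm_num) p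
  have dvx : DifferentiableAt ℝ (dx f) p := (contDiff_dx (m := 1) hf (by norm_num)).differentiable (by norm_num) p
  have dvt : DifferentiableAt ℝ (dt f) p := (contDiff_dt (m := 1) hf (by norm_num)).differentiable (by norm_num) p
  have hne := hP.dx_ne p
  have q1 : DifferentiableAt ℝ (fun q => dt P q / dx P q) p := by
    simp only [div_eq_mul_inv]; exact dPt.mul (dPx.inv hne)
  symm
  rw [XX_eq_fderiv, YY_eq_fderiv, e1, e2, fderiv_div_apply dvx dPx hne,
    fderiv_fun_sub dvt (q1.fun_mul dvx),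
    sub_apply, fderiv_mul_apply q1 dvx, fderiv_div_apply dPt dPx hne]
  have c1 := dx_dt_comm hP2 p
  have c2 := dx_dt_comm hf p
  simp only [fderiv_eq]
  rw [c1, c2]
  field_simp
  ring

theorem integral_fderiv_zero (hf : ContDiff ℝ 1 f) (hc : HasCompactSupport f) (v : Pl) :
    ∫ p, fderiv ℝ f p v = 0 := by
  have hcont : Continuous (fun p => fderiv ℝ f p v) :=
    (hf.continuous_fderiv (by norm_num)).clm_apply continuous_const
  have h := integral_mul_fderiv_eq_neg_fderiv_mul_of_integrable (μ := (volume : Measure Pl))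
    (f := fun _ : Pl => (1 : ℝ)) (g := f) (v := v) (by simp only [fderiv_fun_const, Pi.zero_apply, zero_apply, zero_mul, integrable_fun_zero])
    (by
      simp only [one_mul]
      exact hcont.integrable_of_hasCompactSupport (hc.fderiv_apply (𝕜 := ℝ) v))
    (by simpa only [one_mul] using hf.continuous.integrable_of_hasCompactSupport hc)
    (fun x _ => differentiableAt_const _) (fun x _ => hf.differentiable (by norm_num) x)
  simpa only [one_mul, fderiv_fun_const, Pi.zero_apply, zero_apply, zero_mul, integral_zero, neg_zero] using h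

theorem integral_XX_eq_zero (hP : Frame P) (hf : ContDiff ℝ 1 f) (cf : HasCompactSupport f) :
    ∫ p, XX P f p * dx P p = 0 := by
  have : ∀ p, XX P f p * dx P p = fderiv ℝ f p (1, 0) := by
    intro p
    rw [XX, div_mul_cancel₀ _ (hP.dx_ne p)]; rfl
  simp only [this]
  exact integral_fderiv_zero hf cf _

theorem integral_YY_eq_zero (hP : Frame P) (hf : ContDiff ℝ 1 f) (cf : HasCompactSupport f) :
    ∫ p, YY P f p * dx P p = 0 := by
  have dPx : ContDiff ℝ 1 (dx P) := hP.contDiff_dx (by norm_num)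
  have dPt : ContDiff ℝ 1 (dt P) := hP.contDiff_dt (by norm_num)
  have : ∀ p, YY P f p * dx P p = fderiv ℝ (fun q => f q * dx P q) p (0, 1)
      - fderiv ℝ (fun q => f q * dt P q) p (1, 0) := by
    intro p
    have a1 := dt_mul (hf.differentiable (by norm_num) p) (dPx.differentiable (by norm_num) p)
    have a2 := dx_mul (hf.differentiable (by norm_num) p) (dPt.differentiable (by norm_num) p)
    have a3 := dx_dt_comm (hP.smooth.of_le (by norm_num)) p
    have hne := hP.dx_ne p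
    change _ = dt (fun q => f q * dx P q) p - dx (fun q => f q * dt P q) p
    rw [a1, a2, a3, YY]
    field_simp
    ring
  simp only [this]
  have c1 : ContDiff ℝ 1 (fun q => f q * dx P q) := hf.mul dPx
  have c2 : ContDiff ℝ 1 (fun q => f q * dt P q) := hf.mul dPt
  have s1 : HasCompactSupport (fun q => f q * dx P q) := cf.mul_right
  have s2 : HasCompactSupport (fun q => f q * dt P q) := cf.mul_right
  rw [integral_sub, integral_fderiv_zero c1 s1, integral_fderiv_zero c2 s2, sub_zero]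
  · exact ((c1.continuous_fderiv (by norm_num)).clm_apply continuous_const).integrable_of_hasCompactSupport
      (s1.fderiv_apply (𝕜 := ℝ) _)
  · exact ((c2.continuous_fderiv (by norm_num)).clm_apply continuous_const).integrable_of_hasCompactSupport
      (s2.fderiv_apply (𝕜 := ℝ) _)

theorem fderiv_eq_zero_of_notMem_tsupport (hp : p ∉ tsupport f) : fderiv ℝ f p = 0 := by
  have h : f =ᶠ[nhds p] fun _ => 0 := by
    have := (isClosed_tsupport f).isOpen_compl.mem_nhds hp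
    filter_upwards [this] with q hq
    exact image_eq_zero_of_notMem_tsupport hq
  rw [h.fderiv_eq]; simp

theorem XX_eq_zero_of_notMem_tsupport (hp : p ∉ tsupport f) : XX P f p = 0 := by
  rw [XX_eq_fderiv, fderiv_eq_zero_of_notMem_tsupport hp]; simp

theorem YY_eq_zero_of_notMem_tsupport (hp : p ∉ tsupport f) : YY P f p = 0 := by
  rw [YY_eq_fderiv, fderiv_eq_zero_of_notMem_tsupport hp]; simp

theorem dx_eq_zero_of_notMem_tsupport (hp : p ∉ tsupport f) : dx f p = 0 := by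
  rw [dx, fderiv_eq_zero_of_notMem_tsupport hp]; simp

theorem dt_eq_zero_of_notMem_tsupport (hp : p ∉ tsupport f) : dt f p = 0 := by
  rw [dt, fderiv_eq_zero_of_notMem_tsupport hp]; simp

theorem hasCompactSupport_XX (cf : HasCompactSupport f) : HasCompactSupport (XX P f) :=
  HasCompactSupport.intro cf fun _ hp => XX_eq_zero_of_notMem_tsupport hp

theorem hasCompactSupport_YY (cf : HasCompactSupport f) : HasCompactSupport (YY P f) :=
  HasCompactSupport.intro cf fun _ hp => YY_eq_zero_of_notMem_tsupport hp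

/-! ## comparison with the coordinates -/

theorem Frame.abs_sub_fst_le (hP : Frame P) (p : Pl) :
    |P p - p.1| ≤ (|p.1| + |p.2|) / 1000 := by
  -- integrate along the two coordinate segments
  have dP : Differentiable ℝ P := hP.smooth.differentiable (by norm_num)
  have h1 : |P (p.1, 0) - p.1 - (P (0, 0) - 0)| ≤ 1 / 1000 * |p.1 - 0| := by
    have := Convex.norm_image_sub_le_of_norm_hasDerivWithin_le (s := (Set.univ : Set ℝ))
      (f := fun y => P (y, 0) - y) (f' := fun y => dx P (y, 0) - 1) (x := 0) (y := p.1)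
      (C := 1 / 1000)
      (fun y _ => (((hasDerivAt_fst (p := (y, 0)) (dP _)).sub (hasDerivAt_id y))).hasDerivWithinAt)
      (fun y _ => by simpa only [Real.norm_eq_abs, one_div] using hP.dx_near (y, 0)) convex_univ (Set.mem_univ _) (Set.mem_univ _)
    simpa only [sub_zero, one_div, ge_iff_le, Real.norm_eq_abs] using this
  have h2 : |P (p.1, p.2) - P (p.1, 0)| ≤ 1 / 1000 * |p.2 - 0| := by
    have := Convex.norm_image_sub_le_of_norm_hasDerivWithin_le (s := (Set.univ : Set ℝ))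
      (f := fun y => P (p.1, y)) (f' := fun y => dt P (p.1, y)) (x := 0) (y := p.2)
      (C := 1 / 1000)
      (fun y _ => (hasDerivAt_snd (p := (p.1, y)) (dP _)).hasDerivWithinAt)
      (fun y _ => by simpa only [Real.norm_eq_abs, one_div] using hP.dt_small (p.1, y)) convex_univ (Set.mem_univ _) (Set.mem_univ _)
    simpa only [Prod.mk.eta, one_div, sub_zero, ge_iff_le, Real.norm_eq_abs] using this
  have h0 : P (0, 0) = 0 := hP.zero
  rw [h0] at h1
  have e : P p - p.1 = (P (p.1, p.2) - P (p.1, 0)) + (P (p.1, 0) - p.1 - (0 - 0)) := by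
    simp
  rw [e]
  refine (abs_add_le _ _).trans ?_
  simp only [sub_zero] at h1 h2 ⊢
  linarith only [h1, h2]

/-- Substitution `(x,t) ↦ (P,t)` bound for the Jacobian. -/
theorem Frame.dx_le (hP : Frame P) (p : Pl) : dx P p ≤ 1001 / 1000 := by
  have := abs_le.1 (hP.dx_near p); linarith only [this]

theorem Frame.le_dx (hP : Frame P) (p : Pl) : 999 / 1000 ≤ dx P p := by
  have := abs_le.1 (hP.dx_near p); linarith only [this]

theorem grad_le_frame (hP : Frame P) (v : Pl → ℝ) (p : Pl) :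
    dx v p ^ 2 + dt v p ^ 2 ≤ 2 * (XX P v p ^ 2 + YY P v p ^ 2) := by
  have h1 := hP.dx_le p
  have h2 := hP.le_dx p
  have h3 := abs_le.1 (hP.dt_small p)
  have e1 : dx v p = dx P p * XX P v p := by
    rw [XX]; field_simp [hP.dx_ne p]
  have e2 : dt v p = YY P v p + dt P p * XX P v p := by
    rw [YY, XX]; have := hP.dx_ne p; field_simp; ring
  set a := XX P v p
  set b := YY P v p
  set c := dx P p
  set d := dt P p
  have hc : c ^ 2 ≤ 1.01 := by nlinarith only [h1, h2]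
  have hd : d ^ 2 ≤ 0.01 := by nlinarith only [h3]
  have hdd : -0.1 ≤ d ∧ d ≤ 0.1 := ⟨by linarith only [h3], by linarith only [h3]⟩
  rw [e1, e2]
  have k1 : c ^ 2 * a ^ 2 ≤ 1.01 * a ^ 2 := mul_le_mul_of_nonneg_right hc (sq_nonneg a)
  have k2 : d ^ 2 * a ^ 2 ≤ 0.01 * a ^ 2 := mul_le_mul_of_nonneg_right hd (sq_nonneg a)
  have k3 : 2 * (b * (d * a)) ≤ b ^ 2 / 2 + 2 * (d * a) ^ 2 := by linarith only [sq_nonneg (b / 2 - (d * a) )]
  linarith only [k1, k2, k3, sq_nonneg a, sq_nonneg b]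

theorem frame_le_grad (hP : Frame P) (v : Pl → ℝ) (p : Pl) :
    XX P v p ^ 2 + YY P v p ^ 2 ≤ 2 * (dx v p ^ 2 + dt v p ^ 2) := by
  have h1 := hP.dx_le p
  have h2 := hP.le_dx p
  have h3 := abs_le.1 (hP.dt_small p)
  have e1 : dx v p = dx P p * XX P v p := by
    rw [XX]; field_simp [hP.dx_ne p]
  have e2 : dt v p = YY P v p + dt P p * XX P v p := by
    rw [YY, XX]; have := hP.dx_ne p; field_simp; ring
  set a := XX P v p
  set b := YY P v p
  set c := dx P p
  set d := dt P p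
  have hc : 0.99 ≤ c ^ 2 := by nlinarith only [h2]
  have hd : d ^ 2 ≤ 0.01 := by nlinarith only [h3]
  rw [e1, e2]
  have k1 : 0.99 * a ^ 2 ≤ c ^ 2 * a ^ 2 := mul_le_mul_of_nonneg_right hc (sq_nonneg a)
  have k2 : d ^ 2 * a ^ 2 ≤ 0.01 * a ^ 2 := mul_le_mul_of_nonneg_right hd (sq_nonneg a)
  have k3 : -(2 * (b * (d * a))) ≤ b ^ 2 / 2 + 2 * (d * a) ^ 2 := by
    linarith only [sq_nonneg (b / 2 + (d * a))]
  linarith only [k1, k2, k3, sq_nonneg a]

end Vale.Agent.P229.D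
end
end

section

section

/-!
# P229, disproof, real inequalities for the left/right lemma (`PROOF.md`, §7)
-/

namespace Vale.Agent.P229.D

theorem le_add_of_sq_le {X Y Z : ℝ} (hX : 0 ≤ X) (hY : 0 ≤ Y) (h : Z ^ 2 ≤ 4 * (X * Y)) :
    Z ≤ X + Y := by
  by_contra hlt
  push Not at hlt
  nlinarith only [h, hX, hlt, hY, sq_nonneg (X - Y)]

theorem abs_mul_le' {x y X Y : ℝ} (hx : |x| ≤ X) (hy : |y| ≤ Y) : |x * y| ≤ X * Y := by
  rw [abs_mul]
  exact mul_le_mul hx hy (abs_nonneg _) ((abs_nonneg _).trans hx)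

theorem lr_T1 {m w A q : ℝ} (hw0 : 0 ≤ w) (hw : 5 / 4 * m ≤ w) (hA : -0.251 ≤ A) :
    0.349 * (w * q ^ 2) ≤ (w - m / 2 + w * A) * q ^ 2 := by
  have hwA1 : -(0.251 * w) ≤ w * A := by nlinarith only [hw0, hA]
  have : 0.349 * w ≤ w - m / 2 + w * A := by linarith only [hw, hwA1]
  have := mul_le_mul_of_nonneg_right this (sq_nonneg q)
  linarith only [this]

theorem lr_a4 {sg Pp t AX AY A : ℝ} (a1 : sg * Pp - 0.0005 ≤ sg * AX / 2)
    (a2 : t ^ 2 / 2 - 0.0002 ≤ t * AY / 4 + 0.0002) (a3 : Pp ^ 2 ≤ sg * Pp)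
    (hA : |A - (Pp ^ 2 + t ^ 2 - 1 / 4)| ≤ 1 / 1000) :
    0.0375 ≤ sg * AX / 2 + t * AY / 4 + 15 / 16 * A ^ 2 := by
  obtain ⟨hA1, hA2⟩ := abs_le.1 hA
  have h1 : -A / 2 - 1 / 16 ≤ A ^ 2 := by linarith only [sq_nonneg (A + 1 / 4)]
  have h2 := sq_nonneg Pp
  have h3 := sq_nonneg t
  have h4 := sq_nonneg A
  -- 5/8 A^2 >= -5/16 A - 5/128
  linarith only [a1, a2, a3, hA2, h1, h2, h3]

theorem lr_T2 {m w A AX AY Pp t sg p δ : ℝ} (hδ : 0 < δ) (hm : 0 ≤ m) (hw : 5 / 4 * m ≤ w)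
    (hA : |A - (Pp ^ 2 + t ^ 2 - 1 / 4)| ≤ 1 / 1000)
    (hAX : |AX - 2 * Pp| ≤ 1 / 1000) (hAY : |AY - 2 * t| ≤ 1 / 1000)
    (hsg : sg = 1 ∨ sg = -1) (hP : 0 ≤ sg * Pp) (hP1 : |Pp| ≤ 0.81) (ht1 : |t| ≤ 0.8) :
    δ * (0.0375 * m + w * A ^ 2 / 4) * p ^ 2
      ≤ δ * (m * (sg * AX / 2 + t * AY / 4) + w * A ^ 2) * p ^ 2 := by
  obtain ⟨hX1, hX2⟩ := abs_le.1 hAX
  obtain ⟨hP2, hP3⟩ := abs_le.1 hP1
  have hsg2 : sg ^ 2 = 1 := by rcases hsg with h | h <;> rw [h] <;> norm_num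
  have a1 : sg * Pp - 0.0005 ≤ sg * AX / 2 := by
    rcases hsg with h | h <;> rw [h] <;> linarith only [hX1, hX2]
  have a2 : t ^ 2 / 2 - 0.0002 ≤ t * AY / 4 + 0.0002 := by
    have h := abs_mul_le' ht1 hAY
    have h' := (abs_le.1 h).1
    have e : t * (AY - 2 * t) = t * AY - 2 * t ^ 2 := by ring
    rw [e] at h'
    norm_num at h' ⊢
    linarith only [h']
  have a3 : Pp ^ 2 ≤ sg * Pp := by
    have e : Pp ^ 2 = (sg * Pp) ^ 2 := by rw [mul_pow, hsg2, one_mul]
    rw [e]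
    have : sg * Pp ≤ 1 := by
      rcases hsg with h | h <;> rw [h] <;> linarith only [hP2, hP3]
    nlinarith only [hP, this]
  have a4 := lr_a4 a1 a2 a3 hA
  have a5 : 15 / 16 * (m * A ^ 2) ≤ 3 / 4 * (w * A ^ 2) := by
    have := mul_le_mul_of_nonneg_right hw (sq_nonneg A)
    linarith only [this]
  have a6 : 0.0375 * m + w * A ^ 2 / 4 ≤ m * (sg * AX / 2 + t * AY / 4) + w * A ^ 2 := by
    have := mul_le_mul_of_nonneg_left a4 hm
    have e : m * (sg * AX / 2 + t * AY / 4 + 15 / 16 * A ^ 2)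
      = m * (sg * AX / 2 + t * AY / 4) + 15 / 16 * (m * A ^ 2) := by ring
    rw [e] at this
    linarith only [a5, this]
  have a7 := mul_le_mul_of_nonneg_left a6 hδ.le
  exact mul_le_mul_of_nonneg_right a7 (sq_nonneg p)

theorem lr_T3 {w A t sg p q δ : ℝ} (hδ : 0 < δ) (hδ1 : δ ≤ 1 / 1000) (hw0 : 0 ≤ w)
    (hsg2 : sg ^ 2 = 1) (ht1 : |t| ≤ 0.8) :
    -(w * q ^ 2 / 24 + δ * (w * A ^ 2 / 4) * p ^ 2) ≤ -(sg * δ * A * t * w / 2) * (p * q) := by
  have b1 : 0 ≤ w / 24 * (q - 6 * (sg * (δ * A * t * p))) ^ 2 := by (clear * - hw0; positivity)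
  have ht : t ^ 2 ≤ 1 := by
    rw [← sq_abs]; nlinarith only [ht1, abs_nonneg t]
  have b2 : 0 ≤ w * δ * A ^ 2 * p ^ 2 * (1 / 4 - 3 / 2 * δ * t ^ 2) := by
    have : 0 ≤ 1 / 4 - 3 / 2 * δ * t ^ 2 := by
      have : δ * t ^ 2 ≤ 1 / 1000 * 1 := mul_le_mul hδ1 ht (sq_nonneg _) (by norm_num)
      linarith only [this]
    (clear * - hw0 hδ this; positivity)
  have b3 : w / 24 * (q - 6 * (sg * (δ * A * t * p))) ^ 2
      = w * q ^ 2 / 24 - sg * δ * A * t * w / 2 * (p * q)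
        + 3 / 2 * sg ^ 2 * (w * δ ^ 2 * A ^ 2 * t ^ 2 * p ^ 2) := by ring
  rw [b3, hsg2] at b1
  have e : w * δ * A ^ 2 * p ^ 2 * (1 / 4 - 3 / 2 * δ * t ^ 2)
    = δ * (w * A ^ 2 / 4) * p ^ 2 - 3 / 2 * (w * δ ^ 2 * A ^ 2 * t ^ 2 * p ^ 2) := by ring
  rw [e] at b2
  linarith only [b1, b2]

theorem lr_T6 {m w L α p q δ B E : ℝ} (hδ : 0 < δ) (hδ1 : δ ≤ 1 / 1000) (hB : 0 < B)
    (hw0 : 0 ≤ w) (hor : w ≤ 200 / δ * m + 100 / B * E) (hE : 0 ≤ E)
    (hα : |α| ≤ δ / 1000) (hLa : |L| ≤ w) :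
    -(w * q ^ 2 / 24 + 0.0012 * (δ * m * p ^ 2) + 1 / 2 * (1 / B * E * p ^ 2))
      ≤ α * L * (p * q) := by
  have p2 : 0 ≤ p ^ 2 := sq_nonneg p
  have c1 : |α * L| ≤ δ / 1000 * w := abs_mul_le' hα hLa
  have c2 : |α * L * (p * q)| ≤ δ / 1000 * w * |p * q| := by
    rw [abs_mul]; exact mul_le_mul_of_nonneg_right c1 (abs_nonneg _)
  have c3 : δ / 1000 * |p * q| ≤ q ^ 2 / 24 + 6 * (δ / 1000) ^ 2 * p ^ 2 := by
    rw [abs_mul]
    have h := sq_nonneg (|q| - 12 * (δ / 1000) * |p|)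
    have e : (|q| - 12 * (δ / 1000) * |p|) ^ 2
      = |q| ^ 2 - 24 * (δ / 1000 * (|p| * |q|)) + 144 * (δ / 1000) ^ 2 * |p| ^ 2 := by ring
    rw [e, sq_abs, sq_abs] at h
    linarith only [h]
  have c4 : δ / 1000 * w * |p * q| ≤ w * q ^ 2 / 24 + 6 * (δ / 1000) ^ 2 * (w * p ^ 2) := by
    have := mul_le_mul_of_nonneg_left c3 hw0
    have e1 : w * (δ / 1000 * |p * q|) = δ / 1000 * w * |p * q| := by ring
    have e2 : w * (q ^ 2 / 24 + 6 * (δ / 1000) ^ 2 * p ^ 2)
      = w * q ^ 2 / 24 + 6 * (δ / 1000) ^ 2 * (w * p ^ 2) := by ring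
    rw [e1, e2] at this
    exact this
  have c5 : 6 * (δ / 1000) ^ 2 * (w * p ^ 2)
      ≤ 0.0012 * (δ * m * p ^ 2) + 1 / 2 * (1 / B * E * p ^ 2) := by
    have d1 := mul_le_mul_of_nonneg_right hor p2
    have d2 : 6 * (δ / 1000) ^ 2 * (w * p ^ 2)
        ≤ 6 * (δ / 1000) ^ 2 * ((200 / δ * m + 100 / B * E) * p ^ 2) :=
      mul_le_mul_of_nonneg_left d1 (by positivity)
    have d3 : 6 * (δ / 1000) ^ 2 * ((200 / δ * m + 100 / B * E) * p ^ 2)
        = 0.0012 * (δ * m * p ^ 2) + 0.0006 * δ ^ 2 * (1 / B * E * p ^ 2) := by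
      field_simp; ring
    have d4 : 0 ≤ 1 / B * E * p ^ 2 := by (clear * - hB hE; positivity)
    have d5 : 0.0006 * δ ^ 2 ≤ 1 / 2 := by nlinarith only [hδ, hδ1]
    have d6 := mul_le_mul_of_nonneg_right d5 d4
    linarith only [d2, d3, d6]
  have := (abs_le.1 (c2.trans c4)).1
  linarith only [c5, this]

theorem one_div_le_pow4 {B : ℝ} (hB : 0 < B) (hB1 : B ≤ 1) : 1 / B ≤ 1 / B ^ 4 := by
  apply one_div_le_one_div_of_le (by positivity)
  have h3 : B ^ 3 ≤ 1 := pow_le_one₀ hB.le hB1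
  nlinarith only [hB, h3]

theorem one_div_sq_le_pow4 {B : ℝ} (hB : 0 < B) (hB1 : B ≤ 1) : 1 / B ^ 2 ≤ 1 / B ^ 4 := by
  apply one_div_le_one_div_of_le (by positivity)
  have h3 : B ^ 2 ≤ 1 := pow_le_one₀ hB.le hB1
  nlinarith only [h3]

theorem lr_T7 {w AY q v B : ℝ} (hB : 0 < B) (hB1 : B ≤ 1) (hw0 : 0 ≤ w) (hwB : w ≤ 20 / B)
    (hAY : |AY| ≤ 1.61) :
    -(w * q ^ 2 / 24 + 320 / B ^ 4 * v ^ 2) ≤ w * AY * (v * q) := by
  have c1 : |w * AY| ≤ w * 1.61 := abs_mul_le' (by rw [abs_of_nonneg hw0]) hAY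
  have c2 : |w * AY * (v * q)| ≤ w * 1.61 * |v * q| := by
    rw [abs_mul]; exact mul_le_mul_of_nonneg_right c1 (abs_nonneg _)
  have c3 : 1.61 * |v * q| ≤ q ^ 2 / 24 + 16 * v ^ 2 := by
    rw [abs_mul]
    have h := sq_nonneg (|q| - 12 * 1.61 * |v|)
    have e : (|q| - 12 * 1.61 * |v|) ^ 2
      = |q| ^ 2 - 24 * (1.61 * (|v| * |q|)) + 144 * 1.61 ^ 2 * |v| ^ 2 := by ring
    rw [e, sq_abs, sq_abs] at h
    have := sq_nonneg v
    norm_num at h ⊢
    linarith only [this, h]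
  have c4 := mul_le_mul_of_nonneg_left c3 hw0
  have c5 : w * (16 * v ^ 2) ≤ 320 / B ^ 4 * v ^ 2 := by
    have h1 : w * 16 ≤ 320 / B ^ 4 := by
      have h2 := one_div_le_pow4 hB hB1
      have h3 : (20 : ℝ) / B = 20 * (1 / B) := by ring
      have h4 : (320 : ℝ) / B ^ 4 = 320 * (1 / B ^ 4) := by ring
      rw [h3] at hwB
      rw [h4]; linarith only [hwB, h2]
    have := mul_le_mul_of_nonneg_right h1 (sq_nonneg v)
    linarith only [this]
  have := (abs_le.1 c2).1
  linarith only [c4, c5, this]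

theorem lr_z {m w w1 v p δ B : ℝ} (hδ : 0 < δ) (hδ1 : δ ≤ 1 / 1000) (hB : 0 < B) (hB1 : B ≤ 1)
    (hm : 0 ≤ m) (hw0 : 0 ≤ w)
    (hw2 : w ^ 2 ≤ 10 ^ 4 / B ^ 2 * m) (hw12 : w1 ^ 2 ≤ 10 ^ 8 / B ^ 4 * m) :
    δ * (|w1| + w) * |v * p| ≤ δ * m * p ^ 2 / 120 + 7 * 10 ^ 6 / B ^ 4 * v ^ 2 := by
  have D : (|w1| + w) ^ 2 ≤ 2.1 * 10 ^ 8 * (1 / B ^ 4) * m := by
    have h1 : (|w1| + w) ^ 2 ≤ 2 * w1 ^ 2 + 2 * w ^ 2 := by
      rw [← sq_abs w1]; linarith only [sq_nonneg (|w1| - w)]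
    have h2 := one_div_sq_le_pow4 hB hB1
    have h3 : 10 ^ 4 / B ^ 2 * m = 10 ^ 4 * (1 / B ^ 2) * m := by ring
    have h4 : 10 ^ 8 / B ^ 4 * m = 10 ^ 8 * (1 / B ^ 4) * m := by ring
    have h5 : (1 / B ^ 2) * m ≤ (1 / B ^ 4) * m := mul_le_mul_of_nonneg_right h2 hm
    rw [h3] at hw2
    rw [h4] at hw12
    have h6 : 0 ≤ (1 / B ^ 4) * m := by (clear * - hB hm; positivity)
    norm_num at *
    linarith only [h1, hw2, hw12, h5, h6]
  have hz : (|w1| + w) * |v * p| ≤ m * p ^ 2 / 120 + 6.3 * 10 ^ 9 * (1 / B ^ 4) * v ^ 2 := by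
    apply le_add_of_sq_le
    · (clear * - hm; positivity)
    · positivity
    · have e : ((|w1| + w) * |v * p|) ^ 2 = (|w1| + w) ^ 2 * (v ^ 2 * p ^ 2) := by
        rw [mul_pow, sq_abs]; ring
      rw [e]
      have := mul_le_mul_of_nonneg_right D (show 0 ≤ v ^ 2 * p ^ 2 by (clear * -; positivity))
      refine this.trans (le_of_eq ?_)
      ring
  have h1 := mul_le_mul_of_nonneg_left hz hδ.le
  have h2 : δ * (6.3 * 10 ^ 9 * (1 / B ^ 4) * v ^ 2) ≤ 7 * 10 ^ 6 / B ^ 4 * v ^ 2 := by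
    have : δ * (6.3 * 10 ^ 9) ≤ 7 * 10 ^ 6 := by norm_num at *; linarith only [hδ1]
    have h3 := mul_le_mul_of_nonneg_right this (show 0 ≤ 1 / B ^ 4 * v ^ 2 by (clear * - hB; positivity))
    have e1 : δ * (6.3 * 10 ^ 9) * (1 / B ^ 4 * v ^ 2) = δ * (6.3 * 10 ^ 9 * (1 / B ^ 4) * v ^ 2) := by
      ring
    have e2 : 7 * 10 ^ 6 * (1 / B ^ 4 * v ^ 2) = 7 * 10 ^ 6 / B ^ 4 * v ^ 2 := by ring
    rw [e1, e2] at h3
    exact h3
  have e3 : δ * ((|w1| + w) * |v * p|) = δ * (|w1| + w) * |v * p| := by ring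
  rw [e3] at h1
  linarith only [h1, h2]

theorem lr_T8 {m w w1 A AX AY sg L α αY e2 p v δ B : ℝ}
    (hδ : 0 < δ) (hδ1 : δ ≤ 1 / 1000) (hB : 0 < B) (hB1 : B ≤ 1)
    (hm : 0 ≤ m) (hw0 : 0 ≤ w)
    (hw2 : w ^ 2 ≤ 10 ^ 4 / B ^ 2 * m) (hw12 : w1 ^ 2 ≤ 10 ^ 8 / B ^ 4 * m)
    (hA : |A| ≤ 0.41) (hAX : |AX| ≤ 1.63) (hAY : |AY| ≤ 1.61) (hsg : |sg| = 1) (hLa : |L| ≤ w)
    (hα : |α| ≤ δ / 1000) (hαY : |αY| ≤ δ / 1000) (he2 : |e2| ≤ δ / 1000) :
    -(δ * m * p ^ 2 / 120 + 7 * 10 ^ 6 / B ^ 4 * v ^ 2)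
      ≤ (δ * A * (sg * w1 / 2 - sg * w / 4 + sg * w1 * A + w * AX)
          + αY * L + α * (w * AY)) * (v * p) - L * v * (e2 * p) := by
  have hw : |w| = w := abs_of_nonneg hw0
  have g1 : |sg * w1 / 2 - sg * w / 4 + sg * w1 * A + w * AX|
      ≤ |w1| / 2 + w / 4 + |w1| * 0.41 + w * 1.63 := by
    have a1 : |sg * w1 / 2| = |w1| / 2 := by rw [abs_div, abs_mul, hsg]; norm_num
    have a2 : |sg * w / 4| = w / 4 := by rw [abs_div, abs_mul, hsg, hw]; norm_num
    have a3 : |sg * w1 * A| ≤ |w1| * 0.41 := by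
      rw [abs_mul, abs_mul, hsg, one_mul]; exact mul_le_mul_of_nonneg_left hA (abs_nonneg _)
    have a4 : |w * AX| ≤ w * 1.63 := by
      rw [abs_mul, hw]; exact mul_le_mul_of_nonneg_left hAX hw0
    calc |sg * w1 / 2 - sg * w / 4 + sg * w1 * A + w * AX|
        ≤ |sg * w1 / 2 - sg * w / 4 + sg * w1 * A| + |w * AX| := abs_add_le _ _
      _ ≤ |sg * w1 / 2 - sg * w / 4| + |sg * w1 * A| + |w * AX| := by
          gcongr; exact abs_add_le _ _
      _ ≤ |sg * w1 / 2| + |sg * w / 4| + |sg * w1 * A| + |w * AX| := by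
          gcongr; exact abs_sub _ _
      _ ≤ _ := by rw [a1, a2]; (clear * - a3 a4; gcongr)
  have g2 : |δ * A * (sg * w1 / 2 - sg * w / 4 + sg * w1 * A + w * AX)|
      ≤ δ * 0.41 * (|w1| / 2 + w / 4 + |w1| * 0.41 + w * 1.63) := by
    apply abs_mul_le' _ g1
    rw [abs_mul, abs_of_pos hδ]; exact mul_le_mul_of_nonneg_left hA hδ.le
  have g3 : |αY * L| ≤ δ / 1000 * w := abs_mul_le' hαY hLa
  have g4 : |α * (w * AY)| ≤ δ / 1000 * (w * 1.61) := by
    apply abs_mul_le' hα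
    rw [abs_mul, hw]; exact mul_le_mul_of_nonneg_left hAY hw0
  have g5 : |L * e2| ≤ w * (δ / 1000) := abs_mul_le' hLa he2
  have g6 : |δ * A * (sg * w1 / 2 - sg * w / 4 + sg * w1 * A + w * AX)
          + αY * L + α * (w * AY) - L * e2| ≤ δ * (|w1| + w) := by
    have h0 := abs_nonneg w1
    calc _ ≤ |δ * A * (sg * w1 / 2 - sg * w / 4 + sg * w1 * A + w * AX)
          + αY * L + α * (w * AY)| + |L * e2| := abs_sub _ _
      _ ≤ |δ * A * (sg * w1 / 2 - sg * w / 4 + sg * w1 * A + w * AX)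
          + αY * L| + |α * (w * AY)| + |L * e2| := by gcongr; exact abs_add_le _ _
      _ ≤ |δ * A * (sg * w1 / 2 - sg * w / 4 + sg * w1 * A + w * AX)|
          + |αY * L| + |α * (w * AY)| + |L * e2| := by gcongr; exact abs_add_le _ _
      _ ≤ δ * 0.41 * (|w1| / 2 + w / 4 + |w1| * 0.41 + w * 1.63) + δ / 1000 * w
          + δ / 1000 * (w * 1.61) + w * (δ / 1000) := by (clear * - g2 g3 g4 g5; gcongr)
      _ ≤ δ * (|w1| + w) := by
          have e1 := mul_nonneg hδ.le h0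
          have e2 := mul_nonneg hδ.le hw0
          norm_num
          linarith only [e1, e2]
  have g7 := lr_z (v := v) (p := p) hδ hδ1 hB hB1 hm hw0 hw2 hw12
  have g8 : |(δ * A * (sg * w1 / 2 - sg * w / 4 + sg * w1 * A + w * AX)
          + αY * L + α * (w * AY) - L * e2) * (v * p)| ≤ δ * (|w1| + w) * |v * p| := by
    rw [abs_mul]; exact mul_le_mul_of_nonneg_right g6 (abs_nonneg _)
  have g9 := (abs_le.1 (g8.trans g7)).1
  have e : (δ * A * (sg * w1 / 2 - sg * w / 4 + sg * w1 * A + w * AX)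
          + αY * L + α * (w * AY) - L * e2) * (v * p)
      = (δ * A * (sg * w1 / 2 - sg * w / 4 + sg * w1 * A + w * AX)
          + αY * L + α * (w * AY)) * (v * p) - L * v * (e2 * p) := by ring
  rw [e] at g9
  exact g9

theorem lr_T45 {m w sg t α αX αY p q δ : ℝ}
    (hδ : 0 < δ) (hδ1 : δ ≤ 1 / 1000) (hm : 0 ≤ m) (hmw : m ≤ w) (hsg : |sg| = 1)
    (ht1 : |t| ≤ 0.8) (hα : |α| ≤ δ / 1000) (hαX : |αX| ≤ δ / 1000) (hαY : |αY| ≤ δ / 1000) :
    -(w * q ^ 2 / 1000 + δ * m * p ^ 2 / 2000) ≤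
      (-(αX * t * m) / 4 - α * t * w * sg / 4) * q ^ 2 - αY * sg * m / 2 * p ^ 2 := by
  have hw0 : 0 ≤ w := hm.trans hmw
  have h1 : |αX * t * m| ≤ δ / 1000 * 0.8 * w :=
    abs_mul_le' (abs_mul_le' hαX ht1) (by rw [abs_of_nonneg hm]; exact hmw)
  have h2 : |α * t * w * sg| ≤ δ / 1000 * 0.8 * w * 1 :=
    abs_mul_le' (abs_mul_le' (abs_mul_le' hα ht1) (by rw [abs_of_nonneg hw0])) (le_of_eq hsg)
  have h3 : |αY * sg * m| ≤ δ / 1000 * 1 * m :=
    abs_mul_le' (abs_mul_le' hαY (le_of_eq hsg)) (by rw [abs_of_nonneg hm])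
  have hδw : δ * w ≤ 1 / 1000 * w := mul_le_mul_of_nonneg_right hδ1 hw0
  have k1 : -(w / 1000) ≤ -(αX * t * m) / 4 - α * t * w * sg / 4 := by
    have a := (abs_le.1 h1).2
    have b := (abs_le.1 h2).2
    norm_num at *
    linarith only [hm, hmw, hδw, a, b]
  have k2 : αY * sg * m / 2 ≤ δ * m / 2000 := by
    have a := (abs_le.1 h3).2
    linarith only [a]
  have m1 := mul_le_mul_of_nonneg_right k1 (sq_nonneg q)
  have m2 := mul_le_mul_of_nonneg_right k2 (sq_nonneg p)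
  linarith only [m1, m2]

theorem lr_T9 {m w sg t e1 e2 p q δ : ℝ}
    (hδ : 0 < δ) (hδ1 : δ ≤ 1 / 1000) (hm : 0 ≤ m) (hmw : m ≤ w) (hsg : |sg| = 1)
    (ht1 : |t| ≤ 0.8) (he1 : |e1| ≤ δ / 1000) (he2 : |e2| ≤ δ / 1000) :
    -(w * q ^ 2 / 1000 + δ * m * p ^ 2 / 500) ≤
      -(-(sg * m) * p - t / 2 * m * q) * (e1 * q + e2 * p) := by
  have hw0 : 0 ≤ w := hm.trans hmw
  have h1 : |-(sg * m) * p - t / 2 * m * q| ≤ m * (|p| + |q|) := by
    calc _ ≤ |-(sg * m) * p| + |t / 2 * m * q| := abs_sub _ _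
      _ ≤ m * |p| + m * |q| := by
          rw [abs_mul, abs_neg, abs_mul, hsg, abs_of_nonneg hm, one_mul]
          rw [abs_mul, abs_mul, abs_of_nonneg hm]
          have : |t / 2| ≤ 1 := by rw [abs_div]; norm_num; norm_num at ht1; linarith only [ht1]
          have h2 : |t / 2| * m * |q| ≤ 1 * m * |q| := by (clear * - this hm; gcongr)
          linarith only [h2]
      _ = _ := by ring
  have h2 : |e1 * q + e2 * p| ≤ δ / 1000 * (|p| + |q|) := by
    calc _ ≤ |e1 * q| + |e2 * p| := abs_add_le _ _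
      _ ≤ δ / 1000 * |q| + δ / 1000 * |p| := by
          rw [abs_mul, abs_mul]; (clear * - he1 he2; gcongr)
      _ = _ := by ring
  have h3 : |(-(sg * m) * p - t / 2 * m * q) * (e1 * q + e2 * p)|
      ≤ m * (|p| + |q|) * (δ / 1000 * (|p| + |q|)) := abs_mul_le' h1 h2
  have h4 : m * (|p| + |q|) * (δ / 1000 * (|p| + |q|)) ≤ m * δ / 500 * (p ^ 2 + q ^ 2) := by
    have : (|p| + |q|) ^ 2 ≤ 2 * (p ^ 2 + q ^ 2) := by
      rw [← sq_abs p, ← sq_abs q]; linarith only [sq_nonneg (|p| - |q|)]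
    have h5 := mul_le_mul_of_nonneg_left this (show 0 ≤ m * δ / 1000 by positivity)
    linarith only [h5]
  have h5 : m * δ / 500 * q ^ 2 ≤ w * q ^ 2 / 1000 := by
    have h6 : m * δ ≤ w * (1 / 1000) := mul_le_mul hmw hδ1 hδ.le hw0
    have h7 := mul_le_mul_of_nonneg_right h6 (sq_nonneg q)
    have h8 : 0 ≤ w * q ^ 2 := by (clear * - hw0; positivity)
    linarith only [h7, h8]
  have h6 := (abs_le.1 (h3.trans h4)).2
  have e : -(-(sg * m) * p - t / 2 * m * q) * (e1 * q + e2 * p)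
    = -((-(sg * m) * p - t / 2 * m * q) * (e1 * q + e2 * p)) := by ring
  rw [e]
  linarith only [h5, h6]

theorem lr_T10 {w L e1 q v δ B : ℝ} (hB : 0 < B) (hB1 : B ≤ 1)
    (hδ : 0 < δ) (hδ1 : δ ≤ 1 / 1000) (hw0 : 0 ≤ w) (hwB : w ≤ 20 / B) (hLa : |L| ≤ w)
    (he1 : |e1| ≤ δ / 1000) :
    -(w * q ^ 2 / 1000 + 1 / B ^ 4 * v ^ 2) ≤ - (L * v * (e1 * q)) := by
  have h1 : |L * e1| ≤ w * (δ / 1000) := abs_mul_le' hLa he1
  have h2 : |L * e1 * (v * q)| ≤ w * (δ / 1000) * |v * q| := by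
    rw [abs_mul]; exact mul_le_mul_of_nonneg_right h1 (abs_nonneg _)
  have h3 : |v * q| ≤ (v ^ 2 + q ^ 2) / 2 := by
    rw [abs_mul, ← sq_abs v, ← sq_abs q]; linarith only [sq_nonneg (|v| - |q|)]
  have h4 : w * (δ / 1000) ≤ w * (1 / 1000000) := by
    apply mul_le_mul_of_nonneg_left _ hw0; linarith only [hδ1]
  have h5 : w * (δ / 1000) * |v * q| ≤ w * (1 / 1000000) * ((v ^ 2 + q ^ 2) / 2) :=
    mul_le_mul h4 h3 (abs_nonneg _) (by positivity)
  have h6 : w * v ^ 2 ≤ 20 * (1 / B ^ 4 * v ^ 2) := by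
    have h2 := one_div_le_pow4 hB hB1
    have h3 : (20 : ℝ) / B = 20 * (1 / B) := by ring
    rw [h3] at hwB
    have h5 : w ≤ 20 * (1 / B ^ 4) := by linarith only [hwB, h2]
    have := mul_le_mul_of_nonneg_right h5 (sq_nonneg v)
    linarith only [this]
  have h7 := (abs_le.1 (h2.trans h5)).2
  have h8 : 0 ≤ w * q ^ 2 := by (clear * - hw0; positivity)
  have h9 : 0 ≤ 1 / B ^ 4 * v ^ 2 := by (clear * - hB; positivity)
  have e : L * e1 * (v * q) = L * v * (e1 * q) := by ring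
  rw [e] at h7
  linarith only [h6, h7, h8, h9]

/-- lower bound of the core quadratic form -/
theorem lr_core {m w w1 A AX AY Pp t sg α αX αY e1 e2 p q v δ B E : ℝ}
    (hδ : 0 < δ) (hδ1 : δ ≤ 1 / 1000) (hB : 0 < B) (hB1 : B ≤ 1)
    (hm : 0 ≤ m) (hw : 5 / 4 * m ≤ w) (hwB : w ≤ 20 / B)
    (hw2 : w ^ 2 ≤ 10 ^ 4 / B ^ 2 * m) (hw12 : w1 ^ 2 ≤ 10 ^ 8 / B ^ 4 * m)
    (hor : w ≤ 200 / δ * m + 100 / B * E) (hE : 0 ≤ E)
    (hA : |A - (Pp ^ 2 + t ^ 2 - 1 / 4)| ≤ 1 / 1000)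
    (hAX : |AX - 2 * Pp| ≤ 1 / 1000) (hAY : |AY - 2 * t| ≤ 1 / 1000)
    (hsg : sg = 1 ∨ sg = -1) (hP : 0 ≤ sg * Pp) (hP1 : |Pp| ≤ 0.81) (ht1 : |t| ≤ 0.8)
    (hPt : Pp ^ 2 + t ^ 2 ≤ 0.65)
    (hα : |α| ≤ δ / 1000) (hαX : |αX| ≤ δ / 1000) (hαY : |αY| ≤ δ / 1000)
    (he1 : |e1| ≤ δ / 1000) (he2 : |e2| ≤ δ / 1000) :
    1 / 60 * (m * (q ^ 2 + δ * p ^ 2)) - 10 ^ 7 / B ^ 4 * v ^ 2 - 1 / B * E * p ^ 2 ≤
      (w - m / 2 + w * A) * q ^ 2 + δ * (m * (sg * AX / 2 + t * AY / 4) + w * A ^ 2) * p ^ 2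
      + (-(sg * δ * A * t * w / 2) + α * (w / 2 - m / 4 + w * A)) * (p * q)
      + w * AY * (v * q)
      + (δ * A * (sg * w1 / 2 - sg * w / 4 + sg * w1 * A + w * AX)
          + αY * (w / 2 - m / 4 + w * A) + α * (w * AY)) * (v * p)
      + (-(αX * t * m) / 4 - α * t * w * sg / 4) * q ^ 2
      - αY * sg * m / 2 * p ^ 2
      - (-(sg * m) * p - t / 2 * m * q + (w / 2 - m / 4 + w * A) * v) * (e1 * q + e2 * p) := by
  have hw0 : 0 ≤ w := by linarith only [hm, hw]
  have hmw : m ≤ w := by linarith only [hm, hw]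
  have hsg2 : sg ^ 2 = 1 := by rcases hsg with h | h <;> rw [h] <;> norm_num
  have hsga : |sg| = 1 := by rcases hsg with h | h <;> rw [h] <;> norm_num
  have hy0 : 0 ≤ Pp ^ 2 + t ^ 2 := by (clear * -; positivity)
  obtain ⟨hA1, hA2⟩ := abs_le.1 hA
  have hAlow : -0.251 ≤ A := by linarith only [hy0, hA1]
  have hAabs : |A| ≤ 0.41 := by
    rw [abs_le]; constructor <;> linarith only [hPt, hA2, hy0, hA1]
  have hAXabs : |AX| ≤ 1.63 := by
    obtain ⟨hX1, hX2⟩ := abs_le.1 hAX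
    obtain ⟨hP2, hP3⟩ := abs_le.1 hP1
    rw [abs_le]; constructor <;> linarith only [hX1, hP2, hX2, hP3]
  have hAYabs : |AY| ≤ 1.61 := by
    obtain ⟨hY1, hY2⟩ := abs_le.1 hAY
    obtain ⟨ht2, ht3⟩ := abs_le.1 ht1
    rw [abs_le]; constructor <;> linarith only [hY1, ht2, hY2, ht3]
  have hwA1 : -(0.251 * w) ≤ w * A := by nlinarith only [hm, hw, hA1]
  have hwA2 : w * A ≤ 0.41 * w := by
    have := (abs_le.1 hAabs).2; nlinarith only [hm, hw, hPt, hA2]
  have hL0 : 0 ≤ w / 2 - m / 4 + w * A := by linarith only [hm, hw, hwA1]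
  have hL1 : w / 2 - m / 4 + w * A ≤ w := by linarith only [hm, hw, hwA2]
  have hLa : |w / 2 - m / 4 + w * A| ≤ w := by rw [abs_of_nonneg hL0]; exact hL1
  have T1 := lr_T1 (q := q) hw0 hw hAlow
  have T2 := lr_T2 (p := p) hδ hm hw hA hAX hAY hsg hP hP1 ht1
  have T3 := lr_T3 (A := A) (p := p) (q := q) hδ hδ1 hw0 hsg2 ht1
  have T6 := lr_T6 (p := p) (q := q) hδ hδ1 hB hw0 hor hE hα hLa
  have T7 := lr_T7 (q := q) (v := v) hB hB1 hw0 hwB hAYabs
  have T8 := lr_T8 (p := p) (v := v) hδ hδ1 hB hB1 hm hw0 hw2 hw12 hAabs hAXabs hAYabs hsga hLa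
    hα hαY he2
  have T45 := lr_T45 (p := p) (q := q) hδ hδ1 hm hmw hsga ht1 hα hαX hαY
  have T9 := lr_T9 (p := p) (q := q) hδ hδ1 hm hmw hsga ht1 he1 he2
  have T10 := lr_T10 (q := q) (v := v) hB hB1 hδ hδ1 hw0 hwB hLa he1
  generalize hL : w / 2 - m / 4 + w * A = L at *
  have x1 : 0 ≤ m * q ^ 2 := by (clear * - hm; positivity)
  have x2 : 5 / 4 * (m * q ^ 2) ≤ w * q ^ 2 := by
    have := mul_le_mul_of_nonneg_right hw (sq_nonneg q); linarith only [this]
  have x3 : 0 ≤ δ * m * p ^ 2 := by (clear * - hδ hm; positivity)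
  have x4 : 0 ≤ δ * (w * A ^ 2 / 4) * p ^ 2 := by (clear * - hδ hw0; positivity)
  have x5 : 0 ≤ 1 / B * E * p ^ 2 := by (clear * - hB hE; positivity)
  have x6 : 0 ≤ 1 / B ^ 4 * v ^ 2 := by (clear * - hB; positivity)
  have e1' : (320 : ℝ) / B ^ 4 * v ^ 2 = 320 * (1 / B ^ 4 * v ^ 2) := by ring
  have e2' : (7 : ℝ) * 10 ^ 6 / B ^ 4 * v ^ 2 = 7 * 10 ^ 6 * (1 / B ^ 4 * v ^ 2) := by ring
  have e3' : (10 : ℝ) ^ 7 / B ^ 4 * v ^ 2 = 10 ^ 7 * (1 / B ^ 4 * v ^ 2) := by ring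
  rw [e1'] at T7
  rw [e2'] at T8
  rw [e3']
  generalize hV : 1 / B ^ 4 * v ^ 2 = V at *
  generalize hEE : 1 / B * E * p ^ 2 = EE at *
  have key : (-(sg * δ * A * t * w / 2) + α * L) * (p * q)
      = -(sg * δ * A * t * w / 2) * (p * q) + α * L * (p * q) := by ring
  have key2 : -(-(sg * m) * p - t / 2 * m * q + L * v) * (e1 * q + e2 * p)
      = -(-(sg * m) * p - t / 2 * m * q) * (e1 * q + e2 * p) - L * v * (e1 * q)
        - L * v * (e2 * p) := by ring
  have key3 : δ * (0.0375 * m + w * A ^ 2 / 4) * p ^ 2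
      = 0.0375 * (δ * m * p ^ 2) + δ * (w * A ^ 2 / 4) * p ^ 2 := by ring
  rw [key3] at T2
  rw [key]
  have key4 : 1 / 60 * (m * (q ^ 2 + δ * p ^ 2)) = 1 / 60 * (m * q ^ 2) + 1 / 60 * (δ * m * p ^ 2) := by
    ring
  rw [key4]
  linarith only [T1, T2, T3, T45, T9, x1, x2, x3, T7, T8, T10, x6, T6, x5]

theorem abs_lin2 {x y a b k : ℝ} (hx : |x| ≤ k) (hy : |y| ≤ k) :
    |x * a + y * b| ≤ k * (|a| + |b|) := by
  calc |x * a + y * b| ≤ |x * a| + |y * b| := abs_add_le _ _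
    _ ≤ k * |a| + k * |b| := by
        rw [abs_mul, abs_mul]; gcongr
    _ = _ := by ring

theorem lr_k1 {m w t sg α cX cY : ℝ} (hw0 : 0 ≤ w)
    (ham : |m| ≤ w) (ht1 : |t| ≤ 0.8) (hsg' : |sg| ≤ 1) (hα' : |α| ≤ 1 / 1000) :
    |sg * cX * m / 2 - t / 4 * cY * m - α * t * cX * m / 4| ≤ w * (|cX| + |cY|) := by
  have e : sg * cX * m / 2 - t / 4 * cY * m - α * t * cX * m / 4
    = (sg * m * (1 / 2) - α * t * m * (1 / 4)) * cX + (-(t * m * (1 / 4))) * cY := by ring
  rw [e]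
  apply abs_lin2
  · have h1 : |sg * m * (1 / 2)| ≤ 1 * w * (1 / 2) :=
      abs_mul_le' (abs_mul_le' hsg' ham) (by norm_num)
    have h2 : |α * t * m * (1 / 4)| ≤ 1 / 1000 * 0.8 * w * (1 / 4) :=
      abs_mul_le' (abs_mul_le' (abs_mul_le' hα' ht1) ham) (by norm_num)
    have := (abs_sub (sg * m * (1 / 2)) (α * t * m * (1 / 4))).trans (add_le_add h1 h2)
    refine this.trans ?_
    norm_num; linarith only [hw0]
  · rw [abs_neg]
    have h2 : |t * m * (1 / 4)| ≤ 0.8 * w * (1 / 4) :=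
      abs_mul_le' (abs_mul_le' ht1 ham) (by norm_num)
    refine h2.trans ?_
    norm_num; linarith only [hw0]

theorem lr_k2 {m w A t sg α cX cY δ : ℝ} (hw0 : 0 ≤ w) (hδa : |δ| ≤ 1 / 1000) (hA : |A| ≤ 0.41)
    (ham : |m| ≤ w) (ht1 : |t| ≤ 0.8) (hsg' : |sg| ≤ 1) (hα' : |α| ≤ 1 / 1000) :
    |-(δ * A * sg * cX * m) / 2 + δ * A * t * cY * m / 4 - α * sg * cY * m / 2|
      ≤ w * (|cX| + |cY|) := by
  have e : -(δ * A * sg * cX * m) / 2 + δ * A * t * cY * m / 4 - α * sg * cY * m / 2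
    = (-(δ * A * sg * m * (1 / 2))) * cX
      + (δ * A * t * m * (1 / 4) - α * sg * m * (1 / 2)) * cY := by ring
  rw [e]
  apply abs_lin2
  · rw [abs_neg]
    have h2 : |δ * A * sg * m * (1 / 2)| ≤ 1 / 1000 * 0.41 * 1 * w * (1 / 2) :=
      abs_mul_le' (abs_mul_le' (abs_mul_le' (abs_mul_le' hδa hA) hsg') ham) (by norm_num)
    refine h2.trans ?_
    norm_num; linarith only [hw0]
  · have h1 : |δ * A * t * m * (1 / 4)| ≤ 1 / 1000 * 0.41 * 0.8 * w * (1 / 4) :=
      abs_mul_le' (abs_mul_le' (abs_mul_le' (abs_mul_le' hδa hA) ht1) ham) (by norm_num)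
    have h2 : |α * sg * m * (1 / 2)| ≤ 1 / 1000 * 1 * w * (1 / 2) :=
      abs_mul_le' (abs_mul_le' (abs_mul_le' hα' hsg') ham) (by norm_num)
    have := (abs_sub (δ * A * t * m * (1 / 4)) (α * sg * m * (1 / 2))).trans (add_le_add h1 h2)
    refine this.trans ?_
    norm_num; linarith only [hw0]

theorem lr_k3 {m w A t sg cX cY δ : ℝ} (hw0 : 0 ≤ w) (hδa : |δ| ≤ 1 / 1000) (hA : |A| ≤ 0.41)
    (ham : |m| ≤ w) (ht1 : |t| ≤ 0.8) (hsg' : |sg| ≤ 1) :
    |-(sg * cY * m) - δ * A * t * cX * m / 2| ≤ w * (|cX| + |cY|) := by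
  have e : -(sg * cY * m) - δ * A * t * cX * m / 2
    = (-(δ * A * t * m * (1 / 2))) * cX + (-(sg * m)) * cY := by ring
  rw [e]
  apply abs_lin2
  · rw [abs_neg]
    have h2 : |δ * A * t * m * (1 / 2)| ≤ 1 / 1000 * 0.41 * 0.8 * w * (1 / 2) :=
      abs_mul_le' (abs_mul_le' (abs_mul_le' (abs_mul_le' hδa hA) ht1) ham) (by norm_num)
    refine h2.trans ?_
    norm_num; linarith only [hw0]
  · rw [abs_neg]
    have h2 : |sg * m| ≤ 1 * w := abs_mul_le' hsg' ham
    linarith only [h2]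

theorem lr_k5 {w A α L cX cY δ : ℝ} (hw0 : 0 ≤ w) (hδa : |δ| ≤ 1 / 1000) (hA : |A| ≤ 0.41)
    (hα' : |α| ≤ 1 / 1000) (hLa : |L| ≤ w) :
    |δ * A * cX * L + α * cY * L| ≤ w * (|cX| + |cY|) := by
  have e : δ * A * cX * L + α * cY * L = (δ * A * L) * cX + (α * L) * cY := by ring
  rw [e]
  apply abs_lin2
  · have h2 : |δ * A * L| ≤ 1 / 1000 * 0.41 * w := abs_mul_le' (abs_mul_le' hδa hA) hLa
    refine h2.trans ?_
    norm_num; linarith only [hw0]
  · have h2 : |α * L| ≤ 1 / 1000 * w := abs_mul_le' hα' hLa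
    linarith only [hw0, h2]

theorem abs_mul_le_half (x y : ℝ) : |x * y| ≤ (x ^ 2 + y ^ 2) / 2 := by
  rw [abs_mul, ← sq_abs x, ← sq_abs y]; linarith only [sq_nonneg (|x| - |y|)]

/-- bound of the terms containing derivatives of the cutoff -/
theorem lr_cut {m w A t sg α L p q v cX cY δ B : ℝ}
    (hδ : 0 < δ) (hδ1 : δ ≤ 1 / 1000) (hB : 0 < B)
    (hm : 0 ≤ m) (hmw : m ≤ w) (hwB : w ≤ 20 / B)
    (hA : |A| ≤ 0.41) (ht1 : |t| ≤ 0.8) (hsg : |sg| = 1) (hα : |α| ≤ δ / 1000) (hLa : |L| ≤ w) :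
    -(60 / B * ((|cX| + |cY|) * (p ^ 2 + q ^ 2 + v ^ 2))) ≤
      (sg * cX * m / 2 - t / 4 * cY * m - α * t * cX * m / 4) * q ^ 2
      + (-(δ * A * sg * cX * m) / 2 + δ * A * t * cY * m / 4 - α * sg * cY * m / 2) * p ^ 2
      + (-(sg * cY * m) - δ * A * t * cX * m / 2) * (p * q)
      + cY * L * (v * q) + (δ * A * cX * L + α * cY * L) * (v * p) := by
  have hw0 : 0 ≤ w := hm.trans hmw
  have ham : |m| ≤ w := by rw [abs_of_nonneg hm]; exact hmw
  have hδa : |δ| ≤ 1 / 1000 := by rw [abs_of_pos hδ]; exact hδ1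
  have hα' : |α| ≤ 1 / 1000 := hα.trans (by linarith only [hδ1])
  have k1 := lr_k1 (cX := cX) (cY := cY) hw0 ham ht1 hsg.le hα'
  have k2 := lr_k2 (cX := cX) (cY := cY) hw0 hδa hA ham ht1 hsg.le hα'
  have k3 := lr_k3 (cX := cX) (cY := cY) hw0 hδa hA ham ht1 hsg.le
  have k5 := lr_k5 (cX := cX) (cY := cY) hw0 hδa hA hα' hLa
  have k4 : |cY * L| ≤ w * (|cX| + |cY|) := by
    rw [abs_mul, mul_comm w]
    exact mul_le_mul (by linarith only [abs_nonneg cX]) hLa (abs_nonneg _) (by (clear * -; positivity))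
  have hD0 : 0 ≤ |cX| + |cY| := by (clear * -; positivity)
  generalize |cX| + |cY| = D at *
  have l1 := (abs_le.1 (abs_mul_le' k1 (le_of_eq (abs_of_nonneg (sq_nonneg q))))).1
  have l2 := (abs_le.1 (abs_mul_le' k2 (le_of_eq (abs_of_nonneg (sq_nonneg p))))).1
  have l3 := (abs_le.1 (abs_mul_le' k3 (abs_mul_le_half p q))).1
  have l4 := (abs_le.1 (abs_mul_le' k4 (abs_mul_le_half v q))).1
  have l5 := (abs_le.1 (abs_mul_le' k5 (abs_mul_le_half v p))).1
  have f : w * D * (p ^ 2 + q ^ 2 + v ^ 2) ≤ 20 / B * D * (p ^ 2 + q ^ 2 + v ^ 2) := by (clear * - hwB hD0; gcongr)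
  have f2 : 60 / B * (D * (p ^ 2 + q ^ 2 + v ^ 2)) = 3 * (20 / B * D * (p ^ 2 + q ^ 2 + v ^ 2)) := by
    ring
  rw [f2]
  have f4 : 0 ≤ w * D * p ^ 2 := by (clear * - hw0 hD0; positivity)
  have f5 : 0 ≤ w * D * q ^ 2 := by (clear * - hw0 hD0; positivity)
  have f6 : 0 ≤ w * D * v ^ 2 := by (clear * - hw0 hD0; positivity)
  generalize (sg * cX * m / 2 - t / 4 * cY * m - α * t * cX * m / 4) * q ^ 2 = Z1 at *
  generalize (-(δ * A * sg * cX * m) / 2 + δ * A * t * cY * m / 4 - α * sg * cY * m / 2) * p ^ 2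
    = Z2 at *
  generalize (-(sg * cY * m) - δ * A * t * cX * m / 2) * (p * q) = Z3 at *
  generalize cY * L * (v * q) = Z4 at *
  generalize (δ * A * cX * L + α * cY * L) * (v * p) = Z5 at *
  generalize 20 / B * D * (p ^ 2 + q ^ 2 + v ^ 2) = Z6 at *
  have g1 : w * D * (p ^ 2 + q ^ 2 + v ^ 2) = w * D * p ^ 2 + w * D * q ^ 2 + w * D * v ^ 2 := by ring
  have g3 : w * D * ((p ^ 2 + q ^ 2) / 2) = (w * D * p ^ 2 + w * D * q ^ 2) / 2 := by ring
  have g4 : w * D * ((v ^ 2 + q ^ 2) / 2) = (w * D * v ^ 2 + w * D * q ^ 2) / 2 := by ring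
  have g5 : w * D * ((v ^ 2 + p ^ 2) / 2) = (w * D * v ^ 2 + w * D * p ^ 2) / 2 := by ring
  rw [g1] at f
  rw [g3] at l3
  rw [g4] at l4
  rw [g5] at l5
  generalize w * D * p ^ 2 = Y1 at *
  generalize w * D * q ^ 2 = Y2 at *
  generalize w * D * v ^ 2 = Y3 at *
  linarith only [f4, l2, f5, l1, l3, f6, l5, l4, f]

/-- the full pointwise inequality -/
theorem lr_pointwise {c m w w1 A AX AY Pp t sg α αX αY e1 e2 p q v cX cY δ B E : ℝ}
    (hc0 : 0 ≤ c)
    (hδ : 0 < δ) (hδ1 : δ ≤ 1 / 1000) (hB : 0 < B) (hB1 : B ≤ 1)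
    (hm : 0 ≤ m) (hw : 5 / 4 * m ≤ w) (hwB : w ≤ 20 / B)
    (hw2 : w ^ 2 ≤ 10 ^ 4 / B ^ 2 * m) (hw12 : w1 ^ 2 ≤ 10 ^ 8 / B ^ 4 * m)
    (hor : w ≤ 200 / δ * m + 100 / B * E) (hE : 0 ≤ E)
    (hA : |A - (Pp ^ 2 + t ^ 2 - 1 / 4)| ≤ 1 / 1000)
    (hAX : |AX - 2 * Pp| ≤ 1 / 1000) (hAY : |AY - 2 * t| ≤ 1 / 1000)
    (hsg : sg = 1 ∨ sg = -1) (hP : 0 ≤ sg * Pp) (hP1 : |Pp| ≤ 0.81) (ht1 : |t| ≤ 0.8)
    (hPt : Pp ^ 2 + t ^ 2 ≤ 0.65)
    (hα : |α| ≤ δ / 1000) (hαX : |αX| ≤ δ / 1000) (hαY : |αY| ≤ δ / 1000)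
    (he1 : |e1| ≤ δ / 1000) (he2 : |e2| ≤ δ / 1000) :
    1 / 60 * (c * m * (q ^ 2 + δ * p ^ 2)) ≤
      -(((-(sg * (cX * m)) - c * w) / 2 - (-(1 / 2) * (c * m) - t / 2 * (cY * m)) / 2
            - c * (w / 2 - m / 4 + w * A)
            - (αX * (-(t / 2) * (c * m)) + α * (-(t / 2) * (cX * m + c * (sg * w)))) / 2) * q ^ 2
        + (-(sg * (c * m)) * (δ * AX) / 2 - δ * A * (-(sg * (cX * m)) - c * w) / 2
            + ((-(1 / 2) * (c * m) - t / 2 * (cY * m)) * (δ * A) + -(t / 2) * (c * m) * (δ * AY)) / 2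
            - c * (w / 2 - m / 4 + w * A) * (δ * A)
            - (αY * (-(sg * (c * m))) + α * (-(sg * (cY * m)))) / 2) * p ^ 2
        - (-(sg * (cY * m)) + δ * A * (-(t / 2) * (cX * m + c * (sg * w)))
            + α * (c * (w / 2 - m / 4 + w * A))) * q * p
        - (cY * (w / 2 - m / 4 + w * A) + c * (w * AY)) * v * q
        - (δ * A * (cX * (w / 2 - m / 4 + w * A)
              + c * (sg * w1 / 2 - sg * w / 4 + (sg * w1 * A + w * AX)))
            + (αY * (c * (w / 2 - m / 4 + w * A))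
              + α * (cY * (w / 2 - m / 4 + w * A) + c * (w * AY)))) * v * p
        + (-(sg * (c * m)) * p + -(t / 2) * (c * m) * q + c * (w / 2 - m / 4 + w * A) * v)
            * (e1 * q + e2 * p))
      + 10 ^ 7 / B ^ 4 * (c * v ^ 2) + 60 / B * ((|cX| + |cY|) * (p ^ 2 + q ^ 2 + v ^ 2))
      + 1 / B * E * (c * p ^ 2) := by
  have hmw : m ≤ w := by linarith only [hm, hw]
  have hw0 : 0 ≤ w := hm.trans hmw
  have hsga : |sg| = 1 := by rcases hsg with h | h <;> rw [h] <;> norm_num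
  have hsg2 : sg ^ 2 = 1 := by rcases hsg with h | h <;> rw [h] <;> norm_num
  have hy0 : 0 ≤ Pp ^ 2 + t ^ 2 := by (clear * -; positivity)
  obtain ⟨hA1, hA2⟩ := abs_le.1 hA
  have hAlow : -0.251 ≤ A := by linarith only [hy0, hA1]
  have hAabs : |A| ≤ 0.41 := by
    rw [abs_le]; constructor <;> linarith only [hPt, hA2, hy0, hA1]
  have hwA1 : -(0.251 * w) ≤ w * A := by nlinarith only [hm, hw, hA1]
  have hwA2 : w * A ≤ 0.41 * w := by
    have := (abs_le.1 hAabs).2; nlinarith only [hm, hw, hPt, hA2]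
  have hL0 : 0 ≤ w / 2 - m / 4 + w * A := by linarith only [hm, hw, hwA1]
  have hL1 : w / 2 - m / 4 + w * A ≤ w := by linarith only [hm, hw, hwA2]
  have hLa : |w / 2 - m / 4 + w * A| ≤ w := by rw [abs_of_nonneg hL0]; exact hL1
  have H1 := lr_core (p := p) (q := q) (v := v) hδ hδ1 hB hB1 hm hw hwB hw2 hw12 hor hE hA hAX hAY
    hsg hP hP1 ht1 hPt hα hαX hαY he1 he2
  have H2 := lr_cut (p := p) (q := q) (v := v) (cX := cX) (cY := cY) hδ hδ1 hB hm hmw hwB hAabs ht1
    hsga hα hLa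
  have H3 := mul_le_mul_of_nonneg_left H1 hc0
  have key : ∀ s2 : ℝ, s2 = sg ^ 2 →
      -(((-(sg * (cX * m)) - c * w) / 2 - (-(1 / 2) * (c * m) - t / 2 * (cY * m)) / 2
            - c * (w / 2 - m / 4 + w * A)
            - (αX * (-(t / 2) * (c * m)) + α * (-(t / 2) * (cX * m + c * (sg * w)))) / 2) * q ^ 2
        + (-(sg * (c * m)) * (δ * AX) / 2 - δ * A * (-(sg * (cX * m)) - c * w) / 2
            + ((-(1 / 2) * (c * m) - t / 2 * (cY * m)) * (δ * A) + -(t / 2) * (c * m) * (δ * AY)) / 2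
            - c * (w / 2 - m / 4 + w * A) * (δ * A)
            - (αY * (-(sg * (c * m))) + α * (-(sg * (cY * m)))) / 2) * p ^ 2
        - (-(sg * (cY * m)) + δ * A * (-(t / 2) * (cX * m + c * (sg * w)))
            + α * (c * (w / 2 - m / 4 + w * A))) * q * p
        - (cY * (w / 2 - m / 4 + w * A) + c * (w * AY)) * v * q
        - (δ * A * (cX * (w / 2 - m / 4 + w * A)
              + c * (sg * w1 / 2 - sg * w / 4 + (sg * w1 * A + w * AX)))
            + (αY * (c * (w / 2 - m / 4 + w * A))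
              + α * (cY * (w / 2 - m / 4 + w * A) + c * (w * AY)))) * v * p
        + (-(sg * (c * m)) * p + -(t / 2) * (c * m) * q + c * (w / 2 - m / 4 + w * A) * v)
            * (e1 * q + e2 * p))
      = c * ((w - m / 2 + w * A) * q ^ 2
          + δ * (m * (sg * AX / 2 + t * AY / 4) + w * A ^ 2) * p ^ 2
      + (-(sg * δ * A * t * w / 2) + α * (w / 2 - m / 4 + w * A)) * (p * q)
      + w * AY * (v * q)
      + (δ * A * (sg * w1 / 2 - sg * w / 4 + sg * w1 * A + w * AX)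
          + αY * (w / 2 - m / 4 + w * A) + α * (w * AY)) * (v * p)
      + (-(αX * t * m) / 4 - α * t * w * sg / 4) * q ^ 2
      - αY * sg * m / 2 * p ^ 2
      - (-(sg * m) * p - t / 2 * m * q + (w / 2 - m / 4 + w * A) * v) * (e1 * q + e2 * p))
      + ((sg * cX * m / 2 - t / 4 * cY * m - α * t * cX * m / 4) * q ^ 2
      + (-(δ * A * sg * cX * m) / 2 + δ * A * t * cY * m / 4 - α * sg * cY * m / 2) * p ^ 2
      + (-(sg * cY * m) - δ * A * t * cX * m / 2) * (p * q)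
      + cY * (w / 2 - m / 4 + w * A) * (v * q)
      + (δ * A * cX * (w / 2 - m / 4 + w * A) + α * cY * (w / 2 - m / 4 + w * A)) * (v * p)) := by
    intro s2 _
    ring
  rw [key _ rfl]
  have e1' : 1 / 60 * (c * m * (q ^ 2 + δ * p ^ 2)) - 10 ^ 7 / B ^ 4 * (c * v ^ 2)
      - 1 / B * E * (c * p ^ 2)
      = c * (1 / 60 * (m * (q ^ 2 + δ * p ^ 2)) - 10 ^ 7 / B ^ 4 * v ^ 2 - 1 / B * E * p ^ 2) := by
    ring
  linarith only [H2, H3]

end Vale.Agent.P229.D
end
end

section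

section

/-!
# P229, disproof, task T7a: Poincaré inequality on a cell (`PROOF.md`, §8, PH)
-/

open scoped ContDiff Topology
open MeasureTheory Set

namespace Vale.Agent.P229.D

/-- Cauchy-Schwarz on an interval, against the constant one. -/
theorem sq_integral_le {a b : ℝ} (hab : a < b) {g : ℝ → ℝ} (hg : Continuous g) :
    (∫ x in a..b, g x) ^ 2 ≤ (b - a) * ∫ x in a..b, g x ^ 2 := by
  set I := ∫ x in a..b, g x with hI
  have hL : 0 < b - a := sub_pos.2 hab
  have h0 : 0 ≤ ∫ x in a..b, (g x - I / (b - a)) ^ 2 :=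
    intervalIntegral.integral_nonneg hab.le (fun x _ => sq_nonneg _)
  have h1 : ∫ x in a..b, (g x - I / (b - a)) ^ 2
      = (∫ x in a..b, g x ^ 2) - 2 * (I / (b - a)) * I + (I / (b - a)) ^ 2 * (b - a) := by
    have e : ∀ x, (g x - I / (b - a)) ^ 2
        = g x ^ 2 - 2 * (I / (b - a)) * g x + (I / (b - a)) ^ 2 := fun x => by ring
    simp_rw [e]
    rw [intervalIntegral.integral_add, intervalIntegral.integral_sub,
      intervalIntegral.integral_const_mul, intervalIntegral.integral_const]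
    · simp only [hI, smul_eq_mul, add_right_inj]; ring
    · exact (hg.pow 2).intervalIntegrable _ _
    · exact (hg.const_mul _).intervalIntegrable _ _
    · exact ((hg.pow 2).sub (hg.const_mul _)).intervalIntegrable _ _
    · exact continuous_const.intervalIntegrable _ _
  rw [h1] at h0
  have h2 : (∫ x in a..b, g x ^ 2) - 2 * (I / (b - a)) * I + (I / (b - a)) ^ 2 * (b - a)
      = (∫ x in a..b, g x ^ 2) - I ^ 2 / (b - a) := by
    field_simp; ring
  rw [h2, sub_nonneg, div_le_iff₀ hL] at h0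
  linarith only [h0]

/-- One-dimensional Poincaré inequality. -/
theorem poincare1 {a b : ℝ} (hab : a < b) {g g' : ℝ → ℝ} (hg : ∀ x, HasDerivAt g (g' x) x)
    (hg' : Continuous g') :
    ∫ x in a..b, g x ^ 2 ≤ (b - a) ^ 2 * (∫ x in a..b, g' x ^ 2)
      + (1 / (b - a)) * (∫ x in a..b, g x) ^ 2 := by
  have hL : 0 < b - a := sub_pos.2 hab
  have hgc : Continuous g := continuous_iff_continuousAt.2 fun x => (hg x).continuousAt
  -- mean value
  obtain ⟨c, hc, hc2⟩ : ∃ c ∈ Ioo a b, g c = (∫ x in a..b, g x) / (b - a) := by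
    have hG : ∀ x, HasDerivAt (fun y => ∫ t in a..y, g t) (g x) x := fun x =>
      intervalIntegral.integral_hasDerivAt_right (hgc.intervalIntegrable _ _)
        (hgc.stronglyMeasurableAtFilter _ _) hgc.continuousAt
    obtain ⟨c, hc, hc2⟩ := exists_hasDerivAt_eq_slope (fun y => ∫ t in a..y, g t) g hab
      (continuous_iff_continuousAt.2 fun x => (hG x).continuousAt).continuousOn
      (fun x _ => hG x)
    refine ⟨c, hc, ?_⟩
    rw [hc2]; simp
  set m := (∫ x in a..b, g x) / (b - a) with hm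
  set D := ∫ x in a..b, g' x ^ 2 with hD
  -- pointwise bound
  have hpt : ∀ x ∈ Icc a b, (g x - m) ^ 2 ≤ (b - a) * D := by
    intro x hx
    have h1 : ∫ y in c..x, g' y = g x - g c :=
      intervalIntegral.integral_eq_sub_of_hasDerivAt (fun y _ => hg y) (hg'.intervalIntegrable _ _)
    have h2 : |g x - g c| ≤ ∫ y in a..b, |g' y| := by
      rw [← h1]
      calc abs (∫ y in c..x, g' y) ≤ abs (∫ y in c..x, abs (g' y)) :=
            intervalIntegral.norm_integral_le_abs_integral_norm (f := g') (μ := volume)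
        _ ≤ abs (∫ y in a..b, abs (g' y)) := by
            refine intervalIntegral.abs_integral_mono_interval ?_ ?_ ?_
            · rw [uIoc_of_le hab.le]
              intro y hy
              rcases le_total c x with h | h
              · rw [uIoc_of_le h] at hy
                exact ⟨lt_trans hc.1 hy.1, hy.2.trans hx.2⟩
              · rw [uIoc_of_ge h] at hy
                exact ⟨lt_of_le_of_lt hx.1 hy.1, hy.2.trans hc.2.le⟩
            · exact Filter.Eventually.of_forall fun y => abs_nonneg _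
            · exact (hg'.abs).intervalIntegrable _ _
        _ = ∫ y in a..b, abs (g' y) := abs_of_nonneg
            (intervalIntegral.integral_nonneg hab.le fun y _ => abs_nonneg _)
    have h3 := sq_integral_le hab hg'.abs
    have h4 : (∫ x in a..b, |g' x| ^ 2) = D := by
      rw [hD]; congr 1; ext y; exact sq_abs _
    rw [h4] at h3
    have h5 : (g x - m) ^ 2 ≤ (∫ y in a..b, |g' y|) ^ 2 := by
      rw [← hc2, ← sq_abs (g x - g c)]
      exact pow_le_pow_left₀ (abs_nonneg _) h2 2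
    exact h5.trans h3
  have h6 : ∫ x in a..b, (g x - m) ^ 2 ≤ ∫ _x in a..b, (b - a) * D := by
    refine intervalIntegral.integral_mono_on hab.le ?_ ?_ hpt
    · exact ((hgc.sub continuous_const).pow 2).intervalIntegrable _ _
    · exact continuous_const.intervalIntegrable _ _
  have h7 : ∫ x in a..b, (g x - m) ^ 2
      = (∫ x in a..b, g x ^ 2) - 2 * m * (∫ x in a..b, g x) + m ^ 2 * (b - a) := by
    have e : ∀ x, (g x - m) ^ 2 = g x ^ 2 - 2 * m * g x + m ^ 2 := fun x => by ring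
    simp_rw [e]
    rw [intervalIntegral.integral_add, intervalIntegral.integral_sub,
      intervalIntegral.integral_const_mul, intervalIntegral.integral_const]
    · simp only [smul_eq_mul, add_right_inj]; ring
    · exact (hgc.pow 2).intervalIntegrable _ _
    · exact (hgc.const_mul _).intervalIntegrable _ _
    · exact ((hgc.pow 2).sub (hgc.const_mul _)).intervalIntegrable _ _
    · exact continuous_const.intervalIntegrable _ _
  have h8 : ∫ _x in a..b, (b - a) * D = (b - a) ^ 2 * D := by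
    rw [intervalIntegral.integral_const]; simp only [smul_eq_mul]; ring
  rw [h7, h8] at h6
  have h9 : 2 * m * (∫ x in a..b, g x) - m ^ 2 * (b - a) = (1 / (b - a)) * (∫ x in a..b, g x) ^ 2 := by
    rw [hm]; field_simp; ring
  linarith only [h6, h9]

theorem hasDerivAt_slice_fst {f : Pl → ℝ} (hf : ContDiff ℝ 1 f) (x t : ℝ) :
    HasDerivAt (fun x => f (x, t)) (dx f (x, t)) x := by
  have h1 : HasFDerivAt f (fderiv ℝ f (x, t)) (x, t) :=
    (hf.differentiable (by norm_num) (x, t)).hasFDerivAt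
  have h2 : HasDerivAt (fun x : ℝ => ((x, t) : Pl)) ((1, 0) : Pl) x :=
    (hasDerivAt_id x).prodMk (hasDerivAt_const x t)
  exact h1.comp_hasDerivAt x h2

theorem hasDerivAt_slice_snd {f : Pl → ℝ} (hf : ContDiff ℝ 1 f) (x t : ℝ) :
    HasDerivAt (fun t => f (x, t)) (dt f (x, t)) t := by
  have h1 : HasFDerivAt f (fderiv ℝ f (x, t)) (x, t) :=
    (hf.differentiable (by norm_num) (x, t)).hasFDerivAt
  have h2 : HasDerivAt (fun t : ℝ => ((x, t) : Pl)) ((0, 1) : Pl) t :=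
    (hasDerivAt_const t x).prodMk (hasDerivAt_id t)
  exact h1.comp_hasDerivAt t h2

/-- Differentiation under the integral sign. -/
theorem hasDerivAt_integral_slice {f : Pl → ℝ} (hf : ContDiff ℝ 1 f) {a b : ℝ} (hab : a ≤ b)
    (x : ℝ) :
    HasDerivAt (fun x => ∫ t in a..b, f (x, t)) (∫ t in a..b, dx f (x, t)) x := by
  have hdx : Continuous (dx f) := (contDiff_dx (m := 0) hf (by norm_num)).continuous
  -- bound on the compact set
  obtain ⟨C, hC⟩ := ((isCompact_Icc (a := x - 1) (b := x + 1)).prod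
    (isCompact_Icc (a := a) (b := b))).exists_bound_of_continuousOn hdx.continuousOn
  refine (intervalIntegral.hasDerivAt_integral_of_dominated_loc_of_deriv_le
    (F := fun x t => f (x, t)) (F' := fun x t => dx f (x, t)) (x₀ := x)
    (s := Icc (x - 1) (x + 1)) (bound := fun _ => C) ?_ ?_ ?_ ?_ ?_ ?_ ?_).2
  · exact Icc_mem_nhds (by linarith) (by linarith)
  · refine Filter.Eventually.of_forall fun y => ?_
    exact (hf.continuous.comp (by fun_prop : Continuous fun t : ℝ => ((y, t) : Pl))).aestronglyMeasurable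
  · exact (hf.continuous.comp (by fun_prop : Continuous fun t : ℝ => ((x, t) : Pl))).intervalIntegrable _ _
  · exact (hdx.comp (by fun_prop : Continuous fun t : ℝ => ((x, t) : Pl))).aestronglyMeasurable
  · refine Filter.Eventually.of_forall fun t ht y hy => ?_
    rw [uIoc_of_le hab] at ht
    exact hC (y, t) ⟨hy, ⟨ht.1.le, ht.2⟩⟩
  · exact continuous_const.intervalIntegrable _ _
  · refine Filter.Eventually.of_forall fun t _ y _ => ?_
    exact hasDerivAt_slice_fst hf y t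

theorem continuous_integral_slice {f : Pl → ℝ} (hf : Continuous f) (a b : ℝ) :
    Continuous (fun x => ∫ t in a..b, f (x, t)) := by
  exact intervalIntegral.continuous_parametric_intervalIntegral_of_continuous' (by fun_prop) a b

/-- Two-dimensional Poincaré inequality on a rectangle. -/
theorem poincare2 {a b c d : ℝ} (hab : a < b) (hcd : c < d) (hs : b - a = d - c)
    {f : Pl → ℝ} (hf : ContDiff ℝ 1 f) :
    ∫ x in a..b, ∫ t in c..d, f (x, t) ^ 2
      ≤ (b - a) ^ 2 * (∫ x in a..b, ∫ t in c..d, (dx f (x, t) ^ 2 + dt f (x, t) ^ 2))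
        + (1 / (b - a) ^ 2) * (∫ x in a..b, ∫ t in c..d, f (x, t)) ^ 2 := by
  have hL : 0 < b - a := sub_pos.2 hab
  have hdx : Continuous (dx f) := (contDiff_dx (m := 0) hf (by norm_num)).continuous
  have hdt : Continuous (dt f) := (contDiff_dt (m := 0) hf (by norm_num)).continuous
  have hfc := hf.continuous
  have e1 : ∀ x, ∫ t in c..d, f (x, t) ^ 2 ≤ (d - c) ^ 2 * (∫ t in c..d, dt f (x, t) ^ 2)
      + (1 / (d - c)) * (∫ t in c..d, f (x, t)) ^ 2 := fun x =>
    poincare1 hcd (fun t => hasDerivAt_slice_snd hf x t) (by fun_prop)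
  have cA : Continuous (fun x => ∫ t in c..d, f (x, t) ^ 2) :=
    continuous_integral_slice (f := fun p => f p ^ 2) (by fun_prop) c d
  have cB : Continuous (fun x => ∫ t in c..d, dt f (x, t) ^ 2) :=
    continuous_integral_slice (f := fun p => dt f p ^ 2) (by fun_prop) c d
  have cC : Continuous (fun x => ∫ t in c..d, dx f (x, t) ^ 2) :=
    continuous_integral_slice (f := fun p => dx f p ^ 2) (by fun_prop) c d
  have cF : Continuous (fun x => ∫ t in c..d, f (x, t)) := continuous_integral_slice hfc c d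
  have cD : Continuous (fun x => ∫ t in c..d, dx f (x, t)) := continuous_integral_slice hdx c d
  have s1 : ∫ x in a..b, ∫ t in c..d, f (x, t) ^ 2
      ≤ (d - c) ^ 2 * (∫ x in a..b, ∫ t in c..d, dt f (x, t) ^ 2)
        + (1 / (d - c)) * ∫ x in a..b, (∫ t in c..d, f (x, t)) ^ 2 := by
    rw [← intervalIntegral.integral_const_mul, ← intervalIntegral.integral_const_mul,
      ← intervalIntegral.integral_add]
    · refine intervalIntegral.integral_mono_on hab.le (cA.intervalIntegrable _ _) ?_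
        (fun x _ => e1 x)
      exact ((cB.const_mul _).add ((cF.pow 2).const_mul _)).intervalIntegrable _ _
    · exact (cB.const_mul _).intervalIntegrable _ _
    · exact ((cF.pow 2).const_mul _).intervalIntegrable _ _
  have s2 : ∫ x in a..b, (∫ t in c..d, f (x, t)) ^ 2
      ≤ (b - a) ^ 2 * (∫ x in a..b, (∫ t in c..d, dx f (x, t)) ^ 2)
        + (1 / (b - a)) * (∫ x in a..b, ∫ t in c..d, f (x, t)) ^ 2 :=
    poincare1 hab (fun x => hasDerivAt_integral_slice hf hcd.le x) cD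
  have s3 : ∫ x in a..b, (∫ t in c..d, dx f (x, t)) ^ 2
      ≤ (d - c) * ∫ x in a..b, ∫ t in c..d, dx f (x, t) ^ 2 := by
    rw [← intervalIntegral.integral_const_mul]
    refine intervalIntegral.integral_mono_on hab.le ((cD.pow 2).intervalIntegrable _ _)
      ((cC.const_mul _).intervalIntegrable _ _) (fun x _ => ?_)
    exact sq_integral_le hcd (g := fun t => dx f (x, t)) (by fun_prop)
  have s4 : ∫ x in a..b, ∫ t in c..d, (dx f (x, t) ^ 2 + dt f (x, t) ^ 2)
      = (∫ x in a..b, ∫ t in c..d, dx f (x, t) ^ 2) + ∫ x in a..b, ∫ t in c..d, dt f (x, t) ^ 2 := by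
    rw [← intervalIntegral.integral_add (cC.intervalIntegrable _ _) (cB.intervalIntegrable _ _)]
    congr 1
    ext x
    rw [← intervalIntegral.integral_add]
    · exact Continuous.intervalIntegrable (by fun_prop) _ _
    · exact Continuous.intervalIntegrable (by fun_prop) _ _
  rw [s4]
  rw [← hs] at s1 s3
  set A := ∫ x in a..b, ∫ t in c..d, f (x, t) ^ 2
  set B := ∫ x in a..b, ∫ t in c..d, dt f (x, t) ^ 2
  set C := ∫ x in a..b, ∫ t in c..d, dx f (x, t) ^ 2
  set F := ∫ x in a..b, (∫ t in c..d, f (x, t)) ^ 2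
  set G := ∫ x in a..b, (∫ t in c..d, dx f (x, t)) ^ 2
  set I := ∫ x in a..b, ∫ t in c..d, f (x, t)
  set L := b - a
  have s5 : (1 / L) * F ≤ (1 / L) * (L ^ 2 * (L * C) + (1 / L) * I ^ 2) := by
    refine mul_le_mul_of_nonneg_left (s2.trans ?_) (by positivity)
    have := mul_le_mul_of_nonneg_left s3 (sq_nonneg L)
    linarith only [this]
  have s6 : (1 / L) * (L ^ 2 * (L * C) + (1 / L) * I ^ 2) = L ^ 2 * C + (1 / L ^ 2) * I ^ 2 := by
    (clear * - hL; field_simp)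
  linarith only [s1, s5, s6]

/-- half-open grid square of side `h`. -/
def cell (h : ℝ) (c : ℤ × ℤ) : Set Pl :=
  Set.Ico (c.1 * h) ((c.1 + 1) * h) ×ˢ Set.Ico (c.2 * h) ((c.2 + 1) * h)

theorem integral_cell {h : ℝ} (hh : 0 < h) (c : ℤ × ℤ) {f : Pl → ℝ} (hf : Continuous f) :
    ∫ p in cell h c, f p
      = ∫ x in (c.1 * h)..((c.1 + 1) * h), ∫ t in (c.2 * h)..((c.2 + 1) * h), f (x, t) := by
  have l1 : (c.1 : ℝ) * h ≤ (c.1 + 1) * h := by linarith
  have l2 : (c.2 : ℝ) * h ≤ (c.2 + 1) * h := by linarith only [hh]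
  rw [cell, Measure.volume_eq_prod, setIntegral_prod]
  · rw [intervalIntegral.integral_of_le l1, integral_Ico_eq_integral_Ioo,
      integral_Ioc_eq_integral_Ioo]
    congr 1
    ext x
    rw [intervalIntegral.integral_of_le l2, integral_Ico_eq_integral_Ioo,
      integral_Ioc_eq_integral_Ioo]
  · have : IntegrableOn f (Set.Icc ((c.1 : ℝ) * h) ((c.1 + 1) * h) ×ˢ
        Set.Icc ((c.2 : ℝ) * h) ((c.2 + 1) * h)) (volume.prod volume) := by
      rw [← Measure.volume_eq_prod]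
      exact hf.continuousOn.integrableOn_compact (isCompact_Icc.prod isCompact_Icc)
    exact this.mono_set (Set.prod_mono Ico_subset_Icc_self Ico_subset_Icc_self)

/-- Poincaré inequality on a cell. -/
theorem cell_poincare {h : ℝ} (hh : 0 < h) (c : ℤ × ℤ) {f : Pl → ℝ} (hf : ContDiff ℝ 1 f) :
    ∫ p in cell h c, (f p) ^ 2 ≤ h ^ 2 * (∫ p in cell h c, (dx f p ^ 2 + dt f p ^ 2))
      + (1 / h ^ 2) * (∫ p in cell h c, f p) ^ 2 := by
  have hdx : Continuous (dx f) := (contDiff_dx (m := 0) hf (by norm_num)).continuous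
  have hdt : Continuous (dt f) := (contDiff_dt (m := 0) hf (by norm_num)).continuous
  have hfc := hf.continuous
  rw [integral_cell hh c (f := fun p => f p ^ 2) (by fun_prop),
    integral_cell hh c (f := fun p => dx f p ^ 2 + dt f p ^ 2) (by fun_prop),
    integral_cell hh c hfc]
  have := poincare2 (a := (c.1 : ℝ) * h) (b := (c.1 + 1) * h) (c := (c.2 : ℝ) * h)
    (d := (c.2 + 1) * h) (by linarith only [hh]) (by linarith only [hh]) (by ring) hf
  have e : ((c.1 : ℝ) + 1) * h - c.1 * h = h := by ring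
  rw [e] at this
  exact this

end Vale.Agent.P229.D
end
end

section

/-!
# P229, disproof: all definitions of the analytic part (see `PROOF.md`)
-/

open scoped ContDiff Topology
open MeasureTheory Set

namespace Vale.Agent.P229.D

/-- `Dle k f c p`: all partial derivatives of `f` of order `≤ k` at `p` are `≤ c` in absolute
value. -/
def Dle : ℕ → (Pl → ℝ) → ℝ → Pl → Prop
  | 0, f, c, p => |f p| ≤ c
  | k + 1, f, c, p => |f p| ≤ c ∧ Dle k (dx f) c p ∧ Dle k (dt f) c p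

/-- The pair equation (PE) with the bounds (H) of `PROOF.md`, §5. -/
structure PairEq (P v a α e1 e2 F : Pl → ℝ) (δ : ℝ) : Prop where
  frame : Frame P
  v_smooth : ContDiff ℝ 2 v
  a_smooth : ContDiff ℝ 1 a
  α_smooth : ContDiff ℝ 1 α
  e1_cont : Continuous e1
  e2_cont : Continuous e2
  F_cont : Continuous F
  δ_pos : 0 < δ
  δ_small : δ ≤ 1 / 1000
  eq : ∀ p, rho2 p < 0.64 → YY P (YY P v) p + XX P (fun q => a q * XX P v q) p
    + α p * XX P (YY P v) p + e1 p * YY P v p + e2 p * XX P v p = F p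
  a_bd : ∀ p, rho2 p < 0.64 → |a p - δ * (P p ^ 2 + p.2 ^ 2 - 1 / 4)| ≤ δ / 1000
  aX_bd : ∀ p, rho2 p < 0.64 → |XX P a p - 2 * δ * P p| ≤ δ / 1000
  aY_bd : ∀ p, rho2 p < 0.64 → |YY P a p - 2 * δ * p.2| ≤ δ / 1000
  α_bd : ∀ p, rho2 p < 0.64 → |α p| ≤ δ / 1000
  αX_bd : ∀ p, rho2 p < 0.64 → |XX P α p| ≤ δ / 1000
  αY_bd : ∀ p, rho2 p < 0.64 → |YY P α p| ≤ δ / 1000
  e1_bd : ∀ p, rho2 p < 0.64 → |e1 p| ≤ δ / 1000
  e2_bd : ∀ p, rho2 p < 0.64 → |e2 p| ≤ δ / 1000

/-! ## the weight `μ₀` and its derivatives -/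

/-- `μ₀(s) = exp (-B/s + 5s/4)` for `s > 0`, `0` for `s ≤ 0`. -/
noncomputable def mu0 (B s : ℝ) : ℝ := if 0 < s then Real.exp (-(B / s) + 5 / 4 * s) else 0

/-- `μ₀'`. -/
noncomputable def mu1 (B s : ℝ) : ℝ :=
  if 0 < s then (B / s ^ 2 + 5 / 4) * Real.exp (-(B / s) + 5 / 4 * s) else 0

/-- `μ₀''`. -/
noncomputable def mu2 (B s : ℝ) : ℝ :=
  if 0 < s then ((B / s ^ 2 + 5 / 4) ^ 2 - 2 * B / s ^ 3) * Real.exp (-(B / s) + 5 / 4 * s) else 0

/-! ## the regions `Om κ` -/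

/-- `d(κ) = (1 + κ) / (200 M n⁸)`. -/
noncomputable def dK (n : ℕ) (M κ : ℝ) : ℝ := (1 + κ) / (200 * M * (n : ℝ) ^ 8)

/-- `Om κ = {ρ < 0.78 - 0.03 κ, |P| > d(κ) or ρ > 0.60 + 0.03 κ}`. -/
def Om (P : Pl → ℝ) (n : ℕ) (M κ : ℝ) : Set Pl :=
  {p | rho2 p < (0.78 - 0.03 * κ) ^ 2 ∧ (dK n M κ < |P p| ∨ (0.60 + 0.03 * κ) ^ 2 < rho2 p)}

/-! ## bits -/

/-- smooth bump: `1` on `[-1/2,1/2]`, `0` outside `(-1,1)`, values in `[0,1]`. -/
noncomputable def bmp (y : ℝ) : ℝ := Real.smoothTransition (2 - 2 * y) * Real.smoothTransition (2 + 2 * y)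

/-- `ϖ = c_* n⁻⁸`. -/
noncomputable def varpi (cs : ℝ) (n : ℕ) : ℝ := cs / (n : ℝ) ^ 8

/-- `ℓ = c_* n⁻¹¹⁵ / 8`. -/
noncomputable def ell (cs : ℝ) (n : ℕ) : ℝ := cs / (8 * (n : ℝ) ^ 115)

/-- half width (in `P`) of the strip around a bit. -/
noncomputable def hs (cs : ℝ) (n : ℕ) : ℝ := 5 / 2 * varpi cs n * ell cs n

/-- the bit centred at `(0, tj)`. -/
noncomputable def bit (cs : ℝ) (n : ℕ) (tj : ℝ) (p : Pl) : ℝ :=
  bmp ((p.2 - tj) / ell cs n) * bmp (p.1 / (varpi cs n * ell cs n))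

/-- `t_j = 8 ℓ j`, `0 ≤ j < n^107`. -/
noncomputable def tJ (cs : ℝ) (n : ℕ) (j : ℕ) : ℝ := 8 * ell cs n * j

/-- background: `-Δ phi0 = ρ² - 1/4` for `ρ² < 0.7`. -/
noncomputable def phi0 (p : Pl) : ℝ :=
  Real.smoothTransition ((0.9 - rho2 p) / 0.2) * ((rho2 p - rho2 p ^ 2 - 1) / 16)

/-- sum of the bits of one direction, selected by the string `s`. -/
noncomputable def bits (cs : ℝ) (n : ℕ) (s : Fin (n ^ 107) → Bool) (p : Pl) : ℝ :=
  ∑ j : Fin (n ^ 107), (if s j then 1 else 0) * bit cs n (tJ cs n j) p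

/-- rotation by the angle `θ`. -/
noncomputable def rot (θ : ℝ) (p : Pl) : Pl :=
  (p.1 * Real.cos θ - p.2 * Real.sin θ, p.1 * Real.sin θ + p.2 * Real.cos θ)

/-- `θ_l = 2 π l / n⁹`. -/
noncomputable def ang (n : ℕ) (l : ℕ) : ℝ := 2 * Real.pi * l / (n : ℝ) ^ 9

/-- the potential `φ̌_σ` (the conformal factor is `exp (2 r² φ̌_σ)`). -/
noncomputable def phc (cs b : ℝ) (n : ℕ) (σ : Fin (n ^ 9) → Fin (n ^ 107) → Bool) (p : Pl) : ℝ :=
  ((n : ℝ) ^ 16)⁻¹ * phi0 p + b * ∑ l : Fin (n ^ 9), bits cs n (σ l) (rot (-ang n l) p)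

/-! ## Darboux equation -/

/-- The Darboux equation with parameter `ι` for the metric `exp (2 ι ph) (dx² + dt²)`. -/
def Darb (ι : ℝ) (ph u : Pl → ℝ) (p : Pl) : Prop :=
  (dx (dx u) p - ι * (dx ph p * dx u p - dt ph p * dt u p))
      * (dt (dt u) p + ι * (dx ph p * dx u p - dt ph p * dt u p))
    - (dt (dx u) p - ι * (dt ph p * dx u p + dx ph p * dt u p)) ^ 2
  = -(dx (dx ph) p + dt (dt ph) p)
      * (Real.exp (2 * ι * ph p) - ι * (dx u p ^ 2 + dt u p ^ 2))

/-- The normalised potential `φ̂_s = δ phi0 + G + b' bits s`. -/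
noncomputable def phn (cs δ b' : ℝ) (n : ℕ) (G : Pl → ℝ) (s : Fin (n ^ 107) → Bool) (p : Pl) : ℝ :=
  δ * phi0 p + G p + b' * bits cs n s p

/-- The normalised family of solutions of the Darboux equation (`PROOF.md`, §4). -/
structure NormFam (n : ℕ) (M cs δ ι b' ε : ℝ) (G : Pl → ℝ)
    (S : Finset (Fin (n ^ 107) → Bool)) (s0 : Fin (n ^ 107) → Bool)
    (u : (Fin (n ^ 107) → Bool) → Pl → ℝ) : Prop where
  s0_mem : s0 ∈ S
  smooth : ∀ s ∈ S, ContDiff ℝ 4 (u s)
  G_smooth : ContDiff ℝ ∞ G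
  G_small : ∀ p, Dle 3 G (ε * δ) p
  δ_lower : 1 / (4 * M ^ 2 * (n : ℝ) ^ 16) ≤ δ
  δ_upper : δ ≤ 4 * M ^ 2 / (n : ℝ) ^ 16
  ι_nonneg : 0 ≤ ι
  ι_small : ι ≤ ε
  darb : ∀ s ∈ S, ∀ p, rho2 p < 0.64 → Darb ι (phn cs δ b' n G s) (u s) p
  ref : ∀ p, Dle 3 (fun q => u s0 q - q.1 ^ 2 / 2) ε p
  ref_dx : dx (u s0) 0 = 0
  ref_dt : dt (u s0) 0 = 0
  slope : |dt (dx (u s0)) 0| ≤ varpi cs n
  close : ∀ s ∈ S, ∀ p, Dle 3 (fun q => u s q - u s0 q) (ε * δ) p

end Vale.Agent.P229.D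
end

section

section

/-!
# P229, disproof, task T18: the Darboux equation (`PROOF.md`, §2)
-/

open scoped ContDiff Topology RealInnerProductSpace
open MeasureTheory Set

namespace Vale.Agent.P229.D

/-- `F` is isometric on `V` for the metric `exp (2 φ) (dx² + dt²)`. -/
def ConfIso (φ : Pl → ℝ) (V : Set Pl) (F : Pl → E3) : Prop :=
  ∀ p ∈ V, ⟪fderiv ℝ F p (1, 0), fderiv ℝ F p (1, 0)⟫ = Real.exp (2 * φ p) ∧
    ⟪fderiv ℝ F p (0, 1), fderiv ℝ F p (0, 1)⟫ = Real.exp (2 * φ p) ∧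
    ⟪fderiv ℝ F p (1, 0), fderiv ℝ F p (0, 1)⟫ = 0

section geomaux

variable {E : Type} [NormedAddCommGroup E] [NormedSpace ℝ E]

/-- derivative in the direction `v` -/
noncomputable def geomD (v : Pl) (G : Pl → E) (q : Pl) : E := fderiv ℝ G q v

theorem geomD_contDiffAt {m n : WithTop ℕ∞} {G : Pl → E} {q : Pl} (h : ContDiffAt ℝ n G q)
    (hmn : m + 1 ≤ n) (v : Pl) : ContDiffAt ℝ m (geomD v G) q :=
  (h.fderiv_right hmn).clm_apply contDiffAt_const

theorem geomD_comm {G : Pl → E} {q : Pl} (h : ContDiffAt ℝ 2 G q) (v w : Pl) :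
    geomD v (geomD w G) q = geomD w (geomD v G) q := by
  have h1 : ∀ a b : Pl, geomD a (geomD b G) q = fderiv ℝ (fderiv ℝ G) q a b := by
    intro a b
    have hd : DifferentiableAt ℝ (fderiv ℝ G) q :=
      (h.fderiv_right (m := 1) (by norm_num)).differentiableAt (by norm_num)
    have : HasFDerivAt (fun x => fderiv ℝ G x b) _ q := hd.hasFDerivAt.clm_apply (hasFDerivAt_const b q)
    change fderiv ℝ (fun x => fderiv ℝ G x b) q a = _
    rw [this.fderiv]
    simp
  rw [h1, h1]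
  exact (h.isSymmSndFDerivAt (by simp)) v w

theorem geomD_congr {G H : Pl → E} {q : Pl} (h : G =ᶠ[𝓝 q] H) (v : Pl) :
    geomD v G q = geomD v H q := by
  unfold geomD
  rw [h.fderiv_eq]

theorem geomD_inner {G H : Pl → E3} {q : Pl} (hG : DifferentiableAt ℝ G q)
    (hH : DifferentiableAt ℝ H q) (v : Pl) :
    geomD v (fun x => ⟪G x, H x⟫) q = ⟪G q, geomD v H q⟫ + ⟪geomD v G q, H q⟫ := by
  unfold geomD
  exact fderiv_inner_apply ℝ hG hH v

theorem geomD_exp {φ : Pl → ℝ} {q : Pl} (hφ : DifferentiableAt ℝ φ q) (v : Pl) :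
    geomD v (fun x => Real.exp (2 * φ x)) q = 2 * geomD v φ q * Real.exp (2 * φ q) := by
  unfold geomD
  have h := ((hφ.hasFDerivAt.const_mul 2).exp).fderiv
  rw [h]
  simp only [smul_apply, smul_eq_mul]
  ring

theorem geomD_mul {f g : Pl → ℝ} {q : Pl} (hf : DifferentiableAt ℝ f q)
    (hg : DifferentiableAt ℝ g q) (v : Pl) :
    geomD v (fun x => f x * g x) q = f q * geomD v g q + geomD v f q * g q := by
  unfold geomD
  have h := (hf.hasFDerivAt.mul hg.hasFDerivAt).fderiv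
  change fderiv ℝ (fun x => f x * g x) q v = _
  have h' : fderiv ℝ (fun x => f x * g x) q = f q • fderiv ℝ g q + g q • fderiv ℝ f q := h
  rw [h']
  simp only [add_apply, smul_apply, smul_eq_mul, add_right_inj]
  ring

theorem geomD_neg {f : Pl → ℝ} {q : Pl} (v : Pl) :
    geomD v (fun x => - f x) q = - geomD v f q := by
  unfold geomD
  rw [fderiv_fun_neg]
  simp

/-- a unit vector normal to two orthogonal vectors of the same length, with Parseval's identity -/
theorem geom_normal {a b : E3} {s : ℝ} (hs : 0 < s) (ha : ⟪a, a⟫ = s) (hb : ⟪b, b⟫ = s)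
    (hab : ⟪a, b⟫ = 0) :
    ∃ n : E3, ∀ x y : E3, s * ⟪x, y⟫ = ⟪x, a⟫ * ⟪y, a⟫ + ⟪x, b⟫ * ⟪y, b⟫ +
      s * (⟪x, n⟫ * ⟪y, n⟫) := by
  have hrs : 0 < √s := Real.sqrt_pos.2 hs
  have hss : √s * √s = s := Real.mul_self_sqrt hs.le
  let v : Fin 3 → E3 := ![(√s)⁻¹ • a, (√s)⁻¹ • b, 0]
  have h0 : v 0 = (√s)⁻¹ • a := rfl
  have h1 : v 1 = (√s)⁻¹ • b := rfl
  have hba : ⟪b, a⟫ = 0 := by rw [real_inner_comm]; exact hab
  have hinv : (√s)⁻¹ * ((√s)⁻¹ * s) = 1 := by
    field_simp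
    rw [sq, hss]
  have hv : Orthonormal ℝ (({0, 1} : Set (Fin 3)).domRestrict v) := by
    rw [orthonormal_iff_ite]
    rintro ⟨i, hi⟩ ⟨j, hj⟩
    rcases hi with rfl | hi
    · rcases hj with rfl | hj
      · change ⟪v 0, v 0⟫ = _
        rw [h0, real_inner_smul_left, real_inner_smul_right, ha, hinv, if_pos rfl]
      · rw [mem_singleton_iff] at hj
        subst hj
        change ⟪v 0, v 1⟫ = _
        rw [h0, h1, real_inner_smul_left, real_inner_smul_right, hab,
          if_neg (fun h => by simpa using congrArg Subtype.val h), mul_zero, mul_zero]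
    · rw [mem_singleton_iff] at hi
      subst hi
      rcases hj with rfl | hj
      · change ⟪v 1, v 0⟫ = _
        rw [h0, h1, real_inner_smul_left, real_inner_smul_right, hba,
          if_neg (fun h => by simpa using congrArg Subtype.val h), mul_zero, mul_zero]
      · rw [mem_singleton_iff] at hj
        subst hj
        change ⟪v 1, v 1⟫ = _
        rw [h1, real_inner_smul_left, real_inner_smul_right, hb, hinv, if_pos rfl]
  obtain ⟨B, hB⟩ := hv.exists_orthonormalBasis_extension_of_card_eq (by simp)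
  refine ⟨B 2, fun x y => ?_⟩
  have h := B.sum_inner_mul_inner x y
  rw [Fin.sum_univ_three, hB 0 (by simp), hB 1 (by simp only [Fin.isValue, mem_insert_iff, one_ne_zero, mem_singleton_iff, or_true])] at h
  rw [h0, h1] at h
  simp only [real_inner_smul_left, real_inner_smul_right] at h
  rw [real_inner_comm y a, real_inner_comm y b] at h
  rw [← h, real_inner_comm y (B 2)]
  have h3 : s * ((√s)⁻¹ * ((√s)⁻¹)) = 1 := by
    rw [← hinv]; ring
  linear_combination (⟪x, a⟫ * ⟪y, a⟫ + ⟪x, b⟫ * ⟪y, b⟫) * h3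

/-- the algebra behind the Darboux equation -/
theorem geom_algebra {s : ℝ} (hs : 0 < s) {a b e xx xt tt : E3} (ha : ⟪a, a⟫ = s)
    (hb : ⟪b, b⟫ = s) (hab : ⟪a, b⟫ = 0) (he : ‖e‖ = 1) {px pt lap : ℝ}
    (h1 : ⟪xx, a⟫ = px * s) (h2 : ⟪xx, b⟫ = -(pt * s)) (h3 : ⟪xt, a⟫ = pt * s)
    (h4 : ⟪xt, b⟫ = px * s) (h5 : ⟪tt, a⟫ = -(px * s)) (h6 : ⟪tt, b⟫ = pt * s)
    (h7 : ⟪xx, tt⟫ - ⟪xt, xt⟫ = -(lap + 2 * (px ^ 2 + pt ^ 2)) * s) :
    (⟪xx, e⟫ - px * ⟪a, e⟫ + pt * ⟪b, e⟫) * (⟪tt, e⟫ + px * ⟪a, e⟫ - pt * ⟪b, e⟫)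
      - (⟪xt, e⟫ - pt * ⟪a, e⟫ - px * ⟪b, e⟫) ^ 2
    = -lap * (s - (⟪a, e⟫ ^ 2 + ⟪b, e⟫ ^ 2)) := by
  obtain ⟨n, hn⟩ := geom_normal hs ha hb hab
  have e1 : ⟪xx, e⟫ - px * ⟪a, e⟫ + pt * ⟪b, e⟫ = ⟪xx, n⟫ * ⟪e, n⟫ := by
    have h := hn xx e
    rw [h1, h2, real_inner_comm a e, real_inner_comm b e] at h
    have : s * (⟪xx, e⟫ - px * ⟪a, e⟫ + pt * ⟪b, e⟫) = s * (⟪xx, n⟫ * ⟪e, n⟫) := by
      linear_combination h
    exact mul_left_cancel₀ hs.ne' this
  have e2 : ⟪tt, e⟫ + px * ⟪a, e⟫ - pt * ⟪b, e⟫ = ⟪tt, n⟫ * ⟪e, n⟫ := by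
    have h := hn tt e
    rw [h5, h6, real_inner_comm a e, real_inner_comm b e] at h
    have : s * (⟪tt, e⟫ + px * ⟪a, e⟫ - pt * ⟪b, e⟫) = s * (⟪tt, n⟫ * ⟪e, n⟫) := by
      linear_combination h
    exact mul_left_cancel₀ hs.ne' this
  have e3 : ⟪xt, e⟫ - pt * ⟪a, e⟫ - px * ⟪b, e⟫ = ⟪xt, n⟫ * ⟪e, n⟫ := by
    have h := hn xt e
    rw [h3, h4, real_inner_comm a e, real_inner_comm b e] at h
    have : s * (⟪xt, e⟫ - pt * ⟪a, e⟫ - px * ⟪b, e⟫) = s * (⟪xt, n⟫ * ⟪e, n⟫) := by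
      linear_combination h
    exact mul_left_cancel₀ hs.ne' this
  have e4 : s * (⟪e, n⟫ * ⟪e, n⟫) = s - (⟪a, e⟫ ^ 2 + ⟪b, e⟫ ^ 2) := by
    have h := hn e e
    rw [real_inner_self_eq_norm_sq, he, real_inner_comm a e, real_inner_comm b e] at h
    linear_combination -h
  have e5 : ⟪xx, n⟫ * ⟪tt, n⟫ - ⟪xt, n⟫ * ⟪xt, n⟫ = -lap * s := by
    have h8 := hn xx tt
    have h9 := hn xt xt
    rw [h1, h2, h5, h6] at h8
    rw [h3, h4] at h9
    have : s * (⟪xx, n⟫ * ⟪tt, n⟫ - ⟪xt, n⟫ * ⟪xt, n⟫) = s * (-lap * s) := by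
      linear_combination h9 - h8 + s * h7
    exact mul_left_cancel₀ hs.ne' this
  rw [e1, e2, e3]
  linear_combination (⟪e, n⟫ * ⟪e, n⟫) * e5 - lap * e4

theorem geomD_inner_const {G : Pl → E3} {q : Pl} (hG : DifferentiableAt ℝ G q) (e : E3) (r : ℝ)
    (v : Pl) : geomD v (fun x => ⟪G x, e⟫ / r) q = ⟪geomD v G q, e⟫ / r := by
  have h1 : HasFDerivAt (fun x => ⟪G x, e⟫) _ q := hG.hasFDerivAt.inner ℝ (hasFDerivAt_const e q)
  have h2 := (h1.mul_const (r⁻¹)).fderiv
  unfold geomD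
  simp only [div_eq_mul_inv]
  rw [h2]
  simp only [smul_apply, ContinuousLinearMap.comp_apply, ContinuousLinearMap.prod_apply, zero_apply, fderivInnerCLM_apply, inner_zero_right, zero_add, smul_eq_mul]
  ring

end geomaux

/-- The Darboux equation for the height function in the direction `e`. -/
theorem darboux {V : Set Pl} (hV : IsOpen V) {F : Pl → E3} (hF : ContDiffOn ℝ 4 F V)
    {r : ℝ} (hr : 0 < r) {ph : Pl → ℝ} (hph : ContDiff ℝ ∞ ph)
    (hiso : ConfIso (fun p => r ^ 2 * ph p) V F) {e : E3} (he : ‖e‖ = 1) {p : Pl} (hp : p ∈ V) :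
    Darb (r ^ 2) ph (fun q => ⟪F q - F 0, e⟫ / r) p := by
  have hF4 : ∀ q ∈ V, ContDiffAt ℝ 4 F q := fun q hq => hF.contDiffAt (hV.mem_nhds hq)
  have hφs : ContDiff ℝ ∞ (fun p => r ^ 2 * ph p) := contDiff_const.mul hph
  obtain ⟨φ, hφ⟩ : ∃ φ : Pl → ℝ, φ = fun p => r ^ 2 * ph p := ⟨_, rfl⟩
  rw [← hφ] at hφs hiso
  have hφd : Differentiable ℝ φ := hφs.differentiable (by norm_num)
  have hφ1 : ∀ v : Pl, ContDiff ℝ ∞ (geomD v φ) := fun v =>
    contDiff_iff_contDiffAt.2 fun q => geomD_contDiffAt (n := ∞) hφs.contDiffAt (by simp) v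
  have hφ1d : ∀ v : Pl, Differentiable ℝ (geomD v φ) := fun v => (hφ1 v).differentiable (by norm_num)
  have hED : Differentiable ℝ (fun x => Real.exp (2 * φ x)) := (hφd.const_mul 2).exp
  obtain ⟨a, ha⟩ : ∃ a : Pl → E3, a = geomD (1, 0) F := ⟨_, rfl⟩
  obtain ⟨b, hb⟩ : ∃ b : Pl → E3, b = geomD (0, 1) F := ⟨_, rfl⟩
  have ha3 : ∀ q ∈ V, ContDiffAt ℝ 3 a q := fun q hq => by
    rw [ha]; exact geomD_contDiffAt (hF4 q hq) (by norm_num) _
  have hb3 : ∀ q ∈ V, ContDiffAt ℝ 3 b q := fun q hq => by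
    rw [hb]; exact geomD_contDiffAt (hF4 q hq) (by norm_num) _
  have had : ∀ q ∈ V, DifferentiableAt ℝ a q := fun q hq => (ha3 q hq).differentiableAt (by norm_num)
  have hbd : ∀ q ∈ V, DifferentiableAt ℝ b q := fun q hq => (hb3 q hq).differentiableAt (by norm_num)
  have hFd : ∀ q ∈ V, DifferentiableAt ℝ F q := fun q hq => (hF4 q hq).differentiableAt (by norm_num)
  have ha2 : ∀ v : Pl, ∀ q ∈ V, ContDiffAt ℝ 2 (geomD v a) q := fun v q hq =>
    geomD_contDiffAt (ha3 q hq) (by norm_num) _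
  have ha2d : ∀ v : Pl, ∀ q ∈ V, DifferentiableAt ℝ (geomD v a) q := fun v q hq =>
    (ha2 v q hq).differentiableAt (by norm_num)
  have hcomm : ∀ q ∈ V, geomD (1, 0) b q = geomD (0, 1) a q := fun q hq => by
    rw [ha, hb]
    exact geomD_comm ((hF4 q hq).of_le (by norm_num)) _ _
  have hcongr : ∀ {f g : Pl → ℝ}, (∀ q ∈ V, f q = g q) → ∀ q ∈ V, ∀ v : Pl,
      geomD v f q = geomD v g q := fun h q hq v =>
    geomD_congr (Filter.eventuallyEq_of_mem (hV.mem_nhds hq) h) v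
  have R1 : ∀ v : Pl, ∀ q ∈ V, ⟪a q, geomD v a q⟫ = geomD v φ q * Real.exp (2 * φ q) := by
    intro v q hq
    have h := hcongr (f := fun x => ⟪a x, a x⟫) (g := fun x => Real.exp (2 * φ x))
      (fun x hx => by rw [ha]; exact (hiso x hx).1) q hq v
    rw [geomD_inner (had q hq) (had q hq), geomD_exp (hφd q), real_inner_comm (a q) (geomD v a q)] at h
    linear_combination h / 2
  have R2 : ∀ v : Pl, ∀ q ∈ V, ⟪b q, geomD v b q⟫ = geomD v φ q * Real.exp (2 * φ q) := by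
    intro v q hq
    have h := hcongr (f := fun x => ⟪b x, b x⟫) (g := fun x => Real.exp (2 * φ x))
      (fun x hx => by rw [hb]; exact (hiso x hx).2.1) q hq v
    rw [geomD_inner (hbd q hq) (hbd q hq), geomD_exp (hφd q), real_inner_comm (b q) (geomD v b q)] at h
    linear_combination h / 2
  have R3 : ∀ v : Pl, ∀ q ∈ V, ⟪a q, geomD v b q⟫ + ⟪geomD v a q, b q⟫ = 0 := by
    intro v q hq
    have h := hcongr (f := fun x => ⟪a x, b x⟫) (g := fun _ => (0 : ℝ))
      (fun x hx => by rw [ha, hb]; exact (hiso x hx).2.2) q hq v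
    rw [geomD_inner (had q hq) (hbd q hq)] at h
    rw [h]
    simp only [geomD, fderiv_fun_const, Pi.zero_apply, zero_apply]
  have h1 : ∀ q ∈ V, ⟪geomD (1, 0) a q, a q⟫ = geomD (1, 0) φ q * Real.exp (2 * φ q) :=
    fun q hq => by rw [real_inner_comm]; exact R1 _ q hq
  have h3 : ∀ q ∈ V, ⟪geomD (0, 1) a q, a q⟫ = geomD (0, 1) φ q * Real.exp (2 * φ q) :=
    fun q hq => by rw [real_inner_comm]; exact R1 _ q hq
  have h4 : ∀ q ∈ V, ⟪geomD (0, 1) a q, b q⟫ = geomD (1, 0) φ q * Real.exp (2 * φ q) :=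
    fun q hq => by rw [← hcomm q hq, real_inner_comm]; exact R2 _ q hq
  have h6 : ∀ q ∈ V, ⟪geomD (0, 1) b q, b q⟫ = geomD (0, 1) φ q * Real.exp (2 * φ q) :=
    fun q hq => by rw [real_inner_comm]; exact R2 _ q hq
  have h2 : ∀ q ∈ V, ⟪geomD (1, 0) a q, b q⟫ = -(geomD (0, 1) φ q * Real.exp (2 * φ q)) := by
    intro q hq
    have h := R3 (1, 0) q hq
    rw [hcomm q hq, R1 _ q hq] at h
    linear_combination h
  have h5 : ∀ q ∈ V, ⟪geomD (0, 1) b q, a q⟫ = -(geomD (1, 0) φ q * Real.exp (2 * φ q)) := by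
    intro q hq
    have h := R3 (0, 1) q hq
    rw [h4 q hq] at h
    rw [real_inner_comm]
    linear_combination h
  -- second derivatives
  have s1 : ⟪geomD (1, 0) a p, geomD (0, 1) b p⟫ + ⟪geomD (0, 1) (geomD (1, 0) a) p, b p⟫
      = -((geomD (0, 1) (geomD (0, 1) φ) p + 2 * geomD (0, 1) φ p ^ 2) * Real.exp (2 * φ p)) := by
    have h := hcongr h2 p hp (0, 1)
    rw [geomD_inner (ha2d _ p hp) (hbd p hp), geomD_neg, geomD_mul (hφ1d _ p) (hED p),
      geomD_exp (hφd p)] at h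
    linear_combination h
  have s2 : ⟪geomD (0, 1) a p, geomD (1, 0) b p⟫ + ⟪geomD (1, 0) (geomD (0, 1) a) p, b p⟫
      = (geomD (1, 0) (geomD (1, 0) φ) p + 2 * geomD (1, 0) φ p ^ 2) * Real.exp (2 * φ p) := by
    have h := hcongr h4 p hp (1, 0)
    rw [geomD_inner (ha2d _ p hp) (hbd p hp), geomD_mul (hφ1d _ p) (hED p),
      geomD_exp (hφd p)] at h
    linear_combination h
  rw [hcomm p hp, geomD_comm ((ha3 p hp).of_le (by norm_num)) (1, 0) (0, 1)] at s2
  have h7 : ⟪geomD (1, 0) a p, geomD (0, 1) b p⟫ - ⟪geomD (0, 1) a p, geomD (0, 1) a p⟫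
      = -((geomD (1, 0) (geomD (1, 0) φ) p + geomD (0, 1) (geomD (0, 1) φ) p)
        + 2 * (geomD (1, 0) φ p ^ 2 + geomD (0, 1) φ p ^ 2)) * Real.exp (2 * φ p) := by
    linear_combination s1 - s2
  have key := geom_algebra (Real.exp_pos (2 * φ p)) (a := a p) (b := b p) (e := e)
    (by rw [ha]; exact (hiso p hp).1) (by rw [hb]; exact (hiso p hp).2.1)
    (by rw [ha, hb]; exact (hiso p hp).2.2) he (h1 p hp) (h2 p hp) (h3 p hp) (h4 p hp)
    (h5 p hp) (h6 p hp) h7
  -- derivatives of the height function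
  have u1 : ∀ v : Pl, ∀ q ∈ V, geomD v (fun q => ⟪F q - F 0, e⟫ / r) q = ⟪geomD v F q, e⟫ / r := by
    intro v q hq
    rw [geomD_inner_const ((hFd q hq).sub_const _)]
    congr 2
    unfold geomD
    rw [fderiv_sub_const]
  have u2 : ∀ v w : Pl, geomD w (geomD v (fun q => ⟪F q - F 0, e⟫ / r)) p
      = ⟪geomD w (geomD v F) p, e⟫ / r := by
    intro v w
    rw [hcongr (u1 v) p hp w]
    refine geomD_inner_const ?_ e r w
    exact (geomD_contDiffAt (m := 3) (hF4 p hp) (by norm_num) v).differentiableAt (by norm_num)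
  have f1 : ∀ v : Pl, ∀ q, geomD v φ q = r ^ 2 * geomD v ph q := by
    intro v q
    rw [hφ]
    unfold geomD
    rw [fderiv_const_mul (hph.differentiable (by norm_num) q)]
    simp
  have f2 : ∀ v w : Pl, ∀ q, geomD w (geomD v φ) q = r ^ 2 * geomD w (geomD v ph) q := by
    intro v w q
    have : geomD v φ = fun q => r ^ 2 * geomD v ph q := funext (f1 v)
    rw [this]
    have hd : DifferentiableAt ℝ (geomD v ph) q :=
      (geomD_contDiffAt (m := 1) (n := ∞) hph.contDiffAt (by norm_cast) v).differentiableAt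
        (by norm_num)
    change fderiv ℝ (fun q => r ^ 2 * geomD v ph q) q w = _
    rw [fderiv_const_mul hd]
    rfl
  have hdx : ∀ f : Pl → ℝ, dx f = geomD (1, 0) f := fun f => rfl
  have hdt : ∀ f : Pl → ℝ, dt f = geomD (0, 1) f := fun f => rfl
  unfold Darb
  simp only [hdx, hdt]
  rw [u2, u2, u2, u1 _ p hp, u1 _ p hp, ← ha, ← hb]
  simp only [f1, f2] at key
  have hφp : φ p = r ^ 2 * ph p := by rw [hφ]
  rw [hφp] at key
  have hr' : r ≠ 0 := hr.ne'
  have hexp : Real.exp (2 * r ^ 2 * ph p) = Real.exp (2 * (r ^ 2 * ph p)) := by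
    congr 1; ring
  rw [hexp]
  generalize Real.exp (2 * (r ^ 2 * ph p)) = s at key ⊢
  field_simp
  linear_combination key

end Vale.Agent.P229.D
end
end

section

section

/-!
# P229, disproof, task T12: the coefficients of the pair equation (`PROOF.md`, §5)
-/

open scoped ContDiff Topology
open MeasureTheory Set

namespace Vale.Agent.P229.D

/-- `u_xx - ι (ph_x u_x - ph_t u_t)`. -/
noncomputable def Hxx (ι : ℝ) (ph u : Pl → ℝ) (p : Pl) : ℝ :=
  dx (dx u) p - ι * (dx ph p * dx u p - dt ph p * dt u p)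

/-- `u_tt + ι (ph_x u_x - ph_t u_t)`. -/
noncomputable def Htt (ι : ℝ) (ph u : Pl → ℝ) (p : Pl) : ℝ :=
  dt (dt u) p + ι * (dx ph p * dx u p - dt ph p * dt u p)

/-- `u_xt - ι (ph_t u_x + ph_x u_t)`. -/
noncomputable def Hxt (ι : ℝ) (ph u : Pl → ℝ) (p : Pl) : ℝ :=
  dt (dx u) p - ι * (dt ph p * dx u p + dx ph p * dt u p)

/-- `f = -Δ ph`. -/
noncomputable def ff (ph : Pl → ℝ) (p : Pl) : ℝ := -(dx (dx ph) p + dt (dt ph) p)

/-- `E = exp (2 ι ph) - ι |∇u|²`. -/
noncomputable def EE (ι : ℝ) (ph u : Pl → ℝ) (p : Pl) : ℝ :=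
  Real.exp (2 * ι * ph p) - ι * (dx u p ^ 2 + dt u p ^ 2)

section
variable (ι : ℝ) (ph ph' u u' P : Pl → ℝ) (p : Pl)

noncomputable def pA : ℝ := (Hxx ι ph u p + Hxx ι ph' u' p) / 2
noncomputable def pB : ℝ := (Hxt ι ph u p + Hxt ι ph' u' p) / 2
noncomputable def pC : ℝ := (Htt ι ph u p + Htt ι ph' u' p) / 2

/-- coefficient `a`. -/
noncomputable def pa : ℝ :=
  dt P p ^ 2 - 2 * (pB ι ph ph' u u' p / pA ι ph ph' u u' p) * dt P p * dx P p
    + pC ι ph ph' u u' p / pA ι ph ph' u u' p * dx P p ^ 2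

/-- coefficient `α`. -/
noncomputable def palpha : ℝ :=
  2 * (dt P p - pB ι ph ph' u u' p / pA ι ph ph' u u' p * dx P p)

noncomputable def pb1 : ℝ :=
  ι * ((pA ι ph ph' u u' p - pC ι ph ph' u u' p) * ((dx ph p + dx ph' p) / 2)
      + 2 * pB ι ph ph' u u' p * ((dt ph p + dt ph' p) / 2))
    + 2 * ι * ((ff ph p + ff ph' p) / 2) * ((dx u p + dx u' p) / 2)

noncomputable def pb2 : ℝ :=
  ι * (-(pA ι ph ph' u u' p - pC ι ph ph' u u' p) * ((dt ph p + dt ph' p) / 2)
      + 2 * pB ι ph ph' u u' p * ((dx ph p + dx ph' p) / 2))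
    + 2 * ι * ((ff ph p + ff ph' p) / 2) * ((dt u p + dt u' p) / 2)

/-- coefficient `e₁`. -/
noncomputable def pe1 : ℝ := pb2 ι ph ph' u u' p / pA ι ph ph' u u' p

/-- coefficient `e₂`. -/
noncomputable def pe2 : ℝ :=
  (dt (dt P) p - 2 * (pB ι ph ph' u u' p / pA ι ph ph' u u' p) * dt (dx P) p
      + pC ι ph ph' u u' p / pA ι ph ph' u u' p * dx (dx P) p)
    + (pb1 ι ph ph' u u' p * dx P p + pb2 ι ph ph' u u' p * dt P p) / pA ι ph ph' u u' p
    - XX P (pa ι ph ph' u u' P) p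

/-- the factor `g = Ē / A`. -/
noncomputable def pg : ℝ := (EE ι ph u p + EE ι ph' u' p) / 2 / pA ι ph ph' u u' p

/-- the forcing `F`. -/
noncomputable def pF : ℝ :=
  ((ff ph p - ff ph' p) * ((EE ι ph u p + EE ι ph' u' p) / 2)
    + (ff ph p + ff ph' p) / 2 * (Real.exp (2 * ι * ph p) - Real.exp (2 * ι * ph' p))
    - ι * (pA ι ph ph' u u' p - pC ι ph ph' u u' p)
        * ((dx ph p - dx ph' p) * ((dx u p + dx u' p) / 2)
          - (dt ph p - dt ph' p) * ((dt u p + dt u' p) / 2))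
    - 2 * ι * pB ι ph ph' u u' p
        * ((dt ph p - dt ph' p) * ((dx u p + dx u' p) / 2)
          + (dx ph p - dx ph' p) * ((dt u p + dt u' p) / 2))) / pA ι ph ph' u u' p

end

end Vale.Agent.P229.D
end
end

section

section

/-!
# P229, disproof, task T12a: proof of the pair equation (`PROOF.md`, §5)
-/

open scoped ContDiff Topology
open MeasureTheory Set

namespace Vale.Agent.P229.D

theorem pair_alg_aux {ι A B C ux ut uxx uxt utt ux' ut' uxx' uxt' utt' fx ft fxx ftt fx' ft' fxx' ftt'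
    e e' : ℝ}
    (hAd : A = ((uxx - ι * (fx * ux - ft * ut)) + (uxx' - ι * (fx' * ux' - ft' * ut'))) / 2)
    (hBd : B = ((uxt - ι * (ft * ux + fx * ut)) + (uxt' - ι * (ft' * ux' + fx' * ut'))) / 2)
    (hCd : C = ((utt + ι * (fx * ux - ft * ut)) + (utt' + ι * (fx' * ux' - ft' * ut'))) / 2)
    (h : (uxx - ι * (fx * ux - ft * ut)) * (utt + ι * (fx * ux - ft * ut))
      - (uxt - ι * (ft * ux + fx * ut)) ^ 2
      = -(fxx + ftt) * (e - ι * (ux ^ 2 + ut ^ 2)))
    (h' : (uxx' - ι * (fx' * ux' - ft' * ut')) * (utt' + ι * (fx' * ux' - ft' * ut'))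
      - (uxt' - ι * (ft' * ux' + fx' * ut')) ^ 2
      = -(fxx' + ftt') * (e' - ι * (ux' ^ 2 + ut' ^ 2))) :
    A * (utt - utt') - 2 * B * (uxt - uxt') + C * (uxx - uxx')
      + (ι * ((A - C) * ((fx + fx') / 2) + 2 * B * ((ft + ft') / 2))
        + 2 * ι * ((-(fxx + ftt) + -(fxx' + ftt')) / 2) * ((ux + ux') / 2)) * (ux - ux')
      + (ι * (-(A - C) * ((ft + ft') / 2) + 2 * B * ((fx + fx') / 2))
        + 2 * ι * ((-(fxx + ftt) + -(fxx' + ftt')) / 2) * ((ut + ut') / 2)) * (ut - ut')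
    = (-(fxx + ftt) - -(fxx' + ftt'))
        * (((e - ι * (ux ^ 2 + ut ^ 2)) + (e' - ι * (ux' ^ 2 + ut' ^ 2))) / 2)
      + (-(fxx + ftt) + -(fxx' + ftt')) / 2 * (e - e')
      - ι * (A - C) * ((fx - fx') * ((ux + ux') / 2) - (ft - ft') * ((ut + ut') / 2))
      - 2 * ι * B * ((ft - ft') * ((ux + ux') / 2) + (fx - fx') * ((ut + ut') / 2)) := by
  subst hAd hBd hCd
  linear_combination h - h'

theorem pair_frame_aux {A B C b1 b2 N Xa vx vt vxx vxt vtt Px Pt Pxx Pxt Ptt : ℝ}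
    (hA : A ≠ 0) (hPx : Px ≠ 0)
    (key : A * vtt - 2 * B * vxt + C * vxx + b1 * vx + b2 * vt = N) :
    (vtt - 2 * (Pt / Px) * vxt + (Pt / Px) ^ 2 * vxx
        - (Ptt / Px - 2 * (Pt / Px) * Pxt / Px + (Pt / Px) ^ 2 * Pxx / Px) * vx)
      + (Xa * (vx / Px) + (Pt ^ 2 - 2 * (B / A) * Pt * Px + C / A * Px ^ 2)
          * (vxx / Px ^ 2 - Pxx * vx / Px ^ 3))
      + 2 * (Pt - B / A * Px) * (vxt / Px - Pt / Px * vxx / Px
          - (Pxt / Px - Pt / Px * Pxx / Px) * vx / Px)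
      + b2 / A * (vt - Pt / Px * vx)
      + ((Ptt - 2 * (B / A) * Pxt + C / A * Pxx) + (b1 * Px + b2 * Pt) / A - Xa) * (vx / Px)
    = N / A := by
  subst key
  field_simp
  ring

/-- Second-order frame derivatives in coordinates. -/
theorem YY_YY_eq {P v : Pl → ℝ} (hP : Frame P) (hv : ContDiff ℝ 2 v) (p : Pl) :
    YY P (YY P v) p
      = dt (dt v) p - 2 * (dt P p / dx P p) * dt (dx v) p + (dt P p / dx P p) ^ 2 * dx (dx v) p
        - (dt (dt P) p / dx P p - 2 * (dt P p / dx P p) * dt (dx P) p / dx P p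
            + (dt P p / dx P p) ^ 2 * dx (dx P) p / dx P p) * dx v p := by
  have hP2 : ContDiff ℝ 2 P := hP.smooth.of_le (by norm_num)
  have dPx : DifferentiableAt ℝ (dx P) p :=
    (contDiff_dx (m := 1) hP2 (by norm_num)).differentiable (by norm_num) p
  have dPt : DifferentiableAt ℝ (dt P) p :=
    (contDiff_dt (m := 1) hP2 (by norm_num)).differentiable (by norm_num) p
  have dvx : DifferentiableAt ℝ (dx v) p :=
    (contDiff_dx (m := 1) hv (by norm_num)).differentiable (by norm_num) p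
  have dvt : DifferentiableAt ℝ (dt v) p :=
    (contDiff_dt (m := 1) hv (by norm_num)).differentiable (by norm_num) p
  have hne := hP.dx_ne p
  have q1 : DifferentiableAt ℝ (fun q => dt P q / dx P q) p := by
    simp only [div_eq_mul_inv]; exact dPt.mul (dPx.inv hne)
  have e2 : YY P v = fun p => dt v p - dt P p / dx P p * dx v p := rfl
  rw [YY_eq_fderiv, e2, fderiv_fun_sub dvt (q1.fun_mul dvx),
    sub_apply, fderiv_mul_apply q1 dvx, fderiv_div_apply dPt dPx hne]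
  have c1 := dx_dt_comm hP2 p
  have c2 := dx_dt_comm hv p
  simp only [fderiv_eq]
  rw [c1, c2]
  field_simp
  ring

theorem XX_YY_eq {P v : Pl → ℝ} (hP : Frame P) (hv : ContDiff ℝ 2 v) (p : Pl) :
    XX P (YY P v) p
      = dt (dx v) p / dx P p - dt P p / dx P p * dx (dx v) p / dx P p
        - (dt (dx P) p / dx P p - dt P p / dx P p * dx (dx P) p / dx P p)
          * dx v p / dx P p := by
  have hP2 : ContDiff ℝ 2 P := hP.smooth.of_le (by norm_num)
  have dPx : DifferentiableAt ℝ (dx P) p :=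
    (contDiff_dx (m := 1) hP2 (by norm_num)).differentiable (by norm_num) p
  have dPt : DifferentiableAt ℝ (dt P) p :=
    (contDiff_dt (m := 1) hP2 (by norm_num)).differentiable (by norm_num) p
  have dvx : DifferentiableAt ℝ (dx v) p :=
    (contDiff_dx (m := 1) hv (by norm_num)).differentiable (by norm_num) p
  have dvt : DifferentiableAt ℝ (dt v) p :=
    (contDiff_dt (m := 1) hv (by norm_num)).differentiable (by norm_num) p
  have hne := hP.dx_ne p
  have q1 : DifferentiableAt ℝ (fun q => dt P q / dx P q) p := by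
    simp only [div_eq_mul_inv]; exact dPt.mul (dPx.inv hne)
  have e2 : YY P v = fun p => dt v p - dt P p / dx P p * dx v p := rfl
  rw [XX_eq_fderiv, e2, fderiv_fun_sub dvt (q1.fun_mul dvx),
    sub_apply, fderiv_mul_apply q1 dvx, fderiv_div_apply dPt dPx hne]
  have c1 := dx_dt_comm hP2 p
  have c2 := dx_dt_comm hv p
  simp only [fderiv_eq]
  rw [c1, c2]
  field_simp
  ring

theorem XX_XX_eq {P v : Pl → ℝ} (hP : Frame P) (hv : ContDiff ℝ 2 v) (p : Pl) :
    XX P (XX P v) p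
      = dx (dx v) p / dx P p ^ 2 - dx (dx P) p * dx v p / dx P p ^ 3 := by
  have hP2 : ContDiff ℝ 2 P := hP.smooth.of_le (by norm_num)
  have dPx : DifferentiableAt ℝ (dx P) p :=
    (contDiff_dx (m := 1) hP2 (by norm_num)).differentiable (by norm_num) p
  have dvx : DifferentiableAt ℝ (dx v) p :=
    (contDiff_dx (m := 1) hv (by norm_num)).differentiable (by norm_num) p
  have hne := hP.dx_ne p
  have e1 : XX P v = fun p => dx v p / dx P p := rfl
  rw [XX_eq_fderiv, e1, fderiv_div_apply dvx dPx hne]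
  simp only [fderiv_eq]
  field_simp
  ring

theorem dx_fun_sub {f g : Pl → ℝ} (hf : ContDiff ℝ 1 f) (hg : ContDiff ℝ 1 g) :
    dx (fun q => f q - g q) = fun q => dx f q - dx g q :=
  funext fun q => dx_sub (hf.differentiable (by norm_num) q) (hg.differentiable (by norm_num) q)

theorem dt_fun_sub {f g : Pl → ℝ} (hf : ContDiff ℝ 1 f) (hg : ContDiff ℝ 1 g) :
    dt (fun q => f q - g q) = fun q => dt f q - dt g q :=
  funext fun q => dt_sub (hf.differentiable (by norm_num) q) (hg.differentiable (by norm_num) q)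

theorem contDiff_pa {ι : ℝ} {ph ph' u u' P : Pl → ℝ} (hP : Frame P) (hph : ContDiff ℝ 4 ph)
    (hph' : ContDiff ℝ 4 ph') (hu : ContDiff ℝ 4 u) (hu' : ContDiff ℝ 4 u')
    (hA : ∀ q, pA ι ph ph' u u' q ≠ 0) : ContDiff ℝ 2 (pa ι ph ph' u u' P) := by
  have f1 : ContDiff ℝ 2 (dx ph) := contDiff_dx (m := 2) (hph.of_le (by norm_num) : ContDiff ℝ 3 ph) (by norm_num)
  have f2 : ContDiff ℝ 2 (dt ph) := contDiff_dt (m := 2) (hph.of_le (by norm_num) : ContDiff ℝ 3 ph) (by norm_num)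
  have f3 : ContDiff ℝ 2 (dx ph') := contDiff_dx (m := 2) (hph'.of_le (by norm_num) : ContDiff ℝ 3 ph') (by norm_num)
  have f4 : ContDiff ℝ 2 (dt ph') := contDiff_dt (m := 2) (hph'.of_le (by norm_num) : ContDiff ℝ 3 ph') (by norm_num)
  have g1 : ContDiff ℝ 3 (dx u) := contDiff_dx (m := 3) hu (by norm_num)
  have g2 : ContDiff ℝ 3 (dt u) := contDiff_dt (m := 3) hu (by norm_num)
  have g3 : ContDiff ℝ 3 (dx u') := contDiff_dx (m := 3) hu' (by norm_num)
  have g4 : ContDiff ℝ 3 (dt u') := contDiff_dt (m := 3) hu' (by norm_num)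
  have k1 : ContDiff ℝ 2 (dx (dx u)) := contDiff_dx (m := 2) g1 (by norm_num)
  have k2 : ContDiff ℝ 2 (dt (dx u)) := contDiff_dt (m := 2) g1 (by norm_num)
  have k3 : ContDiff ℝ 2 (dt (dt u)) := contDiff_dt (m := 2) g2 (by norm_num)
  have k4 : ContDiff ℝ 2 (dx (dx u')) := contDiff_dx (m := 2) g3 (by norm_num)
  have k5 : ContDiff ℝ 2 (dt (dx u')) := contDiff_dt (m := 2) g3 (by norm_num)
  have k6 : ContDiff ℝ 2 (dt (dt u')) := contDiff_dt (m := 2) g4 (by norm_num)
  have g1' : ContDiff ℝ 2 (dx u) := g1.of_le (by norm_num)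
  have g2' : ContDiff ℝ 2 (dt u) := g2.of_le (by norm_num)
  have g3' : ContDiff ℝ 2 (dx u') := g3.of_le (by norm_num)
  have g4' : ContDiff ℝ 2 (dt u') := g4.of_le (by norm_num)
  have l1 : ContDiff ℝ 2 (dx P) := hP.contDiff_dx le_rfl
  have l2 : ContDiff ℝ 2 (dt P) := hP.contDiff_dt le_rfl
  have cA : ContDiff ℝ 2 (pA ι ph ph' u u') := by
    unfold pA Hxx
    exact ((k1.sub (contDiff_const.mul ((f1.mul g1').sub (f2.mul g2')))).add
      (k4.sub (contDiff_const.mul ((f3.mul g3').sub (f4.mul g4'))))).div_const 2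
  have cB : ContDiff ℝ 2 (pB ι ph ph' u u') := by
    unfold pB Hxt
    exact ((k2.sub (contDiff_const.mul ((f2.mul g1').add (f1.mul g2')))).add
      (k5.sub (contDiff_const.mul ((f4.mul g3').add (f3.mul g4'))))).div_const 2
  have cC : ContDiff ℝ 2 (pC ι ph ph' u u') := by
    unfold pC Htt
    exact ((k3.add (contDiff_const.mul ((f1.mul g1').sub (f2.mul g2')))).add
      (k6.add (contDiff_const.mul ((f3.mul g3').sub (f4.mul g4'))))).div_const 2
  unfold pa
  exact ((l2.pow 2).sub (((contDiff_const.mul (cB.div cA hA)).mul l2).mul l1)).add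
    ((cC.div cA hA).mul (l1.pow 2))

/-- The pair equation (PE). -/
theorem pair_alg {ι : ℝ} {ph ph' u u' P : Pl → ℝ} (hP : Frame P) (hph : ContDiff ℝ 4 ph)
    (hph' : ContDiff ℝ 4 ph') (hu : ContDiff ℝ 4 u) (hu' : ContDiff ℝ 4 u')
    (hA : ∀ q, pA ι ph ph' u u' q ≠ 0) (p : Pl)
    (h : Darb ι ph u p) (h' : Darb ι ph' u' p) :
    YY P (YY P (fun q => u q - u' q)) p
      + XX P (fun q => pa ι ph ph' u u' P q * XX P (fun q => u q - u' q) q) p
      + palpha ι ph ph' u u' P p * XX P (YY P (fun q => u q - u' q)) p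
      + pe1 ι ph ph' u u' p * YY P (fun q => u q - u' q) p
      + pe2 ι ph ph' u u' P p * XX P (fun q => u q - u' q) p
    = pF ι ph ph' u u' p := by
  have hv : ContDiff ℝ 4 (fun q => u q - u' q) := hu.sub hu'
  have hv2 : ContDiff ℝ 2 (fun q => u q - u' q) := hv.of_le (by norm_num)
  have hXv : ContDiff ℝ 1 (XX P (fun q => u q - u' q)) :=
    contDiff_XX hP hv2 (by norm_num) (by norm_num)
  have hpa := contDiff_pa (ι := ι) hP hph hph' hu hu' hA
  rw [XX_mul (hpa.differentiable (by norm_num) p) (hXv.differentiable (by norm_num) p),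
    YY_YY_eq hP hv2, XX_YY_eq hP hv2, XX_XX_eq hP hv2]
  have u1 : ContDiff ℝ 1 u := hu.of_le (by norm_num)
  have u1' : ContDiff ℝ 1 u' := hu'.of_le (by norm_num)
  have ux1 : ContDiff ℝ 1 (dx u) := contDiff_dx hu (by norm_num)
  have ux1' : ContDiff ℝ 1 (dx u') := contDiff_dx hu' (by norm_num)
  have ut1 : ContDiff ℝ 1 (dt u) := contDiff_dt hu (by norm_num)
  have ut1' : ContDiff ℝ 1 (dt u') := contDiff_dt hu' (by norm_num)
  have key := pair_alg_aux (A := pA ι ph ph' u u' p) (B := pB ι ph ph' u u' p)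
    (C := pC ι ph ph' u u' p) (by rw [pA, Hxx, Hxx]) (by rw [pB, Hxt, Hxt])
    (by rw [pC, Htt, Htt]) h h'
  have w1 : dx (fun q => u q - u' q) p = dx u p - dx u' p := by rw [dx_fun_sub u1 u1']
  have w2 : dt (fun q => u q - u' q) p = dt u p - dt u' p := by rw [dt_fun_sub u1 u1']
  have w3 : dx (dx (fun q => u q - u' q)) p = dx (dx u) p - dx (dx u') p := by
    rw [dx_fun_sub u1 u1', dx_fun_sub ux1 ux1']
  have w4 : dt (dx (fun q => u q - u' q)) p = dt (dx u) p - dt (dx u') p := by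
    rw [dx_fun_sub u1 u1', dt_fun_sub ux1 ux1']
  have w5 : dt (dt (fun q => u q - u' q)) p = dt (dt u) p - dt (dt u') p := by
    rw [dt_fun_sub u1 u1', dt_fun_sub ut1 ut1']
  rw [← w1, ← w2, ← w3, ← w4, ← w5] at key
  exact pair_frame_aux (Xa := XX P (pa ι ph ph' u u' P) p) (Pxx := dx (dx P) p)
    (Pxt := dt (dx P) p) (Ptt := dt (dt P) p) (hA p) (hP.dx_ne p) key

end Vale.Agent.P229.D
end
end

section

section

/-!
# P229, disproof, task T12: the difference of two Darboux equations in frames (`PROOF.md`, §5).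
The definitions are in `PairDefs.lean`, `pair_alg` is in `PairAlgA.lean`, `pe2_formula` and
`pa_formula` are in `PairAlgB.lean`.
-/
end
end

section

section

/-!
# P229, disproof, task T13a: the background `phi0` and the bits
-/

open scoped ContDiff Topology
open MeasureTheory Set

namespace Vale.Agent.P229.D

theorem contDiff_rho2 : ContDiff ℝ ∞ rho2 := by
  unfold rho2; fun_prop

/-- the background is smooth. -/
theorem phi0_smooth : ContDiff ℝ ∞ phi0 := by
  unfold phi0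
  have h := contDiff_rho2
  exact ((Real.smoothTransition.contDiff (n := ⊤)).comp ((contDiff_const.sub h).div_const _)).mul
    (((h.sub (h.pow 2)).sub contDiff_const).div_const _)

theorem dx_rho2 (p : Pl) : dx rho2 p = 2 * p.1 := by
  have h1 : DifferentiableAt ℝ (fun q : Pl => q.1 ^ 2) p := by fun_prop
  have h2 : DifferentiableAt ℝ (fun q : Pl => q.2 ^ 2) p := by fun_prop
  have e : rho2 = fun q : Pl => q.1 ^ 2 + q.2 ^ 2 := rfl
  rw [e, dx_add h1 h2]
  have a1 := dx_comp (f := fun q : Pl => q.1) (p := p) (φ := fun y => y ^ 2) (by fun_prop)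
    differentiableAt_fst
  have a2 := dx_comp (f := fun q : Pl => q.2) (p := p) (φ := fun y => y ^ 2) (by fun_prop)
    differentiableAt_snd
  rw [a1, a2, dx_fst, dx_snd]
  simp only [differentiableAt_fun_id, deriv_fun_pow, Nat.cast_ofNat, Nat.add_one_sub_one, pow_one, deriv_id'', mul_one, mul_zero, add_zero]

theorem dt_rho2 (p : Pl) : dt rho2 p = 2 * p.2 := by
  have h1 : DifferentiableAt ℝ (fun q : Pl => q.1 ^ 2) p := by fun_prop
  have h2 : DifferentiableAt ℝ (fun q : Pl => q.2 ^ 2) p := by fun_prop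
  have e : rho2 = fun q : Pl => q.1 ^ 2 + q.2 ^ 2 := rfl
  rw [e, dt_add h1 h2]
  have a1 := dt_comp (f := fun q : Pl => q.1) (p := p) (φ := fun y => y ^ 2) (by fun_prop)
    differentiableAt_fst
  have a2 := dt_comp (f := fun q : Pl => q.2) (p := p) (φ := fun y => y ^ 2) (by fun_prop)
    differentiableAt_snd
  rw [a1, a2, dt_fst, dt_snd]
  simp only [differentiableAt_fun_id, deriv_fun_pow, Nat.cast_ofNat, Nat.add_one_sub_one, pow_one, deriv_id'', mul_one, mul_zero, zero_add]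

theorem isOpen_rho2_lt (c : ℝ) : IsOpen {p : Pl | rho2 p < c} :=
  isOpen_lt contDiff_rho2.continuous continuous_const

theorem phi0_eq {p : Pl} (hp : rho2 p < 0.7) : phi0 p = (rho2 p - rho2 p ^ 2 - 1) / 16 := by
  unfold phi0
  rw [Real.smoothTransition.one_of_one_le, one_mul]
  rw [le_div_iff₀ (by norm_num)]
  linarith

theorem ff_phi0 {p : Pl} (hp : rho2 p < 0.7) : ff phi0 p = rho2 p - 1 / 4 := by
  have hev : ∀ q, rho2 q < 0.7 → ∀ᶠ r in 𝓝 q, rho2 r < 0.7 := fun q hq =>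
    (isOpen_rho2_lt 0.7).mem_nhds hq
  have hr : Differentiable ℝ rho2 := contDiff_rho2.differentiable (by simp)
  -- first derivatives
  have e0 : ∀ q, rho2 q < 0.7 → phi0 =ᶠ[𝓝 q] fun r => (fun y : ℝ => (y - y ^ 2 - 1) / 16) (rho2 r) :=
    fun q hq => by
      filter_upwards [hev q hq] with r hr
      exact phi0_eq hr
  have hd : ∀ y : ℝ, deriv (fun y : ℝ => (y - y ^ 2 - 1) / 16) y = (1 - 2 * y) / 16 := by
    intro y
    have : HasDerivAt (fun y : ℝ => (y - y ^ 2 - 1) / 16) ((1 - 2 * y) / 16) y := by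
      have h := (((hasDerivAt_id y).sub ((hasDerivAt_id y).pow 2)).sub_const 1).div_const 16
      simpa only [Pi.sub_apply, id_eq, Pi.pow_apply, Nat.cast_ofNat, Nat.add_one_sub_one, pow_one, mul_one] using h
    exact this.deriv
  have ex : ∀ q, rho2 q < 0.7 → dx phi0 q = (1 - 2 * rho2 q) * q.1 / 8 := by
    intro q hq
    have h1 : dx phi0 q = dx (fun r => (fun y : ℝ => (y - y ^ 2 - 1) / 16) (rho2 r)) q := by
      rw [dx, dx, (e0 q hq).fderiv_eq]
    have h2 := dx_comp (f := rho2) (p := q) (φ := fun y : ℝ => (y - y ^ 2 - 1) / 16) (by fun_prop)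
      (hr q)
    rw [h1, h2, hd, dx_rho2]
    ring
  have et : ∀ q, rho2 q < 0.7 → dt phi0 q = (1 - 2 * rho2 q) * q.2 / 8 := by
    intro q hq
    have h1 : dt phi0 q = dt (fun r => (fun y : ℝ => (y - y ^ 2 - 1) / 16) (rho2 r)) q := by
      rw [dt, dt, (e0 q hq).fderiv_eq]
    have h2 := dt_comp (f := rho2) (p := q) (φ := fun y : ℝ => (y - y ^ 2 - 1) / 16) (by fun_prop)
      (hr q)
    rw [h1, h2, hd, dt_rho2]
    ring
  have exx : dx (dx phi0) p = (1 - 2 * rho2 p) / 8 - p.1 ^ 2 / 2 := by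
    have h1 : dx phi0 =ᶠ[𝓝 p] fun r => ((1 - 2 * rho2 r) / 8) * r.1 := by
      filter_upwards [hev p hp] with r hr
      rw [ex r hr]; ring
    have h2 : dx (dx phi0) p = dx (fun r => ((1 - 2 * rho2 r) / 8) * r.1) p := by
      rw [dx, dx, h1.fderiv_eq]
    have h3 := dx_comp (f := rho2) (p := p) (φ := fun y => (1 - 2 * y) / 8) (by fun_prop) (hr p)
    have h4 : deriv (fun y : ℝ => (1 - 2 * y) / 8) (rho2 p) = - (1 / 4) := by
      have : HasDerivAt (fun y : ℝ => (1 - 2 * y) / 8) ((0 - 2 * 1) / 8) (rho2 p) :=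
        ((hasDerivAt_const _ _).sub ((hasDerivAt_id _).const_mul 2)).div_const 8
      rw [this.deriv]; norm_num
    rw [h2, dx_mul (by (clear * - hr; fun_prop)) differentiableAt_fst, h3, h4, dx_rho2, dx_fst]
    ring
  have ett : dt (dt phi0) p = (1 - 2 * rho2 p) / 8 - p.2 ^ 2 / 2 := by
    have h1 : dt phi0 =ᶠ[𝓝 p] fun r => ((1 - 2 * rho2 r) / 8) * r.2 := by
      filter_upwards [hev p hp] with r hr
      rw [et r hr]; ring
    have h2 : dt (dt phi0) p = dt (fun r => ((1 - 2 * rho2 r) / 8) * r.2) p := by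
      rw [dt, dt, h1.fderiv_eq]
    have h3 := dt_comp (f := rho2) (p := p) (φ := fun y => (1 - 2 * y) / 8) (by fun_prop) (hr p)
    have h4 : deriv (fun y : ℝ => (1 - 2 * y) / 8) (rho2 p) = - (1 / 4) := by
      have : HasDerivAt (fun y : ℝ => (1 - 2 * y) / 8) ((0 - 2 * 1) / 8) (rho2 p) :=
        ((hasDerivAt_const _ _).sub ((hasDerivAt_id _).const_mul 2)).div_const 8
      rw [this.deriv]; norm_num
    rw [h2, dt_mul (by fun_prop) differentiableAt_snd, h3, h4, dt_rho2, dt_snd]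
    ring
  rw [ff, exx, ett]
  have : rho2 p = p.1 ^ 2 + p.2 ^ 2 := rfl
  rw [this]; ring

/-! ## bump functions -/

theorem bmp_smooth : ContDiff ℝ ∞ bmp := by
  unfold bmp
  have h1 : ContDiff ℝ ∞ (fun y : ℝ => 2 - 2 * y) := by fun_prop
  have h2 : ContDiff ℝ ∞ (fun y : ℝ => 2 + 2 * y) := by fun_prop
  exact ((Real.smoothTransition.contDiff (n := ⊤)).comp h1).mul
    ((Real.smoothTransition.contDiff (n := ⊤)).comp h2)

theorem bit_smooth (cs : ℝ) (n : ℕ) (tj : ℝ) : ContDiff ℝ ∞ (bit cs n tj) := by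
  unfold bit
  exact (bmp_smooth.comp (by fun_prop)).mul (bmp_smooth.comp (by fun_prop))

theorem bits_smooth (cs : ℝ) (n : ℕ) (s : Fin (n ^ 107) → Bool) :
    ContDiff ℝ ∞ (bits cs n s) := by
  unfold bits
  exact ContDiff.sum fun j _ => contDiff_const.mul (bit_smooth cs n _)

theorem bmp_zero_of_one_le_abs {y : ℝ} (hy : 1 ≤ |y|) : bmp y = 0 := by
  unfold bmp
  rcases le_abs.1 hy with h | h
  · rw [Real.smoothTransition.zero_of_nonpos (by linarith), zero_mul]
  · rw [Real.smoothTransition.zero_of_nonpos (x := 2 + 2 * y) (by linarith only [h]), mul_zero]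

theorem bmp_hasCompactSupport : HasCompactSupport bmp :=
  HasCompactSupport.intro (isCompact_Icc (a := (-1 : ℝ)) (b := 1)) fun y hy => by
    apply bmp_zero_of_one_le_abs
    by_contra h
    rw [not_le, abs_lt] at h
    exact hy ⟨h.1.le, h.2.le⟩

theorem iter_deriv_smooth {g : ℝ → ℝ} (hg : ContDiff ℝ ∞ g) : ∀ i : ℕ, ContDiff ℝ ∞ (deriv^[i] g)
  | 0 => hg
  | i + 1 => by
    rw [Function.iterate_succ_apply']
    exact ((contDiff_infty_iff_deriv.1 (iter_deriv_smooth hg i)).2)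

theorem bmp_bdd : ∃ K : ℝ, 1 ≤ K ∧ ∀ i : ℕ, i ≤ 3 → ∀ y, |deriv^[i] bmp y| ≤ K := by
  have h : ∀ i : ℕ, ∃ K : ℝ, ∀ y, |deriv^[i] bmp y| ≤ K := by
    intro i
    have hc : HasCompactSupport (deriv^[i] bmp) := by
      induction i with
      | zero => exact bmp_hasCompactSupport
      | succ i ih =>
        rw [Function.iterate_succ_apply']
        exact ih.deriv
    obtain ⟨K, hK⟩ := hc.exists_bound_of_continuous (iter_deriv_smooth bmp_smooth i).continuous
    exact ⟨K, fun y => by simpa only [Real.norm_eq_abs] using hK y⟩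
  choose K hK using h
  refine ⟨1 + |K 0| + |K 1| + |K 2| + |K 3|, ?_, ?_⟩
  · have := abs_nonneg (K 0); have := abs_nonneg (K 1); have := abs_nonneg (K 2)
    have := abs_nonneg (K 3); linarith
  · intro i hi y
    have h0 := abs_nonneg (K 0); have h1 := abs_nonneg (K 1); have h2 := abs_nonneg (K 2)
    have h3 := abs_nonneg (K 3)
    have := (hK i y).trans (le_abs_self _)
    interval_cases i <;> linarith only [h1, h2, h3, this, h0]

/-! ## `Dle` -/

theorem Dle_mono : ∀ {k : ℕ} {f : Pl → ℝ} {c c' : ℝ} {p : Pl}, c ≤ c' → Dle k f c p → Dle k f c' p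
  | 0, _, _, _, _, h, hf => le_trans hf h
  | _ + 1, _, _, _, _, h, hf => ⟨hf.1.trans h, Dle_mono h hf.2.1, Dle_mono h hf.2.2⟩

theorem Dle_zero_fun : ∀ {k : ℕ} {c : ℝ} {p : Pl}, 0 ≤ c → Dle k (fun _ => 0) c p
  | 0, c, p, h => by simpa only [Dle, abs_zero] using h
  | k + 1, c, p, h => by
    refine ⟨by simpa only [abs_zero] using h, ?_, ?_⟩
    · have : dx (fun _ : Pl => (0 : ℝ)) = fun _ => 0 := funext fun q => dx_const 0
      rw [this]; exact Dle_zero_fun h
    · have : dt (fun _ : Pl => (0 : ℝ)) = fun _ => 0 := funext fun q => dt_const 0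
      rw [this]; exact Dle_zero_fun h

theorem Dle_add_fun : ∀ {k : ℕ} {f g : Pl → ℝ} {a b : ℝ} {p : Pl}, ContDiff ℝ ∞ f →
    ContDiff ℝ ∞ g → Dle k f a p → Dle k g b p → Dle k (fun q => f q + g q) (a + b) p
  | 0, _, _, _, _, _, _, _, h1, h2 => (abs_add_le _ _).trans (add_le_add h1 h2)
  | k + 1, f, g, a, b, p, hf, hg, h1, h2 => by
    have df : Differentiable ℝ f := hf.differentiable (by simp)
    have dg : Differentiable ℝ g := hg.differentiable (by simp)
    refine ⟨(abs_add_le _ _).trans (add_le_add h1.1 h2.1), ?_, ?_⟩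
    · have : dx (fun q => f q + g q) = fun q => dx f q + dx g q :=
        funext fun q => dx_add (df q) (dg q)
      rw [this]
      exact Dle_add_fun (contDiff_dx hf (by simp)) (contDiff_dx hg (by simp)) h1.2.1 h2.2.1
    · have : dt (fun q => f q + g q) = fun q => dt f q + dt g q :=
        funext fun q => dt_add (df q) (dg q)
      rw [this]
      exact Dle_add_fun (contDiff_dt hf (by simp)) (contDiff_dt hg (by simp)) h1.2.2 h2.2.2

theorem Dle_const_mul_fun : ∀ {k : ℕ} {f : Pl → ℝ} {a c : ℝ} {p : Pl}, ContDiff ℝ ∞ f →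
    Dle k f a p → Dle k (fun q => c * f q) (|c| * a) p
  | 0, f, a, c, p, _, h => by
    show |c * f p| ≤ |c| * a
    rw [abs_mul]
    exact mul_le_mul_of_nonneg_left h (abs_nonneg c)
  | k + 1, f, a, c, p, hf, h => by
    have df : Differentiable ℝ f := hf.differentiable (by simp)
    refine ⟨?_, ?_, ?_⟩
    · rw [abs_mul]
      exact mul_le_mul_of_nonneg_left h.1 (abs_nonneg c)
    · have : dx (fun q => c * f q) = fun q => c * dx f q :=
        funext fun q => dx_const_mul c (df q)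
      rw [this]
      exact Dle_const_mul_fun (contDiff_dx hf (by simp)) h.2.1
    · have : dt (fun q => c * f q) = fun q => c * dt f q :=
        funext fun q => dt_const_mul c (df q)
      rw [this]
      exact Dle_const_mul_fun (contDiff_dt hf (by simp)) h.2.2

theorem Dle_sum_fun {ι : Type*} {k : ℕ} (J : Finset ι) (f : ι → Pl → ℝ) {a : ℝ} {p : Pl}
    (hf : ∀ j ∈ J, ContDiff ℝ ∞ (f j)) (h : ∀ j ∈ J, Dle k (f j) a p) :
    Dle k (fun q => ∑ j ∈ J, f j q) (J.card * a) p := by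
  classical
  induction J using Finset.induction_on with
  | empty => simpa using Dle_zero_fun (k := k) (c := 0) (p := p) le_rfl
  | insert j J hj ih =>
    have e : (fun q => ∑ i ∈ insert j J, f i q) = fun q => f j q + ∑ i ∈ J, f i q :=
      funext fun q => Finset.sum_insert hj
    rw [e, Finset.card_insert_of_notMem hj]
    have h1 := h j (Finset.mem_insert_self j J)
    have h2 := ih (fun i hi => hf i (Finset.mem_insert_of_mem hi))
      (fun i hi => h i (Finset.mem_insert_of_mem hi))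
    have := Dle_add_fun (hf j (Finset.mem_insert_self j J))
      (ContDiff.sum fun i hi => hf i (Finset.mem_insert_of_mem hi)) h1 h2
    refine Dle_mono (le_of_eq ?_) this
    push_cast
    ring

/-- products of functions of one variable. -/
theorem Dle_prod_fun : ∀ {k : ℕ} {g h : ℝ → ℝ} {c : ℝ} {p : Pl}, ContDiff ℝ ∞ g →
    ContDiff ℝ ∞ h → (∀ i j : ℕ, i + j ≤ k → |deriv^[i] g p.2 * deriv^[j] h p.1| ≤ c) →
    Dle k (fun q => g q.2 * h q.1) c p
  | 0, g, h, c, p, _, _, H => H 0 0 le_rfl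
  | k + 1, g, h, c, p, hg, hh, H => by
    have dg : Differentiable ℝ g := hg.differentiable (by simp)
    have dh : Differentiable ℝ h := hh.differentiable (by simp)
    have hg' : ContDiff ℝ ∞ (deriv g) := (contDiff_infty_iff_deriv.1 hg).2
    have hh' : ContDiff ℝ ∞ (deriv h) := (contDiff_infty_iff_deriv.1 hh).2
    refine ⟨H 0 0 (Nat.zero_le _), ?_, ?_⟩
    · have e : dx (fun q : Pl => g q.2 * h q.1) = fun q => g q.2 * deriv h q.1 := by
        funext q
        have d1 : DifferentiableAt ℝ (fun q : Pl => g q.2) q :=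
          (dg q.2).comp q differentiableAt_snd
        have d2 : DifferentiableAt ℝ (fun q : Pl => h q.1) q :=
          (dh q.1).comp q differentiableAt_fst
        rw [dx_mul d1 d2, dx_comp (f := fun q : Pl => q.2) (dg q.2) differentiableAt_snd,
          dx_comp (f := fun q : Pl => q.1) (dh q.1) differentiableAt_fst, dx_snd, dx_fst]
        ring
      rw [e]
      refine Dle_prod_fun hg hh' fun i j hij => ?_
      have := H i (j + 1) (by omega)
      rwa [Function.iterate_succ_apply] at this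
    · have e : dt (fun q : Pl => g q.2 * h q.1) = fun q => deriv g q.2 * h q.1 := by
        funext q
        have d1 : DifferentiableAt ℝ (fun q : Pl => g q.2) q :=
          (dg q.2).comp q differentiableAt_snd
        have d2 : DifferentiableAt ℝ (fun q : Pl => h q.1) q :=
          (dh q.1).comp q differentiableAt_fst
        rw [dt_mul d1 d2, dt_comp (f := fun q : Pl => q.2) (dg q.2) differentiableAt_snd,
          dt_comp (f := fun q : Pl => q.1) (dh q.1) differentiableAt_fst, dt_snd, dt_fst]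
        ring
      rw [e]
      refine Dle_prod_fun hg' hh fun i j hij => ?_
      have := H (i + 1) j (by omega)
      rwa [Function.iterate_succ_apply] at this

theorem iter_deriv_scale {g : ℝ → ℝ} (hg : ContDiff ℝ ∞ g) (t L : ℝ) : ∀ (i : ℕ),
    deriv^[i] (fun y => g ((y - t) / L)) = fun y => (L⁻¹) ^ i * deriv^[i] g ((y - t) / L)
  | 0 => by simp
  | i + 1 => by
    rw [Function.iterate_succ_apply', iter_deriv_scale hg t L i, Function.iterate_succ_apply']
    funext y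
    have hd : DifferentiableAt ℝ (deriv^[i] g) ((y - t) / L) :=
      (iter_deriv_smooth hg i).differentiable (by simp) _
    have h1 : HasDerivAt (fun y : ℝ => (y - t) / L) (1 / L) y :=
      ((hasDerivAt_id y).sub_const t).div_const L
    have h2 := (hd.hasDerivAt.comp y h1).const_mul ((L⁻¹) ^ i)
    have h3 : HasDerivAt (fun y => (L⁻¹) ^ i * deriv^[i] g ((y - t) / L)) _ y := h2
    rw [h3.deriv]
    rw [pow_succ]
    ring

/-- bound for one bit. -/
theorem bit_Dle {K : ℝ} (hK1 : 1 ≤ K) (hK : ∀ i : ℕ, i ≤ 3 → ∀ y, |deriv^[i] bmp y| ≤ K)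
    (cs : ℝ) (n : ℕ) (h1 : 0 < varpi cs n) (h1' : varpi cs n ≤ 1) (h2 : 0 < ell cs n)
    (h2' : ell cs n ≤ 1) (tj : ℝ) (p : Pl) :
    Dle 3 (bit cs n tj) (K ^ 2 * ((varpi cs n * ell cs n)⁻¹) ^ 3) p := by
  set L := ell cs n
  set W := varpi cs n
  have hWL : 0 < W * L := mul_pos h1 h2
  have hWL1 : W * L ≤ 1 := mul_le_one₀ h1' h2.le h2'
  have hWLL : W * L ≤ L := by nlinarith only [h2, h1']
  have e : bit cs n tj = fun q : Pl => (fun y => bmp ((y - tj) / L)) q.2
      * (fun y => bmp ((y - 0) / (W * L))) q.1 := by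
    funext q
    simp only [bit, sub_zero]
    rfl
  rw [e]
  have s1 : ContDiff ℝ ∞ (fun y : ℝ => (y - tj) / L) := by fun_prop
  have s2 : ContDiff ℝ ∞ (fun y : ℝ => (y - 0) / (W * L)) := by fun_prop
  have t1 : ContDiff ℝ ∞ (fun y : ℝ => bmp ((y - tj) / L)) := bmp_smooth.comp s1
  have t2 : ContDiff ℝ ∞ (fun y : ℝ => bmp ((y - 0) / (W * L))) := bmp_smooth.comp s2
  refine Dle_prod_fun t1 t2 ?_
  intro i j hij
  rw [iter_deriv_scale bmp_smooth, iter_deriv_scale bmp_smooth]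
  have b1 := hK i (by omega) ((p.2 - tj) / L)
  have b2 := hK j (by omega) ((p.1 - 0) / (W * L))
  have g1 : 1 ≤ (W * L)⁻¹ := (one_le_inv₀ hWL).2 hWL1
  have g2 : L⁻¹ ≤ (W * L)⁻¹ := inv_anti₀ hWL hWLL
  have g0 : 0 ≤ L⁻¹ := (inv_pos.2 h2).le
  rw [abs_mul, abs_mul, abs_mul, abs_of_nonneg (pow_nonneg g0 i),
    abs_of_nonneg (pow_nonneg (zero_le_one.trans g1) j)]
  have g3 : L⁻¹ ^ i * (W * L)⁻¹ ^ j ≤ (W * L)⁻¹ ^ 3 := by
    calc L⁻¹ ^ i * (W * L)⁻¹ ^ j ≤ (W * L)⁻¹ ^ i * (W * L)⁻¹ ^ j :=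
          mul_le_mul_of_nonneg_right (pow_le_pow_left₀ g0 g2 i) (pow_nonneg (zero_le_one.trans g1) j)
      _ = (W * L)⁻¹ ^ (i + j) := (pow_add _ _ _).symm
      _ ≤ (W * L)⁻¹ ^ 3 := pow_le_pow_right₀ g1 hij
  have g4 : |deriv^[i] bmp ((p.2 - tj) / L)| * |deriv^[j] bmp ((p.1 - 0) / (W * L))| ≤ K * K :=
    mul_le_mul b1 b2 (abs_nonneg _) (zero_le_one.trans hK1)
  calc L⁻¹ ^ i * |deriv^[i] bmp ((p.2 - tj) / L)| * ((W * L)⁻¹ ^ j * |deriv^[j] bmp ((p.1 - 0) / (W * L))|)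
      = (|deriv^[i] bmp ((p.2 - tj) / L)| * |deriv^[j] bmp ((p.1 - 0) / (W * L))|)
        * (L⁻¹ ^ i * (W * L)⁻¹ ^ j) := by ring
    _ ≤ (K * K) * (W * L)⁻¹ ^ 3 := mul_le_mul g4 g3 (by positivity) (by positivity)
    _ = K ^ 2 * (W * L)⁻¹ ^ 3 := by ring

/-- bounds for the bits: all derivatives of order `≤ 3` of `b' bits s` are tiny. -/
theorem bits_small (cs : ℝ) (hcs : 0 < cs) (M : ℝ) (hM : 1 ≤ M) (ε : ℝ) (hε : 0 < ε) :
    ∃ n0 : ℕ, ∀ n : ℕ, n0 ≤ n → ∀ (b' : ℝ), 0 ≤ b' → b' ≤ 4 * M ^ 2 / (n : ℝ) ^ 1000 →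
      ∀ (s : Fin (n ^ 107) → Bool) (p : Pl), Dle 3 (fun q => b' * bits cs n s q)
        (ε / (4 * M ^ 2 * (n : ℝ) ^ 16)) p := by
  obtain ⟨K, hK1, hK⟩ := bmp_bdd
  set C : ℝ := 4 * M ^ 2 * K ^ 2 * (8 / cs ^ 2) ^ 3 * (4 * M ^ 2) / ε with hC
  refine ⟨max 1 (max ⌈cs⌉₊ ⌈C⌉₊), ?_⟩
  intro n hn b' hb0 hb s p
  have hn1 : 1 ≤ n := le_trans (le_max_left _ _) hn
  have hncs : cs ≤ n := (Nat.le_ceil cs).trans (by
    exact_mod_cast le_trans (le_trans (le_max_left _ _) (le_max_right _ _)) hn)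
  have hnC : C ≤ n := (Nat.le_ceil C).trans (by
    exact_mod_cast le_trans (le_trans (le_max_right _ _) (le_max_right _ _)) hn)
  have hnR : (1 : ℝ) ≤ n := by exact_mod_cast hn1
  have hnpos : (0 : ℝ) < n := by linarith only [hcs, hncs]
  have hW : 0 < varpi cs n := by unfold varpi; positivity
  have hL : 0 < ell cs n := by unfold ell; positivity
  have hW1 : varpi cs n ≤ 1 := by
    unfold varpi
    rw [div_le_one (by positivity)]
    exact hncs.trans (le_self_pow₀ hnR (by norm_num))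
  have hL1 : ell cs n ≤ 1 := by
    unfold ell
    rw [div_le_one (by positivity)]
    have : (n : ℝ) ≤ n ^ 115 := le_self_pow₀ hnR (by norm_num)
    linarith only [hncs, this]
  have hbit := fun j : Fin (n ^ 107) => bit_Dle hK1 hK cs n hW hW1 hL hL1 (tJ cs n j) p
  set D : ℝ := K ^ 2 * ((varpi cs n * ell cs n)⁻¹) ^ 3 with hD
  have hD0 : 0 ≤ D := by positivity
  have h1 : Dle 3 (bits cs n s) ((Finset.univ : Finset (Fin (n ^ 107))).card * D) p := by
    have e : bits cs n s = fun q => ∑ j : Fin (n ^ 107),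
      (fun q => (if s j then 1 else 0) * bit cs n (tJ cs n j) q) q := rfl
    rw [e]
    apply Dle_sum_fun (f := fun (j : Fin (n ^ 107)) q => (if s j then 1 else 0) * bit cs n (tJ cs n j) q)
    · intro j _
      exact contDiff_const.mul (bit_smooth cs n _)
    · intro j _
      have := Dle_const_mul_fun (c := if s j then 1 else 0) (bit_smooth cs n (tJ cs n j)) (hbit j)
      refine Dle_mono ?_ this
      split_ifs <;> simp [hD0]
  have h2 := Dle_const_mul_fun (c := b') (bits_smooth cs n s) h1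
  refine Dle_mono ?_ h2
  rw [abs_of_nonneg hb0, Finset.card_univ, Fintype.card_fin]
  have e1 : (varpi cs n * ell cs n)⁻¹ = 8 / cs ^ 2 * (n : ℝ) ^ 123 := by
    unfold varpi ell
    field_simp
  have e2 : D = K ^ 2 * (8 / cs ^ 2) ^ 3 * (n : ℝ) ^ 369 := by
    rw [hD, e1]; ring
  push_cast
  calc b' * ((n : ℝ) ^ 107 * D) ≤ (4 * M ^ 2 / (n : ℝ) ^ 1000) * ((n : ℝ) ^ 107 * D) :=
        mul_le_mul_of_nonneg_right hb (by (clear * - hn1 hK1 hW hL; positivity))
    _ = 4 * M ^ 2 * K ^ 2 * (8 / cs ^ 2) ^ 3 / (n : ℝ) ^ 524 := by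
        rw [e2]
        have : (n : ℝ) ^ 1000 = (n : ℝ) ^ 107 * (n : ℝ) ^ 369 * (n : ℝ) ^ 524 := by ring
        rw [this]
        field_simp
    _ = C * ε / (4 * M ^ 2) / (n : ℝ) ^ 524 := by
        rw [hC]; field_simp
    _ ≤ (n : ℝ) * ε / (4 * M ^ 2) / (n : ℝ) ^ 524 := by (clear * - hnC hε hM hn1; gcongr)
    _ ≤ (n : ℝ) ^ 508 * ε / (4 * M ^ 2) / (n : ℝ) ^ 524 := by
        gcongr
        exact le_self_pow₀ hnR (by norm_num)
    _ = ε / (4 * M ^ 2 * (n : ℝ) ^ 16) := by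
        have : (n : ℝ) ^ 524 = (n : ℝ) ^ 508 * (n : ℝ) ^ 16 := by ring
        rw [this]
        field_simp

end Vale.Agent.P229.D
end
end

section

section

/-!
# P229, disproof, task T16: double counting, and the potential seen from one direction
(`PROOF.md`, §4)
-/

open scoped ContDiff Topology
open MeasureTheory Set

namespace Vale.Agent.P229.D

/-- T16. Double counting. -/
theorem double_count {K N : ℕ} (l : (Fin K → Fin N → Bool) → Fin K) :
    ∃ (σ : Fin K → Fin N → Bool) (k : Fin K),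
      2 ^ N ≤ K * (Finset.univ.filter
        (fun s : Fin N → Bool => l (Function.update σ k s) = k)).card := by
  classical
  by_contra hcon
  push Not at hcon
  -- the total number of pairs
  have hsum : ∀ k : Fin K,
      ∑ σ : Fin K → Fin N → Bool, (Finset.univ.filter
        (fun s : Fin N → Bool => l (Function.update σ k s) = k)).card
      = 2 ^ N * (Finset.univ.filter (fun σ : Fin K → Fin N → Bool => l σ = k)).card := by
    intro k
    let e : ((Fin K → Fin N → Bool) × (Fin N → Bool)) ≃ ((Fin K → Fin N → Bool) × (Fin N → Bool)) :=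
      { toFun := fun x => (Function.update x.1 k x.2, x.1 k)
        invFun := fun x => (Function.update x.1 k x.2, x.1 k)
        left_inv := by rintro ⟨σ, s⟩; simp
        right_inv := by rintro ⟨σ, s⟩; simp }
    have h1 : ∑ σ : Fin K → Fin N → Bool, (Finset.univ.filter
        (fun s : Fin N → Bool => l (Function.update σ k s) = k)).card
        = ∑ x : (Fin K → Fin N → Bool) × (Fin N → Bool),
            if l (Function.update x.1 k x.2) = k then 1 else 0 := by
      rw [Fintype.sum_prod_type]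
      refine Finset.sum_congr rfl fun σ _ => ?_
      rw [Finset.card_filter]
    have h2 : ∑ x : (Fin K → Fin N → Bool) × (Fin N → Bool),
            (if l (Function.update x.1 k x.2) = k then 1 else 0)
        = ∑ x : (Fin K → Fin N → Bool) × (Fin N → Bool), if l x.1 = k then 1 else 0 :=
      Equiv.sum_comp e (fun x => if l x.1 = k then 1 else 0)
    have h3 : ∀ σ : Fin K → Fin N → Bool,
        (∑ _s : Fin N → Bool, if l σ = k then 1 else 0) = 2 ^ N * (if l σ = k then 1 else 0) := by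
      intro σ
      rw [Finset.sum_const, Finset.card_univ, Fintype.card_fun, Fintype.card_bool,
        Fintype.card_fin, smul_eq_mul]
    rw [h1, h2, Fintype.sum_prod_type, Finset.card_filter, Finset.mul_sum]
    exact Finset.sum_congr rfl fun σ _ => h3 σ
  have htot : ∑ k : Fin K, (Finset.univ.filter (fun σ : Fin K → Fin N → Bool => l σ = k)).card
      = (Finset.univ : Finset (Fin K → Fin N → Bool)).card := by
    rw [Finset.card_eq_sum_card_fiberwise (f := l) (t := Finset.univ) (by intro x _; simp only [Finset.coe_univ, mem_univ])]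
  have hne : (Finset.univ : Finset (Fin K → Fin N → Bool)).Nonempty :=
    ⟨fun _ _ => false, Finset.mem_univ _⟩
  have hK : (Finset.univ : Finset (Fin K)).Nonempty := ⟨l (fun _ _ => false), Finset.mem_univ _⟩
  have hlt : ∑ k : Fin K, ∑ σ : Fin K → Fin N → Bool,
      K * (Finset.univ.filter (fun s : Fin N → Bool => l (Function.update σ k s) = k)).card
      < ∑ k : Fin K, ∑ σ : Fin K → Fin N → Bool, 2 ^ N := by
    refine Finset.sum_lt_sum_of_nonempty hK fun k _ => ?_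
    exact Finset.sum_lt_sum_of_nonempty hne fun σ _ => hcon σ k
  have hL : ∑ k : Fin K, ∑ σ : Fin K → Fin N → Bool,
      K * (Finset.univ.filter (fun s : Fin N → Bool => l (Function.update σ k s) = k)).card
      = K * (2 ^ N * (Finset.univ : Finset (Fin K → Fin N → Bool)).card) := by
    rw [← htot, Finset.mul_sum, Finset.mul_sum]
    refine Finset.sum_congr rfl fun k _ => ?_
    rw [← hsum k, Finset.mul_sum]
  rw [hL] at hlt
  simp only [Finset.sum_const, Finset.card_univ, smul_eq_mul, Fintype.card_fin] at hlt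
  exact absurd hlt (by rw [mul_comm (2 ^ N) _]; exact lt_irrefl _)

theorem rho2_rot (θ : ℝ) (p : Pl) : rho2 (rot θ p) = rho2 p := by
  simp only [rho2, rot]
  have := Real.sin_sq_add_cos_sq θ
  linear_combination (p.1 ^ 2 + p.2 ^ 2) * this

theorem rot_neg_rot (θ : ℝ) (p : Pl) : rot (-θ) (rot θ p) = p := by
  have := Real.sin_sq_add_cos_sq θ
  ext
  · simp only [rot, Real.cos_neg, Real.sin_neg]
    linear_combination p.1 * this
  · simp only [rot, Real.cos_neg, Real.sin_neg]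
    linear_combination p.2 * this

theorem phi0_rot (θ : ℝ) (p : Pl) : phi0 (rot θ p) = phi0 p := by
  simp only [phi0, rho2_rot]

/-- the contribution of the other directions. -/
noncomputable def Gother (cs b : ℝ) (n : ℕ) (σ : Fin (n ^ 9) → Fin (n ^ 107) → Bool)
    (l : Fin (n ^ 9)) (p : Pl) : ℝ :=
  b * ∑ k ∈ Finset.univ.erase l, bits cs n (σ k) (rot (-ang n k) (rot (ang n l) p))

theorem phc_update_rot (cs b : ℝ) (n : ℕ) (σ : Fin (n ^ 9) → Fin (n ^ 107) → Bool)
    (l : Fin (n ^ 9)) (s : Fin (n ^ 107) → Bool) (p : Pl) :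
    phc cs b n (Function.update σ l s) (rot (ang n l) p)
      = ((n : ℝ) ^ 16)⁻¹ * phi0 p + Gother cs b n σ l p + b * bits cs n s p := by
  classical
  unfold phc Gother
  rw [phi0_rot, ← Finset.add_sum_erase Finset.univ _ (Finset.mem_univ l)]
  rw [Function.update_self, rot_neg_rot]
  have : ∑ k ∈ Finset.univ.erase l, bits cs n (Function.update σ l s k)
        (rot (-ang n k) (rot (ang n l) p))
      = ∑ k ∈ Finset.univ.erase l, bits cs n (σ k) (rot (-ang n k) (rot (ang n l) p)) := by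
    refine Finset.sum_congr rfl fun k hk => ?_
    rw [Function.update_of_ne (Finset.ne_of_mem_erase hk)]
  rw [this]
  ring

end Vale.Agent.P229.D
end
end

section

section

/-!
# P229, disproof, task T19a: bounds for the bits, `Gother_small`, `phc_props`
-/

open scoped ContDiff Topology
open MeasureTheory Set

namespace Vale.Agent.P229.D.BB

/-! ## the predicate `BD` -/

/-- `f` is smooth and all its derivatives of order `≤ m` are bounded by `C`. -/
def BD (m : ℕ) (C : ℝ) (f : Pl → ℝ) : Prop :=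
  ContDiff ℝ ∞ f ∧ ∀ j ≤ m, ∀ p, ‖iteratedFDeriv ℝ j f p‖ ≤ C

theorem le_infty (j : ℕ) : ((j : ℕ∞) : WithTop ℕ∞) ≤ (∞ : WithTop ℕ∞) := by
  exact_mod_cast le_top

theorem BD.mono {m : ℕ} {C D : ℝ} {f : Pl → ℝ} (h : BD m C f) (hCD : C ≤ D) : BD m D f :=
  ⟨h.1, fun j hj p => (h.2 j hj p).trans hCD⟩

theorem BD.nonneg {m : ℕ} {C : ℝ} {f : Pl → ℝ} (h : BD m C f) : 0 ≤ C :=
  (norm_nonneg _).trans (h.2 0 (Nat.zero_le _) 0)

theorem BD.add {m : ℕ} {C D : ℝ} {f g : Pl → ℝ} (hf : BD m C f) (hg : BD m D g) :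
    BD m (C + D) (fun p => f p + g p) := by
  refine ⟨hf.1.add hg.1, fun j hj p => ?_⟩
  have h1 : ContDiffAt ℝ j f p := (hf.1.of_le (le_infty j)).contDiffAt
  have h2 : ContDiffAt ℝ j g p := (hg.1.of_le (le_infty j)).contDiffAt
  rw [fun_iteratedFDeriv_add_apply h1 h2]
  exact (norm_add_le _ _).trans (add_le_add (hf.2 j hj p) (hg.2 j hj p))

theorem BD.zero (m : ℕ) : BD m 0 (fun _ => 0) := by
  refine ⟨contDiff_const, fun j hj p => ?_⟩
  have : iteratedFDeriv ℝ j (fun _ : Pl => (0 : ℝ)) p = 0 := by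
    have := iteratedFDeriv_fun_zero (𝕜 := ℝ) (E := Pl) (F := ℝ) (n := j)
    rw [this]; rfl
  rw [this]; simp

theorem BD.const_mul {m : ℕ} {C : ℝ} {f : Pl → ℝ} (hf : BD m C f) (a : ℝ) :
    BD m (|a| * C) (fun p => a * f p) := by
  refine ⟨contDiff_const.mul hf.1, fun j hj p => ?_⟩
  have h1 : ContDiffAt ℝ j f p := (hf.1.of_le (le_infty j)).contDiffAt
  have h2 : iteratedFDeriv ℝ j (fun p => a * f p) p = a • iteratedFDeriv ℝ j f p := by
    have := iteratedFDeriv_const_smul_apply' (a := a) h1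
    simpa only [smul_eq_mul] using this
  rw [h2, norm_smul, Real.norm_eq_abs]
  exact mul_le_mul_of_nonneg_left (hf.2 j hj p) (abs_nonneg a)

theorem BD.sum {ι : Type} {m : ℕ} {C : ℝ} (s : Finset ι) {f : ι → Pl → ℝ}
    (hf : ∀ i ∈ s, BD m C (f i)) : BD m (s.card * C) (fun p => ∑ i ∈ s, f i p) := by
  classical
  induction s using Finset.induction_on with
  | empty => simpa using BD.zero m
  | insert a s ha ih =>
    have h1 := hf a (Finset.mem_insert_self a s)
    have h2 := ih (fun i hi => hf i (Finset.mem_insert_of_mem hi))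
    have h3 := h1.add h2
    have e : (fun p => ∑ i ∈ insert a s, f i p) = fun p => f a p + ∑ i ∈ s, f i p := by
      funext p; rw [Finset.sum_insert ha]
    rw [e, Finset.card_insert_of_notMem ha]
    refine h3.mono (le_of_eq ?_)
    push_cast; ring

theorem BD.comp_aff {m : ℕ} {C : ℝ} {f : Pl → ℝ} (hf : BD m C f) (L : Pl →L[ℝ] Pl) (c : Pl)
    {Λ : ℝ} (hΛ : 1 ≤ Λ) (hL : ‖L‖ ≤ Λ) : BD m (C * Λ ^ m) (fun p => f (L p + c)) := by
  have hg : ContDiff ℝ ∞ (fun q : Pl => f (q + c)) := hf.1.comp (contDiff_id.add contDiff_const)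
  refine ⟨hg.comp L.contDiff, fun j hj p => ?_⟩
  have h1 : iteratedFDeriv ℝ j (fun p => f (L p + c)) p
      = (iteratedFDeriv ℝ j (fun q : Pl => f (q + c)) (L p)).compContinuousLinearMap
        fun _ => L := L.iteratedFDeriv_comp_right hg p (le_infty j)
  rw [h1, iteratedFDeriv_comp_add_right]
  refine (ContinuousMultilinearMap.norm_compContinuousLinearMap_le _ _).trans ?_
  have h2 : ∏ _i : Fin j, ‖L‖ ≤ Λ ^ m := by
    rw [Finset.prod_const, Finset.card_univ, Fintype.card_fin]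
    exact (pow_le_pow_left₀ (norm_nonneg _) hL j).trans (pow_le_pow_right₀ hΛ hj)
  have h3 := hf.2 j hj (L p + c)
  exact mul_le_mul h3 h2 (Finset.prod_nonneg fun _ _ => norm_nonneg _) hf.nonneg

/-- compactly supported smooth functions satisfy `BD`. -/
theorem BD.of_compact {f : Pl → ℝ} (hf : ContDiff ℝ ∞ f) (hc : HasCompactSupport f) (m : ℕ) :
    ∃ C, 1 ≤ C ∧ BD m C f := by
  have h : ∀ j : ℕ, ∃ C, ∀ p, ‖iteratedFDeriv ℝ j f p‖ ≤ C := fun j =>
    (hc.iteratedFDeriv (𝕜 := ℝ) j).exists_bound_of_continuous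
      (hf.continuous_iteratedFDeriv (le_infty j))
  choose C hC using h
  refine ⟨1 + ∑ j ∈ Finset.range (m + 1), |C j|, ?_, hf, fun j hj p => ?_⟩
  · have : 0 ≤ ∑ j ∈ Finset.range (m + 1), |C j| := Finset.sum_nonneg fun _ _ => abs_nonneg _
    linarith
  · have h1 : |C j| ≤ ∑ j ∈ Finset.range (m + 1), |C j| :=
      Finset.single_le_sum (f := fun j => |C j|) (fun _ _ => abs_nonneg _)
        (Finset.mem_range.2 (Nat.lt_succ_of_le hj))
    have h2 := hC j p
    have h3 := le_abs_self (C j)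
    linarith only [h1, h2, h3]

/-- from `iteratedFDeriv` bounds to `Dle`. -/
theorem Dle_of_iter (k : ℕ) : ∀ {f : Pl → ℝ} {c : ℝ} {p : Pl}, ContDiff ℝ ∞ f →
    (∀ j ≤ k, ‖iteratedFDeriv ℝ j f p‖ ≤ c) → Dle k f c p := by
  induction k with
  | zero =>
    intro f c p hf h
    have := h 0 le_rfl
    rw [norm_iteratedFDeriv_zero, Real.norm_eq_abs] at this
    exact this
  | succ k ih =>
    intro f c p hf h
    have h0 := h 0 (Nat.zero_le _)
    rw [norm_iteratedFDeriv_zero, Real.norm_eq_abs] at h0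
    have hfd : ContDiff ℝ ∞ (fderiv ℝ f) := hf.fderiv_right (m := ∞) (by simp)
    refine ⟨h0, ih (contDiff_dx hf (by simp)) fun j hj => ?_,
      ih (contDiff_dt hf (by simp)) fun j hj => ?_⟩
    · have h1 : ‖iteratedFDeriv ℝ j (fun q => fderiv ℝ f q ((1, 0) : Pl)) p‖
          ≤ ‖((1, 0) : Pl)‖ * ‖iteratedFDeriv ℝ j (fderiv ℝ f) p‖ :=
        norm_iteratedFDeriv_clm_apply_const hfd.contDiffAt (le_infty j)
      rw [norm_iteratedFDeriv_fderiv] at h1
      have h2 : ‖((1, 0) : Pl)‖ = 1 := by simp only [Prod.norm_def, norm_one, norm_zero, zero_le_one, sup_of_le_left]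
      rw [h2, one_mul] at h1
      exact h1.trans (h (j + 1) (by omega))
    · have h1 : ‖iteratedFDeriv ℝ j (fun q => fderiv ℝ f q ((0, 1) : Pl)) p‖
          ≤ ‖((0, 1) : Pl)‖ * ‖iteratedFDeriv ℝ j (fderiv ℝ f) p‖ :=
        norm_iteratedFDeriv_clm_apply_const hfd.contDiffAt (le_infty j)
      rw [norm_iteratedFDeriv_fderiv] at h1
      have h2 : ‖((0, 1) : Pl)‖ = 1 := by simp only [Prod.norm_def, norm_zero, norm_one, zero_le_one, sup_of_le_right]
      rw [h2, one_mul] at h1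
      exact h1.trans (h (j + 1) (by omega))

theorem BD.dle {k : ℕ} {f : Pl → ℝ} {c : ℝ} (h : BD k c f) (p : Pl) : Dle k f c p :=
  Dle_of_iter k h.1 fun j hj => h.2 j hj p

/-! ## the bump functions -/

theorem bmp_smooth : ContDiff ℝ ∞ bmp := by
  unfold bmp
  exact (Real.smoothTransition.contDiff.comp (contDiff_const.sub (contDiff_const.mul contDiff_id))).mul
    (Real.smoothTransition.contDiff.comp (contDiff_const.add (contDiff_const.mul contDiff_id)))

theorem bmp_nonneg (y : ℝ) : 0 ≤ bmp y :=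
  mul_nonneg (Real.smoothTransition.nonneg _) (Real.smoothTransition.nonneg _)

theorem bmp_le_one (y : ℝ) : bmp y ≤ 1 := by
  unfold bmp
  have h1 := Real.smoothTransition.le_one (2 - 2 * y)
  have h2 := Real.smoothTransition.le_one (2 + 2 * y)
  have h3 := Real.smoothTransition.nonneg (2 - 2 * y)
  have h4 := Real.smoothTransition.nonneg (2 + 2 * y)
  nlinarith only [h2, h1, h4]

theorem bmp_eq_zero {y : ℝ} (h : 1 ≤ |y|) : bmp y = 0 := by
  unfold bmp
  rcases le_abs.1 h with h | h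
  · rw [Real.smoothTransition.zero_of_nonpos (x := 2 - 2 * y) (by linarith), zero_mul]
  · rw [Real.smoothTransition.zero_of_nonpos (x := 2 + 2 * y) (by linarith only [h]), mul_zero]

/-- two dimensional bump. -/
noncomputable def Phi (q : Pl) : ℝ := bmp q.2 * bmp q.1

theorem Phi_smooth : ContDiff ℝ ∞ Phi :=
  (bmp_smooth.comp contDiff_snd).mul (bmp_smooth.comp contDiff_fst)

theorem Phi_compact : HasCompactSupport Phi := by
  refine HasCompactSupport.intro (isCompact_closedBall (0 : Pl) 1) fun q hq => ?_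
  rw [mem_closedBall_zero_iff, Prod.norm_def, max_le_iff, not_and_or] at hq
  unfold Phi
  rcases hq with h | h
  · rw [Real.norm_eq_abs] at h
    rw [bmp_eq_zero (y := q.1) (not_le.1 h).le, mul_zero]
  · rw [Real.norm_eq_abs] at h
    rw [bmp_eq_zero (y := q.2) (not_le.1 h).le, zero_mul]

/-- the linear part of the rotation. -/
noncomputable def rotL (θ : ℝ) : Pl →L[ℝ] Pl :=
  (Real.cos θ • ContinuousLinearMap.fst ℝ ℝ ℝ - Real.sin θ • ContinuousLinearMap.snd ℝ ℝ ℝ).prod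
    (Real.sin θ • ContinuousLinearMap.fst ℝ ℝ ℝ + Real.cos θ • ContinuousLinearMap.snd ℝ ℝ ℝ)

theorem rotL_apply (θ : ℝ) (p : Pl) : rotL θ p = rot θ p := by
  unfold rotL rot
  ext <;> simp only [ContinuousLinearMap.prod_apply, sub_apply, smul_apply, ContinuousLinearMap.coe_fst', smul_eq_mul, mul_comm, ContinuousLinearMap.coe_snd', add_apply]

theorem rotL_norm (θ : ℝ) : ‖rotL θ‖ ≤ 2 := by
  refine ContinuousLinearMap.opNorm_le_bound _ (by norm_num) fun p => ?_
  rw [rotL_apply, Prod.norm_def, Real.norm_eq_abs, Real.norm_eq_abs]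
  have hp1 : |p.1| ≤ ‖p‖ := by rw [← Real.norm_eq_abs]; exact norm_fst_le p
  have hp2 : |p.2| ≤ ‖p‖ := by rw [← Real.norm_eq_abs]; exact norm_snd_le p
  have hc : |Real.cos θ| ≤ 1 := Real.abs_cos_le_one θ
  have hs : |Real.sin θ| ≤ 1 := Real.abs_sin_le_one θ
  have k1 : ∀ x y : ℝ, |x| ≤ ‖p‖ → |y| ≤ 1 → |x * y| ≤ ‖p‖ := by
    intro x y hx hy
    rw [abs_mul]
    exact (mul_le_mul hx hy (abs_nonneg _) (norm_nonneg _)).trans (by rw [mul_one])
  refine max_le ?_ ?_
  · change |p.1 * Real.cos θ - p.2 * Real.sin θ| ≤ _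
    refine (abs_sub _ _).trans ?_
    linarith [k1 _ _ hp1 hc, k1 _ _ hp2 hs]
  · change |p.1 * Real.sin θ + p.2 * Real.cos θ| ≤ _
    refine (abs_add_le _ _).trans ?_
    linarith only [k1 _ _ hp1 hs, k1 _ _ hp2 hc]

/-- diagonal map. -/
noncomputable def diagL (a b : ℝ) : Pl →L[ℝ] Pl :=
  (a • ContinuousLinearMap.fst ℝ ℝ ℝ).prod (b • ContinuousLinearMap.snd ℝ ℝ ℝ)

theorem diagL_apply (a b : ℝ) (p : Pl) : diagL a b p = (a * p.1, b * p.2) := rfl

theorem diagL_norm {a b Λ : ℝ} (ha : |a| ≤ Λ) (hb : |b| ≤ Λ) : ‖diagL a b‖ ≤ Λ := by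
  have h0 : 0 ≤ Λ := (abs_nonneg a).trans ha
  refine ContinuousLinearMap.opNorm_le_bound _ h0 fun p => ?_
  rw [diagL_apply, Prod.norm_def, Real.norm_eq_abs, Real.norm_eq_abs]
  have hp1 : |p.1| ≤ ‖p‖ := by rw [← Real.norm_eq_abs]; exact norm_fst_le p
  have hp2 : |p.2| ≤ ‖p‖ := by rw [← Real.norm_eq_abs]; exact norm_snd_le p
  refine max_le ?_ ?_
  · change |a * p.1| ≤ _
    rw [abs_mul]; exact mul_le_mul ha hp1 (abs_nonneg _) h0
  · change |b * p.2| ≤ _
    rw [abs_mul]; exact mul_le_mul hb hp2 (abs_nonneg _) h0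

/-- the bit as the composition of `Phi` with an affine map. -/
theorem bit_eq (cs : ℝ) (n : ℕ) (tj : ℝ) (p : Pl) :
    bit cs n tj p = Phi (diagL (varpi cs n * ell cs n)⁻¹ (ell cs n)⁻¹ p
      + (0, -(tj / ell cs n))) := by
  unfold bit Phi
  rw [diagL_apply]
  simp only [Prod.fst_add, Prod.snd_add, add_zero]
  congr 2
  · rw [sub_div, div_eq_inv_mul p.2]; ring
  · rw [div_eq_inv_mul]

/-- the bound for the norms of the affine maps, for `n` large. -/
theorem scale_bd (cs : ℝ) (hcs : 0 < cs) : ∃ n0 : ℕ, 1 ≤ n0 ∧ ∀ n : ℕ, n0 ≤ n →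
    4 * |(varpi cs n * ell cs n)⁻¹| ≤ (n : ℝ) ^ 124 ∧ 4 * |(ell cs n)⁻¹| ≤ (n : ℝ) ^ 124 := by
  obtain ⟨n0, hn0⟩ := exists_nat_ge (32 / cs ^ 2 + 32 / cs + 1)
  have h32 : 0 < 32 / cs ^ 2 := by positivity
  have h33 : 0 < 32 / cs := by positivity
  have hn01 : 1 ≤ n0 := by
    have : (1 : ℝ) ≤ n0 := by linarith
    exact_mod_cast this
  refine ⟨n0, hn01, fun n hn => ?_⟩
  have hn' : (32 / cs ^ 2 + 32 / cs + 1 : ℝ) ≤ n := hn0.trans (by exact_mod_cast hn)
  have hn1 : (1 : ℝ) ≤ n := by linarith only [h32, h33, hn']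
  have hnpos : (0 : ℝ) < n := by linarith only [h32, h33, hn']
  have hv : 0 < varpi cs n := by unfold varpi; positivity
  have hl : 0 < ell cs n := by unfold ell; positivity
  rw [abs_of_pos (by positivity), abs_of_pos (by positivity)]
  constructor
  · have e : 4 * (varpi cs n * ell cs n)⁻¹ = 32 / cs ^ 2 * (n : ℝ) ^ 123 := by
      unfold varpi ell; field_simp; norm_num
    rw [e]
    have : (n : ℝ) ^ 124 = n * (n : ℝ) ^ 123 := by ring
    rw [this]
    exact mul_le_mul_of_nonneg_right (by linarith only [h33, hn']) (by positivity)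
  · have e : 4 * (ell cs n)⁻¹ = 32 / cs * (n : ℝ) ^ 115 := by
      unfold ell; field_simp; norm_num
    rw [e]
    have h1 : (n : ℝ) ^ 124 = n * (n : ℝ) ^ 123 := by ring
    have h2 : (n : ℝ) ^ 115 ≤ (n : ℝ) ^ 123 := pow_le_pow_right₀ hn1 (by norm_num)
    rw [h1]
    exact mul_le_mul (by linarith only [h32, hn']) h2 (by positivity) (by positivity)

/-- bound for one bit composed with a linear map of norm `≤ 4`. -/
theorem bit_BD (cs : ℝ) (n : ℕ) (tj : ℝ) (m : ℕ) {C : ℝ} (hC : BD m C Phi) (R : Pl →L[ℝ] Pl)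
    (hR : ‖R‖ ≤ 4) (hn : 1 ≤ n)
    (h1 : 4 * |(varpi cs n * ell cs n)⁻¹| ≤ (n : ℝ) ^ 124)
    (h2 : 4 * |(ell cs n)⁻¹| ≤ (n : ℝ) ^ 124) :
    BD m (C * (n : ℝ) ^ (124 * m)) (fun p => bit cs n tj (R p)) := by
  have hn1 : (1 : ℝ) ≤ n := by exact_mod_cast hn
  have e : (fun p => bit cs n tj (R p)) = fun p =>
      Phi (((diagL (varpi cs n * ell cs n)⁻¹ (ell cs n)⁻¹).comp R) p
        + (0, -(tj / ell cs n))) := by
    funext p; rw [bit_eq]; rfl
  have h3 : ‖(diagL (varpi cs n * ell cs n)⁻¹ (ell cs n)⁻¹).comp R‖ ≤ (n : ℝ) ^ 124 := by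
    refine (ContinuousLinearMap.opNorm_comp_le _ _).trans ?_
    have h4 := diagL_norm (a := (varpi cs n * ell cs n)⁻¹) (b := (ell cs n)⁻¹)
      (Λ := (n : ℝ) ^ 124 / 4) (by linarith only [h1]) (by linarith only [h2])
    calc ‖diagL (varpi cs n * ell cs n)⁻¹ (ell cs n)⁻¹‖ * ‖R‖
        ≤ (n : ℝ) ^ 124 / 4 * 4 := mul_le_mul h4 hR (norm_nonneg _) (by positivity)
      _ = _ := by ring
  rw [e]
  refine (hC.comp_aff _ _ (one_le_pow₀ hn1) h3).mono (le_of_eq ?_)
  rw [← pow_mul]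

theorem bits_BD (cs : ℝ) (n : ℕ) (s : Fin (n ^ 107) → Bool) (m : ℕ) {C : ℝ} (hC : BD m C Phi)
    (R : Pl →L[ℝ] Pl) (hR : ‖R‖ ≤ 4) (hn : 1 ≤ n)
    (h1 : 4 * |(varpi cs n * ell cs n)⁻¹| ≤ (n : ℝ) ^ 124)
    (h2 : 4 * |(ell cs n)⁻¹| ≤ (n : ℝ) ^ 124) :
    BD m ((n : ℝ) ^ 107 * (C * (n : ℝ) ^ (124 * m))) (fun p => bits cs n s (R p)) := by
  have h := BD.sum (m := m) (C := C * (n : ℝ) ^ (124 * m)) (Finset.univ : Finset (Fin (n ^ 107)))
    (f := fun j p => (if s j then 1 else 0) * bit cs n (tJ cs n j) (R p)) (fun j _ => by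
      have h3 := bit_BD cs n (tJ cs n j) m hC R hR hn h1 h2
      have h4 := h3.const_mul (if s j then 1 else 0)
      refine h4.mono ?_
      have h5 := h3.nonneg
      split_ifs
      · simp
      · simpa only [abs_zero, zero_mul, ge_iff_le] using h5)
  rw [Finset.card_univ, Fintype.card_fin] at h
  push_cast at h
  exact h

/-- numerical inequality behind `Gother_small`. -/
theorem num_G {b C x : ℝ} (hx : 1 ≤ x) (hC : 1 ≤ C) (hCx : C ≤ x) (hb : 0 ≤ b)
    (hb1 : b ≤ 1 / x ^ 1000) :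
    |b| * (x ^ 9 * (x ^ 107 * (C * x ^ (124 * 3)))) ≤ 1 / x ^ 100 := by
  have hx0 : 0 < x := by linarith only [hx]
  rw [abs_of_nonneg hb]
  have h1 : x ^ 9 * (x ^ 107 * (C * x ^ (124 * 3))) ≤ x ^ 489 := by
    have e : x ^ 489 = x ^ 9 * (x ^ 107 * (x * x ^ (124 * 3))) := by ring
    rw [e]
    (clear * - hCx hx; gcongr)
  calc b * (x ^ 9 * (x ^ 107 * (C * x ^ (124 * 3)))) ≤ 1 / x ^ 1000 * x ^ 489 :=
        mul_le_mul hb1 h1 (by positivity) (by positivity)
    _ = 1 / x ^ 511 := by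
        rw [show x ^ 1000 = x ^ 489 * x ^ 511 by ring]
        field_simp
    _ ≤ 1 / x ^ 100 := by
        apply one_div_le_one_div_of_le (by positivity)
        exact pow_le_pow_right₀ hx (by norm_num)

theorem Gother_small (cs : ℝ) (hcs : 0 < cs) : ∃ n0 : ℕ, ∀ n : ℕ, n0 ≤ n →
    ∀ (b : ℝ), 0 ≤ b → b ≤ 1 / (n : ℝ) ^ 1000 →
    ∀ (σ : Fin (n ^ 9) → Fin (n ^ 107) → Bool) (l : Fin (n ^ 9)),
      ContDiff ℝ ∞ (fun p => b * ∑ k ∈ Finset.univ.erase l,
        bits cs n (σ k) (rot (-ang n k) (rot (ang n l) p))) ∧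
      ∀ p, Dle 3 (fun p => b * ∑ k ∈ Finset.univ.erase l,
        bits cs n (σ k) (rot (-ang n k) (rot (ang n l) p))) (1 / (n : ℝ) ^ 100) p := by
  obtain ⟨C, hC1, hC⟩ := BD.of_compact Phi_smooth Phi_compact 3
  obtain ⟨n1, hn1, hsc⟩ := scale_bd cs hcs
  obtain ⟨n2, hn2⟩ := exists_nat_ge C
  refine ⟨max n1 n2, fun n hn b hb hb1 σ l => ?_⟩
  have hn1' : n1 ≤ n := (le_max_left _ _).trans hn
  have hn2' : n2 ≤ n := (le_max_right _ _).trans hn
  have hnn : 1 ≤ n := hn1.trans hn1'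
  have hnR : (1 : ℝ) ≤ n := by exact_mod_cast hnn
  have hCn : C ≤ n := hn2.trans (by exact_mod_cast hn2')
  obtain ⟨s1, s2⟩ := hsc n hn1'
  have hR : ∀ k : Fin (n ^ 9), ‖(rotL (-ang n k)).comp (rotL (ang n l))‖ ≤ 4 := fun k => by
    refine (ContinuousLinearMap.opNorm_comp_le _ _).trans ?_
    have := mul_le_mul (rotL_norm (-ang n k)) (rotL_norm (ang n l)) (norm_nonneg _) (by norm_num)
    linarith only [this]
  have h := BD.sum (m := 3) (C := (n : ℝ) ^ 107 * (C * (n : ℝ) ^ (124 * 3)))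
    (Finset.univ.erase l)
    (f := fun k p => bits cs n (σ k) (rot (-ang n k) (rot (ang n l) p))) (fun k _ => by
      have h3 := bits_BD cs n (σ k) 3 hC _ (hR k) hnn s1 s2
      have e : (fun p => bits cs n (σ k) (((rotL (-ang n k)).comp (rotL (ang n l))) p))
          = fun p => bits cs n (σ k) (rot (-ang n k) (rot (ang n l) p)) := by
        funext p
        rw [ContinuousLinearMap.comp_apply, rotL_apply, rotL_apply]
      rw [e] at h3
      exact h3)
  have h' := h.const_mul b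
  have h4 : (((Finset.univ.erase l : Finset (Fin (n ^ 9))).card : ℕ) : ℝ) ≤ (n : ℝ) ^ 9 := by
    have : (Finset.univ.erase l : Finset (Fin (n ^ 9))).card ≤ n ^ 9 := by
      refine (Finset.card_erase_le).trans ?_
      rw [Finset.card_univ, Fintype.card_fin]
    exact_mod_cast this
  have h5 : BD 3 (1 / (n : ℝ) ^ 100) (fun p => b * ∑ k ∈ Finset.univ.erase l,
        bits cs n (σ k) (rot (-ang n k) (rot (ang n l) p))) := by
    refine h'.mono (le_trans ?_ (num_G hnR hC1 hCn hb hb1))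
    (clear * - h4 hnn hC1; gcongr)
  exact ⟨h5.1, fun p => h5.dle p⟩

/-! ## `phc_props` -/

theorem rho2_smooth : ContDiff ℝ ∞ rho2 := by
  unfold rho2
  exact (contDiff_fst.pow 2).add (contDiff_snd.pow 2)

theorem phi0_smooth' : ContDiff ℝ ∞ phi0 := by
  unfold phi0
  exact (Real.smoothTransition.contDiff.comp ((contDiff_const.sub rho2_smooth).div_const _)).mul
    (((rho2_smooth.sub (rho2_smooth.pow 2)).sub contDiff_const).div_const _)

theorem phi0_eq_zero {p : Pl} (h : 0.9 ≤ rho2 p) : phi0 p = 0 := by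
  unfold phi0
  rw [Real.smoothTransition.zero_of_nonpos (x := (0.9 - rho2 p) / 0.2)
    (div_nonpos_of_nonpos_of_nonneg (by linarith) (by norm_num)), zero_mul]

theorem phi0_nonpos (p : Pl) : phi0 p ≤ 0 := by
  unfold phi0
  have h1 := Real.smoothTransition.nonneg ((0.9 - rho2 p) / 0.2)
  have h2 : (rho2 p - rho2 p ^ 2 - 1) / 16 ≤ 0 := by linarith only [sq_nonneg (rho2 p - 1 / 2)]
  exact mul_nonpos_of_nonneg_of_nonpos h1 h2

theorem phi0_neg {p : Pl} (h : rho2 p < 1 / 4) : phi0 p ≤ -(3 / 64) := by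
  unfold phi0
  rw [Real.smoothTransition.one_of_one_le (x := (0.9 - rho2 p) / 0.2)
    (by rw [le_div_iff₀ (by norm_num)]; linarith only [h]), one_mul]
  linarith only [sq_nonneg (rho2 p - 1 / 2)]

theorem abs_le_of_rho2 {p : Pl} (h : rho2 p ≤ 0.9) : ‖p‖ < 1 := by
  unfold rho2 at h
  rw [Prod.norm_def, Real.norm_eq_abs, Real.norm_eq_abs, max_lt_iff]
  constructor
  · exact (sq_lt_one_iff_abs_lt_one _).1 (by linarith only [h, sq_nonneg p.2])
  · exact (sq_lt_one_iff_abs_lt_one _).1 (by linarith only [h, sq_nonneg p.1])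

theorem phi0_compact : HasCompactSupport phi0 := by
  refine HasCompactSupport.intro (isCompact_closedBall (0 : Pl) 1) fun q hq => ?_
  by_contra h
  apply hq
  rw [mem_closedBall_zero_iff]
  refine (abs_le_of_rho2 (le_of_not_ge fun h2 => h (phi0_eq_zero h2))).le

theorem rho2_rot (θ : ℝ) (p : Pl) : rho2 (rot θ p) = rho2 p := by
  unfold rho2 rot
  have := Real.sin_sq_add_cos_sq θ
  calc (p.1 * Real.cos θ - p.2 * Real.sin θ) ^ 2 + (p.1 * Real.sin θ + p.2 * Real.cos θ) ^ 2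
      = (p.1 ^ 2 + p.2 ^ 2) * (Real.sin θ ^ 2 + Real.cos θ ^ 2) := by ring
    _ = _ := by rw [this, mul_one]

/-- the bits vanish away from the origin. -/
theorem bits_eq_zero {cs : ℝ} (hcs : 0 < cs) (hcs1 : cs ≤ 1) {n : ℕ} (hn : 2 ≤ n)
    (s : Fin (n ^ 107) → Bool) {p : Pl} (hp : 1 / 4 ≤ rho2 p) : bits cs n s p = 0 := by
  have hnR : (2 : ℝ) ≤ n := by exact_mod_cast hn
  have hn0 : (0 : ℝ) < n := by linarith only [hnR]
  have hn1 : (1 : ℝ) ≤ n := by linarith only [hnR]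
  have hell : 0 < ell cs n := by unfold ell; positivity
  have hv : 0 < varpi cs n := by unfold varpi; positivity
  have e1 : ell cs n * (8 * (n : ℝ) ^ 107) = cs / (n : ℝ) ^ 8 := by
    unfold ell
    rw [show (n : ℝ) ^ 115 = (n : ℝ) ^ 107 * (n : ℝ) ^ 8 by ring]
    field_simp
  have h8 : cs / (n : ℝ) ^ 8 ≤ 1 / 4 := by
    rw [div_le_iff₀ (by positivity)]
    have : (n : ℝ) ^ 8 ≥ 2 ^ 8 := pow_le_pow_left₀ (by norm_num) hnR 8
    linarith only [hcs1, this]
  have hv1 : varpi cs n ≤ 1 / 4 := h8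
  have hell1 : ell cs n ≤ 1 / 4 := by
    have : ell cs n ≤ ell cs n * (8 * (n : ℝ) ^ 107) := by
      have h1 : (1 : ℝ) ≤ 8 * (n : ℝ) ^ 107 := by
        have := one_le_pow₀ (n := 107) hn1
        linarith only [this]
      nlinarith only [hell, h1]
    linarith only [e1, h8, this]
  unfold bits
  refine Finset.sum_eq_zero fun j _ => ?_
  have hz : bit cs n (tJ cs n j) p = 0 := by
    by_contra hne
    unfold bit at hne
    have a1 : |(p.2 - tJ cs n j) / ell cs n| < 1 := by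
      by_contra h; push Not at h
      exact hne (by rw [bmp_eq_zero h, zero_mul])
    have a2 : |p.1 / (varpi cs n * ell cs n)| < 1 := by
      by_contra h; push Not at h
      exact hne (by rw [bmp_eq_zero h, mul_zero])
    rw [abs_div, abs_of_pos hell, div_lt_one hell] at a1
    rw [abs_div, abs_of_pos (mul_pos hv hell), div_lt_one (mul_pos hv hell)] at a2
    have hj0 : 0 ≤ tJ cs n j := by unfold tJ; (clear * - hell; positivity)
    have hj1 : tJ cs n j ≤ 1 / 4 - 8 * ell cs n := by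
      unfold tJ
      have hj : ((j : ℕ) : ℝ) + 1 ≤ (n : ℝ) ^ 107 := by
        have := j.2
        exact_mod_cast this
      have : 8 * ell cs n * (((j : ℕ) : ℝ) + 1) ≤ 8 * ell cs n * (n : ℝ) ^ 107 :=
        mul_le_mul_of_nonneg_left hj (by positivity)
      linarith only [e1, h8, this]
    have a3 : |p.2| < 1 / 4 := by
      rw [abs_lt] at a1 ⊢
      constructor <;> linarith only [hell, a1, hj0, hj1, a1.1, a1.2]
    have a4 : |p.1| < 1 / 4 := by
      have : varpi cs n * ell cs n ≤ 1 / 4 * 1 :=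
        mul_le_mul hv1 (by linarith only [hj0, hj1]) hell.le (by norm_num)
      linarith only [a2, this]
    have : rho2 p < 1 / 4 := by
      unfold rho2
      have b1 : p.1 ^ 2 < (1 / 4) ^ 2 := sq_lt_sq' (by linarith only [(abs_lt.1 a4).1]) (abs_lt.1 a4).2
      have b2 : p.2 ^ 2 < (1 / 4) ^ 2 := sq_lt_sq' (by linarith only [(abs_lt.1 a3).1]) (abs_lt.1 a3).2
      linarith only [b1, b2]
    linarith only [hp, this]
  rw [hz, mul_zero]

theorem bits_le (cs : ℝ) (n : ℕ) (s : Fin (n ^ 107) → Bool) (p : Pl) :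
    bits cs n s p ≤ (n : ℝ) ^ 107 := by
  unfold bits
  have : ∀ j ∈ (Finset.univ : Finset (Fin (n ^ 107))),
      (if s j then (1 : ℝ) else 0) * bit cs n (tJ cs n j) p ≤ 1 := by
    intro j _
    have h1 : bit cs n (tJ cs n j) p ≤ 1 := by
      unfold bit
      exact mul_le_one₀ (bmp_le_one _) (bmp_nonneg _) (bmp_le_one _)
    split_ifs
    · simpa only [one_mul, ge_iff_le] using h1
    · norm_num
  refine (Finset.sum_le_sum this).trans ?_
  rw [Finset.sum_const, Finset.card_univ, Fintype.card_fin]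
  simp

/-- numerical inequalities behind `phc_props`. -/
theorem num_P {C x : ℝ} {m qb : ℕ} (hx : 1 ≤ x) (hCx : C ≤ x)
    (hqb : 200 * m + 1000 ≤ qb) :
    |1 / x ^ qb| * (x ^ 9 * (x ^ 107 * (C * x ^ (124 * m)))) ≤ 1 / x := by
  have hx0 : 0 < x := by linarith only [hx]
  rw [abs_of_pos (by positivity)]
  have h1 : x ^ 9 * (x ^ 107 * (C * x ^ (124 * m))) ≤ x ^ (117 + 124 * m) := by
    have e : x ^ (117 + 124 * m) = x ^ 9 * (x ^ 107 * (x * x ^ (124 * m))) := by
      rw [pow_add]; ring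
    rw [e]
    gcongr
  have h2 : x ^ (117 + 124 * m) * x ≤ x ^ qb := by
    rw [← pow_succ]
    exact pow_le_pow_right₀ hx (by omega)
  calc 1 / x ^ qb * (x ^ 9 * (x ^ 107 * (C * x ^ (124 * m))))
      ≤ 1 / x ^ qb * x ^ (117 + 124 * m) := by gcongr
    _ ≤ 1 / x := by
        rw [div_mul_eq_mul_div, one_mul, div_le_div_iff₀ (by positivity) hx0]
        linarith only [h2]

theorem num_P2 {x : ℝ} {qb : ℕ} (hx : 30 ≤ x) (hqb : 1000 ≤ qb) :
    1 / x ^ qb * (x ^ 9 * x ^ 107) < (x ^ 16)⁻¹ * (3 / 64) := by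
  have hx0 : 0 < x := by linarith only [hx]
  have h2 : x ^ 133 ≤ x ^ qb := pow_le_pow_right₀ (by linarith only [hx]) (by omega)
  rw [one_div, ← div_eq_inv_mul, ← div_eq_inv_mul, div_lt_div_iff₀ (by positivity) (by positivity)]
  have e : x ^ 133 = x * (x ^ 9 * x ^ 107 * x ^ 16) := by ring
  have h3 : 30 * (x ^ 9 * x ^ 107 * x ^ 16) ≤ x * (x ^ 9 * x ^ 107 * x ^ 16) :=
    mul_le_mul_of_nonneg_right hx (by positivity)
  have h4 : 0 < x ^ 9 * x ^ 107 * x ^ 16 := by positivity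
  linarith only [h2, h3, h4]

/-- properties of the potentials: smooth, supported in the unit ball, small, nonpositive. -/
theorem phc_props (cs : ℝ) (hcs : 0 < cs) (hcs1 : cs ≤ 1) (m : ℕ) (e : ℝ) (he : 0 < e) (qb : ℕ)
    (hqb : 200 * m + 1000 ≤ qb) : ∃ n0 : ℕ, ∀ n : ℕ, n0 ≤ n →
    ∀ σ : Fin (n ^ 9) → Fin (n ^ 107) → Bool,
      ContDiff ℝ ∞ (phc cs (1 / (n : ℝ) ^ qb) n σ) ∧
      tsupport (phc cs (1 / (n : ℝ) ^ qb) n σ) ⊆ Metric.ball (0 : Pl) 1 ∧
      (∀ p, phc cs (1 / (n : ℝ) ^ qb) n σ p ≤ 0) ∧ phc cs (1 / (n : ℝ) ^ qb) n σ 0 < 0 ∧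
      ∀ j ≤ m, ∀ p, ‖iteratedFDeriv ℝ j (phc cs (1 / (n : ℝ) ^ qb) n σ) p‖ ≤ e := by
  obtain ⟨C, hC1, hC⟩ := BD.of_compact Phi_smooth Phi_compact m
  obtain ⟨C0, hC01, hC0⟩ := BD.of_compact phi0_smooth' phi0_compact m
  obtain ⟨n1, hn1, hsc⟩ := scale_bd cs hcs
  obtain ⟨n2, hn2⟩ := exists_nat_ge (C + C0 + 30 + 2 * C0 / e + 2 / e)
  have hpos1 : 0 < 2 * C0 / e := by positivity
  have hpos2 : 0 < 2 / e := by positivity
  refine ⟨max n1 n2, fun n hn σ => ?_⟩
  have hn1' : n1 ≤ n := (le_max_left _ _).trans hn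
  have hn2' : (n2 : ℝ) ≤ n := by exact_mod_cast (le_max_right _ _).trans hn
  have hnn : 1 ≤ n := hn1.trans hn1'
  have hnR : (1 : ℝ) ≤ n := by exact_mod_cast hnn
  have hCn : C ≤ n := by linarith only [hC01, hn2, hpos1, hpos2, hn2']
  have hC0n : C0 ≤ n := by linarith only [hC1, hn2, hpos1, hpos2, hn2']
  have h30 : (30 : ℝ) ≤ n := by linarith only [hC1, hC01, hn2, hpos1, hpos2, hn2']
  have hn0 : (0 : ℝ) < n := by linarith only [hC1, hC01, hn2, hpos1, hpos2, hn2']
  have hn2N : 2 ≤ n := by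
    have : (2 : ℝ) ≤ n := by linarith only [hC1, hC01, hn2, hpos1, hpos2, hn2']
    exact_mod_cast this
  have hne1 : 1 / (n : ℝ) ≤ e / 2 := by
    rw [div_le_iff₀ hn0]
    have : 2 / e ≤ n := by linarith only [hC1, hC01, hn2, hpos1, hn2']
    rw [div_le_iff₀ he] at this
    linarith only [this]
  have hne2 : C0 / (n : ℝ) ≤ e / 2 := by
    rw [div_le_iff₀ hn0]
    have : 2 * C0 / e ≤ n := by linarith only [hC1, hC01, hn2, hpos2, hn2']
    rw [div_le_iff₀ he] at this
    linarith only [this]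
  obtain ⟨s1, s2⟩ := hsc n hn1'
  have hR : ∀ k : Fin (n ^ 9), ‖rotL (-ang n k)‖ ≤ 4 := fun k =>
    (rotL_norm _).trans (by norm_num)
  have h := BD.sum (m := m) (C := (n : ℝ) ^ 107 * (C * (n : ℝ) ^ (124 * m)))
    (Finset.univ : Finset (Fin (n ^ 9)))
    (f := fun k p => bits cs n (σ k) (rot (-ang n k) p)) (fun k _ => by
      have h3 := bits_BD cs n (σ k) m hC _ (hR k) hnn s1 s2
      have e : (fun p => bits cs n (σ k) (rotL (-ang n k) p))
          = fun p => bits cs n (σ k) (rot (-ang n k) p) := by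
        funext p
        rw [rotL_apply]
      rw [e] at h3
      exact h3)
  rw [Finset.card_univ, Fintype.card_fin] at h
  push_cast at h
  have hb := (h.const_mul (1 / (n : ℝ) ^ qb)).mono (num_P hnR hCn hqb)
  have ha : BD m (e / 2) (fun p => ((n : ℝ) ^ 16)⁻¹ * phi0 p) := by
    refine (hC0.const_mul ((n : ℝ) ^ 16)⁻¹).mono (le_trans ?_ hne2)
    rw [abs_of_pos (by positivity), ← div_eq_inv_mul]
    gcongr
    have := one_le_pow₀ (n := 15) hnR
    calc (n : ℝ) = n * 1 := by ring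
      _ ≤ n * (n : ℝ) ^ 15 := by (clear * - this hnn; gcongr)
      _ = _ := by ring
  have hall : BD m e (phc cs (1 / (n : ℝ) ^ qb) n σ) := by
    have h1 := (ha.add hb).mono (show e / 2 + 1 / (n : ℝ) ≤ e by linarith only [hne1])
    exact h1
  have hzero : ∀ p, 1 / 4 ≤ rho2 p →
      phc cs (1 / (n : ℝ) ^ qb) n σ p = ((n : ℝ) ^ 16)⁻¹ * phi0 p := by
    intro p hp
    unfold phc
    rw [Finset.sum_eq_zero fun l _ => bits_eq_zero hcs hcs1 hn2N (σ l)
      (by rw [rho2_rot]; exact hp)]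
    ring
  have hneg : ∀ p, rho2 p < 1 / 4 → phc cs (1 / (n : ℝ) ^ qb) n σ p < 0 := by
    intro p hp
    unfold phc
    have h1 : ∑ l : Fin (n ^ 9), bits cs n (σ l) (rot (-ang n l) p)
        ≤ (n : ℝ) ^ 9 * (n : ℝ) ^ 107 := by
      refine (Finset.sum_le_sum (g := fun _ => (n : ℝ) ^ 107)
        fun l _ => bits_le cs n (σ l) _).trans ?_
      rw [Finset.sum_const, Finset.card_univ, Fintype.card_fin]
      simp
    have h2 : 1 / (n : ℝ) ^ qb * ∑ l : Fin (n ^ 9), bits cs n (σ l) (rot (-ang n l) p)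
        ≤ 1 / (n : ℝ) ^ qb * ((n : ℝ) ^ 9 * (n : ℝ) ^ 107) :=
      mul_le_mul_of_nonneg_left h1 (by positivity)
    have h3 := num_P2 (qb := qb) h30 (by (clear * - hqb; omega))
    have h4 : ((n : ℝ) ^ 16)⁻¹ * phi0 p ≤ ((n : ℝ) ^ 16)⁻¹ * (-(3 / 64)) :=
      mul_le_mul_of_nonneg_left (phi0_neg hp) (by positivity)
    linarith only [h2, h3, h4]
  refine ⟨hall.1, ?_, ?_, ?_, hall.2⟩
  · have hcl : IsClosed {p : Pl | rho2 p ≤ 0.9} :=
      isClosed_le rho2_smooth.continuous continuous_const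
    have h1 : tsupport (phc cs (1 / (n : ℝ) ^ qb) n σ) ⊆ {p : Pl | rho2 p ≤ 0.9} := by
      refine closure_minimal (fun p hp => ?_) hcl
      by_contra h2
      have h3 : 0.9 < rho2 p := not_le.1 h2
      refine hp ?_
      rw [hzero p (by linarith only [h3]), phi0_eq_zero h3.le, mul_zero]
    intro p hp
    rw [mem_ball_zero_iff]
    exact abs_le_of_rho2 (h1 hp)
  · intro p
    rcases lt_or_ge (rho2 p) (1 / 4) with h1 | h1
    · exact (hneg p h1).le
    · rw [hzero p h1]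
      exact mul_nonpos_of_nonneg_of_nonpos (by positivity) (phi0_nonpos p)
  · exact hneg 0 (by simp only [rho2, Prod.fst_zero, ne_eq, OfNat.ofNat_ne_zero, not_false_eq_true, zero_pow, Prod.snd_zero, add_zero, one_div, inv_pos, Nat.ofNat_pos])

end Vale.Agent.P229.D.BB

namespace Vale.Agent.P229.D

/-- `Gother` is smooth and tiny. -/
theorem Gother_small (cs : ℝ) (hcs : 0 < cs) : ∃ n0 : ℕ, ∀ n : ℕ, n0 ≤ n →
    ∀ (b : ℝ), 0 ≤ b → b ≤ 1 / (n : ℝ) ^ 1000 →
    ∀ (σ : Fin (n ^ 9) → Fin (n ^ 107) → Bool) (l : Fin (n ^ 9)),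
      ContDiff ℝ ∞ (Gother cs b n σ l) ∧ ∀ p, Dle 3 (Gother cs b n σ l) (1 / (n : ℝ) ^ 100) p :=
  BB.Gother_small cs hcs

/-- properties of the potentials: smooth, supported in the unit ball, small, nonpositive. -/
theorem phc_props (cs : ℝ) (hcs : 0 < cs) (hcs1 : cs ≤ 1) (m : ℕ) (e : ℝ) (he : 0 < e) (qb : ℕ)
    (hqb : 200 * m + 1000 ≤ qb) : ∃ n0 : ℕ, ∀ n : ℕ, n0 ≤ n →
    ∀ σ : Fin (n ^ 9) → Fin (n ^ 107) → Bool,
      ContDiff ℝ ∞ (phc cs (1 / (n : ℝ) ^ qb) n σ) ∧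
      tsupport (phc cs (1 / (n : ℝ) ^ qb) n σ) ⊆ Metric.ball (0 : Pl) 1 ∧
      (∀ p, phc cs (1 / (n : ℝ) ^ qb) n σ p ≤ 0) ∧ phc cs (1 / (n : ℝ) ^ qb) n σ 0 < 0 ∧
      ∀ j ≤ m, ∀ p, ‖iteratedFDeriv ℝ j (phc cs (1 / (n : ℝ) ^ qb) n σ) p‖ ≤ e :=
  BB.phc_props cs hcs hcs1 m e he qb hqb

end Vale.Agent.P229.D
end
end

section

section

/-!
# P229, disproof, task T17: choice of the direction (pure linear algebra)

The rotated Hessian of `[[a, b], [b, c]]` has entries `hxx a b c θ`, `hxt a b c θ`.  Among the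
`n ^ 9` directions `ang n l` one makes `± hxx` large and `hxt` small.
-/

open scoped Topology
open Set

namespace Vale.Agent.P229.D

/-- `xx` entry of the rotated Hessian. -/
noncomputable def hxx (a b c θ : ℝ) : ℝ :=
  a * Real.cos θ ^ 2 + 2 * b * (Real.cos θ * Real.sin θ) + c * Real.sin θ ^ 2

/-- `xt` entry of the rotated Hessian. -/
noncomputable def hxt (a b c θ : ℝ) : ℝ :=
  (c - a) * (Real.cos θ * Real.sin θ) + b * (Real.cos θ ^ 2 - Real.sin θ ^ 2)

theorem nd_cos_two (θ : ℝ) : Real.cos θ ^ 2 = (1 + Real.cos (2 * θ)) / 2 := by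
  rw [Real.cos_two_mul]; ring

theorem nd_sin_two (θ : ℝ) : Real.sin θ ^ 2 = (1 - Real.cos (2 * θ)) / 2 := by
  rw [Real.cos_two_mul]
  have := Real.sin_sq_add_cos_sq θ
  linarith only [this]

theorem nd_cs_two (θ : ℝ) : Real.cos θ * Real.sin θ = Real.sin (2 * θ) / 2 := by
  rw [Real.sin_two_mul]; ring

/-- amplitude and phase -/
theorem nd_phase (a b c : ℝ) : ∃ R φ : ℝ, 0 ≤ R ∧ (a - c) / 2 = R * Real.cos φ ∧
    b = R * Real.sin φ := by
  refine ⟨‖(⟨(a - c) / 2, b⟩ : ℂ)‖, Complex.arg ⟨(a - c) / 2, b⟩, norm_nonneg _, ?_, ?_⟩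
  · exact (Complex.norm_mul_cos_arg ⟨(a - c) / 2, b⟩).symm
  · exact (Complex.norm_mul_sin_arg ⟨(a - c) / 2, b⟩).symm

theorem nd_hxx {a b c R φ : ℝ} (h1 : (a - c) / 2 = R * Real.cos φ) (h2 : b = R * Real.sin φ)
    (θ : ℝ) : hxx a b c θ = (a + c) / 2 + R * Real.cos (2 * θ - φ) := by
  unfold hxx
  rw [nd_cos_two, nd_sin_two, nd_cs_two, Real.cos_sub]
  linear_combination Real.cos (2 * θ) * h1 + Real.sin (2 * θ) * h2

theorem nd_hxt {a b c R φ : ℝ} (h1 : (a - c) / 2 = R * Real.cos φ) (h2 : b = R * Real.sin φ)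
    (θ : ℝ) : hxt a b c θ = -(R * Real.sin (2 * θ - φ)) := by
  unfold hxt
  rw [nd_cos_two, nd_sin_two, nd_cs_two, Real.sin_sub]
  linear_combination -Real.sin (2 * θ) * h1 + Real.cos (2 * θ) * h2

/-- the grid of directions `ang n l` is `2 π / n ^ 9`-dense modulo `2 π` -/
theorem nd_grid {n : ℕ} (hn : 1 ≤ n) (x : ℝ) : ∃ (l : Fin (n ^ 9)) (q : ℤ) (δ : ℝ),
    ang n l = x + δ - q * (2 * Real.pi) ∧ |δ| ≤ 2 * Real.pi / (n : ℝ) ^ 9 := by
  have hN : (0 : ℤ) < (n : ℤ) ^ 9 := by positivity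
  have hNr : (0 : ℝ) < (n : ℝ) ^ 9 := by positivity
  have hpi := Real.pi_pos
  set y : ℝ := x * (n : ℝ) ^ 9 / (2 * Real.pi) with hy
  set k : ℤ := ⌊y⌋ with hk
  have hl1 : 0 ≤ k % (n : ℤ) ^ 9 := Int.emod_nonneg _ hN.ne'
  have hl2 : k % (n : ℤ) ^ 9 < (n : ℤ) ^ 9 := Int.emod_lt_of_pos _ hN
  have hl3 : (k % (n : ℤ) ^ 9).toNat < n ^ 9 := by
    have : ((k % (n : ℤ) ^ 9).toNat : ℤ) < ((n ^ 9 : ℕ) : ℤ) := by
      rw [Int.toNat_of_nonneg hl1]
      push_cast
      exact hl2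
    exact_mod_cast this
  refine ⟨⟨(k % (n : ℤ) ^ 9).toNat, hl3⟩, k / (n : ℤ) ^ 9, 2 * Real.pi * k / (n : ℝ) ^ 9 - x,
    ?_, ?_⟩
  · unfold ang
    have e1 : (((k % (n : ℤ) ^ 9).toNat : ℕ) : ℝ) = ((k % (n : ℤ) ^ 9 : ℤ) : ℝ) := by
      have : (((k % (n : ℤ) ^ 9).toNat : ℤ) : ℝ) = ((k % (n : ℤ) ^ 9 : ℤ) : ℝ) := by
        rw [Int.toNat_of_nonneg hl1]
      exact_mod_cast this
    have e2 : ((k % (n : ℤ) ^ 9 : ℤ) : ℝ) = (k : ℝ) - (n : ℝ) ^ 9 * ((k / (n : ℤ) ^ 9 : ℤ) : ℝ) := by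
      have h := Int.emod_add_mul_ediv k ((n : ℤ) ^ 9)
      have h' : ((k % (n : ℤ) ^ 9 : ℤ) : ℝ) + (n : ℝ) ^ 9 * ((k / (n : ℤ) ^ 9 : ℤ) : ℝ) = (k : ℝ) := by
        exact_mod_cast congrArg (fun z : ℤ => (z : ℝ)) h
      linarith only [h']
    change 2 * Real.pi * (((k % (n : ℤ) ^ 9).toNat : ℕ) : ℝ) / (n : ℝ) ^ 9 = _
    rw [e1, e2]
    field_simp
    ring
  · have h1 : (k : ℝ) ≤ y := Int.floor_le y
    have h2 : y < k + 1 := Int.lt_floor_add_one y
    have h3 : x = y * (2 * Real.pi) / (n : ℝ) ^ 9 := by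
      rw [hy]; field_simp
    rw [h3, abs_le]
    constructor
    · rw [← sub_nonneg]
      have : 2 * Real.pi * k / (n : ℝ) ^ 9 - y * (2 * Real.pi) / (n : ℝ) ^ 9 -
          -(2 * Real.pi / (n : ℝ) ^ 9) = 2 * Real.pi * (k + 1 - y) / (n : ℝ) ^ 9 := by
        field_simp
        ring
      rw [this]
      have : 0 ≤ (k : ℝ) + 1 - y := by linarith only [h2]
      positivity
    · rw [← sub_nonneg]
      have : 2 * Real.pi / (n : ℝ) ^ 9 - (2 * Real.pi * k / (n : ℝ) ^ 9 -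
          y * (2 * Real.pi) / (n : ℝ) ^ 9) = 2 * Real.pi * (1 + (y - k)) / (n : ℝ) ^ 9 := by
        field_simp
        ring
      rw [this]
      have : 0 ≤ 1 + (y - (k : ℝ)) := by linarith only [h1]
      positivity

/-- Choice of the direction. -/
theorem dir_choice {a b c m0 cs : ℝ} {n : ℕ} (hcs : 0 < cs) (hcs1 : cs ≤ 1)
    (hn : 64 / cs ≤ (n : ℝ)) (hm : m0 ≤ |a| ∨ m0 ≤ |b| ∨ m0 ≤ |c|) :
    ∃ (l : Fin (n ^ 9)) (s : ℝ), (s = 1 ∨ s = -1) ∧
      m0 / 2 ≤ s * hxx a b c (ang n l) ∧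
      |hxt a b c (ang n l)| ≤ varpi cs n / 2 * (s * hxx a b c (ang n l)) := by
  have hpi := Real.pi_pos
  have hpi4 := Real.pi_lt_four
  have hn64 : (64 : ℝ) ≤ n := by
    have : (64 : ℝ) ≤ 64 / cs := by
      rw [le_div_iff₀ hcs]; linarith only [hcs1]
    linarith only [hn, this]
  have hn1 : 1 ≤ n := by
    have : (1 : ℝ) ≤ n := by linarith only [hn64]
    exact_mod_cast this
  obtain ⟨R, φ, hR, h1, h2⟩ := nd_phase a b c
  -- the size
  have hsize : m0 ≤ |(a + c) / 2| + R := by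
    have hc1 := Real.abs_cos_le_one φ
    have hs1 := Real.abs_sin_le_one φ
    have e1 : |R * Real.cos φ| ≤ R := by
      rw [abs_mul, abs_of_nonneg hR]
      exact mul_le_of_le_one_right hR hc1
    have e2 : |R * Real.sin φ| ≤ R := by
      rw [abs_mul, abs_of_nonneg hR]
      exact mul_le_of_le_one_right hR hs1
    rcases hm with h | h | h
    · have ea : a = (a + c) / 2 + R * Real.cos φ := by rw [← h1]; ring
      calc m0 ≤ |a| := h
        _ = |(a + c) / 2 + R * Real.cos φ| := by rw [← ea]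
        _ ≤ |(a + c) / 2| + |R * Real.cos φ| := abs_add_le _ _
        _ ≤ _ := by linarith only [e1]
    · calc m0 ≤ |b| := h
        _ = |R * Real.sin φ| := by rw [← h2]
        _ ≤ R := e2
        _ ≤ _ := by linarith only [abs_nonneg ((a + c) / 2)]
    · have ec : c = (a + c) / 2 - R * Real.cos φ := by rw [← h1]; ring
      calc m0 ≤ |c| := h
        _ = |(a + c) / 2 - R * Real.cos φ| := by rw [← ec]
        _ ≤ |(a + c) / 2| + |R * Real.cos φ| := abs_sub _ _
        _ ≤ _ := by linarith only [e1]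
  set m := |(a + c) / 2| + R with hmdef
  have hm0 : 0 ≤ m := by (clear * - hR; positivity)
  have hRm : R ≤ m := by rw [hmdef]; linarith only [abs_nonneg ((a + c) / 2)]
  -- the direction
  obtain ⟨s, x, hs, hx⟩ : ∃ s x : ℝ, (s = 1 ∨ s = -1) ∧ ∀ δ : ℝ,
      s * hxx a b c (x + δ) = |(a + c) / 2| + R * Real.cos (2 * δ) ∧
      |hxt a b c (x + δ)| = |R * Real.sin (2 * δ)| := by
    rcases le_total 0 (a + c) with h | h
    · refine ⟨1, φ / 2, Or.inl rfl, fun δ => ?_⟩
      have e : 2 * (φ / 2 + δ) - φ = 2 * δ := by ring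
      rw [nd_hxx h1 h2, nd_hxt h1 h2, e, abs_of_nonneg (by linarith only [h] : 0 ≤ (a + c) / 2)]
      exact ⟨by ring, abs_neg _⟩
    · refine ⟨-1, φ / 2 + Real.pi / 2, Or.inr rfl, fun δ => ?_⟩
      have e : 2 * (φ / 2 + Real.pi / 2 + δ) - φ = 2 * δ + Real.pi := by ring
      rw [nd_hxx h1 h2, nd_hxt h1 h2, e, abs_of_nonpos (by linarith only [h] : (a + c) / 2 ≤ 0),
        Real.cos_add_pi, Real.sin_add_pi]
      refine ⟨by ring, ?_⟩
      congr 1
      ring
  obtain ⟨l, q, δ, hl, hδ⟩ := nd_grid hn1 x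
  have hper : hxx a b c (ang n l) = hxx a b c (x + δ) ∧ hxt a b c (ang n l) =
      hxt a b c (x + δ) := by
    rw [hl]
    unfold hxx hxt
    rw [Real.cos_sub_int_mul_two_pi, Real.sin_sub_int_mul_two_pi]
    exact ⟨rfl, rfl⟩
  obtain ⟨hx1, hx2⟩ := hx δ
  -- smallness of `δ`
  have hn8 : (0 : ℝ) < (n : ℝ) ^ 8 := by positivity
  have hn9 : (n : ℝ) ^ 9 = (n : ℝ) ^ 8 * n := by ring
  have hnpos : (0 : ℝ) < n := by linarith only [hn64]
  have hδ2 : |2 * δ| ≤ cs / (4 * (n : ℝ) ^ 8) := by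
    rw [abs_mul, abs_of_pos (by norm_num : (0 : ℝ) < 2)]
    have h3 : 2 * |δ| ≤ 16 / ((n : ℝ) ^ 8 * n) := by
      calc 2 * |δ| ≤ 2 * (2 * Real.pi / (n : ℝ) ^ 9) := by linarith only [hδ]
        _ = 4 * Real.pi / ((n : ℝ) ^ 8 * n) := by rw [hn9]; ring
        _ ≤ 16 / ((n : ℝ) ^ 8 * n) := by
            apply div_le_div_of_nonneg_right _ (by positivity)
            linarith only [hpi4]
    refine h3.trans ?_
    rw [div_le_div_iff₀ (by positivity) (by positivity)]
    have h4 : 64 ≤ cs * n := by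
      rw [div_le_iff₀ hcs] at hn
      linarith only [hn]
    linarith only [mul_le_mul_of_nonneg_left h4 hn8.le]
  have hsmall : |2 * δ| ≤ 1 := by
    refine hδ2.trans ?_
    rw [div_le_one (by positivity)]
    have : (1 : ℝ) ≤ (n : ℝ) ^ 8 := one_le_pow₀ (by linarith only [hn64])
    linarith only [hcs1, this]
  have hcos : 1 / 2 ≤ Real.cos (2 * δ) := by
    have := Real.one_sub_sq_div_two_le_cos (x := 2 * δ)
    have h5 : (2 * δ) ^ 2 ≤ 1 := by
      rw [← sq_abs]
      exact pow_le_one₀ (abs_nonneg _) hsmall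
    linarith only [this, h5]
  have hsin : |Real.sin (2 * δ)| ≤ |2 * δ| := Real.abs_sin_le_abs
  have hlow : m / 2 ≤ |(a + c) / 2| + R * Real.cos (2 * δ) := by
    have := mul_le_mul_of_nonneg_left hcos hR
    have h6 := abs_nonneg ((a + c) / 2)
    rw [hmdef]
    linarith only [hRm, this]
  refine ⟨l, s, hs, ?_, ?_⟩
  · rw [hper.1, hx1]; linarith only [hsize, hlow]
  · rw [hper.1, hper.2, hx1, hx2]
    rw [abs_mul, abs_of_nonneg hR]
    have h7 : R * |Real.sin (2 * δ)| ≤ m * (cs / (4 * (n : ℝ) ^ 8)) :=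
      mul_le_mul hRm (hsin.trans hδ2) (abs_nonneg _) hm0
    refine h7.trans ?_
    have h8 : varpi cs n / 2 * (m / 2) ≤ varpi cs n / 2 *
        (|(a + c) / 2| + R * Real.cos (2 * δ)) := by
      apply mul_le_mul_of_nonneg_left hlow
      unfold varpi
      positivity
    refine le_trans (le_of_eq ?_) h8
    unfold varpi
    field_simp
    ring

end Vale.Agent.P229.D
end
end

section

section

/-!
# P229, disproof, task T18b: rotations preserve conformal isometries
-/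

open scoped ContDiff Topology RealInnerProductSpace
open MeasureTheory Set

namespace Vale.Agent.P229.D

/-- `rot θ` as a continuous linear map. -/
noncomputable def rotCLM (θ : ℝ) : Pl →L[ℝ] Pl :=
  ((ContinuousLinearMap.fst ℝ ℝ ℝ).smulRight (Real.cos θ, Real.sin θ) : Pl →L[ℝ] Pl) +
    ((ContinuousLinearMap.snd ℝ ℝ ℝ).smulRight (-Real.sin θ, Real.cos θ) : Pl →L[ℝ] Pl)

theorem rotCLM_apply (θ : ℝ) (p : Pl) : rotCLM θ p = rot θ p := by
  have h : rotCLM θ p = p.1 • ((Real.cos θ, Real.sin θ) : Pl) +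
      p.2 • ((-Real.sin θ, Real.cos θ) : Pl) := rfl
  rw [h]
  unfold rot
  ext
  · simp only [Prod.smul_mk, Prod.mk_add_mk, smul_eq_mul]
    ring
  · simp only [Prod.smul_mk, Prod.mk_add_mk, smul_eq_mul]

theorem hasFDerivAt_rot (θ : ℝ) (p : Pl) : HasFDerivAt (rot θ) (rotCLM θ) p := by
  have h : rot θ = fun q => rotCLM θ q := by funext q; exact (rotCLM_apply θ q).symm
  rw [h]
  exact (rotCLM θ).hasFDerivAt

theorem rotCLM_e1 (θ : ℝ) : rotCLM θ (1, 0) =
    Real.cos θ • ((1, 0) : Pl) + Real.sin θ • ((0, 1) : Pl) := by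
  rw [rotCLM_apply]
  simp [rot]

theorem rotCLM_e2 (θ : ℝ) : rotCLM θ (0, 1) =
    (-Real.sin θ) • ((1, 0) : Pl) + Real.cos θ • ((0, 1) : Pl) := by
  rw [rotCLM_apply]
  simp [rot]

/-- derivative of `F ∘ rot θ` -/
theorem fderiv_comp_rot {V : Set Pl} (hV : IsOpen V) {F : Pl → Vale.Agent.P229.E3}
    (hF : ContDiffOn ℝ 4 F V) (θ : ℝ) {p : Pl} (hp : rot θ p ∈ V) (v : Pl) :
    fderiv ℝ (fun q => F (rot θ q)) p v = fderiv ℝ F (rot θ p) (rotCLM θ v) := by
  have hd : DifferentiableAt ℝ F (rot θ p) :=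
    (hF.contDiffAt (hV.mem_nhds hp)).differentiableAt (by norm_num)
  have h : HasFDerivAt (fun q => F (rot θ q)) ((fderiv ℝ F (rot θ p)).comp (rotCLM θ)) p :=
    hd.hasFDerivAt.comp p (hasFDerivAt_rot θ p)
  rw [h.fderiv]
  rfl

/-- Rotations preserve conformal isometries (definition of `ConfIso` unfolded). -/
theorem confIso_rot_raw {φ : Pl → ℝ} {V : Set Pl} (hV : IsOpen V) {F : Pl → Vale.Agent.P229.E3}
    (hF : ContDiffOn ℝ 4 F V)
    (h : ∀ p ∈ V, ⟪fderiv ℝ F p (1, 0), fderiv ℝ F p (1, 0)⟫ = Real.exp (2 * φ p) ∧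
      ⟪fderiv ℝ F p (0, 1), fderiv ℝ F p (0, 1)⟫ = Real.exp (2 * φ p) ∧
      ⟪fderiv ℝ F p (1, 0), fderiv ℝ F p (0, 1)⟫ = 0) (θ : ℝ) :
    ∀ p ∈ rot θ ⁻¹' V,
      ⟪fderiv ℝ (fun q => F (rot θ q)) p (1, 0), fderiv ℝ (fun q => F (rot θ q)) p (1, 0)⟫ =
          Real.exp (2 * φ (rot θ p)) ∧
      ⟪fderiv ℝ (fun q => F (rot θ q)) p (0, 1), fderiv ℝ (fun q => F (rot θ q)) p (0, 1)⟫ =
          Real.exp (2 * φ (rot θ p)) ∧
      ⟪fderiv ℝ (fun q => F (rot θ q)) p (1, 0), fderiv ℝ (fun q => F (rot θ q)) p (0, 1)⟫ =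
          0 := by
  intro p hp
  have hp' : rot θ p ∈ V := hp
  obtain ⟨h1, h2, h3⟩ := h _ hp'
  rw [fderiv_comp_rot hV hF θ hp', fderiv_comp_rot hV hF θ hp', rotCLM_e1, rotCLM_e2]
  simp only [map_add, map_smul]
  have h4 : ⟪fderiv ℝ F (rot θ p) (0, 1), fderiv ℝ F (rot θ p) (1, 0)⟫ = 0 := by
    rw [real_inner_comm]; exact h3
  have hcs := Real.sin_sq_add_cos_sq θ
  refine ⟨?_, ?_, ?_⟩
  · simp only [inner_add_left, inner_add_right, real_inner_smul_left, real_inner_smul_right, h1,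
      h2, h3, h4]
    linear_combination Real.exp (2 * φ (rot θ p)) * hcs
  · simp only [inner_add_left, inner_add_right, real_inner_smul_left, real_inner_smul_right, h1,
      h2, h3, h4]
    linear_combination Real.exp (2 * φ (rot θ p)) * hcs
  · simp only [inner_add_left, inner_add_right, real_inner_smul_left, real_inner_smul_right, h1,
      h2, h3, h4]
    ring

end Vale.Agent.P229.D
end
end

section

section

/-!
# P229, disproof: `Dle` versus `iteratedFDeriv`, and composition with a rotation (helper850)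
-/

open scoped ContDiff Topology
open MeasureTheory Set

namespace Vale.Agent.P229.D

theorem dleB_contDiffAt_dx {k : ℕ} {f : Pl → ℝ} {p : Pl} (hf : ContDiffAt ℝ ((k + 1 : ℕ) : WithTop ℕ∞) f p) :
    ContDiffAt ℝ k (dx f) p := by
  have h : ContDiffAt ℝ k (fderiv ℝ f) p := hf.fderiv_right (by norm_cast)
  exact h.clm_apply contDiffAt_const

theorem dleB_contDiffAt_dt {k : ℕ} {f : Pl → ℝ} {p : Pl} (hf : ContDiffAt ℝ ((k + 1 : ℕ) : WithTop ℕ∞) f p) :
    ContDiffAt ℝ k (dt f) p := by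
  have h : ContDiffAt ℝ k (fderiv ℝ f) p := hf.fderiv_right (by norm_cast)
  exact h.clm_apply contDiffAt_const

theorem dleB_congr {k : ℕ} : ∀ {f g : Pl → ℝ} {c : ℝ} {p : Pl}, Dle k f c p →
    (∀ᶠ q in 𝓝 p, g q = f q) → Dle k g c p := by
  induction k with
  | zero =>
    intro f g c p h hfg
    have := hfg.self_of_nhds
    simpa only [Dle, this, ge_iff_le] using h
  | succ k ih =>
    intro f g c p h hfg
    obtain ⟨h1, h2, h3⟩ := h
    have hE : g =ᶠ[𝓝 p] f := hfg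
    have hd := hE.fderiv (𝕜 := ℝ)
    refine ⟨?_, ih h2 ?_, ih h3 ?_⟩
    · rw [hfg.self_of_nhds]; exact h1
    · filter_upwards [hd] with q hq
      simp only [dx, hq]
    · filter_upwards [hd] with q hq
      simp only [dt, hq]

theorem dleB_mono {k : ℕ} : ∀ {f : Pl → ℝ} {c c' : ℝ} {p : Pl}, Dle k f c p → c ≤ c' →
    Dle k f c' p := by
  induction k with
  | zero => intro f c c' p h hc; exact le_trans h hc
  | succ k ih =>
    intro f c c' p h hc
    exact ⟨h.1.trans hc, ih h.2.1 hc, ih h.2.2 hc⟩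

theorem dleB_lin {k : ℕ} : ∀ {f g : Pl → ℝ} {c c' : ℝ} {p : Pl} (a b : ℝ),
    ContDiffAt ℝ k f p → ContDiffAt ℝ k g p → Dle k f c p → Dle k g c' p →
    Dle k (fun q => a * f q + b * g q) (|a| * c + |b| * c') p := by
  induction k with
  | zero =>
    intro f g c c' p a b _ _ h h'
    have h1 : |f p| ≤ c := h
    have h2 : |g p| ≤ c' := h'
    show |a * f p + b * g p| ≤ _
    calc |a * f p + b * g p| ≤ |a * f p| + |b * g p| := abs_add_le _ _
      _ = |a| * |f p| + |b| * |g p| := by rw [abs_mul, abs_mul]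
      _ ≤ _ := by (clear * - h1 h2; gcongr)
  | succ k ih =>
    intro f g c c' p a b hf hg h h'
    have h1 : |f p| ≤ c := h.1
    have h2 : |g p| ≤ c' := h'.1
    have h10 : ((k + 1 : ℕ) : WithTop ℕ∞) ≠ 0 := by simp only [Nat.cast_add, Nat.cast_one, ne_eq, add_eq_zero, Nat.cast_eq_zero, one_ne_zero, and_false, not_false_eq_true]
    have h1k : (1 : WithTop ℕ∞) ≤ ((k + 1 : ℕ) : WithTop ℕ∞) := by
      exact_mod_cast Nat.succ_le_succ (Nat.zero_le k)
    have ef : ∀ᶠ q in 𝓝 p, DifferentiableAt ℝ f q := by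
      have := (hf.of_le h1k).eventually (by simp)
      filter_upwards [this] with q hq using hq.differentiableAt (by simp)
    have eg : ∀ᶠ q in 𝓝 p, DifferentiableAt ℝ g q := by
      have := (hg.of_le h1k).eventually (by simp)
      filter_upwards [this] with q hq using hq.differentiableAt (by simp)
    have ed : ∀ᶠ q in 𝓝 p, fderiv ℝ (fun q => a * f q + b * g q) q
        = a • fderiv ℝ f q + b • fderiv ℝ g q := by
      filter_upwards [ef, eg] with q h1 h2
      have := ((h1.hasFDerivAt.const_mul a).add (h2.hasFDerivAt.const_mul b)).fderiv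
      exact this
    refine ⟨?_, ?_, ?_⟩
    · calc |a * f p + b * g p| ≤ |a * f p| + |b * g p| := abs_add_le _ _
        _ = |a| * |f p| + |b| * |g p| := by rw [abs_mul, abs_mul]
        _ ≤ _ := by (clear * - h1 h2; gcongr)
    · refine dleB_congr (ih a b (dleB_contDiffAt_dx hf) (dleB_contDiffAt_dx hg) h.2.1 h'.2.1) ?_
      filter_upwards [ed] with q hq
      simp only [dx, hq, add_apply, smul_apply, smul_eq_mul]
    · refine dleB_congr (ih a b (dleB_contDiffAt_dt hf) (dleB_contDiffAt_dt hg) h.2.2 h'.2.2) ?_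
      filter_upwards [ed] with q hq
      simp only [dt, hq, add_apply, smul_apply, smul_eq_mul]

theorem dleB_contDiff_rot (θ : ℝ) {n : WithTop ℕ∞} : ContDiff ℝ n (rot θ) := by
  unfold rot
  fun_prop

end Vale.Agent.P229.D
end
end

section

section

/-!
# P229, disproof: `Dle.of_jet` (helper850)
-/

open scoped ContDiff Topology
open MeasureTheory Set

namespace Vale.Agent.P229.D

theorem dleC_isOpen_disc : IsOpen {q : Pl | rho2 q < 1} := by
  have : Continuous rho2 := by unfold rho2; fun_prop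
  exact isOpen_lt this continuous_const

theorem dleC_segment_mem {p : Pl} (hp : rho2 p < 1) {s : ℝ} (h0 : 0 ≤ s) (h1 : s ≤ 1) :
    rho2 (s • p) < 1 := by
  have h2 : rho2 (s • p) = s ^ 2 * rho2 p := by
    simp only [rho2, Prod.smul_fst, Prod.smul_snd, smul_eq_mul]; ring
  have h3 : 0 ≤ rho2 p := by unfold rho2; positivity
  have h4 : s ^ 2 ≤ 1 := by nlinarith only [h1, h0]
  rw [h2]
  nlinarith only [hp, h3, h4]

theorem dleC_abs_fst {p : Pl} (hp : rho2 p < 1) : |p.1| ≤ 1 := by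
  rw [← sq_le_one_iff_abs_le_one]
  unfold rho2 at hp
  linarith only [hp, sq_nonneg p.2]

theorem dleC_abs_snd {p : Pl} (hp : rho2 p < 1) : |p.2| ≤ 1 := by
  rw [← sq_le_one_iff_abs_le_one]
  unfold rho2 at hp
  linarith only [hp, sq_nonneg p.1]

/-- mean value inequality along the ray. -/
theorem dleC_mvt {g : Pl → ℝ} {a b : ℝ} {p : Pl} (hg : ∀ q, rho2 q < 1 → DifferentiableAt ℝ g q)
    (hp : rho2 p < 1) (h0 : |g 0| ≤ a) (hx : ∀ q, rho2 q < 1 → |dx g q| ≤ b)
    (ht : ∀ q, rho2 q < 1 → |dt g q| ≤ b) : |g p| ≤ a + 2 * b := by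
  have hD : ∀ s ∈ Icc (0 : ℝ) 1, HasDerivWithinAt (fun s : ℝ => g (s • p))
      (fderiv ℝ g (s • p) p) (Icc 0 1) s := by
    intro s hs
    have h1 := (hg _ (dleC_segment_mem hp hs.1 hs.2)).hasFDerivAt
    have h2 : HasDerivAt (fun s : ℝ => s • p) p s := by
      simpa using (hasDerivAt_id s).smul_const p
    exact (h1.comp_hasDerivAt s h2).hasDerivWithinAt
  have hb : ∀ s ∈ Icc (0 : ℝ) 1, ‖fderiv ℝ g (s • p) p‖ ≤ 2 * b := by
    intro s hs
    have hm := dleC_segment_mem hp hs.1 hs.2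
    have e : fderiv ℝ g (s • p) p = p.1 * dx g (s • p) + p.2 * dt g (s • p) := by
      have : p = p.1 • ((1, 0) : Pl) + p.2 • ((0, 1) : Pl) := by ext <;> simp
      conv_lhs => rw [show (fderiv ℝ g (s • p)) p = (fderiv ℝ g (s • p))
        (p.1 • ((1, 0) : Pl) + p.2 • ((0, 1) : Pl)) from by rw [← this]]
      rw [map_add, map_smul, map_smul]
      rfl
    rw [e, Real.norm_eq_abs]
    have k1 := hx _ hm
    have k2 := ht _ hm
    have k3 := dleC_abs_fst hp
    have k4 := dleC_abs_snd hp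
    calc |p.1 * dx g (s • p) + p.2 * dt g (s • p)|
        ≤ |p.1| * |dx g (s • p)| + |p.2| * |dt g (s • p)| := by
          rw [← abs_mul, ← abs_mul]; exact abs_add_le _ _
      _ ≤ 1 * b + 1 * b := by (clear * - k3 k1 k4 k2; gcongr)
      _ = 2 * b := by ring
  have := (convex_Icc (0 : ℝ) 1).norm_image_sub_le_of_norm_hasDerivWithin_le hD hb
    (left_mem_Icc.2 zero_le_one) (right_mem_Icc.2 zero_le_one)
  simp only [one_smul, zero_smul, sub_zero, norm_one, mul_one] at this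
  rw [Real.norm_eq_abs] at this
  have h5 := abs_sub_abs_le_abs_sub (g p) (g 0)
  linarith

/-- mixed partials commute for a function which is `C²` near `q`. -/
theorem dleC_comm {g : Pl → ℝ} {q : Pl} (hg : ContDiffAt ℝ 2 g q) :
    dx (dt g) q = dt (dx g) q := by
  have hs : IsSymmSndFDerivAt ℝ g q := hg.isSymmSndFDerivAt (by simp)
  have hd : DifferentiableAt ℝ (fderiv ℝ g) q := by
    have : ContDiffAt ℝ 1 (fderiv ℝ g) q := hg.fderiv_right (by norm_num)
    exact this.differentiableAt (by simp)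
  have e1 : dx (dt g) q = fderiv ℝ (fderiv ℝ g) q (1, 0) (0, 1) := by
    show fderiv ℝ (fun p => fderiv ℝ g p (0, 1)) q (1, 0) = _
    rw [fderiv_clm_apply hd (differentiableAt_const _)]
    simp
  have e2 : dt (dx g) q = fderiv ℝ (fderiv ℝ g) q (0, 1) (1, 0) := by
    show fderiv ℝ (fun p => fderiv ℝ g p (1, 0)) q (0, 1) = _
    rw [fderiv_clm_apply hd (differentiableAt_const _)]
    simp only [fderiv_fun_const, Pi.zero_apply, ContinuousLinearMap.comp_zero, zero_add, ContinuousLinearMap.flip_apply]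
  rw [e1, e2]
  exact hs _ _

/-- Taylor-type bound: small third derivatives and small 2-jet at `0` give smallness. -/
theorem Dle.of_jet' {f : Pl → ℝ} {c : ℝ} {p : Pl} (hf : ContDiffOn ℝ 3 f {q | rho2 q < 1})
    (hc : 0 ≤ c) (hp : rho2 p < 1) (h0 : Dle 2 f c 0) (h3 : ∀ q, rho2 q < 1 → Dle 0 (dx (dx (dx f))) c q ∧
      Dle 0 (dt (dx (dx f))) c q ∧ Dle 0 (dt (dt (dx f))) c q ∧ Dle 0 (dt (dt (dt f))) c q) :
    Dle 3 f (100 * c) p := by
  have hat : ∀ q, rho2 q < 1 → ContDiffAt ℝ ((2 + 1 : ℕ) : WithTop ℕ∞) f q := fun q hq =>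
    (hf.contDiffAt (dleC_isOpen_disc.mem_nhds hq)).of_le (by norm_num)
  -- smoothness of the partials
  have c1x : ∀ q, rho2 q < 1 → ContDiffAt ℝ ((1 + 1 : ℕ) : WithTop ℕ∞) (dx f) q :=
    fun q hq => dleB_contDiffAt_dx (k := 2) (hat q hq)
  have c1t : ∀ q, rho2 q < 1 → ContDiffAt ℝ ((1 + 1 : ℕ) : WithTop ℕ∞) (dt f) q :=
    fun q hq => dleB_contDiffAt_dt (k := 2) (hat q hq)
  have c2xx : ∀ q, rho2 q < 1 → ContDiffAt ℝ ((0 + 1 : ℕ) : WithTop ℕ∞) (dx (dx f)) q :=
    fun q hq => dleB_contDiffAt_dx (k := 1) (c1x q hq)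
  have c2tx : ∀ q, rho2 q < 1 → ContDiffAt ℝ ((0 + 1 : ℕ) : WithTop ℕ∞) (dt (dx f)) q :=
    fun q hq => dleB_contDiffAt_dt (k := 1) (c1x q hq)
  have c2xt : ∀ q, rho2 q < 1 → ContDiffAt ℝ ((0 + 1 : ℕ) : WithTop ℕ∞) (dx (dt f)) q :=
    fun q hq => dleB_contDiffAt_dx (k := 1) (c1t q hq)
  have c2tt : ∀ q, rho2 q < 1 → ContDiffAt ℝ ((0 + 1 : ℕ) : WithTop ℕ∞) (dt (dt f)) q :=
    fun q hq => dleB_contDiffAt_dt (k := 1) (c1t q hq)
  -- commutation
  have comm2 : ∀ q, rho2 q < 1 → dx (dt f) q = dt (dx f) q := fun q hq =>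
    dleC_comm ((hat q hq).of_le (by norm_num))
  have commx : ∀ q, rho2 q < 1 → dx (dt (dx f)) q = dt (dx (dx f)) q := fun q hq =>
    dleC_comm (c1x q hq)
  have commt : ∀ q, rho2 q < 1 → dx (dt (dt f)) q = dt (dx (dt f)) q := fun q hq =>
    dleC_comm (c1t q hq)
  have ev : ∀ q, rho2 q < 1 → dx (dt f) =ᶠ[𝓝 q] dt (dx f) := fun q hq => by
    filter_upwards [dleC_isOpen_disc.mem_nhds hq] with r hr using comm2 r hr
  have d1 : ∀ q, rho2 q < 1 → dt (dx (dt f)) q = dt (dt (dx f)) q := fun q hq => by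
    have := (ev q hq).fderiv_eq (𝕜 := ℝ)
    show fderiv ℝ (dx (dt f)) q (0, 1) = fderiv ℝ (dt (dx f)) q (0, 1)
    rw [this]
  have d2 : ∀ q, rho2 q < 1 → dx (dx (dt f)) q = dx (dt (dx f)) q := fun q hq => by
    have := (ev q hq).fderiv_eq (𝕜 := ℝ)
    show fderiv ℝ (dx (dt f)) q (1, 0) = fderiv ℝ (dt (dx f)) q (1, 0)
    rw [this]
  -- third order bounds
  have txxx : ∀ q, rho2 q < 1 → |dx (dx (dx f)) q| ≤ c := fun q hq => (h3 q hq).1
  have ttxx : ∀ q, rho2 q < 1 → |dt (dx (dx f)) q| ≤ c := fun q hq => (h3 q hq).2.1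
  have tttx : ∀ q, rho2 q < 1 → |dt (dt (dx f)) q| ≤ c := fun q hq => (h3 q hq).2.2.1
  have tttt : ∀ q, rho2 q < 1 → |dt (dt (dt f)) q| ≤ c := fun q hq => (h3 q hq).2.2.2
  have txtx : ∀ q, rho2 q < 1 → |dx (dt (dx f)) q| ≤ c := fun q hq => by
    rw [commx q hq]; exact ttxx q hq
  have ttxt : ∀ q, rho2 q < 1 → |dt (dx (dt f)) q| ≤ c := fun q hq => by
    rw [d1 q hq]; exact tttx q hq
  have txxt : ∀ q, rho2 q < 1 → |dx (dx (dt f)) q| ≤ c := fun q hq => by
    rw [d2 q hq]; exact txtx q hq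
  have txtt : ∀ q, rho2 q < 1 → |dx (dt (dt f)) q| ≤ c := fun q hq => by
    rw [commt q hq]; exact ttxt q hq
  -- jet at 0
  obtain ⟨j0, ⟨jx, jxx, jtx⟩, ⟨jt, jxt, jtt⟩⟩ := h0
  have hdiff : ∀ {g : Pl → ℝ} {n : ℕ}, (∀ q, rho2 q < 1 →
      ContDiffAt ℝ ((n + 1 : ℕ) : WithTop ℕ∞) g q) →
      ∀ q, rho2 q < 1 → DifferentiableAt ℝ g q := fun h q hq =>
    (h q hq).differentiableAt (by simp only [Nat.cast_add, Nat.cast_one, ne_eq, add_eq_zero, Nat.cast_eq_zero, one_ne_zero, and_false, not_false_eq_true])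
  -- second order
  have sxx : ∀ q, rho2 q < 1 → |dx (dx f) q| ≤ 3 * c := fun q hq => by
    have := dleC_mvt (hdiff c2xx) hq jxx txxx ttxx
    linarith
  have stx : ∀ q, rho2 q < 1 → |dt (dx f) q| ≤ 3 * c := fun q hq => by
    have := dleC_mvt (hdiff c2tx) hq jtx txtx tttx
    linarith
  have sxt : ∀ q, rho2 q < 1 → |dx (dt f) q| ≤ 3 * c := fun q hq => by
    have := dleC_mvt (hdiff c2xt) hq jxt txxt ttxt
    linarith
  have stt : ∀ q, rho2 q < 1 → |dt (dt f) q| ≤ 3 * c := fun q hq => by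
    have := dleC_mvt (hdiff c2tt) hq jtt txtt tttt
    linarith
  have fx : ∀ q, rho2 q < 1 → |dx f q| ≤ 7 * c := fun q hq => by
    have := dleC_mvt (hdiff c1x) hq jx sxx stx
    linarith
  have ft : ∀ q, rho2 q < 1 → |dt f q| ≤ 7 * c := fun q hq => by
    have := dleC_mvt (hdiff c1t) hq jt sxt stt
    linarith
  have f0 : ∀ q, rho2 q < 1 → |f q| ≤ 15 * c := fun q hq => by
    have := dleC_mvt (hdiff hat) hq j0 fx ft
    linarith
  refine ⟨?_, ⟨?_, ⟨?_, ?_, ?_⟩, ⟨?_, ?_, ?_⟩⟩, ⟨?_, ⟨?_, ?_, ?_⟩, ⟨?_, ?_, ?_⟩⟩⟩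
  · linarith only [hc, f0 p hp]
  · linarith [fx p hp]
  · linarith only [hc, sxx p hp]
  · show |_| ≤ _
    linarith [txxx p hp]
  · show |_| ≤ _
    linarith [ttxx p hp]
  · linarith [stx p hp]
  · show |_| ≤ _
    linarith [txtx p hp]
  · show |_| ≤ _
    linarith [tttx p hp]
  · linarith [ft p hp]
  · linarith [sxt p hp]
  · show |_| ≤ _
    linarith [txxt p hp]
  · show |_| ≤ _
    linarith [ttxt p hp]
  · linarith [stt p hp]
  · show |_| ≤ _
    linarith [txtt p hp]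
  · show |_| ≤ _
    linarith [tttt p hp]

end Vale.Agent.P229.D
end
end

section

section

/-!
# P229, disproof, task T13c: API for `Dle`
-/

open scoped ContDiff Topology RealInnerProductSpace
open MeasureTheory Set

namespace Vale.Agent.P229.D

theorem Dle.mono {k : ℕ} {f : Pl → ℝ} {c c' : ℝ} {p : Pl} (h : Dle k f c p) (hc : c ≤ c') :
    Dle k f c' p := dleB_mono h hc

theorem dleA_of_succ {k : ℕ} : ∀ {f : Pl → ℝ} {c : ℝ} {p : Pl}, Dle (k + 1) f c p → Dle k f c p := by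
  induction k with
  | zero => intro f c p h; exact h.1
  | succ k ih => intro f c p h; exact ⟨h.1, ih h.2.1, ih h.2.2⟩

theorem Dle.congr {k : ℕ} {f g : Pl → ℝ} {c : ℝ} {p : Pl} (h : Dle k f c p)
    (hfg : ∀ᶠ q in 𝓝 p, g q = f q) : Dle k g c p := dleB_congr h hfg

theorem Dle.add {k : ℕ} {f g : Pl → ℝ} {c c' : ℝ} {p : Pl} (hf : ContDiffAt ℝ k f p)
    (hg : ContDiffAt ℝ k g p) (h : Dle k f c p) (h' : Dle k g c' p) :
    Dle k (fun q => f q + g q) (c + c') p := by
  have := dleB_lin 1 1 hf hg h h'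
  simpa using this

theorem dleA_mul_aux {k : ℕ} : ∀ {f g : Pl → ℝ} {c c' : ℝ} {p : Pl}, ContDiffAt ℝ k f p →
    ContDiffAt ℝ k g p → 0 ≤ c → 0 ≤ c' → Dle k f c p → Dle k g c' p →
    Dle k (fun q => f q * g q) (2 ^ k * c * c') p := by
  induction k with
  | zero =>
    intro f g c c' p _ _ hc hc' h h'
    have h1 : |f p| ≤ c := h
    have h2 : |g p| ≤ c' := h'
    show |f p * g p| ≤ _
    rw [abs_mul]
    have := mul_le_mul h1 h2 (abs_nonneg _) hc
    simpa only [pow_zero, one_mul, ge_iff_le] using this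
  | succ k ih =>
    intro f g c c' p hf hg hc hc' h h'
    have h1 : |f p| ≤ c := h.1
    have h2 : |g p| ≤ c' := h'.1
    have h1k : (1 : WithTop ℕ∞) ≤ ((k + 1 : ℕ) : WithTop ℕ∞) := by
      exact_mod_cast Nat.succ_le_succ (Nat.zero_le k)
    have hkk : ((k : ℕ) : WithTop ℕ∞) ≤ ((k + 1 : ℕ) : WithTop ℕ∞) := by
      exact_mod_cast Nat.le_succ k
    have ef : ∀ᶠ q in 𝓝 p, DifferentiableAt ℝ f q := by
      have := (hf.of_le h1k).eventually (by simp)
      filter_upwards [this] with q hq using hq.differentiableAt (by simp)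
    have eg : ∀ᶠ q in 𝓝 p, DifferentiableAt ℝ g q := by
      have := (hg.of_le h1k).eventually (by simp)
      filter_upwards [this] with q hq using hq.differentiableAt (by simp)
    have hfk : ContDiffAt ℝ k f p := hf.of_le hkk
    have hgk : ContDiffAt ℝ k g p := hg.of_le hkk
    have hfx := dleB_contDiffAt_dx hf
    have hft := dleB_contDiffAt_dt hf
    have hgx := dleB_contDiffAt_dx hg
    have hgt := dleB_contDiffAt_dt hg
    have h0f : Dle k f c p := dleA_of_succ h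
    have h0g : Dle k g c' p := dleA_of_succ h'
    refine ⟨?_, ?_, ?_⟩
    · rw [abs_mul]
      have hm := mul_le_mul h1 h2 (abs_nonneg _) hc
      have h2k : (1 : ℝ) ≤ 2 ^ (k + 1) := one_le_pow₀ (by norm_num)
      calc |f p| * |g p| ≤ c * c' := hm
        _ = 1 * (c * c') := by ring
        _ ≤ 2 ^ (k + 1) * (c * c') := by
            apply mul_le_mul_of_nonneg_right h2k (mul_nonneg hc hc')
        _ = 2 ^ (k + 1) * c * c' := by ring
    · have hA := ih hfx hgk hc hc' h.2.1 h0g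
      have hB := ih hfk hgx hc hc' h0f h'.2.1
      have hS := Dle.add (hfx.mul hgk) (hfk.mul hgx) hA hB
      have hS' : Dle k (fun q => dx f q * g q + f q * dx g q) (2 ^ (k + 1) * c * c') p := by
        refine Dle.mono hS (le_of_eq ?_)
        ring
      refine Dle.congr hS' ?_
      filter_upwards [ef, eg] with q h1 h2
      have := dx_mul h1 h2
      rw [this]
    · have hA := ih hft hgk hc hc' h.2.2 h0g
      have hB := ih hfk hgt hc hc' h0f h'.2.2
      have hS := Dle.add (hft.mul hgk) (hfk.mul hgt) hA hB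
      have hS' : Dle k (fun q => dt f q * g q + f q * dt g q) (2 ^ (k + 1) * c * c') p := by
        refine Dle.mono hS (le_of_eq ?_)
        ring
      refine Dle.congr hS' ?_
      filter_upwards [ef, eg] with q h1 h2
      have := dt_mul h1 h2
      rw [this]

/-- Leibniz: constant `2 ^ k`. -/
theorem Dle.mul {k : ℕ} {f g : Pl → ℝ} {c c' : ℝ} {p : Pl} (hf : ContDiffAt ℝ k f p)
    (hg : ContDiffAt ℝ k g p) (hc : 0 ≤ c) (hc' : 0 ≤ c') (h : Dle k f c p) (h' : Dle k g c' p) :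
    Dle k (fun q => f q * g q) (2 ^ k * c * c') p := dleA_mul_aux hf hg hc hc' h h'

/-- Taylor-type bound: small third derivatives and small 2-jet at `0` give smallness. -/
theorem Dle.of_jet {f : Pl → ℝ} {c : ℝ} {p : Pl} (hf : ContDiffOn ℝ 3 f {q | rho2 q < 1})
    (hc : 0 ≤ c) (hp : rho2 p < 1) (h0 : Dle 2 f c 0) (h3 : ∀ q, rho2 q < 1 → Dle 0 (dx (dx (dx f))) c q ∧
      Dle 0 (dt (dx (dx f))) c q ∧ Dle 0 (dt (dt (dx f))) c q ∧ Dle 0 (dt (dt (dt f))) c q) :
    Dle 3 f (100 * c) p := Dle.of_jet' hf hc hp h0 h3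

end Vale.Agent.P229.D
end
end

section

section

/-!
# P229, disproof, task T17: derivative bounds of the rotated height function
-/

open scoped ContDiff Topology RealInnerProductSpace
open MeasureTheory Set

namespace Vale.Agent.P229.D

theorem rj_contDiffAt {k : ℕ} {f : Pl → ℝ} {p : Pl} (hf : ContDiffAt ℝ ((k + 1 : ℕ) : WithTop ℕ∞) f p)
    (w : Pl) : ContDiffAt ℝ k (geomD w f) p := by
  have hfd : ContDiffAt ℝ k (fderiv ℝ f) p := hf.fderiv_right (by norm_cast)
  exact hfd.clm_apply contDiffAt_const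

theorem rj_step {k : ℕ} {f : Pl → ℝ} {p : Pl} (hf : ContDiffAt ℝ ((k + 1 : ℕ) : WithTop ℕ∞) f p)
    {w : Pl} (hw : ‖w‖ ≤ 1) :
    ‖iteratedFDeriv ℝ k (geomD w f) p‖ ≤ ‖iteratedFDeriv ℝ (k + 1) f p‖ := by
  have hfd : ContDiffAt ℝ k (fderiv ℝ f) p := hf.fderiv_right (by norm_cast)
  have h1 := norm_iteratedFDeriv_clm_apply_const (c := w) hfd (n := k) le_rfl
  rw [norm_iteratedFDeriv_fderiv] at h1
  refine h1.trans ?_
  calc ‖w‖ * ‖iteratedFDeriv ℝ (k + 1) f p‖ ≤ 1 * ‖iteratedFDeriv ℝ (k + 1) f p‖ := by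
        gcongr
    _ = _ := one_mul _

theorem rj_one {f : Pl → ℝ} {p : Pl} (hf : ContDiffAt ℝ 1 f p)
    {w : Pl} (hw : ‖w‖ ≤ 1) : |geomD w f p| ≤ ‖iteratedFDeriv ℝ 1 f p‖ := by
  have h := rj_step (k := 0) (f := f) (p := p) (by exact_mod_cast hf) hw
  simpa only [norm_iteratedFDeriv_one, ge_iff_le, norm_iteratedFDeriv_zero, Real.norm_eq_abs,     Nat.reduceAdd] using h

theorem rj_two {f : Pl → ℝ} {p : Pl} (hf : ContDiffAt ℝ 2 f p)
    {v w : Pl} (hv : ‖v‖ ≤ 1) (hw : ‖w‖ ≤ 1) :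
    |geomD v (geomD w f) p| ≤ ‖iteratedFDeriv ℝ 2 f p‖ :=
  (rj_one (by exact_mod_cast rj_contDiffAt (k := 1) (by exact_mod_cast hf) w) hv).trans
    (rj_step (k := 1) (by exact_mod_cast hf) hw)

theorem rj_three {f : Pl → ℝ} {p : Pl} (hf : ContDiffAt ℝ 3 f p)
    {u v w : Pl} (hu : ‖u‖ ≤ 1) (hv : ‖v‖ ≤ 1) (hw : ‖w‖ ≤ 1) :
    |geomD u (geomD v (geomD w f)) p| ≤ ‖iteratedFDeriv ℝ 3 f p‖ :=
  (rj_two (by exact_mod_cast rj_contDiffAt (k := 2) (by exact_mod_cast hf) w) hu hv).trans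
    (rj_step (k := 2) (by exact_mod_cast hf) hw)

theorem rj_four {f : Pl → ℝ} {p : Pl} (hf : ContDiffAt ℝ 4 f p)
    {t u v w : Pl} (ht : ‖t‖ ≤ 1) (hu : ‖u‖ ≤ 1) (hv : ‖v‖ ≤ 1) (hw : ‖w‖ ≤ 1) :
    |geomD t (geomD u (geomD v (geomD w f))) p| ≤ ‖iteratedFDeriv ℝ 4 f p‖ :=
  (rj_three (by exact_mod_cast rj_contDiffAt (k := 3) (by exact_mod_cast hf) w) ht hu hv).trans
    (rj_step (k := 3) (by exact_mod_cast hf) hw)

theorem rj_sub_const {f : Pl → ℝ} (c : ℝ) (j : ℕ) (p : Pl) :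
    ‖iteratedFDeriv ℝ (j + 1) (fun q => f q - c) p‖ = ‖iteratedFDeriv ℝ (j + 1) f p‖ := by
  rw [← norm_iteratedFDeriv_fderiv, ← norm_iteratedFDeriv_fderiv]
  have h : fderiv ℝ (fun q => f q - c) = fderiv ℝ f := by
    funext q
    exact fderiv_sub_const ..
  rw [h]

theorem rj_mem_ball {p : Pl} (hp : rho2 p < 1) : p ∈ Metric.ball (0 : Pl) 1 := by
  rw [mem_ball_zero_iff, Prod.norm_def]
  unfold rho2 at hp
  refine max_lt ?_ ?_
  · rw [Real.norm_eq_abs, abs_lt]
    constructor <;> nlinarith only [hp]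
  · rw [Real.norm_eq_abs, abs_lt]
    constructor <;> nlinarith only [hp]

theorem rj_norm_comp {F : Pl → E3} (hF : ContDiffOn ℝ 4 F (Metric.ball (0 : Pl) 1)) (θ : ℝ)
    {p : Pl} (hp : rot θ p ∈ Metric.ball (0 : Pl) 1) {j : ℕ} (hj : j ≤ 4) :
    ‖iteratedFDeriv ℝ j (fun q => F (rot θ q)) p‖
      ≤ ‖iteratedFDeriv ℝ j F (rot θ p)‖ * 2 ^ j := by
  have hO : IsOpen (Metric.ball (0 : Pl) 1) := Metric.isOpen_ball
  have hO' : IsOpen (BB.rotL θ ⁻¹' Metric.ball (0 : Pl) 1) := hO.preimage (BB.rotL θ).continuous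
  have hp' : BB.rotL θ p ∈ Metric.ball (0 : Pl) 1 := by rw [BB.rotL_apply]; exact hp
  have h := (BB.rotL θ).iteratedFDerivWithin_comp_right hF hO.uniqueDiffOn hO'.uniqueDiffOn
    hp' (i := j) (by exact_mod_cast hj)
  rw [iteratedFDerivWithin_of_isOpen j hO hp',
    iteratedFDerivWithin_of_isOpen j hO' (show p ∈ BB.rotL θ ⁻¹' Metric.ball (0 : Pl) 1 from hp'),
    BB.rotL_apply] at h
  have e : (F ∘ (BB.rotL θ)) = fun q => F (rot θ q) := by
    funext q
    rw [Function.comp_apply, BB.rotL_apply]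
  rw [e] at h
  rw [h]
  refine (ContinuousMultilinearMap.norm_compContinuousLinearMap_le _ _).trans ?_
  refine mul_le_mul_of_nonneg_left ?_ (norm_nonneg _)
  rw [Finset.prod_const, Finset.card_univ, Fintype.card_fin]
  exact pow_le_pow_left₀ (norm_nonneg _) (BB.rotL_norm θ) j

theorem rj_comp_contDiffOn {F : Pl → E3} (hF : ContDiffOn ℝ 4 F (Metric.ball (0 : Pl) 1)) (θ : ℝ) :
    ContDiffOn ℝ 4 (fun q => F (rot θ q)) {p | rho2 p < 1} :=
  hF.comp (dleB_contDiff_rot θ).contDiffOn fun p hp =>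
    rj_mem_ball (by rw [BB.rho2_rot]; exact hp)

/-- the iterated derivatives of the rotated height function -/
theorem rj_height {r : ℝ} (hr : 0 < r) {F : Pl → E3}
    (hF : ContDiffOn ℝ 4 F (Metric.ball (0 : Pl) 1)) {e : E3} (he : ‖e‖ = 1) (θ s : ℝ)
    (hs : s = 1 ∨ s = -1) {p : Pl} (hp : rho2 p < 1) {j : ℕ} (hj : j + 1 ≤ 4) :
    ‖iteratedFDeriv ℝ (j + 1) (fun p => s * (⟪F (rot θ p) - F 0, e⟫ / r)) p‖
      ≤ 1 / r * (‖iteratedFDeriv ℝ (j + 1) F (rot θ p)‖ * 2 ^ (j + 1)) := by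
  obtain ⟨A, hA⟩ : ∃ A : E3 →L[ℝ] ℝ, A = (s / r) • innerSL ℝ e := ⟨_, rfl⟩
  have hAn : ‖A‖ ≤ 1 / r := by
    rw [hA, norm_smul, innerSL_apply_norm, he, mul_one, Real.norm_eq_abs, abs_div, abs_of_pos hr]
    rcases hs with rfl | rfl <;> simp
  have hAa : ∀ x, A x = s * (⟪x, e⟫ / r) := by
    intro x
    rw [hA]
    simp only [smul_apply, innerSL_apply_apply, smul_eq_mul]
    rw [real_inner_comm]
    ring
  have e1 : (fun p => s * (⟪F (rot θ p) - F 0, e⟫ / r))
      = fun p => (A ∘ fun q => F (rot θ q)) p - A (F 0) := by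
    funext q
    rw [Function.comp_apply, ← map_sub, hAa]
  rw [e1, rj_sub_const]
  have hO : IsOpen {p : Pl | rho2 p < 1} := dleC_isOpen_disc
  have hcd : ContDiffAt ℝ 4 (fun q => F (rot θ q)) p :=
    (rj_comp_contDiffOn hF θ).contDiffAt (hO.mem_nhds hp)
  refine (A.norm_iteratedFDeriv_comp_left hcd (n := j + 1) (by exact_mod_cast hj)).trans ?_
  exact mul_le_mul hAn (rj_norm_comp hF θ (rj_mem_ball (by rw [BB.rho2_rot]; exact hp)) hj)
    (norm_nonneg _) (by positivity)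

theorem rotJets {M r : ℝ} (hM : 1 ≤ M) (hr : 0 < r) (hr1 : r ≤ 1) {F : Pl → E3}
    (hF : ContDiffOn ℝ 4 F (Metric.ball (0 : Pl) 1))
    (hb : ∀ p ∈ Metric.ball (0 : Pl) 1, ‖iteratedFDeriv ℝ 2 F p‖ ≤ M * r ∧
      ‖iteratedFDeriv ℝ 3 F p‖ ≤ M * r ^ 2 ∧ ‖iteratedFDeriv ℝ 4 F p‖ ≤ M * r ^ 3)
    {e : E3} (he : ‖e‖ = 1) (θ s : ℝ) (hs : s = 1 ∨ s = -1) {U : Pl → ℝ}
    (hU : U = fun p => s * (⟪F (rot θ p) - F 0, e⟫ / r)) :
    ContDiffOn ℝ 4 U {p | rho2 p < 1} ∧
    (∀ p, rho2 p < 1 → |dx (dx U) p| ≤ 16 * M ∧ |dt (dx U) p| ≤ 16 * M ∧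
      |dt (dt U) p| ≤ 16 * M) ∧
    (∀ p, rho2 p < 1 → Dle 1 (dx (dx (dx U))) (16 * M * r) p ∧
      Dle 1 (dt (dx (dx U))) (16 * M * r) p ∧ Dle 1 (dt (dt (dx U))) (16 * M * r) p ∧
      Dle 1 (dt (dt (dt U))) (16 * M * r) p) := by
  have hO : IsOpen {p : Pl | rho2 p < 1} := dleC_isOpen_disc
  have hUc : ContDiffOn ℝ 4 U {p | rho2 p < 1} := by
    rw [hU]
    have h1 : ContDiffOn ℝ 4 (fun p => ⟪F (rot θ p) - F 0, e⟫) {p | rho2 p < 1} :=
      ((rj_comp_contDiffOn hF θ).sub contDiffOn_const).inner ℝ contDiffOn_const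
    exact contDiffOn_const.mul (h1.div_const r)
  have hUa : ∀ p, rho2 p < 1 → ContDiffAt ℝ 4 U p := fun p hp =>
    hUc.contDiffAt (hO.mem_nhds hp)
  have hrot : ∀ p, rho2 p < 1 → rot θ p ∈ Metric.ball (0 : Pl) 1 := fun p hp =>
    rj_mem_ball (by rw [BB.rho2_rot]; exact hp)
  have hx : ‖((1, 0) : Pl)‖ ≤ 1 := by simp only [Prod.norm_mk, norm_one, norm_zero, zero_le_one, sup_of_le_left, Std.le_refl]
  have ht : ‖((0, 1) : Pl)‖ ≤ 1 := by simp only [Prod.norm_mk, norm_zero, norm_one, zero_le_one, sup_of_le_right, Std.le_refl]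
  have J2 : ∀ p, rho2 p < 1 → ‖iteratedFDeriv ℝ 2 U p‖ ≤ 16 * M := by
    intro p hp
    have h := rj_height hr hF he θ s hs hp (j := 1) (by norm_num)
    rw [← hU] at h
    have hb2 := (hb _ (hrot p hp)).1
    refine h.trans ?_
    calc 1 / r * (‖iteratedFDeriv ℝ (1 + 1) F (rot θ p)‖ * 2 ^ (1 + 1))
        ≤ 1 / r * ((M * r) * 2 ^ (1 + 1)) := by (clear * - hb2 hr; gcongr)
      _ = 4 * M := by field_simp; ring
      _ ≤ 16 * M := by linarith only [hM]
  have J3 : ∀ p, rho2 p < 1 → ‖iteratedFDeriv ℝ 3 U p‖ ≤ 16 * M * r := by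
    intro p hp
    have h := rj_height hr hF he θ s hs hp (j := 2) (by norm_num)
    rw [← hU] at h
    have hb2 := (hb _ (hrot p hp)).2.1
    refine h.trans ?_
    have hMr : 0 ≤ M * r := by positivity
    calc 1 / r * (‖iteratedFDeriv ℝ (2 + 1) F (rot θ p)‖ * 2 ^ (2 + 1))
        ≤ 1 / r * ((M * r ^ 2) * 2 ^ (2 + 1)) := by (clear * - hb2 hr; gcongr)
      _ = 8 * (M * r) := by field_simp; ring
      _ ≤ 16 * M * r := by linarith only [hMr]
  have J4 : ∀ p, rho2 p < 1 → ‖iteratedFDeriv ℝ 4 U p‖ ≤ 16 * M * r := by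
    intro p hp
    have h := rj_height hr hF he θ s hs hp (j := 3) (by norm_num)
    rw [← hU] at h
    have hb2 := (hb _ (hrot p hp)).2.2
    refine h.trans ?_
    have hMr : 0 ≤ M * r := by positivity
    calc 1 / r * (‖iteratedFDeriv ℝ (3 + 1) F (rot θ p)‖ * 2 ^ (3 + 1))
        ≤ 1 / r * ((M * r ^ 3) * 2 ^ (3 + 1)) := by (clear * - hb2 hr; gcongr)
      _ = 16 * (M * r) * r := by field_simp; ring
      _ ≤ 16 * (M * r) * 1 := by (clear * - hr1 hM hr; gcongr)
      _ = 16 * M * r := by ring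
  have h2 : ∀ p, rho2 p < 1 → ContDiffAt ℝ 2 U p := fun p hp => (hUa p hp).of_le (by norm_num)
  have h3 : ∀ p, rho2 p < 1 → ContDiffAt ℝ 3 U p := fun p hp => (hUa p hp).of_le (by norm_num)
  refine ⟨hUc, fun p hp => ⟨?_, ?_, ?_⟩, fun p hp => ⟨⟨?_, ?_, ?_⟩, ⟨?_, ?_, ?_⟩, ⟨?_, ?_, ?_⟩,
    ⟨?_, ?_, ?_⟩⟩⟩
  · exact (rj_two (h2 p hp) hx hx).trans (J2 p hp)
  · exact (rj_two (h2 p hp) ht hx).trans (J2 p hp)
  · exact (rj_two (h2 p hp) ht ht).trans (J2 p hp)
  · exact (rj_three (h3 p hp) hx hx hx).trans (J3 p hp)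
  · exact (rj_four (hUa p hp) hx hx hx hx).trans (J4 p hp)
  · exact (rj_four (hUa p hp) ht hx hx hx).trans (J4 p hp)
  · exact (rj_three (h3 p hp) ht hx hx).trans (J3 p hp)
  · exact (rj_four (hUa p hp) hx ht hx hx).trans (J4 p hp)
  · exact (rj_four (hUa p hp) ht ht hx hx).trans (J4 p hp)
  · exact (rj_three (h3 p hp) ht ht hx).trans (J3 p hp)
  · exact (rj_four (hUa p hp) hx ht ht hx).trans (J4 p hp)
  · exact (rj_four (hUa p hp) ht ht ht hx).trans (J4 p hp)
  · exact (rj_three (h3 p hp) ht ht ht).trans (J3 p hp)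
  · exact (rj_four (hUa p hp) hx ht ht ht).trans (J4 p hp)
  · exact (rj_four (hUa p hp) ht ht ht ht).trans (J4 p hp)

end Vale.Agent.P229.D
end
end

section

section

/-!
# P229, disproof, task T15: sup-norm pigeonhole for equi-Lipschitz families
(`PROOF.md`, §4)
-/

open scoped ContDiff Topology
open MeasureTheory Set

namespace Vale.Agent.P229.D

/-- the cell index of a number `y ∈ [-c, c]` among `N` cells. -/
noncomputable def cellIdx (N : ℕ) (hN : 0 < N) (c y : ℝ) : Fin N :=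
  ⟨min ⌊(y + c) * N / (2 * c)⌋₊ (N - 1), by
    have := min_le_right ⌊(y + c) * N / (2 * c)⌋₊ (N - 1)
    omega⟩

theorem cellIdx_close {N : ℕ} (hN : 0 < N) {c y z : ℝ} (hc : 0 < c) (hy : |y| ≤ c) (hz : |z| ≤ c)
    (h : cellIdx N hN c y = cellIdx N hN c z) : |y - z| ≤ 2 * c / N := by
  have hN' : (0 : ℝ) < N := by exact_mod_cast hN
  have hval := congrArg Fin.val h
  simp only [cellIdx] at hval
  rw [abs_le] at hy hz
  -- rescaled variables
  set Y := (y + c) * N / (2 * c) with hY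
  set Z := (z + c) * N / (2 * c) with hZ
  have hY0 : 0 ≤ Y := by
    rw [hY]; apply div_nonneg _ (by linarith only [hc])
    exact mul_nonneg (by linarith only [hy]) hN'.le
  have hZ0 : 0 ≤ Z := by
    rw [hZ]; apply div_nonneg _ (by linarith only [hc])
    exact mul_nonneg (by linarith only [hz]) hN'.le
  have hYN : Y ≤ N := by
    rw [hY, div_le_iff₀ (by linarith only [hc])]
    nlinarith only [hy]
  have hZN : Z ≤ N := by
    rw [hZ, div_le_iff₀ (by linarith only [hc])]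
    nlinarith only [hz]
  have hYZ : |Y - Z| ≤ 1 := by
    have h1 := Nat.floor_le hY0
    have h2 := Nat.lt_floor_add_one Y
    have h3 := Nat.floor_le hZ0
    have h4 := Nat.lt_floor_add_one Z
    have hcast : ((N - 1 : ℕ) : ℝ) = N - 1 := by
      rw [Nat.cast_sub hN]; simp
    rcases le_total ⌊Y⌋₊ (N - 1) with hA | hA <;> rcases le_total ⌊Z⌋₊ (N - 1) with hB | hB
    · rw [min_eq_left hA, min_eq_left hB] at hval
      rw [hval] at h1 h2
      rw [abs_le]; constructor <;> linarith only [h1, h4, h2, h3]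
    · rw [min_eq_left hA, min_eq_right hB] at hval
      have hB' : ((N - 1 : ℕ) : ℝ) ≤ (⌊Z⌋₊ : ℝ) := by exact_mod_cast hB
      rw [hval] at h1 h2
      rw [hcast] at hB' h1 h2
      rw [abs_le]; constructor <;> linarith only [hZN, h1, h2, h3, hB']
    · rw [min_eq_right hA, min_eq_left hB] at hval
      have hA' : ((N - 1 : ℕ) : ℝ) ≤ (⌊Y⌋₊ : ℝ) := by exact_mod_cast hA
      rw [← hval] at h3 h4
      rw [hcast] at hA' h3 h4
      rw [abs_le]; constructor <;> linarith only [h1, h4, hA', hYN, h3]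
    · have hA' : ((N - 1 : ℕ) : ℝ) ≤ (⌊Y⌋₊ : ℝ) := by exact_mod_cast hA
      have hB' : ((N - 1 : ℕ) : ℝ) ≤ (⌊Z⌋₊ : ℝ) := by exact_mod_cast hB
      rw [hcast] at hA' hB'
      rw [abs_le]; constructor <;> linarith only [hZN, h1, hA', hYN, h3, hB']
  have hkey : y - z = (Y - Z) * (2 * c / N) := by
    rw [hY, hZ]; field_simp; ring
  rw [hkey, abs_mul, abs_of_pos (by positivity : (0 : ℝ) < 2 * c / N)]
  have : (0 : ℝ) < 2 * c / N := by positivity
  nlinarith only [hYZ, this]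

/-- T15. Sup-norm pigeonhole for equi-Lipschitz families on a bounded set. -/
theorem grid_pigeon {ι : Type} [DecidableEq ι] {m : ℕ} {K : Set Pl} (hK : K ⊆ Metric.closedBall 0 1)
    {Λ η : ℝ} (hΛ : 1 ≤ Λ) (hη : 0 < η) (hη1 : η ≤ 1) (S : Finset ι)
    (G : ι → Fin m → Pl → ℝ)
    (hb : ∀ s ∈ S, ∀ k, ∀ p ∈ K, |G s k p| ≤ Λ)
    (hl : ∀ s ∈ S, ∀ k, ∀ p ∈ K, ∀ q ∈ K, |G s k p - G s k q| ≤ Λ * dist p q) :
    ∃ T ⊆ S, S.card ≤ T.card * (⌈8 * Λ / η⌉₊) ^ (m * (⌈8 * Λ / η⌉₊) ^ 2) ∧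
      ∀ s ∈ T, ∀ s' ∈ T, ∀ k, ∀ p ∈ K, |G s k p - G s' k p| ≤ η := by
  classical
  set N : ℕ := ⌈8 * Λ / η⌉₊ with hNdef
  have hq : 0 < 8 * Λ / η := by positivity
  have hN : 0 < N := Nat.ceil_pos.mpr hq
  have hN' : (0 : ℝ) < N := by exact_mod_cast hN
  have hNge : 8 * Λ / η ≤ N := Nat.le_ceil _
  have hΛN : Λ / N ≤ η / 8 := by
    rw [div_le_iff₀ hN']
    rw [div_le_iff₀ hη] at hNge
    linarith only [hNge]
  have hN1 : 1 / N ≤ Λ / (N : ℝ) := by (clear * - hΛ hη; gcongr)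
  -- a representative of each cell
  let cell : Pl → Fin N × Fin N := fun p => (cellIdx N hN 1 p.1, cellIdx N hN 1 p.2)
  let rep : Fin N × Fin N → Pl := fun c => if h : ∃ q ∈ K, cell q = c then h.choose else 0
  have hrep : ∀ p ∈ K, rep (cell p) ∈ K ∧ cell (rep (cell p)) = cell p := by
    intro p hp
    have h : ∃ q ∈ K, cell q = cell p := ⟨p, hp, rfl⟩
    simp only [rep, dif_pos h]
    exact h.choose_spec
  have hKb : ∀ p ∈ K, |p.1| ≤ 1 ∧ |p.2| ≤ 1 := by
    intro p hp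
    have := hK hp
    rw [mem_closedBall_zero_iff, Prod.norm_def, max_le_iff, Real.norm_eq_abs,
      Real.norm_eq_abs] at this
    exact this
  have hdist : ∀ p ∈ K, dist p (rep (cell p)) ≤ 2 / N := by
    intro p hp
    obtain ⟨h1, h2⟩ := hrep p hp
    have e1 : cellIdx N hN 1 (rep (cell p)).1 = cellIdx N hN 1 p.1 := congrArg Prod.fst h2
    have e2 : cellIdx N hN 1 (rep (cell p)).2 = cellIdx N hN 1 p.2 := congrArg Prod.snd h2
    have d1 := cellIdx_close hN one_pos (hKb p hp).1 (hKb _ h1).1 e1.symm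
    have d2 := cellIdx_close hN one_pos (hKb p hp).2 (hKb _ h1).2 e2.symm
    rw [mul_one] at d1 d2
    rw [Prod.dist_eq, max_le_iff, Real.dist_eq, Real.dist_eq]
    exact ⟨d1, d2⟩
  -- the quantisation map
  let f : ι → (Fin m × (Fin N × Fin N) → Fin N) := fun s x => cellIdx N hN Λ (G s x.1 (rep x.2))
  have : Nonempty (Fin N) := ⟨⟨0, hN⟩⟩
  obtain ⟨y, -, hy⟩ := Finset.exists_max_image (Finset.univ : Finset (Fin m × (Fin N × Fin N) → Fin N))
    (fun y => (S.filter (fun s => f s = y)).card) Finset.univ_nonempty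
  refine ⟨S.filter (fun s => f s = y), Finset.filter_subset _ _, ?_, ?_⟩
  · have h1 : S.card = ∑ z : (Fin m × (Fin N × Fin N) → Fin N), (S.filter (fun s => f s = z)).card :=
      Finset.card_eq_sum_card_fiberwise (by intro x _; simp)
    rw [h1]
    calc ∑ z : (Fin m × (Fin N × Fin N) → Fin N), (S.filter (fun s => f s = z)).card
        ≤ ∑ _z : (Fin m × (Fin N × Fin N) → Fin N), (S.filter (fun s => f s = y)).card :=
          Finset.sum_le_sum fun z _ => hy z (Finset.mem_univ z)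
      _ = (S.filter (fun s => f s = y)).card * N ^ (m * N ^ 2) := by
          rw [Finset.sum_const, Finset.card_univ, Fintype.card_fun, Fintype.card_prod,
            Fintype.card_prod, Fintype.card_fin, Fintype.card_fin, smul_eq_mul, mul_comm, sq]
  · intro s hs s' hs' k p hp
    rw [Finset.mem_filter] at hs hs'
    obtain ⟨hr, -⟩ := hrep p hp
    have hd := hdist p hp
    have hff : cellIdx N hN Λ (G s k (rep (cell p))) = cellIdx N hN Λ (G s' k (rep (cell p))) :=
      congrFun (hs.2.trans hs'.2.symm) (k, cell p)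
    have h1 := cellIdx_close hN (by linarith only [hΛ] : (0 : ℝ) < Λ) (hb s hs.1 k _ hr) (hb s' hs'.1 k _ hr)
      hff
    have h2 := hl s hs.1 k p hp _ hr
    have h3 := hl s' hs'.1 k p hp _ hr
    have h4 : Λ * dist p (rep (cell p)) ≤ Λ * (2 / N) := by (clear * - hd hΛ; gcongr)
    have h5 : Λ * (2 / N) = 2 * (Λ / N) := by ring
    have h6 : 2 * Λ / N = 2 * (Λ / N) := by ring
    rw [h6] at h1
    rw [h5] at h4
    rw [abs_le] at h1 h2 h3 ⊢
    constructor <;> linarith only [hΛN, h1, h2, h3, h4]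

end Vale.Agent.P229.D
end
end

section

section

/-!
# P229, disproof, task T19b (part A): calculus lemmas for `raw_to_normfam`
-/

open scoped ContDiff Topology
open MeasureTheory Set

namespace Vale.Agent.P229.D.Raw

/-! ## counting -/

theorem count_lemma (C : ℝ) : ∃ n0 : ℕ, ∀ n : ℕ, n0 ≤ n → ∀ (Sc Tc Q : ℕ),
    (Q : ℝ) ≤ C * (n : ℝ) ^ 16 → 2 ^ (n ^ 107) ≤ n ^ 9 * Sc → Sc ≤ Tc * Q ^ (10 * Q ^ 2) →
    2 ^ (n ^ 106) ≤ Tc := by
  refine ⟨max 200 ⌈C⌉₊, fun n hn Sc Tc Q hQ h1 h2 => ?_⟩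
  have hn200 : 200 ≤ n := (le_max_left _ _).trans hn
  have hnC : C ≤ n := (Nat.le_ceil C).trans (by exact_mod_cast (le_max_right _ _).trans hn)
  have hn1 : 1 ≤ n := by omega
  have hnR : (0 : ℝ) ≤ n := by positivity
  have hQ' : Q ≤ n ^ 17 := by
    have : (Q : ℝ) ≤ (n : ℝ) ^ 17 := by
      refine hQ.trans ?_
      calc C * (n : ℝ) ^ 16 ≤ n * (n : ℝ) ^ 16 := by (clear * - hnC hn200; gcongr)
        _ = (n : ℝ) ^ 17 := by ring
    exact_mod_cast this
  by_contra hcon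
  rw [not_le] at hcon
  have h2n : n ≤ 2 ^ n := Nat.lt_two_pow_self.le
  have hQ1 : Q ≤ 2 ^ (17 * n) := by
    refine hQ'.trans ?_
    calc n ^ 17 ≤ (2 ^ n) ^ 17 := Nat.pow_le_pow_left h2n 17
      _ = 2 ^ (17 * n) := by rw [← pow_mul]; ring_nf
  have hQ2 : 10 * Q ^ 2 ≤ 10 * n ^ 34 := by
    have : Q ^ 2 ≤ (n ^ 17) ^ 2 := Nat.pow_le_pow_left hQ' 2
    have e : (n ^ 17) ^ 2 = n ^ 34 := by ring
    omega
  have hQ3 : Q ^ (10 * Q ^ 2) ≤ 2 ^ (170 * n ^ 35) := by
    calc Q ^ (10 * Q ^ 2) ≤ (2 ^ (17 * n)) ^ (10 * Q ^ 2) := Nat.pow_le_pow_left hQ1 _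
      _ ≤ (2 ^ (17 * n)) ^ (10 * n ^ 34) := Nat.pow_le_pow_right (by positivity) hQ2
      _ = 2 ^ (170 * n ^ 35) := by rw [← pow_mul]; ring_nf
  have hn9 : n ^ 9 ≤ 2 ^ (9 * n) := by
    calc n ^ 9 ≤ (2 ^ n) ^ 9 := Nat.pow_le_pow_left h2n 9
      _ = 2 ^ (9 * n) := by rw [← pow_mul]; ring_nf
  have hlt : 2 ^ (n ^ 107) < 2 ^ (9 * n + (n ^ 106 + 170 * n ^ 35)) := by
    calc 2 ^ (n ^ 107) ≤ n ^ 9 * Sc := h1
      _ ≤ 2 ^ (9 * n) * (Tc * Q ^ (10 * Q ^ 2)) := Nat.mul_le_mul hn9 h2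
      _ ≤ 2 ^ (9 * n) * (Tc * 2 ^ (170 * n ^ 35)) := by (clear * - hQ3; gcongr)
      _ < 2 ^ (9 * n) * (2 ^ (n ^ 106) * 2 ^ (170 * n ^ 35)) := by
        (clear * - hcon; gcongr)
      _ = 2 ^ (9 * n + (n ^ 106 + 170 * n ^ 35)) := by rw [pow_add, pow_add]
  have hexp := (Nat.pow_lt_pow_iff_right (by norm_num : 1 < 2)).1 hlt
  have e1 : n ≤ n ^ 106 := Nat.le_self_pow (by norm_num) n
  have e2 : n ^ 35 ≤ n ^ 106 := Nat.pow_le_pow_right hn1 (by norm_num)
  have e3 : 200 * n ^ 106 ≤ n ^ 107 := by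
    calc 200 * n ^ 106 ≤ n * n ^ 106 := Nat.mul_le_mul_right _ hn200
      _ = n ^ 107 := by ring
  (clear * - hexp e1 e2 e3; omega)

/-! ## local calculus -/

theorem contDiffAt_dx {f : Pl → ℝ} {p : Pl} {n m : WithTop ℕ∞} (hf : ContDiffAt ℝ n f p)
    (h : m + 1 ≤ n) : ContDiffAt ℝ m (dx f) p := by
  have : ContDiffAt ℝ m (fderiv ℝ f) p := hf.fderiv_right h
  exact this.clm_apply contDiffAt_const

theorem contDiffAt_dt {f : Pl → ℝ} {p : Pl} {n m : WithTop ℕ∞} (hf : ContDiffAt ℝ n f p)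
    (h : m + 1 ≤ n) : ContDiffAt ℝ m (dt f) p := by
  have : ContDiffAt ℝ m (fderiv ℝ f) p := hf.fderiv_right h
  exact this.clm_apply contDiffAt_const

theorem comm_at {f : Pl → ℝ} {p : Pl} (hf : ContDiffAt ℝ 2 f p) : dx (dt f) p = dt (dx f) p := by
  have hd : DifferentiableAt ℝ (fderiv ℝ f) p :=
    (hf.fderiv_right (m := 1) (by norm_num)).differentiableAt (by norm_num)
  have hs := hf.isSymmSndFDerivAt (by simp)
  have h1 : dx (dt f) p = fderiv ℝ (fderiv ℝ f) p (1, 0) (0, 1) := by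
    have : dt f = fun q => (fderiv ℝ f q) (0, 1) := rfl
    rw [dx, this, fderiv_clm_apply hd (differentiableAt_const _)]
    simp only [fderiv_fun_const, Pi.zero_apply, ContinuousLinearMap.comp_zero, zero_add, ContinuousLinearMap.flip_apply]
  have h2 : dt (dx f) p = fderiv ℝ (fderiv ℝ f) p (0, 1) (1, 0) := by
    have : dx f = fun q => (fderiv ℝ f q) (1, 0) := rfl
    rw [dt, this, fderiv_clm_apply hd (differentiableAt_const _)]
    simp only [fderiv_fun_const, Pi.zero_apply, ContinuousLinearMap.comp_zero, zero_add, ContinuousLinearMap.flip_apply]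
  rw [h1, h2]
  exact hs _ _

theorem dx_congr {f g : Pl → ℝ} {p : Pl} (h : f =ᶠ[𝓝 p] g) : dx f =ᶠ[𝓝 p] dx g := by
  filter_upwards [Filter.EventuallyEq.fderiv (𝕜 := ℝ) h] with q hq
  rw [dx, dx, hq]

theorem dt_congr {f g : Pl → ℝ} {p : Pl} (h : f =ᶠ[𝓝 p] g) : dt f =ᶠ[𝓝 p] dt g := by
  filter_upwards [Filter.EventuallyEq.fderiv (𝕜 := ℝ) h] with q hq
  rw [dt, dt, hq]

theorem Dle3_of_sorted {f : Pl → ℝ} {p : Pl} {c : ℝ} (hf : ContDiffAt ℝ 3 f p)
    (h0 : |f p| ≤ c) (h1 : |dx f p| ≤ c) (h2 : |dt f p| ≤ c) (h3 : |dx (dx f) p| ≤ c)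
    (h4 : |dt (dx f) p| ≤ c) (h5 : |dt (dt f) p| ≤ c) (h6 : |dx (dx (dx f)) p| ≤ c)
    (h7 : |dt (dx (dx f)) p| ≤ c) (h8 : |dt (dt (dx f)) p| ≤ c) (h9 : |dt (dt (dt f)) p| ≤ c) :
    Dle 3 f c p := by
  have ev : ∀ᶠ q in 𝓝 p, ContDiffAt ℝ 3 f q := hf.eventually (by decide)
  have e1 : dx (dt f) =ᶠ[𝓝 p] dt (dx f) := by
    filter_upwards [ev] with q hq
    exact comm_at (hq.of_le (by norm_num))
  have e2 : dx (dt (dx f)) p = dt (dx (dx f)) p :=
    comm_at (contDiffAt_dx hf (by norm_num))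
  have e3 : dx (dx (dt f)) p = dt (dx (dx f)) p := by
    rw [(dx_congr e1).self_of_nhds, e2]
  have e4 : dt (dx (dt f)) p = dt (dt (dx f)) p := (dt_congr e1).self_of_nhds
  have e5 : dx (dt (dt f)) p = dt (dt (dx f)) p := by
    rw [comm_at (contDiffAt_dt hf (by norm_num)), e4]
  have e0 := e1.self_of_nhds
  refine ⟨h0, ⟨h1, ⟨h3, h6, h7⟩, ⟨h4, ?_, h8⟩⟩, ⟨h2, ⟨?_, ?_, ?_⟩, ⟨h5, ?_, h9⟩⟩⟩
  · rw [Dle, e2]; exact h7
  · rw [e0]; exact h4
  · rw [Dle, e3]; exact h7
  · rw [Dle, e4]; exact h8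
  · rw [Dle, e5]; exact h8

/-! ## words -/

/-- iterated partial derivatives; `false` is `dx`, `true` is `dt`, first letter first. -/
noncomputable def der : List Bool → (Pl → ℝ) → Pl → ℝ
  | [], f => f
  | false :: w, f => der w (dx f)
  | true :: w, f => der w (dt f)

theorem der_congr : ∀ (w : List Bool) {f g : Pl → ℝ} {p : Pl}, f =ᶠ[𝓝 p] g →
    der w f =ᶠ[𝓝 p] der w g
  | [], _, _, _, h => h
  | false :: w, _, _, _, h => der_congr w (dx_congr h)
  | true :: w, _, _, _, h => der_congr w (dt_congr h)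

theorem der_sub : ∀ (w : List Bool) {f g : Pl → ℝ} {p : Pl}, ContDiffAt ℝ w.length f p →
    ContDiffAt ℝ w.length g p → der w (fun q => f q - g q) p = der w f p - der w g p
  | [], _, _, _, _, _ => rfl
  | false :: w, f, g, p, hf, hg => by
    have hf1 : ContDiffAt ℝ 1 f p := hf.of_le (by simp only [List.length_cons, Nat.cast_add, Nat.cast_one, self_le_add_left])
    have hg1 : ContDiffAt ℝ 1 g p := hg.of_le (by simp only [List.length_cons, Nat.cast_add, Nat.cast_one, self_le_add_left])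
    have e : dx (fun q => f q - g q) =ᶠ[𝓝 p] fun q => dx f q - dx g q := by
      filter_upwards [hf1.eventually (by decide), hg1.eventually (by decide)] with q h1 h2
      exact dx_sub (h1.differentiableAt (by norm_num)) (h2.differentiableAt (by norm_num))
    have h1 : ContDiffAt ℝ w.length (dx f) p := contDiffAt_dx hf (by simp [List.length_cons])
    have h2 : ContDiffAt ℝ w.length (dx g) p := contDiffAt_dx hg (by simp [List.length_cons])
    rw [der, der, der, (der_congr w e).self_of_nhds]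
    exact der_sub w h1 h2
  | true :: w, f, g, p, hf, hg => by
    have hf1 : ContDiffAt ℝ 1 f p := hf.of_le (by simp only [List.length_cons, Nat.cast_add, Nat.cast_one, self_le_add_left])
    have hg1 : ContDiffAt ℝ 1 g p := hg.of_le (by simp only [List.length_cons, Nat.cast_add, Nat.cast_one, self_le_add_left])
    have e : dt (fun q => f q - g q) =ᶠ[𝓝 p] fun q => dt f q - dt g q := by
      filter_upwards [hf1.eventually (by decide), hg1.eventually (by decide)] with q h1 h2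
      exact dt_sub (h1.differentiableAt (by norm_num)) (h2.differentiableAt (by norm_num))
    have h1 : ContDiffAt ℝ w.length (dt f) p := contDiffAt_dt hf (by simp [List.length_cons])
    have h2 : ContDiffAt ℝ w.length (dt g) p := contDiffAt_dt hg (by simp [List.length_cons])
    rw [der, der, der, (der_congr w e).self_of_nhds]
    exact der_sub w h1 h2

/-- the ten sorted words. -/
def wd : Fin 10 → List Bool :=
  ![[], [false], [true], [false, false], [false, true], [true, true], [false, false, false],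
    [false, false, true], [false, true, true], [true, true, true]]

/-! ## Lipschitz bounds on the disc -/

theorem convex_disc : Convex ℝ {q : Pl | rho2 q < 1} := by
  intro x hx y hy a b ha hb hab
  simp only [mem_ofPred_eq, rho2] at hx hy ⊢
  have e : (a • x + b • y).1 ^ 2 + (a • x + b • y).2 ^ 2
      = a * (x.1 ^ 2 + x.2 ^ 2) + b * (y.1 ^ 2 + y.2 ^ 2)
        - a * b * ((x.1 - y.1) ^ 2 + (x.2 - y.2) ^ 2) := by
    have hb' : b = 1 - a := by linarith only [hab]
    simp only [Prod.fst_add, Prod.smul_fst, smul_eq_mul, Prod.snd_add, Prod.smul_snd]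
    rw [hb']; ring
  rw [e]
  have h1 : 0 ≤ a * b * ((x.1 - y.1) ^ 2 + (x.2 - y.2) ^ 2) := by (clear * - ha hb; positivity)
  rcases ha.eq_or_lt with h | h
  · have : b = 1 := by linarith only [hab, h]
    subst h; subst this; linarith only [hy]
  · have h2 : a * (x.1 ^ 2 + x.2 ^ 2) < a * 1 := mul_lt_mul_of_pos_left hx h
    have h3 : b * (y.1 ^ 2 + y.2 ^ 2) ≤ b * 1 := mul_le_mul_of_nonneg_left hy.le hb
    linarith only [hab, h1, h2, h3]

theorem lip_disc {f : Pl → ℝ} (hf : ∀ q, rho2 q < 1 → DifferentiableAt ℝ f q) {c : ℝ}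
    (h : ∀ q, rho2 q < 1 → |dx f q| ≤ c ∧ |dt f q| ≤ c) {p q : Pl} (hp : rho2 p < 1)
    (hq : rho2 q < 1) : |f p - f q| ≤ 2 * c * dist p q := by
  have hc : 0 ≤ c := (abs_nonneg _).trans (h p hp).1
  have := convex_disc.norm_image_sub_le_of_norm_fderiv_le (𝕜 := ℝ) (f := f) (C := 2 * c)
    (fun x hx => hf x hx) (fun x hx => ?_) hq hp
  · rw [Real.norm_eq_abs, ← dist_eq_norm] at this
    exact this
  · refine ContinuousLinearMap.opNorm_le_bound _ (by linarith) fun v => ?_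
    rw [fderiv_eq, Real.norm_eq_abs]
    have h1 : |v.1| ≤ ‖v‖ := norm_fst_le v
    have h2 : |v.2| ≤ ‖v‖ := norm_snd_le v
    obtain ⟨h3, h4⟩ := h x hx
    calc |v.1 * dx f x + v.2 * dt f x| ≤ |v.1 * dx f x| + |v.2 * dt f x| := abs_add_le _ _
      _ = |v.1| * |dx f x| + |v.2| * |dt f x| := by rw [abs_mul, abs_mul]
      _ ≤ ‖v‖ * c + ‖v‖ * c := by
        (clear * - h1 h3 h2 h4; gcongr)
      _ = 2 * c * ‖v‖ := by ring

theorem dist_zero_le {p : Pl} (hp : rho2 p < 1) : dist p 0 ≤ 1 := by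
  rw [dist_zero_right, Prod.norm_def]
  simp only [rho2] at hp
  refine max_le ?_ ?_ <;> rw [Real.norm_eq_abs, abs_le] <;> constructor <;>
    nlinarith only [hp]

theorem rho2_zero : rho2 (0 : Pl) = 0 := by simp [rho2]

end Vale.Agent.P229.D.Raw
end
end

section

section

/-!
# P229, disproof, tasks T15, T16, T19: selection of the family (`PROOF.md`, §4)

* T15 `grid_pigeon`: `GridPigeon.lean`
* T16 `double_count`, `phc_update_rot`: `FamilyA.lean`
* T19a `Gother_small`, `phc_props`: `BitsB.lean`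
* T19b `raw_to_normfam`: `RawA.lean`, `RawB.lean`, `RawC.lean`
-/
end
end

section

section

/-!
# P229, disproof, task T2: the multiplier identity (`PROOF.md`, §6)
-/

open scoped ContDiff Topology
open MeasureTheory Set

namespace Vale.Agent.P229.D

/-- boundary terms -/
noncomputable def gmiPhi1 (P v mu nu lam a al : Pl → ℝ) (p : Pl) : ℝ :=
  mu p * a p * XX P v p ^ 2 / 2 - mu p * YY P v p ^ 2 / 2 + nu p * a p * YY P v p * XX P v p
    + lam p * a p * v p * XX P v p + al p * nu p * YY P v p ^ 2 / 2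

noncomputable def gmiPhi2 (P v mu nu lam a al : Pl → ℝ) (p : Pl) : ℝ :=
  mu p * XX P v p * YY P v p + nu p * YY P v p ^ 2 / 2 - nu p * a p * XX P v p ^ 2 / 2
    + lam p * v p * YY P v p + al p * mu p * XX P v p ^ 2 / 2 + al p * lam p * v p * XX P v p

theorem gmi_pointwise {P v mu nu lam a al : Pl → ℝ} (hP : Frame P) (hv : ContDiff ℝ 2 v)
    (hmu : ContDiff ℝ 1 mu) (hnu : ContDiff ℝ 1 nu) (hlam : ContDiff ℝ 1 lam)
    (ha : ContDiff ℝ 1 a) (hal : ContDiff ℝ 1 al) (p : Pl) :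
    (mu p * XX P v p + nu p * YY P v p + lam p * v p) *
        (YY P (YY P v) p + XX P (fun q => a q * XX P v q) p + al p * XX P (YY P v) p)
      = ((XX P mu p / 2 - YY P nu p / 2 - lam p - XX P (fun q => al q * nu q) p / 2)
            * (YY P v p) ^ 2
          + (mu p * XX P a p / 2 - a p * XX P mu p / 2 + YY P (fun q => nu q * a q) p / 2
              - lam p * a p - YY P (fun q => al q * mu q) p / 2) * (XX P v p) ^ 2
          - (YY P mu p + a p * XX P nu p + al p * lam p) * YY P v p * XX P v p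
          - YY P lam p * v p * YY P v p
          - (a p * XX P lam p + YY P (fun q => al q * lam q) p) * v p * XX P v p)
        + XX P (gmiPhi1 P v mu nu lam a al) p + YY P (gmiPhi2 P v mu nu lam a al) p := by
  have one : (1 : WithTop ℕ∞) ≠ 0 := by norm_num
  have dmu := hmu.differentiable one p
  have dnu := hnu.differentiable one p
  have dlam := hlam.differentiable one p
  have da := ha.differentiable one p
  have dal := hal.differentiable one p
  have dv := hv.differentiable (by norm_num) p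
  have dX := (contDiff_XX (m := 1) hP hv (by norm_num) (by norm_num)).differentiable one p
  have dY := (contDiff_YY (m := 1) hP hv (by norm_num) (by norm_num)).differentiable one p
  have comm := XX_YY_comm hP hv p
  set W1 : Pl := ((dx P p)⁻¹, 0) with hW1
  set W2 : Pl := (-(dt P p / dx P p), 1) with hW2
  have Xdef : ∀ f : Pl → ℝ, XX P f p = fderiv ℝ f p W1 := fun f => XX_eq_fderiv P f p
  have Ydef : ∀ f : Pl → ℝ, YY P f p = fderiv ℝ f p W2 := fun f => YY_eq_fderiv P f p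
  -- product rules
  have H1 : HasFDerivAt (gmiPhi1 P v mu nu lam a al) _ p :=
    (((((dmu.hasFDerivAt.mul da.hasFDerivAt).mul (dX.hasFDerivAt.pow 2)).mul_const (2⁻¹ : ℝ)).sub
      ((dmu.hasFDerivAt.mul (dY.hasFDerivAt.pow 2)).mul_const (2⁻¹ : ℝ))).add
      (((dnu.hasFDerivAt.mul da.hasFDerivAt).mul dY.hasFDerivAt).mul dX.hasFDerivAt)).add
      (((dlam.hasFDerivAt.mul da.hasFDerivAt).mul dv.hasFDerivAt).mul dX.hasFDerivAt) |>.add
      (((dal.hasFDerivAt.mul dnu.hasFDerivAt).mul (dY.hasFDerivAt.pow 2)).mul_const (2⁻¹ : ℝ))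
  have H2 : HasFDerivAt (gmiPhi2 P v mu nu lam a al) _ p :=
    (((((dmu.hasFDerivAt.mul dX.hasFDerivAt).mul dY.hasFDerivAt).add
      ((dnu.hasFDerivAt.mul (dY.hasFDerivAt.pow 2)).mul_const (2⁻¹ : ℝ))).sub
      (((dnu.hasFDerivAt.mul da.hasFDerivAt).mul (dX.hasFDerivAt.pow 2)).mul_const (2⁻¹ : ℝ))).add
      ((dlam.hasFDerivAt.mul dv.hasFDerivAt).mul dY.hasFDerivAt)).add
      (((dal.hasFDerivAt.mul dmu.hasFDerivAt).mul (dX.hasFDerivAt.pow 2)).mul_const (2⁻¹ : ℝ)) |>.add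
      (((dal.hasFDerivAt.mul dlam.hasFDerivAt).mul dv.hasFDerivAt).mul dX.hasFDerivAt)
  rw [Xdef (gmiPhi1 P v mu nu lam a al), Ydef (gmiPhi2 P v mu nu lam a al), H1.fderiv, H2.fderiv]
  simp only [Xdef, Ydef] at comm ⊢
  rw [fderiv_mul_apply da dX, fderiv_mul_apply dal dnu, fderiv_mul_apply dnu da,
    fderiv_mul_apply dal dmu, fderiv_mul_apply dal dlam]
  simp only [add_apply, sub_apply, smul_apply, smul_eq_mul, Pi.mul_apply, Xdef, Ydef, ← comm]
  ring

/-- General multiplier identity. -/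
theorem gmi {P : Pl → ℝ} (hP : Frame P) {μ ν lam a α v : Pl → ℝ}
    (hμ : ContDiff ℝ 1 μ) (hν : ContDiff ℝ 1 ν) (hl : ContDiff ℝ 1 lam) (ha : ContDiff ℝ 1 a)
    (hα : ContDiff ℝ 1 α) (hv : ContDiff ℝ 2 v)
    (cμ : HasCompactSupport μ) (cν : HasCompactSupport ν) (cl : HasCompactSupport lam) :
    ∫ p, (μ p * XX P v p + ν p * YY P v p + lam p * v p) *
        (YY P (YY P v) p + XX P (fun q => a q * XX P v q) p + α p * XX P (YY P v) p) * dx P p
    = ∫ p, ((XX P μ p / 2 - YY P ν p / 2 - lam p - XX P (fun q => α q * ν q) p / 2)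
            * (YY P v p) ^ 2
          + (μ p * XX P a p / 2 - a p * XX P μ p / 2 + YY P (fun q => ν q * a q) p / 2
              - lam p * a p - YY P (fun q => α q * μ q) p / 2) * (XX P v p) ^ 2
          - (YY P μ p + a p * XX P ν p + α p * lam p) * YY P v p * XX P v p
          - YY P lam p * v p * YY P v p
          - (a p * XX P lam p + YY P (fun q => α q * lam q) p) * v p * XX P v p) * dx P p := by
  have hX : ContDiff ℝ 1 (XX P v) := contDiff_XX (m := 1) hP hv (by norm_num) (by norm_num)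
  have hY : ContDiff ℝ 1 (YY P v) := contDiff_YY (m := 1) hP hv (by norm_num) (by norm_num)
  have hv1 : ContDiff ℝ 1 v := hv.of_le (by norm_num)
  have cdx : Continuous (dx P) := (hP.contDiff_dx (m := 0) (by norm_num)).continuous
  have cPhi1 : ContDiff ℝ 1 (gmiPhi1 P v μ ν lam a α) := by unfold gmiPhi1; fun_prop
  have cPhi2 : ContDiff ℝ 1 (gmiPhi2 P v μ ν lam a α) := by unfold gmiPhi2; fun_prop
  have hK : IsCompact (tsupport μ ∪ tsupport ν ∪ tsupport lam) := (cμ.union cν).union cl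
  have hz : ∀ p, p ∉ tsupport μ ∪ tsupport ν ∪ tsupport lam → μ p = 0 ∧ ν p = 0 ∧ lam p = 0 := by
    intro p hp
    simp only [Set.mem_union, not_or] at hp
    exact ⟨image_eq_zero_of_notMem_tsupport hp.1.1, image_eq_zero_of_notMem_tsupport hp.1.2,
      image_eq_zero_of_notMem_tsupport hp.2⟩
  have sPhi1 : HasCompactSupport (gmiPhi1 P v μ ν lam a α) := by
    refine HasCompactSupport.intro hK fun p hp => ?_
    obtain ⟨h1, h2, h3⟩ := hz p hp
    simp [gmiPhi1, h1, h2, h3]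
  have sPhi2 : HasCompactSupport (gmiPhi2 P v μ ν lam a α) := by
    refine HasCompactSupport.intro hK fun p hp => ?_
    obtain ⟨h1, h2, h3⟩ := hz p hp
    simp [gmiPhi2, h1, h2, h3]
  have cop : Continuous (fun p => YY P (YY P v) p + XX P (fun q => a q * XX P v q) p
      + α p * XX P (YY P v) p) := by
    have c1 : Continuous (YY P (YY P v)) :=
      (contDiff_YY (m := 0) hP hY (by norm_num) (by norm_num)).continuous
    have c2 : Continuous (XX P (YY P v)) :=
      (contDiff_XX (m := 0) hP hY (by norm_num) (by norm_num)).continuous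
    have c3 : Continuous (XX P (fun q => a q * XX P v q)) :=
      (contDiff_XX (m := 0) hP (ha.mul hX) (by norm_num) (by norm_num)).continuous
    exact (c1.add c3).add (hα.continuous.mul c2)
  have cL : Continuous (fun p => (μ p * XX P v p + ν p * YY P v p + lam p * v p) *
      (YY P (YY P v) p + XX P (fun q => a q * XX P v q) p + α p * XX P (YY P v) p) * dx P p) :=
    ((((hμ.continuous.mul hX.continuous).add (hν.continuous.mul hY.continuous)).add
      (hl.continuous.mul hv.continuous)).mul cop).mul cdx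
  have sL : HasCompactSupport (fun p => (μ p * XX P v p + ν p * YY P v p + lam p * v p) *
      (YY P (YY P v) p + XX P (fun q => a q * XX P v q) p + α p * XX P (YY P v) p) * dx P p) := by
    refine HasCompactSupport.intro hK fun p hp => ?_
    obtain ⟨h1, h2, h3⟩ := hz p hp
    simp [h1, h2, h3]
  have c1 : Continuous (fun p => XX P (gmiPhi1 P v μ ν lam a α) p * dx P p) :=
    (contDiff_XX (m := 0) hP cPhi1 (by norm_num) (by norm_num)).continuous.mul cdx
  have c2 : Continuous (fun p => YY P (gmiPhi2 P v μ ν lam a α) p * dx P p) :=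
    (contDiff_YY (m := 0) hP cPhi2 (by norm_num) (by norm_num)).continuous.mul cdx
  have s1 : HasCompactSupport (fun p => XX P (gmiPhi1 P v μ ν lam a α) p * dx P p) :=
    (hasCompactSupport_XX sPhi1).mul_right
  have s2 : HasCompactSupport (fun p => YY P (gmiPhi2 P v μ ν lam a α) p * dx P p) :=
    (hasCompactSupport_YY sPhi2).mul_right
  have I0 := cL.integrable_of_hasCompactSupport sL (μ := volume)
  have I1 := c1.integrable_of_hasCompactSupport s1 (μ := volume)
  have I2 := c2.integrable_of_hasCompactSupport s2 (μ := volume)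
  have I01 := I0.sub I1
  have e1 : ∫ p, ((μ p * XX P v p + ν p * YY P v p + lam p * v p) *
      (YY P (YY P v) p + XX P (fun q => a q * XX P v q) p + α p * XX P (YY P v) p) * dx P p
        - XX P (gmiPhi1 P v μ ν lam a α) p * dx P p) - YY P (gmiPhi2 P v μ ν lam a α) p * dx P p
      = ∫ p, (μ p * XX P v p + ν p * YY P v p + lam p * v p) *
      (YY P (YY P v) p + XX P (fun q => a q * XX P v q) p + α p * XX P (YY P v) p) * dx P p := by
    have I01' : Integrable (fun p => (μ p * XX P v p + ν p * YY P v p + lam p * v p) *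
      (YY P (YY P v) p + XX P (fun q => a q * XX P v q) p + α p * XX P (YY P v) p) * dx P p
        - XX P (gmiPhi1 P v μ ν lam a α) p * dx P p) volume := I01
    rw [integral_sub I01' I2, integral_sub I0 I1, integral_XX_eq_zero hP cPhi1 sPhi1,
      integral_YY_eq_zero hP cPhi2 sPhi2]
    ring
  rw [← e1]
  refine integral_congr_ae (Filter.Eventually.of_forall fun p => ?_)
  simp only
  rw [gmi_pointwise hP hv hμ hν hl ha hα p]
  ring

theorem isCompact_disc : IsCompact {p : Pl | rho2 p ≤ 0.64} := by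
  refine Metric.isCompact_of_isClosed_isBounded ?_ ?_
  · have : Continuous rho2 := by unfold rho2; fun_prop
    exact isClosed_le this continuous_const
  · refine (Metric.isBounded_closedBall (x := (0 : Pl)) (r := 1)).subset fun p hp => ?_
    simp only [Set.mem_setOf_eq, rho2] at hp
    rw [mem_closedBall_zero_iff, Prod.norm_def, Real.norm_eq_abs, Real.norm_eq_abs]
    refine max_le ?_ ?_
    · rw [abs_le]; constructor <;> nlinarith only [hp]
    · rw [abs_le]; constructor <;> nlinarith only [hp]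

theorem hasCompactSupport_of_tsupport_subset_disc {f : Pl → ℝ}
    (h : tsupport f ⊆ {p | rho2 p < 0.64}) : HasCompactSupport f :=
  isCompact_disc.of_isClosed_subset (isClosed_tsupport f)
    (h.trans fun p (hp : rho2 p < 0.64) => le_of_lt hp)

/-- The multiplier identity for a solution of the pair equation, supports inside `ρ² < 0.64`. -/
theorem PairEq.gmi {P v a α e1 e2 F : Pl → ℝ} {δ : ℝ} (h : PairEq P v a α e1 e2 F δ)
    {μ ν lam : Pl → ℝ} (hμ : ContDiff ℝ 1 μ) (hν : ContDiff ℝ 1 ν) (hl : ContDiff ℝ 1 lam)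
    (sμ : tsupport μ ⊆ {p | rho2 p < 0.64}) (sν : tsupport ν ⊆ {p | rho2 p < 0.64})
    (sl : tsupport lam ⊆ {p | rho2 p < 0.64}) :
    ∫ p, (μ p * XX P v p + ν p * YY P v p + lam p * v p) *
        (F p - e1 p * YY P v p - e2 p * XX P v p) * dx P p
    = ∫ p, ((XX P μ p / 2 - YY P ν p / 2 - lam p - XX P (fun q => α q * ν q) p / 2)
            * (YY P v p) ^ 2
          + (μ p * XX P a p / 2 - a p * XX P μ p / 2 + YY P (fun q => ν q * a q) p / 2
              - lam p * a p - YY P (fun q => α q * μ q) p / 2) * (XX P v p) ^ 2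
          - (YY P μ p + a p * XX P ν p + α p * lam p) * YY P v p * XX P v p
          - YY P lam p * v p * YY P v p
          - (a p * XX P lam p + YY P (fun q => α q * lam q) p) * v p * XX P v p) * dx P p := by
  rw [← Vale.Agent.P229.D.gmi h.frame hμ hν hl h.a_smooth h.α_smooth h.v_smooth
    (hasCompactSupport_of_tsupport_subset_disc sμ) (hasCompactSupport_of_tsupport_subset_disc sν)
    (hasCompactSupport_of_tsupport_subset_disc sl)]
  refine integral_congr_ae (Filter.Eventually.of_forall fun p => ?_)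
  simp only
  by_cases hp : rho2 p < 0.64
  · rw [← h.eq p hp]; ring
  · have h1 : μ p = 0 := image_eq_zero_of_notMem_tsupport fun hh => hp (sμ hh)
    have h2 : ν p = 0 := image_eq_zero_of_notMem_tsupport fun hh => hp (sν hh)
    have h3 : lam p = 0 := image_eq_zero_of_notMem_tsupport fun hh => hp (sl hh)
    simp [h1, h2, h3]

end Vale.Agent.P229.D
end
end

section

section

/-!
# P229, disproof, task T5: the elliptic ring (`PROOF.md`, §7, RING)
-/

open scoped ContDiff Topology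
open MeasureTheory Set

namespace Vale.Agent.P229.D

/-- bounds of `a` in the ring. -/
theorem PairEq.a_ring {P v a α e1 e2 F : Pl → ℝ} {δ : ℝ} (h : PairEq P v a α e1 e2 F δ) {p : Pl}
    (h1 : 0.33 < rho2 p) (h2 : rho2 p < 0.64) : δ / 20 ≤ a p ∧ a p ≤ δ / 2 := by
  have hδ := h.δ_pos
  have hb := h.frame.abs_sub_fst_le p
  have hx : |p.1| ≤ 0.8 := by
    refine abs_le_of_sq_le_sq (by unfold rho2 at h2; linarith only [h2, sq_nonneg p.2]) (by norm_num)
  have ht : |p.2| ≤ 0.8 := by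
    refine abs_le_of_sq_le_sq (by unfold rho2 at h2; linarith only [h2, sq_nonneg p.1]) (by norm_num)
  have hd : |P p - p.1| ≤ 0.0016 := by
    refine hb.trans ?_
    rw [div_le_iff₀ (by norm_num)]; linarith only [hx, ht]
  have hs : |P p ^ 2 - p.1 ^ 2| ≤ 0.0016 * 1.7 := by
    have e : P p ^ 2 - p.1 ^ 2 = (P p - p.1) * ((P p - p.1) + 2 * p.1) := by ring
    rw [e, abs_mul]
    refine mul_le_mul hd ?_ (abs_nonneg _) (by norm_num)
    refine (abs_add_le _ _).trans ?_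
    rw [abs_mul, abs_of_pos (by norm_num : (0 : ℝ) < 2)]
    linarith only [hb, hx, ht]
  obtain ⟨s1, s2⟩ := abs_le.1 hs
  obtain ⟨a1, a2⟩ := abs_le.1 (h.a_bd p h2)
  unfold rho2 at h1 h2
  constructor
  · have : δ * 0.07 ≤ δ * (P p ^ 2 + p.2 ^ 2 - 1 / 4) :=
      mul_le_mul_of_nonneg_left (by linarith only [h1, s1]) hδ.le
    linarith only [hδ, a1, this]
  · have : δ * (P p ^ 2 + p.2 ^ 2 - 1 / 4) ≤ δ * 0.4 :=
      mul_le_mul_of_nonneg_left (by linarith only [h2, s2]) hδ.le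
    linarith only [hδ, a2, this]

/-- the real inequality behind `ring_est`. -/
theorem ring_ineq {z zx zy a α αY e1 e2 δ v q p : ℝ} (hδ : 0 < δ) (hδ1 : δ ≤ 1 / 1000)
    (ha1 : δ / 20 ≤ a) (ha2 : a ≤ δ / 2) (hα : |α| ≤ δ / 1000) (hαY : |αY| ≤ δ / 1000)
    (h1 : |e1| ≤ δ / 1000) (h2 : |e2| ≤ δ / 1000) :
    z ^ 2 * (q ^ 2 + δ * p ^ 2) ≤ 40 * ((z ^ 2 * v) * (0 - e1 * q - e2 * p)
      - (-(z ^ 2) * q ^ 2 - z ^ 2 * a * p ^ 2 - α * z ^ 2 * q * p - (2 * z * zy) * v * q
        - (a * (2 * z * zx) + (αY * z ^ 2 + α * (2 * z * zy))) * v * p))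
      + 400 * ((z ^ 2 + zx ^ 2 + zy ^ 2) * v ^ 2) := by
  obtain ⟨b1, b2⟩ := abs_le.1 h1
  obtain ⟨b3, b4⟩ := abs_le.1 h2
  have hprod : ∀ {c x y : ℝ}, |c| ≤ δ / 1000 → |c * (x * y)| ≤ δ / 1000 * ((x ^ 2 + y ^ 2) / 2) := by
    intro c x y hc
    rw [abs_mul]
    refine mul_le_mul hc ?_ (abs_nonneg _) (by positivity)
    rw [abs_le]; constructor <;> nlinarith only [sq_nonneg (x + y), sq_nonneg (x - y)]
  have k1 := (abs_le.1 (hprod (x := z * v) (y := z * q) h1)).2
  have k2 := (abs_le.1 (hprod (x := z * v) (y := z * p) h2)).2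
  have k3 := (abs_le.1 (hprod (x := z * q) (y := z * p) hα)).1
  have k4 := (abs_le.1 (hprod (x := z * v) (y := z * p) hαY)).1
  have k5 := (abs_le.1 (hprod (x := zy * v) (y := z * p) hα)).1
  have k6 : -(z ^ 2 * q ^ 2 / 4 + 4 * (zy ^ 2 * v ^ 2)) ≤ 2 * z * zy * v * q := by
    linarith only [sq_nonneg (z * q / 2 + 2 * (zy * v))]
  have ha0 : 0 ≤ a := by linarith only [hδ, ha1]
  have k7 : -(a * (z ^ 2 * p ^ 2 / 4 + 4 * (zx ^ 2 * v ^ 2))) ≤ a * (2 * z * zx * v * p) := by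
    have : -(z ^ 2 * p ^ 2 / 4 + 4 * (zx ^ 2 * v ^ 2)) ≤ 2 * z * zx * v * p := by
      linarith only [sq_nonneg (z * p / 2 + 2 * (zx * v))]
    have := mul_le_mul_of_nonneg_left this ha0
    linarith only [this]
  have k8 : a * (zx ^ 2 * v ^ 2) ≤ 1 * (zx ^ 2 * v ^ 2) :=
    mul_le_mul_of_nonneg_right (by linarith only [hδ1, ha2]) (by (clear * -; positivity))
  have k9 : δ / 20 * (z ^ 2 * p ^ 2) ≤ a * (z ^ 2 * p ^ 2) :=
    mul_le_mul_of_nonneg_right ha1 (by (clear * -; positivity))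
  have hA : 0 ≤ z ^ 2 * q ^ 2 := by (clear * -; positivity)
  have hB : 0 ≤ δ * (z ^ 2 * p ^ 2) := by (clear * - hδ; positivity)
  have hC : 0 ≤ z ^ 2 * v ^ 2 := by (clear * -; positivity)
  have hD : 0 ≤ zy ^ 2 * v ^ 2 := by (clear * -; positivity)
  have hE : 0 ≤ zx ^ 2 * v ^ 2 := by (clear * -; positivity)
  have m1 : δ * (z ^ 2 * q ^ 2) ≤ 1 / 1000 * (z ^ 2 * q ^ 2) := mul_le_mul_of_nonneg_right hδ1 hA
  have m2 : δ * (z ^ 2 * v ^ 2) ≤ 1 / 1000 * (z ^ 2 * v ^ 2) := mul_le_mul_of_nonneg_right hδ1 hC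
  have m3 : δ * (zy ^ 2 * v ^ 2) ≤ 1 / 1000 * (zy ^ 2 * v ^ 2) := mul_le_mul_of_nonneg_right hδ1 hD
  linarith only [k1, k2, k3, k4, k5, k6, k7, k8, k9, hA, hB, hC, hD, hE, m1, m2, m3]

/-- Elliptic (Caccioppoli) estimate in the ring. -/
theorem ring_est : ∃ C : ℝ, 0 < C ∧ ∀ (P v a α e1 e2 F : Pl → ℝ) (δ : ℝ),
    PairEq P v a α e1 e2 F δ → ∀ ζ : Pl → ℝ, ContDiff ℝ 1 ζ → (∀ p, |ζ p| ≤ 1) →
    tsupport ζ ⊆ {p | 0.33 < rho2 p ∧ rho2 p < 0.64} → (∀ p ∈ tsupport ζ, F p = 0) →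
    ∫ p, (ζ p) ^ 2 * ((YY P v p) ^ 2 + δ * (XX P v p) ^ 2) * dx P p
    ≤ C * ∫ p, ((ζ p) ^ 2 + (XX P ζ p) ^ 2 + (YY P ζ p) ^ 2) * (v p) ^ 2 * dx P p := by
  refine ⟨400, by norm_num, ?_⟩
  intro P v a α e1 e2 F δ h ζ hζ _ sζ hF
  have hP := h.frame
  have one : (1 : WithTop ℕ∞) ≠ 0 := by norm_num
  have sζ' : tsupport ζ ⊆ {p | rho2 p < 0.64} := fun p hp => (sζ hp).2
  have cζ : HasCompactSupport ζ := hasCompactSupport_of_tsupport_subset_disc sζ'
  -- the multiplier
  set lam : Pl → ℝ := fun q => ζ q ^ 2 with hlam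
  have hl : ContDiff ℝ 1 lam := hζ.pow 2
  have tl : tsupport lam ⊆ tsupport ζ := by
    refine closure_mono fun p hp => ?_
    simp only [hlam, Function.mem_support] at hp ⊢
    intro h0
    exact hp (by rw [h0]; norm_num)
  have Xl : ∀ p, XX P lam p = 2 * ζ p * XX P ζ p := by
    intro p
    have := XX_mul (P := P) (hζ.differentiable one p) (hζ.differentiable one p)
    have e : lam = fun q => ζ q * ζ q := by funext q; simp only [hlam]; ring
    rw [e, this]; ring
  have Yl : ∀ p, YY P lam p = 2 * ζ p * YY P ζ p := by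
    intro p
    have := YY_mul (P := P) (hζ.differentiable one p) (hζ.differentiable one p)
    have e : lam = fun q => ζ q * ζ q := by funext q; simp only [hlam]; ring
    rw [e, this]; ring
  have Yal : ∀ p, YY P (fun q => α q * lam q) p
      = YY P α p * ζ p ^ 2 + α p * (2 * ζ p * YY P ζ p) := by
    intro p
    rw [YY_mul (h.α_smooth.differentiable one p) (hl.differentiable one p), Yl]
  have key := h.gmi (μ := fun _ => 0) (ν := fun _ => 0) (lam := lam) contDiff_const contDiff_const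
    hl (by simp only [tsupport, Function.support_fun_zero, finite_empty, Finite.isClosed, IsClosed.closure_eq, empty_subset]) (by simp only [tsupport, Function.support_fun_zero, finite_empty, Finite.isClosed, IsClosed.closure_eq, empty_subset]) (tl.trans sζ')
  -- integrability
  have cX : Continuous (XX P v) := (contDiff_XX (m := 1) hP h.v_smooth (by norm_num)
    (by norm_num)).continuous
  have cY : Continuous (YY P v) := (contDiff_YY (m := 1) hP h.v_smooth (by norm_num)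
    (by norm_num)).continuous
  have cXz : Continuous (XX P ζ) := (contDiff_XX (m := 0) hP hζ (by norm_num)
    (by norm_num)).continuous
  have cYz : Continuous (YY P ζ) := (contDiff_YY (m := 0) hP hζ (by norm_num)
    (by norm_num)).continuous
  have cYα : Continuous (YY P α) := (contDiff_YY (m := 0) hP h.α_smooth (by norm_num)
    (by norm_num)).continuous
  have cdx : Continuous (dx P) := (hP.contDiff_dx (m := 0) (by norm_num)).continuous
  have cv := h.v_smooth.continuous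
  have ca := h.a_smooth.continuous
  have cα := h.α_smooth.continuous
  have ce1 := h.e1_cont
  have ce2 := h.e2_cont
  have cF := h.F_cont
  have cz := hζ.continuous
  have zero : ∀ p, p ∉ tsupport ζ → ζ p = 0 ∧ XX P ζ p = 0 ∧ YY P ζ p = 0 := fun p hp =>
    ⟨image_eq_zero_of_notMem_tsupport hp, XX_eq_zero_of_notMem_tsupport hp,
      YY_eq_zero_of_notMem_tsupport hp⟩
  have I1 : Integrable (fun p => (ζ p) ^ 2 * ((YY P v p) ^ 2 + δ * (XX P v p) ^ 2) * dx P p)
      volume := by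
    refine Continuous.integrable_of_hasCompactSupport (by fun_prop) ?_
    exact HasCompactSupport.intro cζ fun p hp => by simp [(zero p hp).1]
  have I2 : Integrable (fun p => ((ζ p) ^ 2 + (XX P ζ p) ^ 2 + (YY P ζ p) ^ 2) * (v p) ^ 2
      * dx P p) volume := by
    refine Continuous.integrable_of_hasCompactSupport (by fun_prop) ?_
    exact HasCompactSupport.intro cζ fun p hp => by
      simp [(zero p hp).1, (zero p hp).2.1, (zero p hp).2.2]
  have I3 : Integrable (fun p => (ζ p ^ 2 * v p) * (F p - e1 p * YY P v p - e2 p * XX P v p)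
      * dx P p) volume := by
    refine Continuous.integrable_of_hasCompactSupport (by fun_prop) ?_
    exact HasCompactSupport.intro cζ fun p hp => by simp [(zero p hp).1]
  have I4 : Integrable (fun p => (-(ζ p ^ 2) * (YY P v p) ^ 2 - ζ p ^ 2 * a p * (XX P v p) ^ 2
      - α p * ζ p ^ 2 * YY P v p * XX P v p - (2 * ζ p * YY P ζ p) * v p * YY P v p
      - (a p * (2 * ζ p * XX P ζ p) + (YY P α p * ζ p ^ 2 + α p * (2 * ζ p * YY P ζ p)))
        * v p * XX P v p) * dx P p) volume := by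
    refine Continuous.integrable_of_hasCompactSupport (by fun_prop) ?_
    exact HasCompactSupport.intro cζ fun p hp => by simp [(zero p hp).1]
  have key' : ∫ p, (ζ p ^ 2 * v p) * (F p - e1 p * YY P v p - e2 p * XX P v p) * dx P p
    = ∫ p, (-(ζ p ^ 2) * (YY P v p) ^ 2 - ζ p ^ 2 * a p * (XX P v p) ^ 2
      - α p * ζ p ^ 2 * YY P v p * XX P v p - (2 * ζ p * YY P ζ p) * v p * YY P v p
      - (a p * (2 * ζ p * XX P ζ p) + (YY P α p * ζ p ^ 2 + α p * (2 * ζ p * YY P ζ p)))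
        * v p * XX P v p) * dx P p := by
    convert key using 1
    · refine integral_congr_ae (Filter.Eventually.of_forall fun p => ?_)
      simp [hlam]
    · refine integral_congr_ae (Filter.Eventually.of_forall fun p => ?_)
      simp only [Xl, Yl, Yal, mul_zero, zero_mul, XX_const, YY_const]
      ring
  have I34 : Integrable (fun p => (ζ p ^ 2 * v p) * (F p - e1 p * YY P v p - e2 p * XX P v p)
      * dx P p - (-(ζ p ^ 2) * (YY P v p) ^ 2 - ζ p ^ 2 * a p * (XX P v p) ^ 2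
      - α p * ζ p ^ 2 * YY P v p * XX P v p - (2 * ζ p * YY P ζ p) * v p * YY P v p
      - (a p * (2 * ζ p * XX P ζ p) + (YY P α p * ζ p ^ 2 + α p * (2 * ζ p * YY P ζ p)))
        * v p * XX P v p) * dx P p) volume := I3.sub I4
  calc ∫ p, (ζ p) ^ 2 * ((YY P v p) ^ 2 + δ * (XX P v p) ^ 2) * dx P p
      ≤ ∫ p, (40 * ((ζ p ^ 2 * v p) * (F p - e1 p * YY P v p - e2 p * XX P v p) * dx P p
          - (-(ζ p ^ 2) * (YY P v p) ^ 2 - ζ p ^ 2 * a p * (XX P v p) ^ 2
      - α p * ζ p ^ 2 * YY P v p * XX P v p - (2 * ζ p * YY P ζ p) * v p * YY P v p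
      - (a p * (2 * ζ p * XX P ζ p) + (YY P α p * ζ p ^ 2 + α p * (2 * ζ p * YY P ζ p)))
        * v p * XX P v p) * dx P p)
        + 400 * (((ζ p) ^ 2 + (XX P ζ p) ^ 2 + (YY P ζ p) ^ 2) * (v p) ^ 2 * dx P p)) := by
        refine integral_mono I1 ((I34.const_mul 40).add (I2.const_mul 400)) fun p => ?_
        simp only
        by_cases hp : p ∈ tsupport ζ
        · obtain ⟨r1, r2⟩ := sζ hp
          obtain ⟨a1, a2⟩ := h.a_ring r1 r2
          have := ring_ineq (z := ζ p) (zx := XX P ζ p) (zy := YY P ζ p) (v := v p)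
            (q := YY P v p) (p := XX P v p) h.δ_pos h.δ_small a1 a2 (h.α_bd p r2) (h.αY_bd p r2)
            (h.e1_bd p r2) (h.e2_bd p r2)
          have := mul_le_mul_of_nonneg_right this (hP.dx_pos p).le
          rw [hF p hp]
          linarith only [this]
        · obtain ⟨z1, z2, z3⟩ := zero p hp
          simp [z1, z2, z3]
    _ = 400 * ∫ p, ((ζ p) ^ 2 + (XX P ζ p) ^ 2 + (YY P ζ p) ^ 2) * (v p) ^ 2 * dx P p := by
        rw [integral_add (I34.const_mul 40) (I2.const_mul 400), integral_const_mul,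
          integral_const_mul, integral_sub I3 I4, key']
        ring

end Vale.Agent.P229.D
end
end

section

section

/-!
# P229, disproof, task T7: cell pigeonhole (`PROOF.md`, §8, PH)
-/

open scoped ContDiff Topology
open MeasureTheory Set

namespace Vale.Agent.P229.D

theorem cells_measurable (h : ℝ) (c : ℤ × ℤ) : MeasurableSet (cell h c) :=
  measurableSet_Ico.prod measurableSet_Ico

theorem cells_volume {h : ℝ} (hh : 0 < h) (c : ℤ × ℤ) : volume.real (cell h c) = h ^ 2 := by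
  have e1 : ((c.1 : ℝ) + 1) * h - c.1 * h = h := by ring
  have e2 : ((c.2 : ℝ) + 1) * h - c.2 * h = h := by ring
  rw [measureReal_def, cell, Measure.volume_eq_prod, Measure.prod_prod, Real.volume_Ico,
    Real.volume_Ico, e1, e2, ENNReal.toReal_mul, ENNReal.toReal_ofReal hh.le]
  ring

theorem cells_integrableOn (h : ℝ) (c : ℤ × ℤ) {f : Pl → ℝ} (hf : Continuous f) :
    IntegrableOn f (cell h c) := by
  have : IntegrableOn f (Set.Icc ((c.1 : ℝ) * h) ((c.1 + 1) * h) ×ˢ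
      Set.Icc ((c.2 : ℝ) * h) ((c.2 + 1) * h)) :=
    hf.continuousOn.integrableOn_compact (isCompact_Icc.prod isCompact_Icc)
  exact this.mono_set (Set.prod_mono Ico_subset_Icc_self Ico_subset_Icc_self)

theorem cells_disjoint {h : ℝ} (hh : 0 < h) {c c' : ℤ × ℤ} (hne : c ≠ c') :
    Disjoint (cell h c) (cell h c') := by
  rw [Set.disjoint_left]
  rintro ⟨x, t⟩ ⟨⟨h1, h2⟩, ⟨h3, h4⟩⟩ ⟨⟨g1, g2⟩, ⟨g3, g4⟩⟩
  apply hne
  simp only at h1 h2 h3 h4 g1 g2 g3 g4
  have key : ∀ (a b : ℤ) (y : ℝ), (a : ℝ) * h ≤ y → y < (a + 1) * h → (b : ℝ) * h ≤ y →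
      y < (b + 1) * h → a = b := by
    intro a b y k1 k2 k3 k4
    have l1 : (a : ℝ) < b + 1 := lt_of_mul_lt_mul_right (lt_of_le_of_lt k1 k4) hh.le
    have l2 : (b : ℝ) < a + 1 := lt_of_mul_lt_mul_right (lt_of_le_of_lt k3 k2) hh.le
    have m1 : a < b + 1 := by exact_mod_cast l1
    have m2 : b < a + 1 := by exact_mod_cast l2
    omega
  exact Prod.ext (key _ _ x h1 h2 g1 g2) (key _ _ t h3 h4 g3 g4)

theorem cells_integral_biUnion {h : ℝ} (hh : 0 < h) (cells : Finset (ℤ × ℤ)) {f : Pl → ℝ}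
    (hf : Continuous f) :
    ∫ p in ⋃ c ∈ cells, cell h c, f p = ∑ c ∈ cells, ∫ p in cell h c, f p :=
  integral_biUnion_finset cells (fun c _ => cells_measurable h c)
    (fun _ _ _ _ hne => cells_disjoint hh hne) (fun c _ => cells_integrableOn h c hf)

/-- Cauchy-Schwarz on a cell. -/
theorem cells_sq_integral_le {h : ℝ} (hh : 0 < h) (c : ℤ × ℤ) {v : Pl → ℝ} (hv : Continuous v) :
    (∫ p in cell h c, v p) ^ 2 ≤ h ^ 2 * ∫ p in cell h c, v p ^ 2 := by
  set I := ∫ p in cell h c, v p with hI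
  have hvi := cells_integrableOn h c hv
  have hvi2 := cells_integrableOn h c (f := fun p => v p ^ 2) (by fun_prop)
  have hci := cells_integrableOn h c (f := fun _ => (I / h ^ 2) ^ 2) (by fun_prop)
  have h0 : 0 ≤ ∫ p in cell h c, (v p - I / h ^ 2) ^ 2 :=
    setIntegral_nonneg (cells_measurable h c) fun p _ => sq_nonneg _
  have e : ∀ p, (v p - I / h ^ 2) ^ 2 = v p ^ 2 - 2 * (I / h ^ 2) * v p + (I / h ^ 2) ^ 2 :=
    fun p => by ring
  simp only [e] at h0
  have j1 : Integrable (fun p => 2 * (I / h ^ 2) * v p) (volume.restrict (cell h c)) :=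
    hvi.const_mul _
  have j2 : Integrable (fun p => v p ^ 2 - 2 * (I / h ^ 2) * v p)
      (volume.restrict (cell h c)) := Integrable.sub hvi2 j1
  rw [integral_add j2 hci, integral_sub hvi2 j1, integral_const_mul, ← hI, setIntegral_const,
    cells_volume hh, smul_eq_mul] at h0
  have e2 : (∫ p in cell h c, v p ^ 2) - 2 * (I / h ^ 2) * I + h ^ 2 * (I / h ^ 2) ^ 2
      = (∫ p in cell h c, v p ^ 2) - I ^ 2 / h ^ 2 := by
    field_simp; ring
  rw [e2, sub_nonneg, div_le_iff₀ (by positivity)] at h0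
  linarith only [h0]

/-- Cell pigeonhole. -/
theorem cell_pigeonhole {ι : Type*} [DecidableEq ι] {h : ℝ} (hh : 0 < h) (hh1 : h ≤ 1)
    (cells : Finset (ℤ × ℤ)) (hcard : (cells.card : ℝ) * h ^ 2 ≤ 4) (S : Finset ι)
    (d : ι → Pl → ℝ) (hd : ∀ i ∈ S, ContDiff ℝ 1 (d i)) {R : ℝ} (hR : 0 < R)
    (h1 : ∀ i ∈ S, ∀ j ∈ S, ∫ p in ⋃ c ∈ cells, cell h c, (d i p - d j p) ^ 2 ≤ R ^ 2)
    (h2 : ∀ i ∈ S, ∀ j ∈ S, ∫ p in ⋃ c ∈ cells, cell h c,
      ((dx (d i) p - dx (d j) p) ^ 2 + (dt (d i) p - dt (d j) p) ^ 2) ≤ R ^ 2) :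
    ∃ T ⊆ S, S.card ≤ T.card * (⌈5 / h ^ 2⌉₊) ^ cells.card ∧
      ∀ i ∈ T, ∀ j ∈ T, ∫ p in ⋃ c ∈ cells, cell h c, (d i p - d j p) ^ 2 ≤ 5 * h ^ 2 * R ^ 2 := by
  classical
  rcases S.eq_empty_or_nonempty with hS | ⟨i₀, hi₀⟩
  · refine ⟨∅, Finset.empty_subset _, by simp [hS], by simp only [Finset.notMem_empty, IsEmpty.forall_iff, implies_true]⟩
  set N : ℕ := ⌈5 / h ^ 2⌉₊ with hNdef
  have hN : 0 < N := Nat.ceil_pos.mpr (by positivity)
  have hN' : (0 : ℝ) < N := by exact_mod_cast hN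
  have hNge : 5 / h ^ 2 ≤ N := Nat.le_ceil _
  -- cell integrals relative to `d i₀`
  let a : ι → ℤ × ℤ → ℝ := fun i c => ∫ p in cell h c, (d i p - d i₀ p)
  have ha : ∀ i ∈ S, ∀ c ∈ cells, |a i c| ≤ h * R := by
    intro i hi c hc
    have hv : Continuous fun p => d i p - d i₀ p := (hd i hi).continuous.sub (hd i₀ hi₀).continuous
    have k1 := cells_sq_integral_le hh c hv
    have k2 : ∫ p in cell h c, (d i p - d i₀ p) ^ 2 ≤ R ^ 2 := by
      refine le_trans ?_ (h1 i hi i₀ hi₀)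
      rw [cells_integral_biUnion hh cells (f := fun p => (d i p - d i₀ p) ^ 2) (hv.pow 2)]
      exact Finset.single_le_sum (f := fun c => ∫ p in cell h c, (d i p - d i₀ p) ^ 2)
        (fun c _ => setIntegral_nonneg (cells_measurable h c) fun p _ => sq_nonneg _) hc
    have k3 : a i c ^ 2 ≤ (h * R) ^ 2 := by
      calc a i c ^ 2 ≤ h ^ 2 * ∫ p in cell h c, (d i p - d i₀ p) ^ 2 := k1
        _ ≤ h ^ 2 * R ^ 2 := mul_le_mul_of_nonneg_left k2 (sq_nonneg h)
        _ = (h * R) ^ 2 := by ring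
    exact abs_le_of_sq_le_sq k3 (by positivity)
  let f : ι → (cells → Fin N) := fun i c => cellIdx N hN (h * R) (a i c)
  have : Nonempty (Fin N) := ⟨⟨0, hN⟩⟩
  obtain ⟨y, -, hy⟩ := Finset.exists_max_image (Finset.univ : Finset (cells → Fin N))
    (fun y => (S.filter (fun s => f s = y)).card) Finset.univ_nonempty
  refine ⟨S.filter (fun s => f s = y), Finset.filter_subset _ _, ?_, ?_⟩
  · have hcs : S.card = ∑ z : (cells → Fin N), (S.filter (fun s => f s = z)).card :=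
      Finset.card_eq_sum_card_fiberwise (by intro x _; simp)
    rw [hcs]
    calc ∑ z : (cells → Fin N), (S.filter (fun s => f s = z)).card
        ≤ ∑ _z : (cells → Fin N), (S.filter (fun s => f s = y)).card :=
          Finset.sum_le_sum fun z _ => hy z (Finset.mem_univ z)
      _ = (S.filter (fun s => f s = y)).card * N ^ cells.card := by
          rw [Finset.sum_const, Finset.card_univ, Fintype.card_fun, Fintype.card_fin,
            Fintype.card_coe, smul_eq_mul, mul_comm]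
  · intro i hi j hj
    rw [Finset.mem_filter] at hi hj
    have hci := (hd i hi.1)
    have hcj := (hd j hj.1)
    have hv : ContDiff ℝ 1 fun p => d i p - d j p := hci.sub hcj
    have hdxi : Continuous (dx (d i)) := (contDiff_dx (m := 0) hci (by norm_num)).continuous
    have hdti : Continuous (dt (d i)) := (contDiff_dt (m := 0) hci (by norm_num)).continuous
    have hdxj : Continuous (dx (d j)) := (contDiff_dx (m := 0) hcj (by norm_num)).continuous
    have hdtj : Continuous (dt (d j)) := (contDiff_dt (m := 0) hcj (by norm_num)).continuous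
    have edx : dx (fun p => d i p - d j p) = fun p => dx (d i) p - dx (d j) p :=
      funext fun p => dx_sub (hci.differentiable (by norm_num) p)
        (hcj.differentiable (by norm_num) p)
    have edt : dt (fun p => d i p - d j p) = fun p => dt (d i) p - dt (d j) p :=
      funext fun p => dt_sub (hci.differentiable (by norm_num) p)
        (hcj.differentiable (by norm_num) p)
    -- the bound on one cell
    have hcell : ∀ c ∈ cells, ∫ p in cell h c, (d i p - d j p) ^ 2 ≤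
        h ^ 2 * (∫ p in cell h c, ((dx (d i) p - dx (d j) p) ^ 2 + (dt (d i) p - dt (d j) p) ^ 2))
          + 4 / 25 * h ^ 4 * R ^ 2 := by
      intro c hc
      have k1 := cell_poincare hh c hv
      rw [edx, edt] at k1
      have k2 : ∫ p in cell h c, (d i p - d j p) = a i c - a j c := by
        have e : ∀ p, d i p - d j p = (d i p - d i₀ p) - (d j p - d i₀ p) := fun p => by ring
        simp only [e]
        exact integral_sub
          (cells_integrableOn h c (hci.continuous.sub (hd i₀ hi₀).continuous))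
          (cells_integrableOn h c (hcj.continuous.sub (hd i₀ hi₀).continuous))
      have k3 : cellIdx N hN (h * R) (a i c) = cellIdx N hN (h * R) (a j c) :=
        congrFun (hi.2.trans hj.2.symm) ⟨c, hc⟩
      have k4 := cellIdx_close hN (by positivity : 0 < h * R) (ha i hi.1 c hc) (ha j hj.1 c hc) k3
      have k5 : 2 * (h * R) / N ≤ 2 / 5 * h ^ 3 * R := by
        rw [div_le_iff₀ hN']
        rw [div_le_iff₀ (by positivity)] at hNge
        have : 2 / 5 * h ^ 3 * R * N = 2 / 5 * (h * R) * (N * h ^ 2) := by ring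
        rw [this]
        have hp : 0 < 2 / 5 * (h * R) := by positivity
        nlinarith only [hNge, hp]
      have k6 : (∫ p in cell h c, (d i p - d j p)) ^ 2 ≤ (2 / 5 * h ^ 3 * R) ^ 2 := by
        rw [k2]
        exact sq_le_sq' (by linarith only [k5, (abs_le.mp k4).1]) (by linarith only [k5, (abs_le.mp k4).2])
      have k7 : (1 / h ^ 2) * (∫ p in cell h c, (d i p - d j p)) ^ 2 ≤ 4 / 25 * h ^ 4 * R ^ 2 := by
        calc (1 / h ^ 2) * (∫ p in cell h c, (d i p - d j p)) ^ 2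
            ≤ (1 / h ^ 2) * (2 / 5 * h ^ 3 * R) ^ 2 :=
              mul_le_mul_of_nonneg_left k6 (by positivity)
          _ = 4 / 25 * h ^ 4 * R ^ 2 := by field_simp; ring
      linarith only [k1, k7]
    rw [cells_integral_biUnion hh cells (f := fun p => (d i p - d j p) ^ 2)
      (hv.continuous.pow 2)]
    have hg := h2 i hi.1 j hj.1
    rw [cells_integral_biUnion hh cells
      (f := fun p => (dx (d i) p - dx (d j) p) ^ 2 + (dt (d i) p - dt (d j) p) ^ 2)
      (by fun_prop)] at hg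
    calc ∑ c ∈ cells, ∫ p in cell h c, (d i p - d j p) ^ 2
        ≤ ∑ c ∈ cells, (h ^ 2 * (∫ p in cell h c,
            ((dx (d i) p - dx (d j) p) ^ 2 + (dt (d i) p - dt (d j) p) ^ 2))
          + 4 / 25 * h ^ 4 * R ^ 2) := Finset.sum_le_sum hcell
      _ = h ^ 2 * (∑ c ∈ cells, ∫ p in cell h c,
            ((dx (d i) p - dx (d j) p) ^ 2 + (dt (d i) p - dt (d j) p) ^ 2))
          + cells.card * (4 / 25 * h ^ 4 * R ^ 2) := by
          rw [Finset.sum_add_distrib, ← Finset.mul_sum, Finset.sum_const, nsmul_eq_mul]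
      _ ≤ h ^ 2 * R ^ 2 + 4 * (4 / 25 * h ^ 2 * R ^ 2) := by
          have e : (cells.card : ℝ) * (4 / 25 * h ^ 4 * R ^ 2)
              = (cells.card * h ^ 2) * (4 / 25 * h ^ 2 * R ^ 2) := by ring
          rw [e]
          exact add_le_add (mul_le_mul_of_nonneg_left hg (sq_nonneg h))
            (mul_le_mul_of_nonneg_right hcard (by positivity))
      _ ≤ 5 * h ^ 2 * R ^ 2 := by
          have : 0 ≤ h ^ 2 * R ^ 2 := by positivity
          linarith only [this]

end Vale.Agent.P229.D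
end
end

section

section

/-!
# P229, disproof, task T9: the core energy lemma (`PROOF.md`, §9, CE)
-/

open scoped ContDiff Topology
open MeasureTheory Set

namespace Vale.Agent.P229.D

/-- cross term -/
theorem ce_t1 {δ k1 x y mY sg : ℝ} (hδ : 0 < δ) (hsg : |sg| = 1) (hk1 : 0 ≤ k1)
    (hmY : |mY| ≤ Real.sqrt δ / 4 * k1) :
    |sg * mY * (y * x)| ≤ k1 * (0.4 * y ^ 2 + 0.04 * δ * x ^ 2) := by
  have hs0 : 0 ≤ Real.sqrt δ := Real.sqrt_nonneg δ
  have hs2 : Real.sqrt δ ^ 2 = δ := Real.sq_sqrt hδ.le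
  have h1 : |sg * mY * (y * x)| = |mY| * (|y| * |x|) := by
    rw [abs_mul, abs_mul, hsg, one_mul, abs_mul]
  have h2 : |mY| * (|y| * |x|) ≤ Real.sqrt δ / 4 * k1 * (|y| * |x|) :=
    mul_le_mul_of_nonneg_right hmY (by (clear * -; positivity))
  have h3 : Real.sqrt δ / 4 * (|y| * |x|) ≤ 0.4 * y ^ 2 + 0.04 * δ * x ^ 2 := by
    have e1 : y ^ 2 = |y| ^ 2 := (sq_abs y).symm
    have e2 : δ * x ^ 2 = (Real.sqrt δ * |x|) ^ 2 := by
      rw [mul_pow, hs2, sq_abs]
    have e3 : Real.sqrt δ / 4 * (|y| * |x|) = 1 / 4 * (|y| * (Real.sqrt δ * |x|)) := by ring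
    have e4 : 0.04 * δ * x ^ 2 = 0.04 * (δ * x ^ 2) := by ring
    rw [e3, e4, e1, e2]
    generalize |y| = Y
    generalize Real.sqrt δ * |x| = X
    linarith only [sq_nonneg (Y * 0.632 - 0.1998 * X), sq_nonneg Y, sq_nonneg X]
  have h4 : Real.sqrt δ / 4 * k1 * (|y| * |x|) = k1 * (Real.sqrt δ / 4 * (|y| * |x|)) := by ring
  rw [h1]
  refine h2.trans ?_
  rw [h4]
  exact mul_le_mul_of_nonneg_left h3 hk1

theorem ce_t2 {δ m k1 x AX sg : ℝ} (hδ : 0 < δ) (hsg : |sg| = 1) (hm : 0 ≤ m) (hk1 : 0 ≤ k1)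
    (hm100 : m ≤ k1 / 100) (hAX : |AX| ≤ 0.101 * δ) :
    |-sg * m * AX / 2 * x ^ 2| ≤ k1 * (0.001 * δ * x ^ 2) := by
  have h1 : |-sg * m * AX / 2 * x ^ 2| = m * |AX| / 2 * x ^ 2 := by
    rw [abs_mul, abs_div, abs_mul, abs_mul, abs_neg, hsg, abs_of_nonneg hm,
      abs_of_nonneg (sq_nonneg x), one_mul, abs_two]
  rw [h1]
  have h2 : m * |AX| ≤ k1 / 100 * (0.101 * δ) :=
    mul_le_mul hm100 hAX (abs_nonneg _) (by positivity)
  have h3 : m * |AX| / 2 ≤ k1 * (0.001 * δ) := by linarith only [h2, mul_nonneg hk1 hδ.le]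
  calc m * |AX| / 2 * x ^ 2 ≤ k1 * (0.001 * δ) * x ^ 2 :=
        mul_le_mul_of_nonneg_right h3 (sq_nonneg x)
    _ = _ := by ring

theorem ce_t3 {δ m k1 x al alY mY sg : ℝ} (hδ : 0 < δ) (hδ1 : δ ≤ 1 / 1000) (hsg : |sg| = 1)
    (hm : 0 ≤ m) (hk1 : 0 ≤ k1) (hm100 : m ≤ k1 / 100)
    (hmY : |mY| ≤ Real.sqrt δ / 4 * k1) (hal : |al| ≤ δ / 1000) (halY : |alY| ≤ δ / 1000) :
    |sg * (alY * m + al * mY) / 2 * x ^ 2| ≤ k1 * (0.001 * δ * x ^ 2) := by
  have hs0 : 0 ≤ Real.sqrt δ := Real.sqrt_nonneg δ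
  have hs1 : Real.sqrt δ ≤ 1 := by
    rw [Real.sqrt_le_one]; linarith only [hδ1]
  have h1 : |sg * (alY * m + al * mY) / 2 * x ^ 2| = |alY * m + al * mY| / 2 * x ^ 2 := by
    rw [abs_mul, abs_div, abs_mul, hsg, abs_of_nonneg (sq_nonneg x), one_mul, abs_two]
  rw [h1]
  have h2 : |alY * m + al * mY| ≤ k1 * (0.002 * δ) := by
    refine (abs_add_le _ _).trans ?_
    rw [abs_mul, abs_mul, abs_of_nonneg hm]
    have g1 : |alY| * m ≤ δ / 1000 * (k1 / 100) :=
      mul_le_mul halY hm100 hm (by positivity)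
    have g2 : |al| * |mY| ≤ δ / 1000 * (Real.sqrt δ / 4 * k1) :=
      mul_le_mul hal hmY (abs_nonneg _) (by positivity)
    have g3 : Real.sqrt δ / 4 * k1 ≤ k1 := by nlinarith only [hk1, hs1]
    have g4 : δ / 1000 * (Real.sqrt δ / 4 * k1) ≤ δ / 1000 * k1 :=
      mul_le_mul_of_nonneg_left g3 (by positivity)
    linarith only [g1, g2, g4, mul_nonneg hk1 hδ.le]
  have h3 : |alY * m + al * mY| / 2 ≤ k1 * (0.001 * δ) := by linarith only [h2]
  calc |alY * m + al * mY| / 2 * x ^ 2 ≤ k1 * (0.001 * δ) * x ^ 2 :=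
        mul_le_mul_of_nonneg_right h3 (sq_nonneg x)
    _ = _ := by ring

theorem ce_t4 {δ m k1 x y E1 sg : ℝ} (hδ : 0 < δ) (hδ1 : δ ≤ 1 / 1000) (hsg : |sg| = 1)
    (hm : 0 ≤ m) (hk1 : 0 ≤ k1) (hm100 : m ≤ k1 / 100) (hE1 : |E1| ≤ δ / 1000) :
    |sg * (m * x * (E1 * y))| ≤ k1 * (0.001 * y ^ 2 + 0.001 * δ * x ^ 2) := by
  have h1 : |sg * (m * x * (E1 * y))| = m * |E1| * (|x| * |y|) := by
    rw [abs_mul, abs_mul, abs_mul, abs_mul, hsg, abs_of_nonneg hm]; ring
  rw [h1]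
  have h2 : m * |E1| ≤ k1 / 100 * (δ / 1000) :=
    mul_le_mul hm100 hE1 (abs_nonneg _) (by positivity)
  have h3 : |x| * |y| ≤ x ^ 2 + y ^ 2 := by
    linarith only [sq_nonneg (|x| - |y|), sq_abs x, sq_abs y, sq_nonneg x, sq_nonneg y]
  calc m * |E1| * (|x| * |y|) ≤ k1 / 100 * (δ / 1000) * (x ^ 2 + y ^ 2) :=
        mul_le_mul h2 h3 (by (clear * -; positivity)) (by positivity)
    _ ≤ k1 * (0.001 * y ^ 2 + 0.001 * δ * x ^ 2) := by
        have q1 : 0 ≤ k1 * (δ * x ^ 2) := by (clear * - hk1 hδ; positivity)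
        have q2 : 0 ≤ k1 * y ^ 2 := by positivity
        have q3 : k1 * y ^ 2 * δ ≤ k1 * y ^ 2 * 1 :=
          mul_le_mul_of_nonneg_left (by linarith only [hδ1]) q2
        linarith only [q1, q2, q3]

theorem ce_t5 {δ m k1 x E2 sg : ℝ} (hδ : 0 < δ) (hsg : |sg| = 1)
    (hm : 0 ≤ m) (hk1 : 0 ≤ k1) (hm100 : m ≤ k1 / 100) (hE2 : |E2| ≤ δ / 1000) :
    |sg * (m * x * (E2 * x))| ≤ k1 * (0.001 * δ * x ^ 2) := by
  have h1 : |sg * (m * x * (E2 * x))| = m * |E2| * x ^ 2 := by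
    rw [abs_mul, abs_mul, abs_mul, abs_mul, hsg, abs_of_nonneg hm, ← sq_abs x]; ring
  rw [h1]
  have h2 : m * |E2| ≤ k1 / 100 * (δ / 1000) :=
    mul_le_mul hm100 hE2 (abs_nonneg _) (by positivity)
  have h3 : m * |E2| ≤ k1 * (0.001 * δ) := by linarith only [h2, mul_nonneg hk1 hδ.le]
  calc m * |E2| * x ^ 2 ≤ k1 * (0.001 * δ) * x ^ 2 :=
        mul_le_mul_of_nonneg_right h3 (sq_nonneg x)
    _ = _ := by ring

theorem ce_t6 {δ K m k1 x f sg : ℝ} (hδ : 0 < δ) (hK : 0 < K) (hsg : |sg| = 1)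
    (hm : 0 ≤ m) (hmk : K * m ≤ k1) :
    |sg * (m * x * f)| ≤ k1 * (0.04 * δ * x ^ 2) + 6.25 / (K * δ) * (m * f ^ 2) := by
  have hKδ : 0 < K * δ := mul_pos hK hδ
  have h1 : |sg * (m * x * f)| = m * (|x| * |f|) := by
    rw [abs_mul, abs_mul, abs_mul, hsg, abs_of_nonneg hm]; ring
  rw [h1]
  have h2 : |x| * |f| ≤ K * (0.04 * δ * x ^ 2) + 6.25 / (K * δ) * f ^ 2 := by
    have e1 : 6.25 / (K * δ) * f ^ 2 = 6.25 * f ^ 2 / (K * δ) := by ring
    rw [e1, ← sub_le_iff_le_add', le_div_iff₀ hKδ]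
    rw [← sq_abs f, ← sq_abs x]
    generalize |x| = X
    generalize |f| = Y
    have e2 : K * (0.04 * δ * X ^ 2) = 0.04 * (K * δ) * X ^ 2 := by ring
    rw [e2]
    generalize K * δ = T
    linarith only [sq_nonneg (0.2 * T * X - 2.5 * Y)]
  calc m * (|x| * |f|) ≤ m * (K * (0.04 * δ * x ^ 2) + 6.25 / (K * δ) * f ^ 2) :=
        mul_le_mul_of_nonneg_left h2 hm
    _ = (K * m) * (0.04 * δ * x ^ 2) + 6.25 / (K * δ) * (m * f ^ 2) := by ring
    _ ≤ _ := by
        (clear * - hmk hδ; gcongr)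

/-- the pointwise inequality behind the core energy lemma, on the support of `μ`. -/
theorem ce_real {δ K m k1 k2 x y A AX al alY mY f E1 E2 sg : ℝ}
    (hδ : 0 < δ) (hδ1 : δ ≤ 1 / 1000) (hK : 100 ≤ K) (hsg : sg = 1 ∨ sg = -1)
    (hm : 0 ≤ m) (hk1 : 0 ≤ k1) (hk2 : 0 ≤ k2) (hmk : K * m ≤ k1)
    (hmY : |mY| ≤ Real.sqrt δ / 4 * k1)
    (hA1 : A ≤ -(0.202 * δ)) (hA2 : -(0.252 * δ) ≤ A) (hAX : |AX| ≤ 0.101 * δ)
    (hal : |al| ≤ δ / 1000) (halY : |alY| ≤ δ / 1000)
    (hE1 : |E1| ≤ δ / 1000) (hE2 : |E2| ≤ δ / 1000) :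
    k1 * (y ^ 2 + δ * x ^ 2)
      ≤ 400 * (k2 * (y ^ 2 + δ * x ^ 2)) + 400 / (K * δ) * (m * f ^ 2)
        - 60 * ((-k1 + k2) / 2 * y ^ 2
            + (-sg * m * AX / 2 - A * (-k1 + k2) / 2 + sg * (alY * m + al * mY) / 2) * x ^ 2
            + sg * mY * (y * x) + sg * (m * x * (f - E1 * y - E2 * x))) := by
  have hK0 : 0 < K := by linarith only [hK]
  have hKδ : 0 < K * δ := mul_pos hK0 hδ
  have hm100 : m ≤ k1 / 100 := by nlinarith only [hmk, hK, hm]
  have hsgabs : |sg| = 1 := by rcases hsg with h | h <;> simp [h]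
  have b1 := abs_le.1 (ce_t1 (x := x) (y := y) hδ hsgabs hk1 hmY)
  have b2 := abs_le.1 (ce_t2 (x := x) hδ hsgabs hm hk1 hm100 hAX)
  have b3 := abs_le.1 (ce_t3 (x := x) hδ hδ1 hsgabs hm hk1 hm100 hmY hal halY)
  have b4 := abs_le.1 (ce_t4 (x := x) (y := y) hδ hδ1 hsgabs hm hk1 hm100 hE1)
  have b5 := abs_le.1 (ce_t5 (x := x) hδ hsgabs hm hk1 hm100 hE2)
  have b6 := abs_le.1 (ce_t6 (x := x) (f := f) hδ hK0 hsgabs hm hmk)
  have t7 : k1 * (y ^ 2 + 0.202 * δ * x ^ 2) ≤ k1 * (y ^ 2 - A * x ^ 2) := by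
    apply mul_le_mul_of_nonneg_left _ hk1
    nlinarith only [hA1]
  have t8 : k2 * (y ^ 2 - A * x ^ 2) ≤ k2 * (y ^ 2 + δ * x ^ 2) := by
    apply mul_le_mul_of_nonneg_left _ hk2
    nlinarith only [hδ, hA2]
  have q1 : 0 ≤ k1 * (δ * x ^ 2) := by (clear * - hk1 hδ; positivity)
  have q2 : 0 ≤ k1 * y ^ 2 := by (clear * - hk1; positivity)
  have q3 : 0 ≤ k2 * (y ^ 2 + δ * x ^ 2) := by (clear * - hk2 hδ; positivity)
  have q4 : 0 ≤ 1 / (K * δ) * (m * f ^ 2) := by (clear * - hK hδ hm; positivity)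
  have r6 : 6.25 / (K * δ) * (m * f ^ 2) = 6.25 * (1 / (K * δ) * (m * f ^ 2)) := by ring
  have r4 : 400 / (K * δ) * (m * f ^ 2) = 400 * (1 / (K * δ) * (m * f ^ 2)) := by ring
  rw [r6] at b6
  rw [r4]
  have expand : (-k1 + k2) / 2 * y ^ 2
            + (-sg * m * AX / 2 - A * (-k1 + k2) / 2 + sg * (alY * m + al * mY) / 2) * x ^ 2
            + sg * mY * (y * x) + sg * (m * x * (f - E1 * y - E2 * x))
      = -(1 / 2) * (k1 * (y ^ 2 - A * x ^ 2)) + 1 / 2 * (k2 * (y ^ 2 - A * x ^ 2))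
        + -sg * m * AX / 2 * x ^ 2 + sg * (alY * m + al * mY) / 2 * x ^ 2
        + sg * mY * (y * x) + sg * (m * x * f) - sg * (m * x * (E1 * y))
        - sg * (m * x * (E2 * x)) := by ring
  rw [expand]
  have e1 : k1 * (0.4 * y ^ 2 + 0.04 * δ * x ^ 2) = 0.4 * (k1 * y ^ 2) + 0.04 * (k1 * (δ * x ^ 2)) := by
    ring
  have e2 : k1 * (0.001 * δ * x ^ 2) = 0.001 * (k1 * (δ * x ^ 2)) := by ring
  have e4 : k1 * (0.001 * y ^ 2 + 0.001 * δ * x ^ 2)
      = 0.001 * (k1 * y ^ 2) + 0.001 * (k1 * (δ * x ^ 2)) := by ring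
  have e6 : k1 * (0.04 * δ * x ^ 2) = 0.04 * (k1 * (δ * x ^ 2)) := by ring
  have e7 : k1 * (y ^ 2 + 0.202 * δ * x ^ 2) = k1 * y ^ 2 + 0.202 * (k1 * (δ * x ^ 2)) := by ring
  have e8 : k1 * (y ^ 2 + δ * x ^ 2) = k1 * y ^ 2 + k1 * (δ * x ^ 2) := by ring
  rw [e1] at b1
  rw [e2] at b2 b3 b5
  rw [e4] at b4
  rw [e6] at b6
  rw [e7] at t7
  rw [e8]
  linarith only [b1, b2, b3, b4, b5, b6, t7, t8, q2, q3, q4]

/-- Core energy lemma. -/
theorem core_energy : ∃ C : ℝ, 0 < C ∧ ∀ (P v a α e1 e2 F : Pl → ℝ) (δ : ℝ),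
    PairEq P v a α e1 e2 F δ → ∀ sg : ℝ, (sg = 1 ∨ sg = -1) →
    ∀ (K : ℝ) (μ k1 k2 : Pl → ℝ), 100 ≤ K → ContDiff ℝ 1 μ → Continuous k1 → Continuous k2 →
    HasCompactSupport k1 → HasCompactSupport k2 →
    (∀ p, 0 ≤ μ p) → (∀ p, 0 ≤ k1 p) → (∀ p, 0 ≤ k2 p) →
    tsupport μ ⊆ {p | |p.2| < 0.21 ∧ |P p| < 0.05} →
    (∀ p, -sg * XX P μ p = -k1 p + k2 p) →
    (∀ p, |YY P μ p| ≤ Real.sqrt δ / 4 * k1 p) →
    (∀ p, K * μ p ≤ k1 p) →
    ∫ p, k1 p * ((YY P v p) ^ 2 + δ * (XX P v p) ^ 2) * dx P p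
    ≤ C * (∫ p, k2 p * ((YY P v p) ^ 2 + δ * (XX P v p) ^ 2) * dx P p)
      + C / (K * δ) * ∫ p, μ p * (F p) ^ 2 * dx P p := by
  refine ⟨400, by norm_num, ?_⟩
  intro P v a α e1 e2 F δ h sg hsg K μ k1 k2 hK hμ ck1 ck2 sk1 sk2 μ0 k10 k20 sμ hX hY hKμ
  have hδ := h.δ_pos
  have hP := h.frame
  have one : (1 : WithTop ℕ∞) ≠ 0 := by norm_num
  -- the multiplier
  set μ' : Pl → ℝ := fun p => -sg * μ p with hμ'
  have cμ' : ContDiff ℝ 1 μ' := contDiff_const.mul hμ
  have tμ' : tsupport μ' ⊆ tsupport μ := by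
    apply closure_mono
    intro p hp
    simp only [Function.mem_support, hμ', ne_eq, mul_eq_zero, not_or] at hp ⊢
    exact hp.2
  have disc : tsupport μ ⊆ {p | rho2 p < 0.64} := by
    intro p hp
    obtain ⟨h1, h2⟩ := sμ hp
    have h3 := hP.abs_sub_fst_le p
    have h4 : |p.1| ≤ |P p| + |P p - p.1| := by
      have := abs_sub_abs_le_abs_sub p.1 (P p)
      rw [abs_sub_comm p.1] at this
      linarith only [this]
    have h5 : |p.1| < 0.06 := by linarith only [h1, h2, h3, h4]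
    have h6 := abs_lt.1 h5
    have h7 := abs_lt.1 h1
    show p.1 ^ 2 + p.2 ^ 2 < 0.64
    nlinarith only [h6, h7]
  have scμ : HasCompactSupport μ := hasCompactSupport_of_tsupport_subset_disc disc
  have z0 : ContDiff ℝ 1 (fun _ : Pl => (0 : ℝ)) := contDiff_const
  have tz : tsupport (fun _ : Pl => (0 : ℝ)) ⊆ {p | rho2 p < 0.64} := by
    have : (fun _ : Pl => (0 : ℝ)) = 0 := rfl
    rw [this, tsupport, Function.support_zero, closure_empty]
    exact empty_subset _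
  have key := h.gmi (μ := μ') (ν := fun _ => 0) (lam := fun _ => 0) cμ' z0 z0
    (tμ'.trans disc) tz tz
  have XXμ' : ∀ p, XX P μ' p = -k1 p + k2 p := by
    intro p
    rw [← hX p, hμ', XX_const_mul _ (hμ.differentiable one p)]
  have YYμ' : ∀ p, YY P μ' p = -sg * YY P μ p := by
    intro p
    rw [hμ', YY_const_mul _ (hμ.differentiable one p)]
  have YYαμ' : ∀ p, YY P (fun q => α q * μ' q) p
      = -(sg * (YY P α p * μ p + α p * YY P μ p)) := by
    intro p
    rw [YY_mul (h.α_smooth.differentiable one p) (cμ'.differentiable one p), YYμ', hμ']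
    ring
  -- continuity
  have hX1 : ContDiff ℝ 1 (XX P v) := contDiff_XX (m := 1) hP h.v_smooth (by norm_num) (by norm_num)
  have hY1 : ContDiff ℝ 1 (YY P v) := contDiff_YY (m := 1) hP h.v_smooth (by norm_num) (by norm_num)
  have cX : Continuous (XX P v) := hX1.continuous
  have cY : Continuous (YY P v) := hY1.continuous
  have cJ : Continuous (dx P) := (hP.contDiff_dx (m := 0) (by norm_num)).continuous
  have cXa : Continuous (XX P a) :=
    (contDiff_XX (m := 0) hP h.a_smooth (by norm_num) (by norm_num)).continuous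
  have cYα : Continuous (YY P α) :=
    (contDiff_YY (m := 0) hP h.α_smooth (by norm_num) (by norm_num)).continuous
  have cYμ : Continuous (YY P μ) :=
    (contDiff_YY (m := 0) hP hμ (by norm_num) (by norm_num)).continuous
  have cμ : Continuous μ := hμ.continuous
  have ca : Continuous a := h.a_smooth.continuous
  have cα : Continuous α := h.α_smooth.continuous
  have cF := h.F_cont
  have ce1 := h.e1_cont
  have ce2 := h.e2_cont
  -- the two sides
  set L : Pl → ℝ := fun p => μ' p * XX P v p * (F p - e1 p * YY P v p - e2 p * XX P v p) * dx P p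
    with hL
  set R : Pl → ℝ := fun p => ((-k1 p + k2 p) / 2 * YY P v p ^ 2
            + (-sg * μ p * XX P a p / 2 - a p * (-k1 p + k2 p) / 2
                + sg * (YY P α p * μ p + α p * YY P μ p) / 2) * XX P v p ^ 2
            + sg * YY P μ p * (YY P v p * XX P v p)) * dx P p with hR
  have keyL : ∫ p, L p = ∫ p, (μ' p * XX P v p + (0 : ℝ) * YY P v p + (0 : ℝ) * v p) *
        (F p - e1 p * YY P v p - e2 p * XX P v p) * dx P p := by
    refine integral_congr_ae (Filter.Eventually.of_forall fun p => ?_)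
    simp only [hL]; ring
  have keyR : ∫ p, R p = ∫ p, ((XX P μ' p / 2 - YY P (fun _ => (0 : ℝ)) p / 2 - (0 : ℝ)
              - XX P (fun q => α q * (0 : ℝ)) p / 2) * (YY P v p) ^ 2
          + (μ' p * XX P a p / 2 - a p * XX P μ' p / 2 + YY P (fun q => (0 : ℝ) * a q) p / 2
              - (0 : ℝ) * a p - YY P (fun q => α q * μ' q) p / 2) * (XX P v p) ^ 2
          - (YY P μ' p + a p * XX P (fun _ => (0 : ℝ)) p + α p * (0 : ℝ)) * YY P v p * XX P v p
          - YY P (fun _ => (0 : ℝ)) p * v p * YY P v p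
          - (a p * XX P (fun _ => (0 : ℝ)) p + YY P (fun q => α q * (0 : ℝ)) p) * v p
              * XX P v p) * dx P p := by
    refine integral_congr_ae (Filter.Eventually.of_forall fun p => ?_)
    simp only [hR, mul_zero, zero_mul, XX_const, YY_const]
    rw [XXμ', YYμ', YYαμ']
    simp only [hμ']
    ring
  have hLR : ∫ p, L p = ∫ p, R p := by
    rw [keyL, keyR]; exact key
  have cL : Continuous L := by
    simp only [hL, hμ']; fun_prop
  have cR : Continuous R := by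
    simp only [hR]; fun_prop
  have sL : HasCompactSupport L := by
    refine HasCompactSupport.intro scμ fun p hp => ?_
    have : μ p = 0 := image_eq_zero_of_notMem_tsupport hp
    simp only [hL, hμ', neg_mul, this, mul_zero, zero_mul, neg_zero]
  have k12 : ∀ p, p ∉ tsupport μ → k1 p = k2 p := by
    intro p hp
    have h1 := hX p
    rw [XX_eq_zero_of_notMem_tsupport hp] at h1
    linarith only [h1]
  have sR : HasCompactSupport R := by
    refine HasCompactSupport.intro scμ fun p hp => ?_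
    have h1 : μ p = 0 := image_eq_zero_of_notMem_tsupport hp
    have h2 : YY P μ p = 0 := YY_eq_zero_of_notMem_tsupport hp
    simp only [hR, neg_mul, k12 p hp, neg_add_cancel, zero_div, zero_mul, h1, mul_zero, neg_zero, sub_self, h2, add_zero]
  have IL := cL.integrable_of_hasCompactSupport sL (μ := volume)
  have IR := cR.integrable_of_hasCompactSupport sR (μ := volume)
  have I1 : Integrable (fun p => k1 p * ((YY P v p) ^ 2 + δ * (XX P v p) ^ 2) * dx P p) volume := by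
    refine Continuous.integrable_of_hasCompactSupport (by fun_prop) ?_
    exact (sk1.mul_right (f' := fun p => (YY P v p) ^ 2 + δ * (XX P v p) ^ 2)).mul_right
  have I2 : Integrable (fun p => k2 p * ((YY P v p) ^ 2 + δ * (XX P v p) ^ 2) * dx P p) volume := by
    refine Continuous.integrable_of_hasCompactSupport (by fun_prop) ?_
    exact (sk2.mul_right (f' := fun p => (YY P v p) ^ 2 + δ * (XX P v p) ^ 2)).mul_right
  have I3 : Integrable (fun p => μ p * (F p) ^ 2 * dx P p) volume := by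
    refine Continuous.integrable_of_hasCompactSupport (by fun_prop) ?_
    exact (scμ.mul_right (f' := fun p => (F p) ^ 2)).mul_right
  -- pointwise
  have pw : ∀ p, k1 p * ((YY P v p) ^ 2 + δ * (XX P v p) ^ 2) * dx P p
      ≤ 400 * (k2 p * ((YY P v p) ^ 2 + δ * (XX P v p) ^ 2) * dx P p)
        + 400 / (K * δ) * (μ p * (F p) ^ 2 * dx P p) - 60 * (R p - L p) := by
    intro p
    have hJ := hP.dx_pos p
    by_cases hp : p ∈ tsupport μ
    · have hd : rho2 p < 0.64 := disc hp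
      obtain ⟨h1, h2⟩ := sμ hp
      have hPt : P p ^ 2 + p.2 ^ 2 ≤ 0.0466 := by
        have g1 : P p ^ 2 ≤ 0.05 ^ 2 := by
          rw [← sq_abs]; exact pow_le_pow_left₀ (abs_nonneg _) h2.le 2
        have g2 : p.2 ^ 2 ≤ 0.21 ^ 2 := by
          rw [← sq_abs]; exact pow_le_pow_left₀ (abs_nonneg _) h1.le 2
        norm_num at g1 g2 ⊢
        linarith only [g1, g2]
      have hPt0 : 0 ≤ P p ^ 2 + p.2 ^ 2 := by (clear * -; positivity)
      have ha := abs_le.1 (h.a_bd p hd)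
      have hA1 : a p ≤ -(0.202 * δ) := by nlinarith only [ha, hPt]
      have hA2 : -(0.252 * δ) ≤ a p := by nlinarith only [ha]
      have hAX : |XX P a p| ≤ 0.101 * δ := by
        have g := abs_le.1 (h.aX_bd p hd)
        have g2 := abs_lt.1 h2
        rw [abs_le]
        constructor <;> nlinarith only [g, g2]
      have base := ce_real (δ := δ) (K := K) (m := μ p) (k1 := k1 p) (k2 := k2 p)
        (x := XX P v p) (y := YY P v p) (A := a p) (AX := XX P a p) (al := α p)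
        (alY := YY P α p) (mY := YY P μ p) (f := F p) (E1 := e1 p) (E2 := e2 p) (sg := sg)
        hδ h.δ_small hK hsg (μ0 p) (k10 p) (k20 p) (hKμ p) (hY p) hA1 hA2 hAX
        (h.α_bd p hd) (h.αY_bd p hd) (h.e1_bd p hd) (h.e2_bd p hd)
      have := mul_le_mul_of_nonneg_right base hJ.le
      refine this.trans (le_of_eq ?_)
      simp only [hR, hL, hμ']
      ring
    · have h1 : μ p = 0 := image_eq_zero_of_notMem_tsupport hp
      have h2 : YY P μ p = 0 := YY_eq_zero_of_notMem_tsupport hp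
      have hR0 : R p = 0 := by simp only [hR, neg_mul, k12 p hp, neg_add_cancel, zero_div, zero_mul, h1, mul_zero, neg_zero, sub_self, h2, add_zero]
      have hL0 : L p = 0 := by simp only [hL, hμ', neg_mul, h1, mul_zero, zero_mul, neg_zero]
      rw [hR0, hL0, h1, k12 p hp]
      have : 0 ≤ k2 p * ((YY P v p) ^ 2 + δ * (XX P v p) ^ 2) * dx P p := by
        have := k20 p
        (clear * - this hδ hJ; positivity)
      linarith only [this]
  -- integrate
  have I4 : Integrable (fun p => 60 * (R p - L p)) volume := (IR.sub IL).const_mul 60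
  have I5 : Integrable (fun p => 400 * (k2 p * ((YY P v p) ^ 2 + δ * (XX P v p) ^ 2) * dx P p)
      + 400 / (K * δ) * (μ p * (F p) ^ 2 * dx P p)) volume :=
    (I2.const_mul 400).add (I3.const_mul (400 / (K * δ)))
  have mono := integral_mono (μ := (volume : Measure Pl)) I1 (I5.sub I4) pw
  refine mono.trans (le_of_eq ?_)
  simp only [Pi.sub_apply]
  rw [integral_sub I5 I4, integral_add (I2.const_mul 400) (I3.const_mul (400 / (K * δ))),
    integral_const_mul, integral_const_mul, integral_const_mul, integral_sub IR IL, hLR]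
  ring

end Vale.Agent.P229.D
end
end

section

section

/-!
# P229, disproof, task T10b: propagation through the window of a bit (`PROOF.md`, §9, STEP 2)
-/

open scoped ContDiff Topology
open MeasureTheory Set

namespace Vale.Agent.P229.D

namespace S2

/-! ## the transition function -/

theorem Tr_contDiff : ContDiff ℝ ∞ Real.smoothTransition := Real.smoothTransition.contDiff

theorem Tr_contDiff3 : ContDiff ℝ 3 Real.smoothTransition :=
  Real.smoothTransition.contDiff (n := 3)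

theorem Tr_diff : Differentiable ℝ Real.smoothTransition :=
  Tr_contDiff.differentiable (by norm_num)

theorem Tr'_nonneg (y : ℝ) : 0 ≤ deriv Real.smoothTransition y :=
  Real.smoothTransition.monotone.deriv_nonneg

theorem Tr'_cont : Continuous (deriv Real.smoothTransition) :=
  Tr_contDiff.continuous_deriv (by norm_num)

theorem Tr'_zero_of_nonpos {y : ℝ} (hy : y ≤ 0) : deriv Real.smoothTransition y = 0 := by
  rcases hy.lt_or_eq with h | h
  · have : Real.smoothTransition =ᶠ[𝓝 y] fun _ => 0 := by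
      filter_upwards [Iio_mem_nhds h] with z hz
      exact Real.smoothTransition.zero_of_nonpos (le_of_lt hz)
    rw [this.deriv_eq]; simp
  · subst h
    have hc := Tr'_cont.continuousAt (x := (0:ℝ))
    refine tendsto_nhds_unique (f := deriv Real.smoothTransition) (l := 𝓝[<] (0:ℝ))
      (hc.tendsto.mono_left nhdsWithin_le_nhds) ?_
    refine tendsto_const_nhds.congr' ?_
    filter_upwards [self_mem_nhdsWithin] with z hz
    have : Real.smoothTransition =ᶠ[𝓝 z] fun _ => 0 := by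
      filter_upwards [Iio_mem_nhds hz] with w hw
      exact Real.smoothTransition.zero_of_nonpos (le_of_lt hw)
    rw [this.deriv_eq]; simp

theorem Tr'_zero_of_one_le {y : ℝ} (hy : 1 ≤ y) : deriv Real.smoothTransition y = 0 := by
  rcases hy.lt_or_eq with h | h
  · have : Real.smoothTransition =ᶠ[𝓝 y] fun _ => 1 := by
      filter_upwards [Ioi_mem_nhds h] with z hz
      exact Real.smoothTransition.one_of_one_le (le_of_lt hz)
    rw [this.deriv_eq]; simp
  · subst h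
    have hc := Tr'_cont.continuousAt (x := (1:ℝ))
    refine tendsto_nhds_unique (f := deriv Real.smoothTransition) (l := 𝓝[>] (1:ℝ))
      (hc.tendsto.mono_left nhdsWithin_le_nhds) ?_
    refine tendsto_const_nhds.congr' ?_
    filter_upwards [self_mem_nhdsWithin] with z hz
    have : Real.smoothTransition =ᶠ[𝓝 z] fun _ => 1 := by
      filter_upwards [Ioi_mem_nhds hz] with w hw
      exact Real.smoothTransition.one_of_one_le (le_of_lt hw)
    rw [this.deriv_eq]; simp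

theorem Tr'_bdd : ∃ C : ℝ, 0 < C ∧ ∀ y, deriv Real.smoothTransition y ≤ C := by
  obtain ⟨C, hC⟩ := (isCompact_Icc (a := (0:ℝ)) (b := 1)).exists_bound_of_continuousOn
    Tr'_cont.continuousOn
  refine ⟨|C| + 1, by positivity, fun y => ?_⟩
  by_cases h0 : y ≤ 0
  · rw [Tr'_zero_of_nonpos h0]; positivity
  by_cases h1 : 1 ≤ y
  · rw [Tr'_zero_of_one_le h1]; positivity
  · have := hC y ⟨by linarith, by linarith⟩
    rw [Real.norm_eq_abs] at this
    linarith only [this, le_abs_self (deriv Real.smoothTransition y), le_abs_self C]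

/-! ## compact strips -/

theorem isCompact_strip {P : Pl → ℝ} (hP : Frame P) (a b A B : ℝ) :
    IsCompact {p : Pl | |p.2 - a| ≤ A ∧ |P p - b| ≤ B} := by
  have hPc : Continuous P := hP.smooth.continuous
  refine (isCompact_closedBall (0 : Pl) (2 * (|a| + |A| + |b| + |B|))).of_isClosed_subset ?_ ?_
  · exact (isClosed_le (continuous_snd.sub continuous_const).abs continuous_const).inter
      (isClosed_le (hPc.sub continuous_const).abs continuous_const)
  · rintro p ⟨h1, h2⟩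
    have h3 := hP.abs_sub_fst_le p
    rw [Metric.mem_closedBall, dist_zero_right, Prod.norm_def, Real.norm_eq_abs, Real.norm_eq_abs]
    have h4 : |p.2| ≤ |a| + |A| := by
      have := abs_sub_abs_le_abs_sub p.2 a
      linarith only [h1, this, le_abs_self A]
    have h5 : |P p| ≤ |b| + |B| := by
      have := abs_sub_abs_le_abs_sub (P p) b
      linarith only [h2, this, le_abs_self B]
    have h6 : |p.1| ≤ |P p| + |P p - p.1| := by
      have := abs_sub_abs_le_abs_sub p.1 (P p)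
      rw [abs_sub_comm] at this
      linarith only [this]
    have h7 := abs_nonneg p.1
    have h8 := abs_nonneg a
    have h9 := abs_nonneg b
    have h10 := abs_nonneg A
    have h11 := abs_nonneg B
    exact max_le (by linarith only [h3, h4, h5, h6, h7, h8, h10]) (by linarith)

/-! ## the weight -/

section weight

variable {P : Pl → ℝ} (h l c tj pj : ℝ)

/-- first cut-off (increasing). -/
noncomputable def gA (h pj : ℝ) (P : Pl → ℝ) (p : Pl) : ℝ :=
  Real.smoothTransition ((P p - pj + 4 * h) / h)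

/-- exponential. -/
noncomputable def gB (h pj : ℝ) (P : Pl → ℝ) (p : Pl) : ℝ := Real.exp (-(P p - pj) / h)

/-- side cut-offs (`s = 1` or `s = -1`). -/
noncomputable def gC (h l c tj pj s : ℝ) (P : Pl → ℝ) (p : Pl) : ℝ :=
  Real.smoothTransition (3 - (s * (p.2 - tj) + c * (P p - pj + 4 * h)) / l)

/-- last cut-off. -/
noncomputable def gE (h pj : ℝ) (P : Pl → ℝ) (p : Pl) : ℝ :=
  Real.smoothTransition (3 - (P p - pj) / h)

/-- the weight `μ`. -/
noncomputable def mu (P : Pl → ℝ) (p : Pl) : ℝ :=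
  gA h pj P p * gB h pj P p * gC h l c tj pj 1 P p * gC h l c tj pj (-1) P p * gE h pj P p

/-- derivatives of the cut-offs. -/
noncomputable def gA' (h pj : ℝ) (P : Pl → ℝ) (p : Pl) : ℝ :=
  deriv Real.smoothTransition ((P p - pj + 4 * h) / h)

/-- derivative. -/
noncomputable def gC' (h l c tj pj s : ℝ) (P : Pl → ℝ) (p : Pl) : ℝ :=
  deriv Real.smoothTransition (3 - (s * (p.2 - tj) + c * (P p - pj + 4 * h)) / l)

/-- derivative. -/
noncomputable def gE' (h pj : ℝ) (P : Pl → ℝ) (p : Pl) : ℝ :=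
  deriv Real.smoothTransition (3 - (P p - pj) / h)

/-- `k₂`. -/
noncomputable def k2 (P : Pl → ℝ) (p : Pl) : ℝ :=
  gA' h pj P p / h * gB h pj P p * gC h l c tj pj 1 P p * gC h l c tj pj (-1) P p * gE h pj P p

/-- `k₁`. -/
noncomputable def k1 (P : Pl → ℝ) (p : Pl) : ℝ :=
  1 / h * mu h l c tj pj P p
  + c / l * (gA h pj P p * gB h pj P p * gE h pj P p *
      (gC' h l c tj pj 1 P p * gC h l c tj pj (-1) P p
        + gC h l c tj pj 1 P p * gC' h l c tj pj (-1) P p))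
  + 1 / h * (gA h pj P p * gB h pj P p * gC h l c tj pj 1 P p * gC h l c tj pj (-1) P p
      * gE' h pj P p)

end weight

section lemmas

variable {P : Pl → ℝ} {h l c tj pj : ℝ} {p : Pl}

theorem gA_nonneg : 0 ≤ gA h pj P p := Real.smoothTransition.nonneg _
theorem gA_le : gA h pj P p ≤ 1 := Real.smoothTransition.le_one _
theorem gB_pos : 0 < gB h pj P p := Real.exp_pos _
theorem gC_nonneg {s : ℝ} : 0 ≤ gC h l c tj pj s P p := Real.smoothTransition.nonneg _
theorem gC_le {s : ℝ} : gC h l c tj pj s P p ≤ 1 := Real.smoothTransition.le_one _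
theorem gE_nonneg : 0 ≤ gE h pj P p := Real.smoothTransition.nonneg _
theorem gE_le : gE h pj P p ≤ 1 := Real.smoothTransition.le_one _
theorem gA'_nonneg : 0 ≤ gA' h pj P p := Tr'_nonneg _
theorem gC'_nonneg {s : ℝ} : 0 ≤ gC' h l c tj pj s P p := Tr'_nonneg _
theorem gE'_nonneg : 0 ≤ gE' h pj P p := Tr'_nonneg _

theorem mu_nonneg : 0 ≤ mu h l c tj pj P p := by
  unfold mu
  have := gA_nonneg (h := h) (pj := pj) (P := P) (p := p)
  have := (gB_pos (h := h) (pj := pj) (P := P) (p := p)).le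
  have := gC_nonneg (h := h) (l := l) (c := c) (tj := tj) (pj := pj) (P := P) (p := p) (s := 1)
  have := gC_nonneg (h := h) (l := l) (c := c) (tj := tj) (pj := pj) (P := P) (p := p) (s := -1)
  have := gE_nonneg (h := h) (pj := pj) (P := P) (p := p)
  positivity

theorem k2_nonneg (hh : 0 < h) : 0 ≤ k2 h l c tj pj P p := by
  unfold k2
  have := gA'_nonneg (h := h) (pj := pj) (P := P) (p := p)
  have := (gB_pos (h := h) (pj := pj) (P := P) (p := p)).le
  have := gC_nonneg (h := h) (l := l) (c := c) (tj := tj) (pj := pj) (P := P) (p := p) (s := 1)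
  have := gC_nonneg (h := h) (l := l) (c := c) (tj := tj) (pj := pj) (P := P) (p := p) (s := -1)
  have := gE_nonneg (h := h) (pj := pj) (P := P) (p := p)
  positivity

/-- the side part of `k₁`. -/
theorem side_nonneg : 0 ≤ gA h pj P p * gB h pj P p * gE h pj P p *
      (gC' h l c tj pj 1 P p * gC h l c tj pj (-1) P p
        + gC h l c tj pj 1 P p * gC' h l c tj pj (-1) P p) := by
  have := gA_nonneg (h := h) (pj := pj) (P := P) (p := p)
  have := (gB_pos (h := h) (pj := pj) (P := P) (p := p)).le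
  have := gC_nonneg (h := h) (l := l) (c := c) (tj := tj) (pj := pj) (P := P) (p := p) (s := 1)
  have := gC_nonneg (h := h) (l := l) (c := c) (tj := tj) (pj := pj) (P := P) (p := p) (s := -1)
  have := gC'_nonneg (h := h) (l := l) (c := c) (tj := tj) (pj := pj) (P := P) (p := p) (s := 1)
  have := gC'_nonneg (h := h) (l := l) (c := c) (tj := tj) (pj := pj) (P := P) (p := p) (s := -1)
  have := gE_nonneg (h := h) (pj := pj) (P := P) (p := p)
  positivity

theorem last_nonneg : 0 ≤ gA h pj P p * gB h pj P p * gC h l c tj pj 1 P p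
      * gC h l c tj pj (-1) P p * gE' h pj P p := by
  have := gA_nonneg (h := h) (pj := pj) (P := P) (p := p)
  have := (gB_pos (h := h) (pj := pj) (P := P) (p := p)).le
  have := gC_nonneg (h := h) (l := l) (c := c) (tj := tj) (pj := pj) (P := P) (p := p) (s := 1)
  have := gC_nonneg (h := h) (l := l) (c := c) (tj := tj) (pj := pj) (P := P) (p := p) (s := -1)
  have := gE'_nonneg (h := h) (pj := pj) (P := P) (p := p)
  positivity

theorem mu_le_k1 (hh : 0 < h) (hl : 0 < l) (hc : 0 ≤ c) :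
    1 / h * mu h l c tj pj P p ≤ k1 h l c tj pj P p := by
  unfold k1
  have h1 := side_nonneg (h := h) (l := l) (c := c) (tj := tj) (pj := pj) (P := P) (p := p)
  have h2 := last_nonneg (h := h) (l := l) (c := c) (tj := tj) (pj := pj) (P := P) (p := p)
  have h3 : 0 ≤ c / l := div_nonneg hc hl.le
  have h4 : 0 ≤ 1 / h := by positivity
  have h5 := mul_nonneg h3 h1
  have h6 := mul_nonneg h4 h2
  linarith

theorem side_le_k1 (hh : 0 < h) :
    c / l * (gA h pj P p * gB h pj P p * gE h pj P p *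
      (gC' h l c tj pj 1 P p * gC h l c tj pj (-1) P p
        + gC h l c tj pj 1 P p * gC' h l c tj pj (-1) P p)) ≤ k1 h l c tj pj P p := by
  unfold k1
  have h1 := mu_nonneg (h := h) (l := l) (c := c) (tj := tj) (pj := pj) (P := P) (p := p)
  have h2 := last_nonneg (h := h) (l := l) (c := c) (tj := tj) (pj := pj) (P := P) (p := p)
  have h4 : 0 ≤ 1 / h := by positivity
  have h5 := mul_nonneg h4 h1
  have h6 := mul_nonneg h4 h2
  linarith

theorem k1_nonneg (hh : 0 < h) (hl : 0 < l) (hc : 0 ≤ c) : 0 ≤ k1 h l c tj pj P p :=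
  le_trans (mul_nonneg (by positivity) mu_nonneg) (mu_le_k1 hh hl hc)

/-! ### regularity -/

theorem gA_smooth (hP : Frame P) : ContDiff ℝ 3 (gA h pj P) := by
  unfold gA
  have := hP.smooth
  exact Tr_contDiff3.comp (by fun_prop)

theorem gB_smooth (hP : Frame P) : ContDiff ℝ 3 (gB h pj P) := by
  unfold gB
  have := hP.smooth
  fun_prop

theorem gC_smooth (hP : Frame P) {s : ℝ} : ContDiff ℝ 3 (gC h l c tj pj s P) := by
  unfold gC
  have := hP.smooth
  exact Tr_contDiff3.comp (by fun_prop)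

theorem gE_smooth (hP : Frame P) : ContDiff ℝ 3 (gE h pj P) := by
  unfold gE
  have := hP.smooth
  exact Tr_contDiff3.comp (by fun_prop)

theorem mu_smooth (hP : Frame P) : ContDiff ℝ 3 (mu h l c tj pj P) := by
  unfold mu
  exact ((((gA_smooth hP).mul (gB_smooth hP)).mul (gC_smooth hP)).mul (gC_smooth hP)).mul
    (gE_smooth hP)

theorem gA'_cont (hP : Frame P) : Continuous (gA' h pj P) := by
  unfold gA'
  have := hP.smooth.continuous
  exact Tr'_cont.comp (by fun_prop)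

theorem gC'_cont (hP : Frame P) {s : ℝ} : Continuous (gC' h l c tj pj s P) := by
  unfold gC'
  have := hP.smooth.continuous
  exact Tr'_cont.comp (by (clear * - this; fun_prop))

theorem gE'_cont (hP : Frame P) : Continuous (gE' h pj P) := by
  unfold gE'
  have := hP.smooth.continuous
  exact Tr'_cont.comp (by fun_prop)

theorem k2_cont (hP : Frame P) : Continuous (k2 h l c tj pj P) := by
  unfold k2
  have h1 := (gA'_cont (h := h) (pj := pj) hP)
  have h2 := (gB_smooth (h := h) (pj := pj) hP).continuous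
  have h3 := (gC_smooth (h := h) (l := l) (c := c) (tj := tj) (pj := pj) hP (s := 1)).continuous
  have h4 := (gC_smooth (h := h) (l := l) (c := c) (tj := tj) (pj := pj) hP (s := -1)).continuous
  have h5 := (gE_smooth (h := h) (pj := pj) hP).continuous
  exact ((((h1.div_const _).mul h2).mul h3).mul h4).mul h5

theorem k1_cont (hP : Frame P) : Continuous (k1 h l c tj pj P) := by
  unfold k1
  have h0 := (mu_smooth (h := h) (l := l) (c := c) (tj := tj) (pj := pj) hP).continuous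
  have h1 := (gA_smooth (h := h) (pj := pj) hP).continuous
  have h2 := (gB_smooth (h := h) (pj := pj) hP).continuous
  have h3 := (gC_smooth (h := h) (l := l) (c := c) (tj := tj) (pj := pj) hP (s := 1)).continuous
  have h4 := (gC_smooth (h := h) (l := l) (c := c) (tj := tj) (pj := pj) hP (s := -1)).continuous
  have h5 := (gE_smooth (h := h) (pj := pj) hP).continuous
  have h6 := (gC'_cont (h := h) (l := l) (c := c) (tj := tj) (pj := pj) hP (s := 1))
  have h7 := (gC'_cont (h := h) (l := l) (c := c) (tj := tj) (pj := pj) hP (s := -1))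
  have h8 := (gE'_cont (h := h) (pj := pj) hP)
  exact ((continuous_const.mul h0).add (continuous_const.mul
    (((h1.mul h2).mul h5).mul ((h6.mul h4).add (h3.mul h7))))).add
    (continuous_const.mul ((((h1.mul h2).mul h3).mul h4).mul h8))

/-! ### derivatives -/

theorem XX_gA (hP : Frame P) : XX P (gA h pj P) p = gA' h pj P p / h := by
  unfold gA gA'
  have dP := hP.differentiableAt p
  have e : XX P (fun q => (P q - pj + 4 * h) / h) p = 1 / h := by
    have := XX_comp_P (P := P) hP (p := p) (φ := fun y => (y - pj + 4 * h) / h) (by fun_prop)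
    rw [this]
    have hd : HasDerivAt (fun y : ℝ => (y - pj + 4 * h) / h) (1 / h) (P p) :=
      (((hasDerivAt_id (P p)).sub_const pj).add_const (4 * h)).div_const h
    exact hd.deriv
  rw [XX_comp (f := fun q => (P q - pj + 4 * h) / h) (Tr_diff _) (by fun_prop), e]
  ring

theorem YY_gA (hP : Frame P) : YY P (gA h pj P) p = 0 := by
  unfold gA
  exact YY_comp_P (P := P) hP (p := p)
    (φ := fun y => Real.smoothTransition ((y - pj + 4 * h) / h))
    ((Tr_diff _).comp _ (by fun_prop))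

theorem XX_gB (hP : Frame P) : XX P (gB h pj P) p = - (1 / h) * gB h pj P p := by
  unfold gB
  have := XX_comp_P (P := P) hP (p := p) (φ := fun y => Real.exp (-(y - pj) / h)) (by fun_prop)
  rw [this]
  have hd : HasDerivAt (fun y : ℝ => Real.exp (-(y - pj) / h))
      (Real.exp (-(P p - pj) / h) * (-1 / h)) (P p) :=
    (((hasDerivAt_id (P p)).sub_const pj).neg.div_const h).exp
  rw [hd.deriv]; ring

theorem YY_gB (hP : Frame P) : YY P (gB h pj P) p = 0 := by
  unfold gB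
  exact YY_comp_P (P := P) hP (p := p) (φ := fun y => Real.exp (-(y - pj) / h)) (by (clear * -; fun_prop))

theorem XX_gE (hP : Frame P) : XX P (gE h pj P) p = - (gE' h pj P p / h) := by
  unfold gE gE'
  have dP := hP.differentiableAt p
  have e : XX P (fun q => 3 - (P q - pj) / h) p = - (1 / h) := by
    have := XX_comp_P (P := P) hP (p := p) (φ := fun y => 3 - (y - pj) / h) (by fun_prop)
    rw [this]
    have hd : HasDerivAt (fun y : ℝ => 3 - (y - pj) / h) (-(1 / h)) (P p) :=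
      (((hasDerivAt_id (P p)).sub_const pj).div_const h).const_sub 3
    exact hd.deriv
  rw [XX_comp (f := fun q => 3 - (P q - pj) / h) (Tr_diff _) (by fun_prop), e]
  ring

theorem YY_gE (hP : Frame P) : YY P (gE h pj P) p = 0 := by
  unfold gE
  exact YY_comp_P (P := P) hP (p := p)
    (φ := fun y => Real.smoothTransition (3 - (y - pj) / h))
    ((Tr_diff _).comp _ (by fun_prop))

theorem dx_side (hP : Frame P) (s : ℝ) :
    dx (fun q : Pl => 3 - (s * (q.2 - tj) + c * (P q - pj + 4 * h)) / l) p = - (c / l) * dx P p := by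
  have hf := hP.differentiableAt p
  have h1 : HasFDerivAt (fun q : Pl => 3 - (s * (q.2 - tj) + c * (P q - pj + 4 * h)) / l)
      (-((1 / l) • (s • ContinuousLinearMap.snd ℝ ℝ ℝ + c • fderiv ℝ P p))) p := by
    have h2 : HasFDerivAt (fun q : Pl => q.2) (ContinuousLinearMap.snd ℝ ℝ ℝ) p := hasFDerivAt_snd
    have h3 := (((h2.sub_const tj).const_smul s).add
      (((hf.hasFDerivAt.sub_const pj).add_const (4 * h)).const_smul c)).const_smul (1 / l)
    have h4 := h3.const_sub 3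
    have h5 : (fun q : Pl => 3 - (s * (q.2 - tj) + c * (P q - pj + 4 * h)) / l)
        = (fun x => 3 - ((1 / l) • ((s • fun x : Pl => x.2 - tj) + c • fun x => P x - pj + 4 * h)) x)
        := by
      ext q
      simp only [smul_eq_mul, Pi.smul_apply, Pi.add_apply]
      ring
    rw [h5]
    exact h4
  rw [dx, h1.fderiv]
  simp only [one_div, smul_add, neg_add_rev, add_apply, neg_apply, smul_apply, smul_eq_mul, ContinuousLinearMap.coe_snd', mul_zero, neg_zero, add_zero, dx, neg_mul, neg_inj]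
  ring

theorem dt_side (hP : Frame P) (s : ℝ) :
    dt (fun q : Pl => 3 - (s * (q.2 - tj) + c * (P q - pj + 4 * h)) / l) p
      = - (s / l) - (c / l) * dt P p := by
  have hf := hP.differentiableAt p
  have h1 : HasFDerivAt (fun q : Pl => 3 - (s * (q.2 - tj) + c * (P q - pj + 4 * h)) / l)
      (-((1 / l) • (s • ContinuousLinearMap.snd ℝ ℝ ℝ + c • fderiv ℝ P p))) p := by
    have h2 : HasFDerivAt (fun q : Pl => q.2) (ContinuousLinearMap.snd ℝ ℝ ℝ) p := hasFDerivAt_snd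
    have h3 := (((h2.sub_const tj).const_smul s).add
      (((hf.hasFDerivAt.sub_const pj).add_const (4 * h)).const_smul c)).const_smul (1 / l)
    have h4 := h3.const_sub 3
    have h5 : (fun q : Pl => 3 - (s * (q.2 - tj) + c * (P q - pj + 4 * h)) / l)
        = (fun x => 3 - ((1 / l) • ((s • fun x : Pl => x.2 - tj) + c • fun x => P x - pj + 4 * h)) x)
        := by
      ext q
      simp only [smul_eq_mul, Pi.smul_apply, Pi.add_apply]
      ring
    rw [h5]
    exact h4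
  rw [dt, h1.fderiv]
  simp only [one_div, smul_add, neg_add_rev, add_apply, neg_apply, smul_apply, smul_eq_mul, ContinuousLinearMap.coe_snd', mul_one, dt]
  ring

theorem XX_gC (hP : Frame P) (s : ℝ) :
    XX P (gC h l c tj pj s P) p = - (c / l) * gC' h l c tj pj s P p := by
  unfold gC gC'
  have dP := hP.differentiableAt p
  rw [XX_comp (f := fun q : Pl => 3 - (s * (q.2 - tj) + c * (P q - pj + 4 * h)) / l) (Tr_diff _)
    (by fun_prop), XX, dx_side hP]
  have := hP.dx_ne p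
  field_simp

theorem YY_gC (hP : Frame P) (s : ℝ) :
    YY P (gC h l c tj pj s P) p = - (s / l) * gC' h l c tj pj s P p := by
  unfold gC gC'
  have dP := hP.differentiableAt p
  rw [YY_comp (f := fun q : Pl => 3 - (s * (q.2 - tj) + c * (P q - pj + 4 * h)) / l) (Tr_diff _)
    (by fun_prop), YY, dx_side hP, dt_side hP]
  have := hP.dx_ne p
  field_simp
  ring

theorem XX_mu (hP : Frame P) : XX P (mu h l c tj pj P) p
    = - k1 h l c tj pj P p + k2 h l c tj pj P p := by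
  have dA := (gA_smooth (h := h) (pj := pj) hP).differentiable (by norm_num) p
  have dB := (gB_smooth (h := h) (pj := pj) hP).differentiable (by norm_num) p
  have dC := (gC_smooth (h := h) (l := l) (c := c) (tj := tj) (pj := pj) hP
    (s := 1)).differentiable (by norm_num) p
  have dD := (gC_smooth (h := h) (l := l) (c := c) (tj := tj) (pj := pj) hP
    (s := -1)).differentiable (by norm_num) p
  have dE := (gE_smooth (h := h) (pj := pj) hP).differentiable (by norm_num) p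
  have e : mu h l c tj pj P = fun p => gA h pj P p * gB h pj P p * gC h l c tj pj 1 P p
    * gC h l c tj pj (-1) P p * gE h pj P p := rfl
  rw [e, XX_mul (((dA.fun_mul dB).fun_mul dC).fun_mul dD) dE, XX_mul ((dA.fun_mul dB).fun_mul dC) dD,
    XX_mul (dA.fun_mul dB) dC, XX_mul dA dB, XX_gA hP, XX_gB hP, XX_gC hP, XX_gC hP, XX_gE hP]
  unfold k1 k2 mu
  ring

theorem YY_mu (hP : Frame P) : YY P (mu h l c tj pj P) p
    = 1 / l * (gA h pj P p * gB h pj P p * gE h pj P p *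
      (- (gC' h l c tj pj 1 P p * gC h l c tj pj (-1) P p)
        + gC h l c tj pj 1 P p * gC' h l c tj pj (-1) P p)) := by
  have dA := (gA_smooth (h := h) (pj := pj) hP).differentiable (by norm_num) p
  have dB := (gB_smooth (h := h) (pj := pj) hP).differentiable (by norm_num) p
  have dC := (gC_smooth (h := h) (l := l) (c := c) (tj := tj) (pj := pj) hP
    (s := 1)).differentiable (by norm_num) p
  have dD := (gC_smooth (h := h) (l := l) (c := c) (tj := tj) (pj := pj) hP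
    (s := -1)).differentiable (by norm_num) p
  have dE := (gE_smooth (h := h) (pj := pj) hP).differentiable (by norm_num) p
  have e : mu h l c tj pj P = fun p => gA h pj P p * gB h pj P p * gC h l c tj pj 1 P p
    * gC h l c tj pj (-1) P p * gE h pj P p := rfl
  rw [e, YY_mul (((dA.fun_mul dB).fun_mul dC).fun_mul dD) dE, YY_mul ((dA.fun_mul dB).fun_mul dC) dD,
    YY_mul (dA.fun_mul dB) dC, YY_mul dA dB, YY_gA hP, YY_gB hP, YY_gC hP, YY_gC hP, YY_gE hP]
  ring

theorem abs_YY_mu (hP : Frame P) (hh : 0 < h) (hl : 0 < l) {r : ℝ} (hr : 0 < r) (hc : c = 4 / r) :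
    |YY P (mu h l c tj pj P) p| ≤ r / 4 * k1 h l c tj pj P p := by
  have hc0 : 0 ≤ c := by rw [hc]; positivity
  have h1 := side_le_k1 (h := h) (l := l) (c := c) (tj := tj) (pj := pj) (P := P) (p := p) hh
  have h2 : r / 4 * (c / l * (gA h pj P p * gB h pj P p * gE h pj P p *
      (gC' h l c tj pj 1 P p * gC h l c tj pj (-1) P p
        + gC h l c tj pj 1 P p * gC' h l c tj pj (-1) P p))) =
      1 / l * (gA h pj P p * gB h pj P p * gE h pj P p *
      (gC' h l c tj pj 1 P p * gC h l c tj pj (-1) P p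
        + gC h l c tj pj 1 P p * gC' h l c tj pj (-1) P p)) := by
    rw [hc]; (clear * - hr hl; field_simp)
  refine le_trans ?_ (mul_le_mul_of_nonneg_left h1 (by positivity))
  rw [h2, YY_mu hP]
  have g1 := gA_nonneg (h := h) (pj := pj) (P := P) (p := p)
  have g2 := (gB_pos (h := h) (pj := pj) (P := P) (p := p)).le
  have g3 := gC_nonneg (h := h) (l := l) (c := c) (tj := tj) (pj := pj) (P := P) (p := p) (s := 1)
  have g4 := gC_nonneg (h := h) (l := l) (c := c) (tj := tj) (pj := pj) (P := P) (p := p) (s := -1)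
  have g5 := gC'_nonneg (h := h) (l := l) (c := c) (tj := tj) (pj := pj) (P := P) (p := p) (s := 1)
  have g6 := gC'_nonneg (h := h) (l := l) (c := c) (tj := tj) (pj := pj) (P := P) (p := p) (s := -1)
  have g7 := gE_nonneg (h := h) (pj := pj) (P := P) (p := p)
  have g8 : 0 ≤ 1 / l := by positivity
  rw [abs_mul, abs_mul, abs_of_nonneg g8, abs_of_nonneg (mul_nonneg (mul_nonneg g1 g2) g7)]
  refine mul_le_mul_of_nonneg_left (mul_le_mul_of_nonneg_left ?_ (mul_nonneg (mul_nonneg g1 g2) g7)) g8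
  have m1 := mul_nonneg g5 g4
  have m2 := mul_nonneg g3 g6
  rw [abs_le]
  constructor <;> linarith only [m2, m1]

/-! ### supports -/

theorem mem_of_gC_ne (hl : 0 < l) (hc : 0 ≤ c) (h1 : gC h l c tj pj 1 P p ≠ 0)
    (h2 : gC h l c tj pj (-1) P p ≠ 0) (h3 : 0 ≤ P p - pj + 4 * h) : |p.2 - tj| < 3 * l := by
  have k1 : 0 < 3 - (1 * (p.2 - tj) + c * (P p - pj + 4 * h)) / l := by
    by_contra hcon
    exact h1 (Real.smoothTransition.zero_of_nonpos (not_lt.1 hcon))
  have k2 : 0 < 3 - (-1 * (p.2 - tj) + c * (P p - pj + 4 * h)) / l := by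
    by_contra hcon
    exact h2 (Real.smoothTransition.zero_of_nonpos (not_lt.1 hcon))
  have k3 : (1 * (p.2 - tj) + c * (P p - pj + 4 * h)) / l < 3 := by linarith only [k1]
  have k4 : (-1 * (p.2 - tj) + c * (P p - pj + 4 * h)) / l < 3 := by linarith only [k2]
  rw [div_lt_iff₀ hl] at k3 k4
  have k5 := mul_nonneg hc h3
  rw [abs_lt]
  constructor <;> linarith only [k4, k5, k3]

theorem lt_of_gE_ne (hh : 0 < h) (h1 : gE h pj P p ≠ 0) : P p - pj < 3 * h := by
  have k1 : 0 < 3 - (P p - pj) / h := by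
    by_contra hcon
    exact h1 (Real.smoothTransition.zero_of_nonpos (not_lt.1 hcon))
  have k3 : (P p - pj) / h < 3 := by linarith
  rwa [div_lt_iff₀ hh] at k3

theorem lt_of_gA_ne (hh : 0 < h) (h1 : gA h pj P p ≠ 0) : -(4 * h) < P p - pj := by
  have k1 : 0 < (P p - pj + 4 * h) / h := by
    by_contra hcon
    exact h1 (Real.smoothTransition.zero_of_nonpos (not_lt.1 hcon))
  rw [lt_div_iff₀ hh] at k1
  linarith

theorem lt_of_gA'_ne (hh : 0 < h) (h1 : gA' h pj P p ≠ 0) :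
    -(4 * h) < P p - pj ∧ P p - pj < -(3 * h) := by
  have k1 : 0 < (P p - pj + 4 * h) / h := by
    by_contra hcon
    exact h1 (Tr'_zero_of_nonpos (not_lt.1 hcon))
  have k2 : (P p - pj + 4 * h) / h < 1 := by
    by_contra hcon
    exact h1 (Tr'_zero_of_one_le (not_lt.1 hcon))
  rw [lt_div_iff₀ hh] at k1
  rw [div_lt_iff₀ hh] at k2
  constructor <;> linarith

theorem mem_of_mu_ne (hh : 0 < h) (hl : 0 < l) (hc : 0 ≤ c) (h1 : mu h l c tj pj P p ≠ 0) :
    |p.2 - tj| ≤ 3 * l ∧ |P p - pj| ≤ 4 * h := by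
  unfold mu at h1
  simp only [ne_eq, mul_eq_zero, not_or] at h1
  obtain ⟨⟨⟨⟨a1, a2⟩, a3⟩, a4⟩, a5⟩ := h1
  have b1 := lt_of_gA_ne hh a1
  have b2 := lt_of_gE_ne hh a5
  have b3 := mem_of_gC_ne hl hc a3 a4 (by linarith)
  exact ⟨b3.le, abs_le.2 ⟨by linarith, by linarith⟩⟩

theorem mem_of_k2_ne (hh : 0 < h) (hl : 0 < l) (hc : 0 ≤ c) (h1 : k2 h l c tj pj P p ≠ 0) :
    |p.2 - tj| < 4 * l ∧ 2 * h < -(P p - pj) ∧ -(P p - pj) < 4 * h := by
  unfold k2 at h1
  simp only [ne_eq, mul_eq_zero, div_eq_zero_iff, not_or] at h1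
  obtain ⟨⟨⟨⟨⟨a1, a0⟩, a2⟩, a3⟩, a4⟩, a5⟩ := h1
  have b1 := lt_of_gA'_ne hh a1
  have b3 := mem_of_gC_ne hl hc a3 a4 (by linarith [b1.1])
  exact ⟨by linarith, by linarith only [b1], by linarith [b1.1]⟩

/-! ### bounds -/

theorem gB_le (hh : 0 < h) (h1 : -(4 * h) ≤ P p - pj) : gB h pj P p ≤ Real.exp 4 := by
  unfold gB
  refine Real.exp_le_exp.2 ?_
  rw [div_le_iff₀ hh]
  linarith

theorem le_gB (hh : 0 < h) (h1 : P p - pj ≤ 2 * h) : Real.exp (-2) ≤ gB h pj P p := by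
  unfold gB
  refine Real.exp_le_exp.2 ?_
  rw [le_div_iff₀ hh]
  linarith

theorem mu_le (hh : 0 < h) (hl : 0 < l) (hc : 0 ≤ c) :
    mu h l c tj pj P p ≤ Real.exp 4 := by
  by_cases h0 : mu h l c tj pj P p = 0
  · rw [h0]; exact (Real.exp_pos _).le
  have hm := mem_of_mu_ne hh hl hc h0
  have g2 := gB_le (P := P) hh (abs_le.1 hm.2).1
  have g2' := (gB_pos (h := h) (pj := pj) (P := P) (p := p)).le
  have g1 := gA_nonneg (h := h) (pj := pj) (P := P) (p := p)
  have g3 := gC_nonneg (h := h) (l := l) (c := c) (tj := tj) (pj := pj) (P := P) (p := p) (s := 1)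
  have g4 := gC_nonneg (h := h) (l := l) (c := c) (tj := tj) (pj := pj) (P := P) (p := p) (s := -1)
  have g5 := gE_nonneg (h := h) (pj := pj) (P := P) (p := p)
  have g1' := gA_le (h := h) (pj := pj) (P := P) (p := p)
  have g3' := gC_le (h := h) (l := l) (c := c) (tj := tj) (pj := pj) (P := P) (p := p) (s := 1)
  have g4' := gC_le (h := h) (l := l) (c := c) (tj := tj) (pj := pj) (P := P) (p := p) (s := -1)
  have g5' := gE_le (h := h) (pj := pj) (P := P) (p := p)
  unfold mu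
  have e4 := (Real.exp_pos 4).le
  calc gA h pj P p * gB h pj P p * gC h l c tj pj 1 P p * gC h l c tj pj (-1) P p * gE h pj P p
      ≤ 1 * Real.exp 4 * 1 * 1 * 1 := by (clear * - g1' g2 g2' g3' g3 g4' g4 g5' g5; gcongr)
    _ = Real.exp 4 := by ring

theorem k2_le (hh : 0 < h) (hl : 0 < l) (hc : 0 ≤ c) {T : ℝ} (hT0 : 0 < T)
    (hT : ∀ y, deriv Real.smoothTransition y ≤ T) :
    k2 h l c tj pj P p ≤ T / h * Real.exp 4 := by
  by_cases h0 : k2 h l c tj pj P p = 0
  · rw [h0]; positivity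
  have hm := mem_of_k2_ne hh hl hc h0
  have g2 := gB_le (P := P) (pj := pj) hh (by linarith : -(4 * h) ≤ P p - pj)
  have g2' := (gB_pos (h := h) (pj := pj) (P := P) (p := p)).le
  have g1 := gA'_nonneg (h := h) (pj := pj) (P := P) (p := p)
  have g3 := gC_nonneg (h := h) (l := l) (c := c) (tj := tj) (pj := pj) (P := P) (p := p) (s := 1)
  have g4 := gC_nonneg (h := h) (l := l) (c := c) (tj := tj) (pj := pj) (P := P) (p := p) (s := -1)
  have g5 := gE_nonneg (h := h) (pj := pj) (P := P) (p := p)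
  have g1' : gA' h pj P p ≤ T := hT _
  have g3' := gC_le (h := h) (l := l) (c := c) (tj := tj) (pj := pj) (P := P) (p := p) (s := 1)
  have g4' := gC_le (h := h) (l := l) (c := c) (tj := tj) (pj := pj) (P := P) (p := p) (s := -1)
  have g5' := gE_le (h := h) (pj := pj) (P := P) (p := p)
  unfold k2
  calc gA' h pj P p / h * gB h pj P p * gC h l c tj pj 1 P p * gC h l c tj pj (-1) P p
        * gE h pj P p
      ≤ T / h * Real.exp 4 * 1 * 1 * 1 := by (clear * - g1' hh g2 g2' hT0 g3' g3 g4' g4 g5' g5; gcongr)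
    _ = T / h * Real.exp 4 := by ring

theorem le_k1 (hh : 0 < h) (hl : 0 < l) (hc : 0 ≤ c) (hcl : c * (6 * h) ≤ l / 2)
    (h1 : |p.2 - tj| ≤ 3 / 2 * l) (h2 : |P p - pj| ≤ 2 * h) :
    1 / h * Real.exp (-2) ≤ k1 h l c tj pj P p := by
  refine le_trans ?_ (mu_le_k1 hh hl hc)
  refine mul_le_mul_of_nonneg_left ?_ (by positivity)
  rw [abs_le] at h1 h2
  have a1 : gA h pj P p = 1 := by
    unfold gA
    refine Real.smoothTransition.one_of_one_le ?_
    rw [le_div_iff₀ hh]; linarith only [h2]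
  have a5 : gE h pj P p = 1 := by
    unfold gE
    refine Real.smoothTransition.one_of_one_le ?_
    have : (P p - pj) / h ≤ 2 := by rw [div_le_iff₀ hh]; linarith only [h2]
    linarith only [this]
  have hc6 : c * (P p - pj + 4 * h) ≤ c * (6 * h) := mul_le_mul_of_nonneg_left (by linarith only [h2]) hc
  have a3 : gC h l c tj pj 1 P p = 1 := by
    unfold gC
    refine Real.smoothTransition.one_of_one_le ?_
    have : (1 * (p.2 - tj) + c * (P p - pj + 4 * h)) / l ≤ 2 := by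
      rw [div_le_iff₀ hl]; linarith
    linarith only [this]
  have a4 : gC h l c tj pj (-1) P p = 1 := by
    unfold gC
    refine Real.smoothTransition.one_of_one_le ?_
    have : (-1 * (p.2 - tj) + c * (P p - pj + 4 * h)) / l ≤ 2 := by
      rw [div_le_iff₀ hl]; linarith
    linarith only [this]
  unfold mu
  rw [a1, a3, a4, a5]
  have := le_gB (P := P) hh h2.2
  linarith only [this]

end lemmas

/-! ### comparison of integrals -/

theorem setInt_le {W : Set Pl} (hW : MeasurableSet W) {E g : Pl → ℝ} (hE : IntegrableOn E W)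
    (hg : Integrable g) (hg0 : ∀ p, 0 ≤ g p) (h : ∀ p ∈ W, E p ≤ g p) :
    ∫ p in W, E p ≤ ∫ p, g p :=
  (setIntegral_mono_on hE hg.integrableOn hW h).trans
    (setIntegral_le_integral hg (Filter.Eventually.of_forall hg0))

theorem int_le_setInt {Z : Set Pl} (hZ : MeasurableSet Z) {E g : Pl → ℝ} (hE : IntegrableOn E Z)
    (hg : Integrable g) (h0 : ∀ p, p ∉ Z → g p = 0) (h : ∀ p ∈ Z, g p ≤ E p) :
    ∫ p, g p ≤ ∫ p in Z, E p := by
  rw [← setIntegral_eq_integral_of_forall_compl_eq_zero h0]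
  exact setIntegral_mono_on hg.integrableOn hE hZ h

end S2

open S2 in
/-- Step 2: energy in the window around the bit, with forcing. -/
theorem step2 : ∃ C : ℝ, 0 < C ∧ ∀ (M : ℝ), 1 ≤ M → ∀ cs : ℝ, 0 < cs → cs ≤ 1 / (1000 * M) →
    ∃ n0 : ℕ, ∀ n : ℕ, n0 ≤ n →
    ∀ (P v a α e1 e2 F : Pl → ℝ) (δ : ℝ), PairEq P v a α e1 e2 F δ →
    1 / (4 * M ^ 2 * (n : ℝ) ^ 16) ≤ δ → δ ≤ 4 * M ^ 2 / (n : ℝ) ^ 16 →
    ∀ tj : ℝ, 0 ≤ tj → tj ≤ cs / (n : ℝ) ^ 8 → |P (0, tj)| ≤ 1 / (n : ℝ) ^ 15 →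
    ∫ p in {p | |p.2 - tj| ≤ 3 / 2 * ell cs n ∧ |P p - P (0, tj)| ≤ 2 * hs cs n},
      ((YY P v p) ^ 2 + δ * (XX P v p) ^ 2) * dx P p
    ≤ C * (∫ p in {p | |p.2 - tj| < 4 * ell cs n ∧ 2 * hs cs n < -(P p - P (0, tj)) ∧
        -(P p - P (0, tj)) < 4 * hs cs n}, ((YY P v p) ^ 2 + δ * (XX P v p) ^ 2) * dx P p)
      + C * (hs cs n ^ 2 / δ) * ∫ p in {p | |p.2 - tj| ≤ 3 * ell cs n ∧
          |P p - P (0, tj)| ≤ 4 * hs cs n}, (F p) ^ 2 * dx P p := by
  obtain ⟨C0, hC0, hce⟩ := core_energy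
  obtain ⟨T, hT0, hT⟩ := Tr'_bdd
  refine ⟨C0 * (T + 1) * Real.exp 6, by positivity, fun M hM cs hcs hcs1 => ⟨2, ?_⟩⟩
  intro n hn P v a α e1 e2 F δ hPE hδ1 hδ2 tj htj0 htj1 hPj
  have hP := hPE.frame
  have hδ := hPE.δ_pos
  have hPc : Continuous P := hP.smooth.continuous
  -- sizes
  have hn2 : (2 : ℝ) ≤ n := by exact_mod_cast hn
  have hn8 : (1 : ℝ) ≤ (n : ℝ) ^ 8 := one_le_pow₀ (by linarith only [hn2])
  have hn115 : (1 : ℝ) ≤ (n : ℝ) ^ 115 := one_le_pow₀ (by linarith only [hn2])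
  have hn15 : (1024 : ℝ) ≤ (n : ℝ) ^ 15 := by
    calc (1024 : ℝ) ≤ 2 ^ 15 := by norm_num
      _ ≤ (n : ℝ) ^ 15 := by (clear * - hn2; gcongr)
  have hcs2 : cs ≤ 1 / 1000 := hcs1.trans (by
    rw [div_le_div_iff₀ (by positivity) (by norm_num)]; linarith only [hM])
  have hv0 : 0 < varpi cs n := by unfold varpi; positivity
  have hv1 : varpi cs n ≤ 1 / 1000 := by
    unfold varpi
    exact (div_le_self hcs.le hn8).trans hcs2
  have hl0 : 0 < ell cs n := by unfold ell; positivity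
  have hl1 : ell cs n ≤ 1 / 1000 := by
    unfold ell
    exact (div_le_self hcs.le (by linarith only [hn115])).trans hcs2
  have hh0 : 0 < hs cs n := by unfold hs; (clear * - hv0 hl0; positivity)
  have hh1 : hs cs n ≤ 1 / 1000 := by
    unfold hs
    nlinarith only [hv1, hv0, hl1]
  have hr0 : 0 < Real.sqrt δ := Real.sqrt_pos.2 hδ
  have hr1 : 1 / (2 * M * (n : ℝ) ^ 8) ≤ Real.sqrt δ := by
    refine Real.le_sqrt_of_sq_le ?_
    refine le_trans (le_of_eq ?_) hδ1
    rw [div_pow, one_pow]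
    congr 1
    ring
  have hcl : 4 / Real.sqrt δ * (6 * hs cs n) ≤ ell cs n / 2 := by
    have h1 : 120 * varpi cs n ≤ Real.sqrt δ := by
      refine le_trans ?_ hr1
      unfold varpi
      rw [mul_div_assoc', div_le_div_iff₀ (by positivity) (by positivity)]
      have h2 : cs * (1000 * M) ≤ 1 := by
        rwa [le_div_iff₀ (by positivity)] at hcs1
      have h3 : 120 * cs * (2 * M) ≤ 1 := by linarith only [h2]
      calc 120 * cs * (2 * M * (n : ℝ) ^ 8) = (120 * cs * (2 * M)) * (n : ℝ) ^ 8 := by ring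
        _ ≤ 1 * (n : ℝ) ^ 8 := by (clear * - h3 hn; gcongr)
    have e1 : 4 / Real.sqrt δ * (6 * hs cs n) = (120 * varpi cs n) / Real.sqrt δ * (ell cs n / 2) := by
      unfold hs; field_simp; ring
    rw [e1]
    have : 120 * varpi cs n / Real.sqrt δ ≤ 1 := by
      rw [div_le_one hr0]; exact h1
    calc 120 * varpi cs n / Real.sqrt δ * (ell cs n / 2) ≤ 1 * (ell cs n / 2) := by (clear * - this hl0; gcongr)
      _ = ell cs n / 2 := one_mul _
  have htj2 : tj ≤ 1 / 1000 := htj1.trans hv1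
  have hpj : |P (0, tj)| ≤ 1 / 1024 := hPj.trans (one_div_le_one_div_of_le (by norm_num) hn15)
  clear hδ1 hδ2 htj1 hPj hv0 hv1 hr1 hcs1 hcs2
  generalize P (0, tj) = pj at hpj ⊢
  generalize hs cs n = h at hh0 hh1 hcl ⊢
  generalize ell cs n = l at hl0 hl1 hcl ⊢
  set c := 4 / Real.sqrt δ with hc
  have hc0 : 0 ≤ c := by rw [hc]; positivity
  -- the energy density
  have hXc : Continuous (XX P v) := (contDiff_XX hP hPE.v_smooth (m := 1) (by norm_num)
    (by norm_num)).continuous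
  have hYc : Continuous (YY P v) := (contDiff_YY hP hPE.v_smooth (m := 1) (by norm_num)
    (by norm_num)).continuous
  have hJc : Continuous (dx P) := (hP.contDiff_dx (m := 1) (by norm_num)).continuous
  have hEc : Continuous fun p => ((YY P v p) ^ 2 + δ * (XX P v p) ^ 2) * dx P p := by fun_prop
  have hE0 : ∀ p, 0 ≤ ((YY P v p) ^ 2 + δ * (XX P v p) ^ 2) * dx P p := fun p =>
    mul_nonneg (by (clear * - hδ; positivity)) (hP.dx_pos p).le
  have hFc := hPE.F_cont
  have hGc : Continuous fun p => (F p) ^ 2 * dx P p := by fun_prop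
  have hG0 : ∀ p, 0 ≤ (F p) ^ 2 * dx P p := fun p => mul_nonneg (by (clear * -; positivity)) (hP.dx_pos p).le
  -- compact sets
  have hK := isCompact_strip hP tj pj (3 * l) (4 * h)
  have hK2 := isCompact_strip hP tj pj (4 * l) (4 * h)
  have hW := isCompact_strip hP tj pj (3 / 2 * l) (2 * h)
  have hmu_supp : tsupport (mu h l c tj pj P) ⊆ {p : Pl | |p.2 - tj| ≤ 3 * l ∧ |P p - pj| ≤ 4 * h} :=
    closure_minimal (fun p hp => mem_of_mu_ne hh0 hl0 hc0 hp) hK.isClosed
  have hk2_zero : ∀ p, p ∉ {p : Pl | |p.2 - tj| ≤ 4 * l ∧ |P p - pj| ≤ 4 * h} →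
      k2 h l c tj pj P p = 0 := fun p hp => by
    by_contra hcon
    have h1 := mem_of_k2_ne hh0 hl0 hc0 hcon
    exact hp ⟨h1.1.le, abs_le.2 ⟨by linarith only [h1], by linarith only [h1]⟩⟩
  have hk1_zero : ∀ p, p ∉ {p : Pl | |p.2 - tj| ≤ 4 * l ∧ |P p - pj| ≤ 4 * h} →
      k1 h l c tj pj P p = 0 := fun p hp => by
    have h1 : p ∉ tsupport (mu h l c tj pj P) := fun hcon => hp
      ⟨(hmu_supp hcon).1.trans (by linarith only [hl0]), (hmu_supp hcon).2⟩
    have h2 := XX_eq_zero_of_notMem_tsupport (P := P) h1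
    rw [XX_mu hP, hk2_zero p hp] at h2
    linarith only [h2]
  have ck1 : HasCompactSupport (k1 h l c tj pj P) := HasCompactSupport.intro hK2 hk1_zero
  have ck2 : HasCompactSupport (k2 h l c tj pj P) := HasCompactSupport.intro hK2 hk2_zero
  have cmu : HasCompactSupport (mu h l c tj pj P) :=
    HasCompactSupport.intro hK fun p hp => by
      by_contra hcon
      exact hp (mem_of_mu_ne hh0 hl0 hc0 hcon)
  have key := hce P v a α e1 e2 F δ hPE (-1) (Or.inr rfl) (1 / h) (mu h l c tj pj P)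
    (k1 h l c tj pj P) (k2 h l c tj pj P)
    (by rw [le_div_iff₀ hh0]; linarith only [hh1]) ((mu_smooth hP).of_le (by norm_num)) (k1_cont hP)
    (k2_cont hP) ck1 ck2 (fun _ => mu_nonneg) (fun _ => k1_nonneg hh0 hl0 hc0)
    (fun _ => k2_nonneg hh0) ?_ (fun p => by rw [XX_mu hP]; ring)
    (fun p => abs_YY_mu hP hh0 hl0 hr0 hc) (fun p => mu_le_k1 hh0 hl0 hc0)
  swap
  · intro p hp
    obtain ⟨h1, h2⟩ := hmu_supp hp
    rw [abs_le] at h1 h2 hpj
    exact ⟨abs_lt.2 ⟨by norm_num; linarith only [htj0, hl1, h1], by norm_num; linarith only [htj2, hl1, h1]⟩,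
      abs_lt.2 ⟨by norm_num; linarith only [hpj, hh1, h2], by norm_num; linarith only [hpj, hh1, h2]⟩⟩
  -- comparison on the window
  have i1 : Integrable fun p => k1 h l c tj pj P p * ((YY P v p) ^ 2 + δ * (XX P v p) ^ 2)
      * dx P p := by
    refine Continuous.integrable_of_hasCompactSupport ?_ ?_
    · have := k1_cont (h := h) (l := l) (c := c) (tj := tj) (pj := pj) hP
      fun_prop
    · exact (ck1.mul_right).mul_right
  have i2 : Integrable fun p => k2 h l c tj pj P p * ((YY P v p) ^ 2 + δ * (XX P v p) ^ 2)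
      * dx P p := by
    refine Continuous.integrable_of_hasCompactSupport ?_ ?_
    · have := k2_cont (h := h) (l := l) (c := c) (tj := tj) (pj := pj) hP
      fun_prop
    · exact (ck2.mul_right).mul_right
  have i3 : Integrable fun p => mu h l c tj pj P p * (F p) ^ 2 * dx P p := by
    refine Continuous.integrable_of_hasCompactSupport ?_ ?_
    · have := (mu_smooth (h := h) (l := l) (c := c) (tj := tj) (pj := pj) hP).continuous
      fun_prop
    · exact (cmu.mul_right).mul_right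
  have s1 : ∫ p in {p | |p.2 - tj| ≤ 3 / 2 * l ∧ |P p - pj| ≤ 2 * h},
        ((YY P v p) ^ 2 + δ * (XX P v p) ^ 2) * dx P p
      ≤ (h * Real.exp 2) * ∫ p, k1 h l c tj pj P p * ((YY P v p) ^ 2 + δ * (XX P v p) ^ 2)
        * dx P p := by
    rw [← integral_const_mul]
    refine setInt_le hW.measurableSet (hEc.continuousOn.integrableOn_compact hW)
      (i1.const_mul _) (fun p => ?_) (fun p hp => ?_)
    · have := k1_nonneg (P := P) (tj := tj) (pj := pj) (p := p) hh0 hl0 hc0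
      have h2 := hE0 p
      have h3 : k1 h l c tj pj P p * ((YY P v p) ^ 2 + δ * (XX P v p) ^ 2) * dx P p
        = k1 h l c tj pj P p * (((YY P v p) ^ 2 + δ * (XX P v p) ^ 2) * dx P p) := by ring
      rw [h3]
      (clear * - hh0 this h2; positivity)
    · have h1 := le_k1 (P := P) hh0 hl0 hc0 hcl hp.1 hp.2
      have h2 := hE0 p
      have h3 : h * Real.exp 2 * (k1 h l c tj pj P p * ((YY P v p) ^ 2 + δ * (XX P v p) ^ 2)
          * dx P p) = (h * Real.exp 2 * k1 h l c tj pj P p)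
            * (((YY P v p) ^ 2 + δ * (XX P v p) ^ 2) * dx P p) := by ring
      rw [h3]
      refine le_mul_of_one_le_left h2 ?_
      calc (1 : ℝ) = h * Real.exp 2 * (1 / h * Real.exp (-2)) := by
            have : Real.exp 2 * Real.exp (-2) = 1 := by rw [← Real.exp_add]; norm_num
            field_simp
            linarith only [this]
        _ ≤ _ := by (clear * - h1 hh0; gcongr)
  have hZo : IsOpen {p : Pl | |p.2 - tj| < 4 * l ∧ 2 * h < -(P p - pj) ∧ -(P p - pj) < 4 * h} := by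
    refine (isOpen_lt (continuous_snd.sub continuous_const).abs continuous_const).inter
      ((isOpen_lt continuous_const (hPc.sub continuous_const).neg).inter
        (isOpen_lt (hPc.sub continuous_const).neg continuous_const))
  have s2 : ∫ p, k2 h l c tj pj P p * ((YY P v p) ^ 2 + δ * (XX P v p) ^ 2) * dx P p
      ≤ T / h * Real.exp 4 * ∫ p in {p | |p.2 - tj| < 4 * l ∧ 2 * h < -(P p - pj) ∧
        -(P p - pj) < 4 * h}, ((YY P v p) ^ 2 + δ * (XX P v p) ^ 2) * dx P p := by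
    rw [← integral_const_mul]
    refine int_le_setInt hZo.measurableSet ?_ i2 (fun p hp => ?_) (fun p _ => ?_)
    · refine Integrable.const_mul ?_ _
      refine (hEc.continuousOn.integrableOn_compact hK2).mono_set ?_
      rintro p ⟨h1, h2, h3⟩
      exact ⟨h1.le, abs_le.2 ⟨by linarith only [h3], by linarith only [hh0, h2]⟩⟩
    · have : k2 h l c tj pj P p = 0 := by
        by_contra hcon
        exact hp (mem_of_k2_ne hh0 hl0 hc0 hcon)
      rw [this]; ring
    · have h1 := k2_le (P := P) (tj := tj) (pj := pj) (p := p) hh0 hl0 hc0 hT0 hT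
      have h2 := hE0 p
      rw [mul_assoc]
      exact mul_le_mul_of_nonneg_right h1 h2
  have s3 : ∫ p, mu h l c tj pj P p * (F p) ^ 2 * dx P p
      ≤ Real.exp 4 * ∫ p in {p | |p.2 - tj| ≤ 3 * l ∧ |P p - pj| ≤ 4 * h},
        (F p) ^ 2 * dx P p := by
    rw [← integral_const_mul]
    refine int_le_setInt hK.measurableSet ?_ i3 (fun p hp => ?_) (fun p _ => ?_)
    · exact Integrable.const_mul (hGc.continuousOn.integrableOn_compact hK) _
    · have : mu h l c tj pj P p = 0 := by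
        by_contra hcon
        exact hp (mem_of_mu_ne hh0 hl0 hc0 hcon)
      rw [this]; ring
    · have h1 := mu_le (P := P) (tj := tj) (pj := pj) (p := p) hh0 hl0 hc0
      have h2 := hG0 p
      rw [mul_assoc]
      exact mul_le_mul_of_nonneg_right h1 h2
  have n2 : 0 ≤ ∫ p in {p | |p.2 - tj| < 4 * l ∧ 2 * h < -(P p - pj) ∧
        -(P p - pj) < 4 * h}, ((YY P v p) ^ 2 + δ * (XX P v p) ^ 2) * dx P p :=
    integral_nonneg hE0
  have n3 : 0 ≤ ∫ p in {p | |p.2 - tj| ≤ 3 * l ∧ |P p - pj| ≤ 4 * h}, (F p) ^ 2 * dx P p :=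
    integral_nonneg hG0
  generalize (∫ p in {p | |p.2 - tj| ≤ 3 / 2 * l ∧ |P p - pj| ≤ 2 * h},
        ((YY P v p) ^ 2 + δ * (XX P v p) ^ 2) * dx P p) = I1 at s1 ⊢
  generalize (∫ p in {p | |p.2 - tj| < 4 * l ∧ 2 * h < -(P p - pj) ∧
        -(P p - pj) < 4 * h}, ((YY P v p) ^ 2 + δ * (XX P v p) ^ 2) * dx P p) = I2 at s2 n2 ⊢
  generalize (∫ p in {p | |p.2 - tj| ≤ 3 * l ∧ |P p - pj| ≤ 4 * h}, (F p) ^ 2 * dx P p) = I3
    at s3 n3 ⊢
  generalize (∫ p, k1 h l c tj pj P p * ((YY P v p) ^ 2 + δ * (XX P v p) ^ 2) * dx P p) = J1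
    at s1 key
  generalize (∫ p, k2 h l c tj pj P p * ((YY P v p) ^ 2 + δ * (XX P v p) ^ 2) * dx P p) = J2
    at s2 key
  generalize (∫ p, mu h l c tj pj P p * (F p) ^ 2 * dx P p) = J3 at s3 key
  have e6 : Real.exp 6 = Real.exp 2 * Real.exp 4 := by rw [← Real.exp_add]; norm_num
  have x2 := Real.exp_pos 2
  have x4 := Real.exp_pos 4
  have f1 : J1 ≤ C0 * (T / h * Real.exp 4 * I2) + C0 / (1 / h * δ) * (Real.exp 4 * I3) := by
    refine key.trans (add_le_add (mul_le_mul_of_nonneg_left s2 hC0.le)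
      (mul_le_mul_of_nonneg_left s3 (by positivity)))
  calc I1 ≤ (h * Real.exp 2) * J1 := s1
    _ ≤ (h * Real.exp 2) * (C0 * (T / h * Real.exp 4 * I2)
        + C0 / (1 / h * δ) * (Real.exp 4 * I3)) := by (clear * - f1 hh0; gcongr)
    _ = C0 * T * Real.exp 6 * I2 + C0 * 1 * Real.exp 6 * (h ^ 2 / δ) * I3 := by
        rw [e6]; (clear * - hδ hh0 hC0; field_simp)
    _ ≤ C0 * (T + 1) * Real.exp 6 * I2 + C0 * (T + 1) * Real.exp 6 * (h ^ 2 / δ) * I3 := by
        gcongr <;> linarith only [hh0, hh1, hT0]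

end Vale.Agent.P229.D
end
end

section

section

/-!
# P229, disproof, tasks T10a, T10b: propagation to the bit (`PROOF.md`, §9, STEP 1 and STEP 2)

`step1` is in `Step1.lean`, `step2` in `Step2.lean`.
-/
end
end

section

section

/-!
# P229, disproof, task T13a2: more facts about the bits
-/

open scoped ContDiff Topology
open MeasureTheory Set

namespace Vale.Agent.P229.D

theorem bmp_eq_zero {y : ℝ} (hy : 1 ≤ |y|) : bmp y = 0 := bmp_zero_of_one_le_abs hy

theorem bmp_nonneg (y : ℝ) : 0 ≤ bmp y :=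
  mul_nonneg (Real.smoothTransition.nonneg _) (Real.smoothTransition.nonneg _)

theorem bmp_le_one (y : ℝ) : bmp y ≤ 1 := by
  unfold bmp
  exact mul_le_one₀ (Real.smoothTransition.le_one _) (Real.smoothTransition.nonneg _)
    (Real.smoothTransition.le_one _)

/-! ## helper lemmas -/

/-- derivatives of `bmp` of order `≤ k` are bounded. -/
theorem bits2_bmp_bdd (k : ℕ) :
    ∃ K : ℝ, 1 ≤ K ∧ ∀ i : ℕ, i ≤ k → ∀ y, |deriv^[i] bmp y| ≤ K := by
  have h : ∀ i : ℕ, ∃ K : ℝ, ∀ y, |deriv^[i] bmp y| ≤ K := by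
    intro i
    have hc : HasCompactSupport (deriv^[i] bmp) := by
      induction i with
      | zero => exact bmp_hasCompactSupport
      | succ i ih =>
        rw [Function.iterate_succ_apply']
        exact ih.deriv
    obtain ⟨K, hK⟩ := hc.exists_bound_of_continuous (iter_deriv_smooth bmp_smooth i).continuous
    exact ⟨K, fun y => by simpa using hK y⟩
  choose K hK using h
  refine ⟨1 + ∑ i ∈ Finset.range (k + 1), |K i|, ?_, fun i hi y => ?_⟩
  · have : 0 ≤ ∑ i ∈ Finset.range (k + 1), |K i| := Finset.sum_nonneg fun _ _ => abs_nonneg _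
    linarith
  · have h1 : |K i| ≤ ∑ i ∈ Finset.range (k + 1), |K i| :=
      Finset.single_le_sum (f := fun i => |K i|) (fun _ _ => abs_nonneg _)
        (Finset.mem_range.2 (Nat.lt_succ_of_le hi))
    have h2 := hK i y
    have h3 := le_abs_self (K i)
    linarith only [h1, h2, h3]

theorem bits2_varpi_pos {cs : ℝ} (hcs : 0 < cs) {n : ℕ} (hn : 1 ≤ n) : 0 < varpi cs n := by
  have hn0 : (0 : ℝ) < n := by exact_mod_cast hn
  unfold varpi; positivity

theorem bits2_ell_pos {cs : ℝ} (hcs : 0 < cs) {n : ℕ} (hn : 1 ≤ n) : 0 < ell cs n := by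
  have hn0 : (0 : ℝ) < n := by exact_mod_cast hn
  unfold ell; positivity

/-- `x`-derivative of a product of functions of one variable. -/
theorem bits2_dx_prod {g h : ℝ → ℝ} (dg : Differentiable ℝ g) (dh : Differentiable ℝ h) :
    dx (fun q : Pl => g q.2 * h q.1) = fun q => g q.2 * deriv h q.1 := by
  funext q
  have d1 : DifferentiableAt ℝ (fun q : Pl => g q.2) q :=
    (dg q.2).comp q differentiableAt_snd
  have d2 : DifferentiableAt ℝ (fun q : Pl => h q.1) q :=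
    (dh q.1).comp q differentiableAt_fst
  rw [dx_mul d1 d2, dx_comp (f := fun q : Pl => q.2) (dg q.2) differentiableAt_snd,
    dx_comp (f := fun q : Pl => q.1) (dh q.1) differentiableAt_fst, dx_snd, dx_fst]
  ring

/-- `t`-derivative of a product of functions of one variable. -/
theorem bits2_dt_prod {g h : ℝ → ℝ} (dg : Differentiable ℝ g) (dh : Differentiable ℝ h) :
    dt (fun q : Pl => g q.2 * h q.1) = fun q => deriv g q.2 * h q.1 := by
  funext q
  have d1 : DifferentiableAt ℝ (fun q : Pl => g q.2) q :=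
    (dg q.2).comp q differentiableAt_snd
  have d2 : DifferentiableAt ℝ (fun q : Pl => h q.1) q :=
    (dh q.1).comp q differentiableAt_fst
  rw [dt_mul d1 d2, dt_comp (f := fun q : Pl => q.2) (dg q.2) differentiableAt_snd,
    dt_comp (f := fun q : Pl => q.1) (dh q.1) differentiableAt_fst, dt_snd, dt_fst]
  ring

theorem bits2_bit_eq (cs : ℝ) (n : ℕ) (tj : ℝ) : bit cs n tj = fun q : Pl =>
    (deriv^[0] fun y => bmp ((y - tj) / ell cs n)) q.2
      * (deriv^[0] fun y => bmp ((y - 0) / (varpi cs n * ell cs n))) q.1 := by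
  funext q
  simp only [bit, sub_zero]
  rfl

/-- the mixed derivatives of a bit, by induction: exact form. -/
theorem bits2_dx_iter (cs : ℝ) (n : ℕ) (tj : ℝ) (i j : ℕ) :
    dx (fun q : Pl => (deriv^[i] fun y => bmp ((y - tj) / ell cs n)) q.2
      * (deriv^[j] fun y => bmp ((y - 0) / (varpi cs n * ell cs n))) q.1)
    = fun q : Pl => (deriv^[i] fun y => bmp ((y - tj) / ell cs n)) q.2
      * (deriv^[j + 1] fun y => bmp ((y - 0) / (varpi cs n * ell cs n))) q.1 := by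
  have s1 : ContDiff ℝ ∞ (fun y : ℝ => bmp ((y - tj) / ell cs n)) :=
    bmp_smooth.comp (by fun_prop)
  have s2 : ContDiff ℝ ∞ (fun y : ℝ => bmp ((y - 0) / (varpi cs n * ell cs n))) :=
    bmp_smooth.comp (by fun_prop)
  rw [bits2_dx_prod ((iter_deriv_smooth s1 i).differentiable (by simp))
    ((iter_deriv_smooth s2 j).differentiable (by simp))]
  simp only [Function.iterate_succ_apply']

theorem bits2_dt_iter (cs : ℝ) (n : ℕ) (tj : ℝ) (i j : ℕ) :
    dt (fun q : Pl => (deriv^[i] fun y => bmp ((y - tj) / ell cs n)) q.2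
      * (deriv^[j] fun y => bmp ((y - 0) / (varpi cs n * ell cs n))) q.1)
    = fun q : Pl => (deriv^[i + 1] fun y => bmp ((y - tj) / ell cs n)) q.2
      * (deriv^[j] fun y => bmp ((y - 0) / (varpi cs n * ell cs n))) q.1 := by
  have s1 : ContDiff ℝ ∞ (fun y : ℝ => bmp ((y - tj) / ell cs n)) :=
    bmp_smooth.comp (by fun_prop)
  have s2 : ContDiff ℝ ∞ (fun y : ℝ => bmp ((y - 0) / (varpi cs n * ell cs n))) :=
    bmp_smooth.comp (by fun_prop)
  rw [bits2_dt_prod ((iter_deriv_smooth s1 i).differentiable (by simp))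
    ((iter_deriv_smooth s2 j).differentiable (by simp))]
  simp only [Function.iterate_succ_apply']

/-- the bound for the product of iterated derivatives. -/
theorem bits2_prod_bd {K : ℝ} (hK1 : 1 ≤ K) {k : ℕ}
    (hK : ∀ i : ℕ, i ≤ k → ∀ y, |deriv^[i] bmp y| ≤ K) {cs : ℝ} (hcs : 0 < cs) {n : ℕ}
    (hn : 1 ≤ n) (tj : ℝ) (p : Pl) {i j : ℕ} (hi : i ≤ k) (hj : j ≤ k) :
    |(deriv^[i] fun y => bmp ((y - tj) / ell cs n)) p.2
      * (deriv^[j] fun y => bmp ((y - 0) / (varpi cs n * ell cs n))) p.1|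
    ≤ K ^ 2 / (ell cs n ^ i * (varpi cs n * ell cs n) ^ j) := by
  have h1 := bits2_varpi_pos hcs hn
  have h2 := bits2_ell_pos hcs hn
  rw [iter_deriv_scale bmp_smooth, iter_deriv_scale bmp_smooth]
  have b1 := hK i hi ((p.2 - tj) / ell cs n)
  have b2 := hK j hj ((p.1 - 0) / (varpi cs n * ell cs n))
  have g0 : 0 ≤ (ell cs n)⁻¹ ^ i := by positivity
  have g1 : 0 ≤ (varpi cs n * ell cs n)⁻¹ ^ j := by positivity
  have g4 : |deriv^[i] bmp ((p.2 - tj) / ell cs n)|
      * |deriv^[j] bmp ((p.1 - 0) / (varpi cs n * ell cs n))| ≤ K * K :=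
    mul_le_mul b1 b2 (abs_nonneg _) (zero_le_one.trans hK1)
  rw [abs_mul, abs_mul, abs_mul, abs_of_nonneg g0, abs_of_nonneg g1]
  calc (ell cs n)⁻¹ ^ i * |deriv^[i] bmp ((p.2 - tj) / ell cs n)|
        * ((varpi cs n * ell cs n)⁻¹ ^ j * |deriv^[j] bmp ((p.1 - 0) / (varpi cs n * ell cs n))|)
      = ((ell cs n)⁻¹ ^ i * (varpi cs n * ell cs n)⁻¹ ^ j)
        * (|deriv^[i] bmp ((p.2 - tj) / ell cs n)|
          * |deriv^[j] bmp ((p.1 - 0) / (varpi cs n * ell cs n))|) := by ring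
    _ ≤ ((ell cs n)⁻¹ ^ i * (varpi cs n * ell cs n)⁻¹ ^ j) * (K * K) :=
        mul_le_mul_of_nonneg_left g4 (mul_nonneg g0 g1)
    _ = K ^ 2 / (ell cs n ^ i * (varpi cs n * ell cs n) ^ j) := by
        rw [inv_pow, inv_pow, div_eq_mul_inv, mul_inv]; ring

/-- First and second derivatives of one bit, with the right anisotropic scaling. -/
theorem bit_aniso : ∃ C : ℝ, 0 < C ∧ ∀ (cs : ℝ), 0 < cs → cs ≤ 1 → ∀ n : ℕ, 1 ≤ n →
    ∀ (tj : ℝ) (p : Pl), |bit cs n tj p| ≤ 1 ∧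
      |dx (bit cs n tj) p| ≤ C / (varpi cs n * ell cs n) ∧
      |dt (bit cs n tj) p| ≤ C / ell cs n ∧
      |dx (dx (bit cs n tj)) p| ≤ C / (varpi cs n * ell cs n) ^ 2 ∧
      |dt (dx (bit cs n tj)) p| ≤ C / (varpi cs n * ell cs n ^ 2) ∧
      |dx (dt (bit cs n tj)) p| ≤ C / (varpi cs n * ell cs n ^ 2) ∧
      |dt (dt (bit cs n tj)) p| ≤ C / ell cs n ^ 2 := by
  obtain ⟨K, hK1, hK⟩ := bits2_bmp_bdd 2
  refine ⟨K ^ 2, by positivity, fun cs hcs _ n hn tj p => ⟨?_, ?_, ?_, ?_, ?_, ?_, ?_⟩⟩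
  · unfold bit
    rw [abs_of_nonneg (mul_nonneg (bmp_nonneg _) (bmp_nonneg _))]
    exact mul_le_one₀ (bmp_le_one _) (bmp_nonneg _) (bmp_le_one _)
  · rw [bits2_bit_eq, bits2_dx_iter]
    refine (bits2_prod_bd hK1 hK hcs hn tj p (i := 0) (j := 0 + 1) (by norm_num)
      (by norm_num)).trans (le_of_eq ?_)
    simp
  · rw [bits2_bit_eq, bits2_dt_iter]
    refine (bits2_prod_bd hK1 hK hcs hn tj p (i := 0 + 1) (j := 0) (by norm_num)
      (by norm_num)).trans (le_of_eq ?_)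
    simp
  · rw [bits2_bit_eq, bits2_dx_iter, bits2_dx_iter]
    refine (bits2_prod_bd hK1 hK hcs hn tj p (i := 0) (j := 0 + 1 + 1) (by norm_num)
      (by norm_num)).trans (le_of_eq ?_)
    simp
  · rw [bits2_bit_eq, bits2_dx_iter, bits2_dt_iter]
    refine (bits2_prod_bd hK1 hK hcs hn tj p (i := 0 + 1) (j := 0 + 1) (by norm_num)
      (by norm_num)).trans (le_of_eq ?_)
    congr 1
    ring
  · rw [bits2_bit_eq, bits2_dt_iter, bits2_dx_iter]
    refine (bits2_prod_bd hK1 hK hcs hn tj p (i := 0 + 1) (j := 0 + 1) (by norm_num)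
      (by norm_num)).trans (le_of_eq ?_)
    congr 1
    ring
  · rw [bits2_bit_eq, bits2_dt_iter, bits2_dt_iter]
    refine (bits2_prod_bd hK1 hK hcs hn tj p (i := 0 + 1 + 1) (j := 0) (by norm_num)
      (by norm_num)).trans (le_of_eq ?_)
    simp

/-- the support of a bit. -/
theorem bit_eq_zero {cs : ℝ} (hcs : 0 < cs) {n : ℕ} (hn : 1 ≤ n) {tj : ℝ} {p : Pl}
    (h : ell cs n ≤ |p.2 - tj| ∨ varpi cs n * ell cs n ≤ |p.1|) : bit cs n tj p = 0 := by
  have h1 := bits2_varpi_pos hcs hn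
  have h2 := bits2_ell_pos hcs hn
  have h3 := mul_pos h1 h2
  unfold bit
  rcases h with h | h
  · rw [bmp_eq_zero (y := (p.2 - tj) / ell cs n), zero_mul]
    rw [abs_div, abs_of_pos h2, le_div_iff₀ h2, one_mul]
    exact h
  · rw [bmp_eq_zero (y := p.1 / (varpi cs n * ell cs n)), mul_zero]
    rw [abs_div, abs_of_pos h3, le_div_iff₀ h3, one_mul]
    exact h

theorem bits2_tJ_sep {cs : ℝ} (hcs : 0 < cs) {n : ℕ} (hn : 1 ≤ n) {i j : ℕ} (hij : i ≠ j) :
    8 * ell cs n ≤ |tJ cs n i - tJ cs n j| := by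
  have h2 := bits2_ell_pos hcs hn
  unfold tJ
  have e : 8 * ell cs n * (i : ℝ) - 8 * ell cs n * (j : ℝ) = 8 * ell cs n * ((i : ℝ) - j) := by ring
  rw [e, abs_mul, abs_of_pos (by positivity)]
  have h3 : (1 : ℝ) ≤ |(i : ℝ) - j| := by
    have : (1 : ℤ) ≤ |(i : ℤ) - j| := Int.one_le_abs (sub_ne_zero.2 (by exact_mod_cast hij))
    exact_mod_cast this
  nlinarith only [h2, h3]

/-- in the window of the bit `j`, `bits s = s_j * bit_j`. -/
theorem bits_window {cs : ℝ} (hcs : 0 < cs) {n : ℕ} (hn : 1 ≤ n) (s : Fin (n ^ 107) → Bool)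
    (j : Fin (n ^ 107)) {p : Pl} (hp : |p.2 - tJ cs n j| ≤ 3 * ell cs n) :
    ∀ᶠ q in 𝓝 p, bits cs n s q = (if s j then 1 else 0) * bit cs n (tJ cs n j) q := by
  have h2 := bits2_ell_pos hcs hn
  have hopen : ∀ᶠ q : Pl in 𝓝 p, |q.2 - tJ cs n j| < 4 * ell cs n := by
    have hc : ContinuousAt (fun q : Pl => |q.2 - tJ cs n j|) p := by fun_prop
    exact hc.eventually_lt continuousAt_const (by linarith only [hp, h2])
  filter_upwards [hopen] with q hq
  unfold bits
  refine Finset.sum_eq_single j (fun i _ hij => ?_) (fun h => absurd (Finset.mem_univ j) h)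
  have hsep := bits2_tJ_sep hcs hn (i := i) (j := j) (fun h => hij (Fin.ext h))
  have h3 : ell cs n ≤ |q.2 - tJ cs n i| := by
    have h4 : |tJ cs n i - tJ cs n j| ≤ |q.2 - tJ cs n j| + |q.2 - tJ cs n i| := by
      have : tJ cs n i - tJ cs n j = (q.2 - tJ cs n j) - (q.2 - tJ cs n i) := by ring
      rw [this]
      exact abs_sub _ _
    linarith only [h2, hq, hsep, h4]
  rw [bit_eq_zero hcs hn (Or.inl h3), mul_zero]

/-- at every point at most one bit is nonzero: near every point `bits` is `0` or one bit. -/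
theorem bits_local {cs : ℝ} (hcs : 0 < cs) {n : ℕ} (hn : 1 ≤ n) (s : Fin (n ^ 107) → Bool)
    (p : Pl) : (∀ᶠ q in 𝓝 p, bits cs n s q = 0) ∨
      ∃ j : Fin (n ^ 107), s j = true ∧ ∀ᶠ q in 𝓝 p, bits cs n s q = bit cs n (tJ cs n j) q := by
  have h2 := bits2_ell_pos hcs hn
  by_cases h : ∃ j : Fin (n ^ 107), |p.2 - tJ cs n j| ≤ 3 * ell cs n
  · obtain ⟨j, hj⟩ := h
    have hw := bits_window hcs hn s j hj
    by_cases hs : s j = true
    · right
      refine ⟨j, hs, ?_⟩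
      filter_upwards [hw] with q hq
      rw [hq, if_pos hs, one_mul]
    · left
      filter_upwards [hw] with q hq
      rw [hq, if_neg hs, zero_mul]
  · left
    push Not at h
    have hopen : ∀ᶠ q : Pl in 𝓝 p, |q.2 - p.2| < 2 * ell cs n := by
      have hc : ContinuousAt (fun q : Pl => |q.2 - p.2|) p := by fun_prop
      refine hc.eventually_lt continuousAt_const ?_
      simp only [sub_self, abs_zero]
      positivity
    filter_upwards [hopen] with q hq
    unfold bits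
    refine Finset.sum_eq_zero fun j _ => ?_
    have h3 : ell cs n ≤ |q.2 - tJ cs n j| := by
      have h4 : |p.2 - tJ cs n j| ≤ |q.2 - tJ cs n j| + |q.2 - p.2| := by
        have : p.2 - tJ cs n j = (q.2 - tJ cs n j) - (q.2 - p.2) := by ring
        rw [this]
        exact abs_sub _ _
      have := h j
      linarith only [hq, h4, this]
    rw [bit_eq_zero hcs hn (Or.inl h3), mul_zero]

/-- `bits` vanishes off the cluster. -/
theorem bits_eq_zero {cs : ℝ} (hcs : 0 < cs) {n : ℕ} (hn : 1 ≤ n) (s : Fin (n ^ 107) → Bool)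
    {p : Pl} (h : varpi cs n * ell cs n ≤ |p.1| ∨ p.2 ≤ -ell cs n ∨ cs / (n : ℝ) ^ 8 ≤ p.2) :
    bits cs n s p = 0 := by
  have h2 := bits2_ell_pos hcs hn
  have hn0 : (0 : ℝ) < n := by exact_mod_cast hn
  unfold bits
  refine Finset.sum_eq_zero fun j _ => ?_
  have hz : bit cs n (tJ cs n j) p = 0 := by
    rcases h with h | h | h
    · exact bit_eq_zero hcs hn (Or.inr h)
    · refine bit_eq_zero hcs hn (Or.inl ?_)
      have h3 : 0 ≤ tJ cs n j := by unfold tJ; positivity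
      rw [abs_sub_comm]
      exact le_trans (by linarith only [h, h3]) (le_abs_self _)
    · refine bit_eq_zero hcs hn (Or.inl ?_)
      have h3 : tJ cs n j ≤ cs / (n : ℝ) ^ 8 - 8 * ell cs n := by
        have hj : ((j : ℕ) : ℝ) + 1 ≤ (n : ℝ) ^ 107 := by exact_mod_cast j.2
        have e : cs / (n : ℝ) ^ 8 = 8 * ell cs n * (n : ℝ) ^ 107 := by
          unfold ell
          field_simp
        unfold tJ
        rw [e]
        nlinarith only [h2, hj]
      exact le_trans (by linarith only [h2, h, h3]) (le_abs_self _)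
  rw [hz, mul_zero]

end Vale.Agent.P229.D
end
end

section

section

/-!
# P229, disproof, task T11: numerics of the final test
-/

open scoped ContDiff Topology
open MeasureTheory Set

namespace Vale.Agent.P229.D

namespace PF

/-- the three square roots. -/
theorem sqrt_bd {q s ee r b' A B : ℝ} (hq : 0 < q) (hs : 0 < s) (hee : 0 ≤ ee)
    (hr : 0 ≤ r) (hb : 0 ≤ b') (hA : A ≤ ee ^ 2)
    (hB : B ≤ r ^ 2 * ((q ^ 2) ^ 3 * b' ^ 2 / (s ^ 2) ^ 3)) :
    Real.sqrt ((A + B) / s ^ 2) ≤ ee / s + r * q ^ 3 * b' / s ^ 4 ∧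
    Real.sqrt (A / s ^ 2) ≤ ee / s ∧
    Real.sqrt (A + B) ≤ ee + r * q ^ 3 * b' / s ^ 3 := by
  have h3 : A + B ≤ (ee + r * q ^ 3 * b' / s ^ 3) ^ 2 := by
    have e : (ee + r * q ^ 3 * b' / s ^ 3) ^ 2 =
        ee ^ 2 + r ^ 2 * ((q ^ 2) ^ 3 * b' ^ 2 / (s ^ 2) ^ 3) + 2 * ee * (r * q ^ 3 * b' / s ^ 3) := by
      field_simp
      ring
    rw [e]
    have : 0 ≤ 2 * ee * (r * q ^ 3 * b' / s ^ 3) := by (clear * - hee hr hq hb hs; positivity)
    linarith only [hA, hB, this]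
  refine ⟨?_, ?_, ?_⟩
  · rw [Real.sqrt_le_iff]
    refine ⟨by positivity, ?_⟩
    have e : (ee / s + r * q ^ 3 * b' / s ^ 4) ^ 2 = (ee + r * q ^ 3 * b' / s ^ 3) ^ 2 / s ^ 2 := by
      (clear * - hs; field_simp)
    rw [e]
    (clear * - h3 hs; gcongr)
  · rw [Real.sqrt_le_iff]
    refine ⟨by positivity, ?_⟩
    rw [div_pow]
    (clear * - hA hs; gcongr)
  · rw [Real.sqrt_le_iff]
    exact ⟨by positivity, h3⟩

/-- the sum of the three terms. -/
theorem three_terms {Ct q s l ee r b' h A1 A2 A3 D : ℝ} (hCt : 0 < Ct) (hq : 0 < q) (hs : 0 < s)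
    (hl : 0 < l) (hee : 0 ≤ ee) (hr : 0 ≤ r) (hb : 0 < b') (hh : h = 5 / 2 * q ^ 2 * l)
    (hD : D = b' * q ^ 2 / s ^ 2)
    (h1 : Real.sqrt A1 ≤ ee / s + r * q ^ 3 * b' / s ^ 4)
    (h2 : Real.sqrt A2 ≤ ee / s)
    (h3 : Real.sqrt A3 ≤ ee + r * q ^ 3 * b' / s ^ 3) :
    Ct * (h / l ^ 2) * Real.sqrt (h * l) * Real.sqrt A1
      + Ct * (s ^ 2 / h) * Real.sqrt (h * l) * Real.sqrt A2
      + Ct * s ^ 2 * Real.sqrt (h * l) * Real.sqrt A3
    ≤ ee * (Ct * (5 * q ^ 3 / s + s / q + 2 * s ^ 2 * q * l))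
      + D * (5 * Ct * r * (q ^ 4 / s ^ 2)) + D * (2 * Ct * r * (q ^ 2 * l * s)) := by
  have hh0 : 0 < h := by rw [hh]; positivity
  have h4 : Real.sqrt (h * l) ≤ 2 * q * l := by
    rw [Real.sqrt_le_iff]
    refine ⟨by positivity, ?_⟩
    rw [hh]
    have : 0 ≤ q ^ 2 * l ^ 2 := by positivity
    nlinarith only
  have t1 : Ct * (h / l ^ 2) * Real.sqrt (h * l) * Real.sqrt A1
      ≤ Ct * (h / l ^ 2) * (2 * q * l) * (ee / s + r * q ^ 3 * b' / s ^ 4) := by
    (clear * - h4 hCt hh0 hl h1 hq; gcongr)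
  have t2 : Ct * (s ^ 2 / h) * Real.sqrt (h * l) * Real.sqrt A2
      ≤ Ct * (s ^ 2 / h) * (2 * q * l) * (ee / s) := by
    (clear * - h4 hCt hs hh0 h2 hq hl; gcongr)
  have t3 : Ct * s ^ 2 * Real.sqrt (h * l) * Real.sqrt A3
      ≤ Ct * s ^ 2 * (2 * q * l) * (ee + r * q ^ 3 * b' / s ^ 3) := by
    (clear * - h4 hCt hs h3 hq hl; gcongr)
  have e1 : Ct * (h / l ^ 2) * (2 * q * l) * (ee / s + r * q ^ 3 * b' / s ^ 4)
      = ee * (Ct * (5 * q ^ 3 / s)) + D * (5 * Ct * r * (q ^ 4 / s ^ 2)) := by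
    rw [hh, hD]; (clear * - hl hs hq hCt; field_simp)
  have e2 : Ct * (s ^ 2 / h) * (2 * q * l) * (ee / s) = 4 / 5 * (ee * (Ct * (s / q))) := by
    rw [hh]; field_simp; ring
  have e3 : Ct * s ^ 2 * (2 * q * l) * (ee + r * q ^ 3 * b' / s ^ 3)
      = ee * (Ct * (2 * s ^ 2 * q * l)) + D * (2 * Ct * r * (q ^ 2 * l * s)) := by
    rw [hD]; (clear * - hs hl hq hCt; field_simp)
  have h5 : 0 ≤ ee * (Ct * (s / q)) := by (clear * - hee hCt hs hq; positivity)
  rw [e1] at t1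
  rw [e2] at t2
  rw [e3] at t3
  have e4 : ee * (Ct * (5 * q ^ 3 / s + s / q + 2 * s ^ 2 * q * l)) =
      ee * (Ct * (5 * q ^ 3 / s)) + ee * (Ct * (s / q)) + ee * (Ct * (2 * s ^ 2 * q * l)) := by ring
  rw [e4]
  linarith only [t1, t2, t3, h5]

/-- existence of large `n`. -/
theorem exists_N (c : ℝ) : ∃ N : ℕ, 2 ≤ N ∧ ∀ n : ℕ, N ≤ n → c ≤ (n : ℝ) := by
  obtain ⟨N, hN⟩ := exists_nat_ge c
  refine ⟨max 2 N, le_max_left _ _, fun n hn => hN.trans ?_⟩
  exact_mod_cast (le_max_right _ _).trans hn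

/-- sizes of `q = √ϖ`, `s = √δ`, `l`, `b'` -/
theorem sizes {M cs δ b' : ℝ} {n qb : ℕ} (hM : 1 ≤ M) (hcs : 0 < cs) (hcs1 : cs ≤ 1)
    (hn : (1 : ℝ) ≤ n)
    (hδ1 : 1 / (4 * M ^ 2 * (n : ℝ) ^ 16) ≤ δ) (hδ2 : δ ≤ 4 * M ^ 2 / (n : ℝ) ^ 16)
    (hb : 1 / (4 * M ^ 2 * (n : ℝ) ^ qb) ≤ b') :
    1 / Real.sqrt δ ≤ 2 * M * (n : ℝ) ^ 8 ∧ 1 / Real.sqrt (varpi cs n) ≤ (n : ℝ) ^ 4 / cs ∧
    Real.sqrt (varpi cs n) ≤ 1 ∧ ell cs n ≤ 1 / (n : ℝ) ∧
    (varpi cs n) ^ 2 / δ ≤ 4 * (cs * M) ^ 2 ∧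
    cs / (16 * M ^ 4 * (n : ℝ) ^ qb) ≤ b' * varpi cs n / δ := by
  have hn0 : (0 : ℝ) < n := by linarith only [hn]
  have hM0 : 0 < M := by linarith only [hM]
  have hδ : 0 < δ := lt_of_lt_of_le (by positivity) hδ1
  have hb0 : 0 < b' := lt_of_lt_of_le (by positivity) hb
  have hv0 : 0 < varpi cs n := by unfold varpi; positivity
  have hs : 1 / (2 * M * (n : ℝ) ^ 8) ≤ Real.sqrt δ := by
    refine Real.le_sqrt_of_sq_le ?_
    refine le_trans (le_of_eq ?_) hδ1
    rw [div_pow, one_pow]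
    congr 1
    ring
  have hq : cs / (n : ℝ) ^ 4 ≤ Real.sqrt (varpi cs n) := by
    refine Real.le_sqrt_of_sq_le ?_
    unfold varpi
    rw [div_pow]
    have e : ((n : ℝ) ^ 4) ^ 2 = (n : ℝ) ^ 8 := by ring
    rw [e]
    gcongr
    nlinarith only [hcs, hcs1]
  refine ⟨?_, ?_, ?_, ?_, ?_, ?_⟩
  · rw [one_div_le (by positivity) (by positivity)]
    exact hs
  · rw [one_div_le (by positivity) (by positivity), one_div_div]
    exact hq
  · rw [Real.sqrt_le_iff]
    refine ⟨by norm_num, ?_⟩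
    unfold varpi
    rw [one_pow, div_le_one (by positivity)]
    exact hcs1.trans (one_le_pow₀ hn)
  · unfold ell
    rw [div_le_div_iff₀ (by positivity) hn0]
    have h1 : (n : ℝ) ≤ (n : ℝ) ^ 115 := le_self_pow₀ hn (by norm_num)
    nlinarith only [h1, hcs1]
  · rw [div_le_iff₀ hδ]
    unfold varpi
    calc (cs / (n : ℝ) ^ 8) ^ 2 = 4 * (cs * M) ^ 2 * (1 / (4 * M ^ 2 * (n : ℝ) ^ 16)) := by
          field_simp
      _ ≤ 4 * (cs * M) ^ 2 * δ := by (clear * - hδ1 hcs hM; gcongr)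
  · have h1 : b' * varpi cs n / (4 * M ^ 2 / (n : ℝ) ^ 16) ≤ b' * varpi cs n / δ := by (clear * - hb0 hv0 hδ hδ2; gcongr)
    refine le_trans ?_ h1
    have h2 : 1 / (4 * M ^ 2 * (n : ℝ) ^ qb) * varpi cs n / (4 * M ^ 2 / (n : ℝ) ^ 16)
        ≤ b' * varpi cs n / (4 * M ^ 2 / (n : ℝ) ^ 16) := by (clear * - hb hv0 hM hn; gcongr)
    refine le_trans ?_ h2
    unfold varpi
    have e : 1 / (4 * M ^ 2 * (n : ℝ) ^ qb) * (cs / (n : ℝ) ^ 8) / (4 * M ^ 2 / (n : ℝ) ^ 16)
        = cs / (16 * M ^ 4 * (n : ℝ) ^ qb) * (n : ℝ) ^ 8 := by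
      field_simp
      ring
    rw [e]
    exact le_mul_of_one_le_right (by positivity) (one_le_pow₀ hn)

/-- the energy left over is super-polynomially small compared to the main term. -/
theorem num {Ct C2 r M cs : ℝ} (hCt : 0 < Ct) (hC2 : 0 < C2) (hr : 0 ≤ r) (hM : 1 ≤ M)
    (hcs : 0 < cs) (hcs1 : cs ≤ 1) (hc0 : 20 * Ct * r * (cs * M) ^ 2 ≤ 1 / 4) (qb : ℕ) :
    ∃ N : ℕ, ∀ n : ℕ, N ≤ n → ∀ δ b' A1 A2 A3 : ℝ,
    1 / (4 * M ^ 2 * (n : ℝ) ^ 16) ≤ δ → δ ≤ 4 * M ^ 2 / (n : ℝ) ^ 16 → δ ≤ 1 →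
    1 / (4 * M ^ 2 * (n : ℝ) ^ qb) ≤ b' →
    A1 ≤ ((C2 + 2) * ((n : ℝ) ^ 20 / (n : ℝ) ^ (4 * qb + 5000))
      + r ^ 2 * (varpi cs n ^ 3 * b' ^ 2 / δ ^ 3)) / δ →
    A2 ≤ ((C2 + 2) * ((n : ℝ) ^ 20 / (n : ℝ) ^ (4 * qb + 5000))) / δ →
    A3 ≤ (C2 + 2) * ((n : ℝ) ^ 20 / (n : ℝ) ^ (4 * qb + 5000))
      + r ^ 2 * (varpi cs n ^ 3 * b' ^ 2 / δ ^ 3) →
    Ct * (hs cs n / ell cs n ^ 2) * Real.sqrt (hs cs n * ell cs n) * Real.sqrt A1
      + Ct * (δ / hs cs n) * Real.sqrt (hs cs n * ell cs n) * Real.sqrt A2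
      + Ct * δ * Real.sqrt (hs cs n * ell cs n) * Real.sqrt A3
    ≤ 3 / 4 * (b' * varpi cs n / δ) := by
  obtain ⟨N, hN2, hN⟩ := exists_N (64 * M ^ 4 * Real.sqrt (C2 + 2) *
    (10 * Ct * M + Ct / cs + 2 * Ct) / cs + 8 * Ct * r)
  refine ⟨N, fun n hn δ b' A1 A2 A3 hδ1 hδ2 hδ3 hb hA1 hA2 hA3 => ?_⟩
  have hM0 : 0 < M := by linarith only [hM]
  have hn2 : 2 ≤ n := hN2.trans hn
  have hn1 : (1 : ℝ) ≤ n := by exact_mod_cast (by omega : 1 ≤ n)
  have hn0 : (0 : ℝ) < n := by linarith only [hn1]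
  have hNn := hN n hn
  have hδ : 0 < δ := lt_of_lt_of_le (by positivity) hδ1
  have hb0 : 0 < b' := lt_of_lt_of_le (by positivity) hb
  have hv0 : 0 < varpi cs n := by unfold varpi; positivity
  have hl0 : 0 < ell cs n := by unfold ell; positivity
  obtain ⟨z1, z2, z3, z4, z5, z6⟩ := sizes (n := n) hM hcs hcs1 hn1 hδ1 hδ2 hb
  have hq0 : 0 < Real.sqrt (varpi cs n) := Real.sqrt_pos.2 hv0
  have hs0 : 0 < Real.sqrt δ := Real.sqrt_pos.2 hδ
  have hq2 : Real.sqrt (varpi cs n) ^ 2 = varpi cs n := Real.sq_sqrt hv0.le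
  have hs2 : Real.sqrt δ ^ 2 = δ := Real.sq_sqrt hδ.le
  have hs1 : Real.sqrt δ ≤ 1 := by rw [Real.sqrt_le_iff]; exact ⟨by norm_num, by rw [one_pow]; exact hδ3⟩
  have hhq : hs cs n = 5 / 2 * Real.sqrt (varpi cs n) ^ 2 * ell cs n := by rw [hq2]; rfl
  generalize Real.sqrt (varpi cs n) = q at *
  generalize Real.sqrt δ = s at *
  generalize hD : b' * varpi cs n / δ = D at *
  have hD0 : 0 < D := by rw [← hD]; (clear * - hb0 hv0 hδ; positivity)
  have hC22 : Real.sqrt (C2 + 2) ^ 2 = C2 + 2 := Real.sq_sqrt (by linarith only [hC2])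
  have hCC : 0 < Real.sqrt (C2 + 2) := Real.sqrt_pos.2 (by linarith only [hC2])
  generalize Real.sqrt (C2 + 2) = cc at *
  have hee : (C2 + 2) * ((n : ℝ) ^ 20 / (n : ℝ) ^ (4 * qb + 5000)) ≤ (cc / (n : ℝ) ^ (qb + 100)) ^ 2 := by
    rw [div_pow, hC22, mul_div_assoc']
    rw [div_le_div_iff₀ (by positivity) (by positivity), mul_assoc]
    refine mul_le_mul_of_nonneg_left ?_ (by linarith only [hC2])
    rw [← pow_mul, ← pow_add]
    exact pow_le_pow_right₀ hn1 (by (clear * -; omega))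
  rw [← hq2, ← hs2] at hA1 hA3
  rw [← hs2] at hA2
  obtain ⟨y1, y2, y3⟩ := sqrt_bd (q := q) (s := s) (ee := cc / (n : ℝ) ^ (qb + 100)) (r := r)
    (b' := b') hq0 hs0 (by (clear * - hCC hn2; positivity)) hr hb0.le hee le_rfl
  have key := three_terms (Ct := Ct) (q := q) (s := s) (l := ell cs n)
    (ee := cc / (n : ℝ) ^ (qb + 100)) (r := r) (b' := b') (h := hs cs n)
    (A1 := A1) (A2 := A2) (A3 := A3) (D := D) hCt hq0 hs0 hl0 (by positivity) hr hb0 hhq
    (by rw [← hD, ← hq2, ← hs2]) ((Real.sqrt_le_sqrt hA1).trans y1)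
    ((Real.sqrt_le_sqrt hA2).trans y2) ((Real.sqrt_le_sqrt hA3).trans y3)
  rw [hs2] at key
  refine key.trans ?_
  have k1 : D * (5 * Ct * r * (q ^ 4 / δ)) ≤ D * (1 / 4) := by
    have : q ^ 4 / δ ≤ 4 * (cs * M) ^ 2 := by
      have e : q ^ 4 = varpi cs n ^ 2 := by rw [← hq2]; ring
      rw [e]; exact z5
    gcongr
    calc 5 * Ct * r * (q ^ 4 / δ) ≤ 5 * Ct * r * (4 * (cs * M) ^ 2) := by (clear * - this hCt hr; gcongr)
      _ = 20 * Ct * r * (cs * M) ^ 2 := by ring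
      _ ≤ 1 / 4 := hc0
  have k2 : D * (2 * Ct * r * (q ^ 2 * ell cs n * s)) ≤ D * (1 / 4) := by
    gcongr
    have h1 : q ^ 2 * ell cs n * s ≤ 1 / (n : ℝ) := by
      calc q ^ 2 * ell cs n * s ≤ 1 ^ 2 * (1 / (n : ℝ)) * 1 := by (clear * - hq0 z3 z4 hl0 hs1 hs0 hn2; gcongr)
        _ = 1 / (n : ℝ) := by ring
    have h2 : 8 * Ct * r ≤ (n : ℝ) := by
      refine le_trans ?_ hNn
      have : 0 ≤ 64 * M ^ 4 * cc * (10 * Ct * M + Ct / cs + 2 * Ct) / cs := by (clear * - hM hCC hCt hcs; positivity)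
      linarith only [this]
    calc 2 * Ct * r * (q ^ 2 * ell cs n * s) ≤ 2 * Ct * r * (1 / (n : ℝ)) := by (clear * - h1 hCt hr; gcongr)
      _ = (8 * Ct * r) * (1 / (4 * (n : ℝ))) := by field_simp; ring
      _ ≤ (n : ℝ) * (1 / (4 * (n : ℝ))) := by (clear * - h2 hn2; gcongr)
      _ = 1 / 4 := by field_simp
  have k3 : cc / (n : ℝ) ^ (qb + 100) * (Ct * (5 * q ^ 3 / s + s / q + 2 * δ * q * ell cs n))
      ≤ D * (1 / 4) := by
    have h1 : Ct * (5 * q ^ 3 / s + s / q + 2 * δ * q * ell cs n)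
        ≤ (n : ℝ) ^ 8 * (10 * Ct * M + Ct / cs + 2 * Ct) := by
      have a1 : 5 * q ^ 3 / s ≤ 10 * M * (n : ℝ) ^ 8 := by
        calc 5 * q ^ 3 / s ≤ 5 * 1 ^ 3 / s := by (clear * - hq0 z3 hs0; gcongr)
          _ = 5 * (1 / s) := by ring
          _ ≤ 5 * (2 * M * (n : ℝ) ^ 8) := by (clear * - z1; gcongr)
          _ = 10 * M * (n : ℝ) ^ 8 := by ring
      have a2 : s / q ≤ (n : ℝ) ^ 8 / cs := by
        calc s / q ≤ 1 / q := by (clear * - hs1 hq0; gcongr)
          _ ≤ (n : ℝ) ^ 4 / cs := z2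
          _ ≤ (n : ℝ) ^ 8 / cs := by
            gcongr
            norm_num
      have a3 : 2 * δ * q * ell cs n ≤ 2 * (n : ℝ) ^ 8 := by
        have h8 : (1 : ℝ) ≤ (n : ℝ) ^ 8 := one_le_pow₀ hn1
        have hl1 : ell cs n ≤ 1 := z4.trans (by rw [div_le_one hn0]; exact hn1)
        calc 2 * δ * q * ell cs n ≤ 2 * 1 * 1 * 1 := by (clear * - hδ3 z3 hq0 hl1 hl0; gcongr)
          _ ≤ 2 * (n : ℝ) ^ 8 := by linarith only [h8]
      calc Ct * (5 * q ^ 3 / s + s / q + 2 * δ * q * ell cs n)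
          ≤ Ct * (10 * M * (n : ℝ) ^ 8 + (n : ℝ) ^ 8 / cs + 2 * (n : ℝ) ^ 8) := by (clear * - a1 a2 a3 hCt; gcongr)
        _ = _ := by ring
    have h2 : 64 * M ^ 4 * cc * (10 * Ct * M + Ct / cs + 2 * Ct) / cs ≤ (n : ℝ) := by
      refine le_trans ?_ hNn
      have : 0 ≤ 8 * Ct * r := by (clear * - hCt hr; positivity)
      linarith only [this]
    have h3 : (n : ℝ) ≤ (n : ℝ) ^ 92 := le_self_pow₀ hn1 (by norm_num)
    have h4 : 64 * M ^ 4 * (cc * (10 * Ct * M + Ct / cs + 2 * Ct)) ≤ cs * (n : ℝ) ^ 92 := by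
      have := h2.trans h3
      rw [div_le_iff₀ hcs] at this
      linarith only [this]
    calc cc / (n : ℝ) ^ (qb + 100) * (Ct * (5 * q ^ 3 / s + s / q + 2 * δ * q * ell cs n))
        ≤ cc / (n : ℝ) ^ (qb + 100) * ((n : ℝ) ^ 8 * (10 * Ct * M + Ct / cs + 2 * Ct)) := by (clear * - h1 hCC hn2; gcongr)
      _ = (64 * M ^ 4 * (cc * (10 * Ct * M + Ct / cs + 2 * Ct))) *
          (1 / (64 * M ^ 4 * (n : ℝ) ^ (qb + 92))) := by
        field_simp
        ring
      _ ≤ (cs * (n : ℝ) ^ 92) * (1 / (64 * M ^ 4 * (n : ℝ) ^ (qb + 92))) := by (clear * - h4 hM hn2; gcongr)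
      _ = cs / (16 * M ^ 4 * (n : ℝ) ^ qb) * (1 / 4) := by
        rw [pow_add]
        field_simp
        norm_num
      _ ≤ D * (1 / 4) := by (clear * - z6; gcongr)
  linarith only [k1, k2, k3]

end PF

end Vale.Agent.P229.D
end
end

section

section

/-!
# P229, disproof, task T20b: the metric on the plane
-/

open scoped ContDiff Topology RealInnerProductSpace
open MeasureTheory Set Metric

namespace Vale.Agent.P229.D

theorem confIso_shift {Φ φ : Pl → ℝ} {c : Pl} {r : ℝ}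
    (h : ∀ p ∈ ball (0 : Pl) r, Φ (c + p) = φ p) {F : Pl → E3} {U : Set Pl}
    (hsub : ball c r ⊆ U) (hF : ConfIso Φ U F) :
    ConfIso φ (ball (0 : Pl) r) (fun p => F (c + p)) := by
  intro p hp
  have hpU : c + p ∈ U := by
    apply hsub
    rw [mem_ball, dist_eq_norm, add_sub_cancel_left]
    rwa [mem_ball_zero_iff] at hp
  have h1 := hF (c + p) hpU
  rw [h p hp] at h1
  have h2 : fderiv ℝ (fun p => F (c + p)) p = fderiv ℝ F (c + p) := fderiv_comp_add_left c
  rw [h2]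
  exact h1

theorem main_pl_of_squares {r0 : ℕ → ℝ} {S : Set ℕ} {q : ℕ → Pl} {r : ℕ → ℝ}
    (h1 : ∀ n ∈ S, 0 < r n ∧ r n ≤ r0 n ∧ (0 : Pl) ∉ closedBall (q n) (r n))
    (h2 : ∀ n ∈ S, ∀ k ∈ S, n ≠ k → Disjoint (closedBall (q n) (r n)) (closedBall (q k) (r k)))
    (h3 : ∀ p : Pl, (∀ n ∈ S, p ∉ ball (q n) (r n)) → ∀ s : ℝ, 0 < s → ∀ k : ℕ,
        ∃ n ∈ S, k ≤ n ∧ closedBall (q n) (r n) ⊆ ball p s)
    (hdl : ∀ (n : ℕ) (r : ℝ), 0 < r → r ≤ r0 n → ∀ (m : ℕ) (e : ℝ), 0 < e →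
      ∃ φ : Pl → ℝ, ContDiff ℝ ∞ φ ∧
      tsupport φ ⊆ ball (0 : Pl) r ∧ (∀ p, φ p ≤ 0) ∧ φ 0 < 0 ∧
      (∀ j ≤ m, ∀ p, ‖iteratedFDeriv ℝ j φ p‖ ≤ e) ∧
      ∀ F : Pl → E3, ContDiffOn ℝ 4 F (ball (0 : Pl) r) →
        ConfIso φ (ball (0 : Pl) r) F →
        (∀ p ∈ ball (0 : Pl) r, ‖iteratedFDeriv ℝ 2 F p‖ ≤ (n : ℝ) + 1 ∧
          ‖iteratedFDeriv ℝ 3 F p‖ ≤ (n : ℝ) + 1 ∧ ‖iteratedFDeriv ℝ 4 F p‖ ≤ (n : ℝ) + 1) →
        ‖iteratedFDeriv ℝ 2 F 0‖ < 1 / ((n : ℝ) + 1))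
    (hbp : ∀ {U : Set Pl}, IsOpen U → ∀ {c : Pl} {r : ℝ}, 0 < r → closedBall c r ⊆ U →
      ∀ {φ : Pl → ℝ}, Continuous φ → (∀ p ∈ closedBall c r, φ p ≤ 0) → φ c < 0 →
      (∀ p ∈ sphere c r, φ p = 0) → ∀ {F : Pl → E3}, ContDiffOn ℝ 4 F U → ConfIso φ U F →
      ∃ p ∈ sphere c r, iteratedFDeriv ℝ 2 F p ≠ 0) :
    ∃ φ : Pl → ℝ, ContDiff ℝ ∞ φ ∧ ∀ U : Set Pl, IsOpen U → (0 : Pl) ∈ U →
      ∀ F : Pl → E3, ContDiffOn ℝ 4 F U → ConfIso φ U F → False := by
  have hex : ∀ n : ℕ, ∃ φ : Pl → ℝ, ContDiff ℝ ∞ φ ∧ (n ∉ S → ∀ p, φ p = 0) ∧ (n ∈ S →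
      tsupport φ ⊆ ball (0 : Pl) (r n) ∧ (∀ p, φ p ≤ 0) ∧ φ 0 < 0 ∧
      (∀ F : Pl → E3, ContDiffOn ℝ 4 F (ball (0 : Pl) (r n)) →
        ConfIso φ (ball (0 : Pl) (r n)) F →
        (∀ p ∈ ball (0 : Pl) (r n), ‖iteratedFDeriv ℝ 2 F p‖ ≤ (n : ℝ) + 1 ∧
          ‖iteratedFDeriv ℝ 3 F p‖ ≤ (n : ℝ) + 1 ∧ ‖iteratedFDeriv ℝ 4 F p‖ ≤ (n : ℝ) + 1) →
        ‖iteratedFDeriv ℝ 2 F 0‖ < 1 / ((n : ℝ) + 1))) ∧
      ∀ j ≤ n, ∀ p, ‖iteratedFDeriv ℝ j φ p‖ ≤ (1 / 2 : ℝ) ^ n := by
    intro n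
    by_cases hn : n ∈ S
    · obtain ⟨φ, a1, a2, a3, a4, a5, a6⟩ := hdl n (r n) (h1 n hn).1 (h1 n hn).2.1 n
        ((1 / 2 : ℝ) ^ n) (by positivity)
      exact ⟨φ, a1, fun h => absurd hn h, fun _ => ⟨a2, a3, a4, a6⟩, a5⟩
    · refine ⟨fun _ => 0, contDiff_const, fun _ _ => rfl, fun h => absurd h hn, fun j _ p => ?_⟩
      have : iteratedFDeriv ℝ j (fun _ : Pl => (0 : ℝ)) p = 0 := by
        have := congrFun (iteratedFDeriv_fun_zero (𝕜 := ℝ) (n := j) (E := Pl) (F := ℝ)) p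
        exact this
      rw [this, norm_zero]; positivity
  choose φ hsm hout hin hbd using hex
  set f : ℕ → Pl → ℝ := fun n x => φ n (x - q n) with hf
  have hfsm : ∀ n, ContDiff ℝ ∞ (f n) := fun n =>
    (hsm n).comp (contDiff_id.sub contDiff_const)
  -- support
  have hsupp : ∀ n, ∀ x, (n ∈ S → x ∉ ball (q n) (r n)) → f n x = 0 := by
    intro n x hx
    by_cases hn : n ∈ S
    · by_contra hne
      apply hx hn
      have h5 : x - q n ∈ tsupport (φ n) := subset_tsupport _ hne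
      have h6 := (hin n hn).1 h5
      rw [mem_ball_zero_iff] at h6
      rwa [mem_ball, dist_eq_norm]
    · exact hout n hn _
  have hsingle : ∀ n ∈ S, ∀ x ∈ closedBall (q n) (r n), ∑' i, f i x = f n x := by
    intro n hn x hx
    refine tsum_eq_single n fun i hi => hsupp i x fun hiS hxi => ?_
    exact (Set.disjoint_left.1 (h2 i hiS n hn hi)) (ball_subset_closedBall hxi) hx
  have hΦ : ContDiff ℝ ∞ (fun x => ∑' i, f i x) := by
    refine contDiff_tsum_of_eventually (v := fun _ i => (1 / 2 : ℝ) ^ i) hfsm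
      (fun k _ => summable_geometric_two) fun k _ => ?_
    rw [Nat.cofinite_eq_atTop]
    filter_upwards [Filter.eventually_ge_atTop k] with i hi x
    have : iteratedFDeriv ℝ k (f i) x = iteratedFDeriv ℝ k (φ i) (x - q i) :=
      iteratedFDeriv_comp_sub k (q i) x
    rw [this]
    exact hbd i k hi _
  refine ⟨fun x => ∑' i, f i x, hΦ, fun U hU h0 F hF hiso => ?_⟩
  obtain ⟨s, hs, hsU⟩ := Metric.isOpen_iff.1 hU 0 h0
  obtain ⟨i, hiS, -, hiU⟩ := h3 0 (fun n hn h => (h1 n hn).2.2 (ball_subset_closedBall h)) s hs 0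
  have hri := (h1 i hiS).1
  obtain ⟨p, hp, hpne⟩ := hbp hU hri (hiU.trans hsU) hΦ.continuous
    (fun x hx => by
      rw [hsingle i hiS x hx]
      exact (hin i hiS).2.1 _)
    (by
      rw [hsingle i hiS (q i) (mem_closedBall_self hri.le)]
      simp only [hf, sub_self]
      exact (hin i hiS).2.2.1)
    (fun x hx => by
      rw [hsingle i hiS x (sphere_subset_closedBall hx)]
      refine hsupp i x fun _ hb => ?_
      rw [mem_sphere] at hx
      rw [mem_ball, hx] at hb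
      exact lt_irrefl _ hb)
    hF hiso
  have hpU : p ∈ U := (hiU.trans hsU) (sphere_subset_closedBall hp)
  have hcd : ContDiffAt ℝ 4 F p := hF.contDiffAt (hU.mem_nhds hpU)
  have hc2 : ContinuousAt (fun x => ‖iteratedFDeriv ℝ 2 F x‖) p :=
    (hcd.continuousAt_iteratedFDeriv (k := 2) (by norm_num)).norm
  have hc3 : ContinuousAt (fun x => ‖iteratedFDeriv ℝ 3 F x‖) p :=
    (hcd.continuousAt_iteratedFDeriv (k := 3) (by norm_num)).norm
  have hc4 : ContinuousAt (fun x => ‖iteratedFDeriv ℝ 4 F x‖) p :=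
    (hcd.continuousAt_iteratedFDeriv (k := 4) (by norm_num)).norm
  have hpos : 0 < ‖iteratedFDeriv ℝ 2 F p‖ := norm_pos_iff.2 hpne
  obtain ⟨M, hM⟩ : ∃ M : ℕ, ‖iteratedFDeriv ℝ 2 F p‖ + 1 ≤ M ∧ ‖iteratedFDeriv ℝ 3 F p‖ + 1 ≤ M ∧
      ‖iteratedFDeriv ℝ 4 F p‖ + 1 ≤ M ∧ 2 / ‖iteratedFDeriv ℝ 2 F p‖ ≤ M := by
    obtain ⟨M, hM⟩ := exists_nat_ge (max (max (‖iteratedFDeriv ℝ 2 F p‖ + 1)
      (‖iteratedFDeriv ℝ 3 F p‖ + 1)) (max (‖iteratedFDeriv ℝ 4 F p‖ + 1)
        (2 / ‖iteratedFDeriv ℝ 2 F p‖)))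
    exact ⟨M, (le_max_left _ _).trans ((le_max_left _ _).trans hM),
      (le_max_right _ _).trans ((le_max_left _ _).trans hM),
      (le_max_left _ _).trans ((le_max_right _ _).trans hM),
      (le_max_right _ _).trans ((le_max_right _ _).trans hM)⟩
  have hev : ∀ᶠ x in 𝓝 p, ‖iteratedFDeriv ℝ 2 F x‖ < M ∧ ‖iteratedFDeriv ℝ 3 F x‖ < M ∧
      ‖iteratedFDeriv ℝ 4 F x‖ < M ∧ ‖iteratedFDeriv ℝ 2 F p‖ / 2 < ‖iteratedFDeriv ℝ 2 F x‖ ∧
      x ∈ U := by
    filter_upwards [hc2.eventually (gt_mem_nhds (show ‖iteratedFDeriv ℝ 2 F p‖ < M by linarith only [hM])),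
      hc3.eventually (gt_mem_nhds (show ‖iteratedFDeriv ℝ 3 F p‖ < M by linarith)),
      hc4.eventually (gt_mem_nhds (show ‖iteratedFDeriv ℝ 4 F p‖ < M by linarith only [hM])),
      hc2.eventually (lt_mem_nhds (show ‖iteratedFDeriv ℝ 2 F p‖ / 2 < ‖iteratedFDeriv ℝ 2 F p‖
        by linarith only [hpos])), hU.mem_nhds hpU] with x a b c d e
    exact ⟨a, b, c, d, e⟩
  obtain ⟨s', hs', hball⟩ := Metric.eventually_nhds_iff_ball.1 hev
  have hpout : ∀ n ∈ S, p ∉ ball (q n) (r n) := by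
    intro n hn h
    by_cases hni : n = i
    · subst hni
      rw [mem_sphere] at hp
      rw [mem_ball, hp] at h
      exact lt_irrefl _ h
    · exact (Set.disjoint_left.1 (h2 n hn i hiS hni)) (ball_subset_closedBall h)
        (sphere_subset_closedBall hp)
  obtain ⟨n, hnS, hMn, hnsub⟩ := h3 p hpout s' hs' M
  have hrn := (h1 n hnS).1
  have hnU : ball (q n) (r n) ⊆ U := fun x hx =>
    (hball x (hnsub (ball_subset_closedBall hx))).2.2.2.2
  have hMn' : (M : ℝ) ≤ n := by exact_mod_cast hMn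
  have key := (hin n hnS).2.2.2 (fun x => F (q n + x))
    (by
      have : ContDiffOn ℝ 4 (fun x : Pl => q n + x) (ball 0 (r n)) :=
        (contDiff_const.add contDiff_id).contDiffOn
      refine hF.comp this fun x hx => hnU ?_
      rw [mem_ball, dist_eq_norm, add_sub_cancel_left]
      rwa [mem_ball_zero_iff] at hx)
    (confIso_shift (fun x hx => by
      have hx' : q n + x ∈ closedBall (q n) (r n) := by
        rw [mem_closedBall, dist_eq_norm, add_sub_cancel_left]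
        rw [mem_ball_zero_iff] at hx
        exact hx.le
      rw [hsingle n hnS _ hx']
      simp only [hf, add_sub_cancel_left]) hnU hiso)
    (fun x hx => by
      have hx' : q n + x ∈ ball p s' := by
        apply hnsub
        rw [mem_closedBall, dist_eq_norm, add_sub_cancel_left]
        rw [mem_ball_zero_iff] at hx
        exact hx.le
      have h7 := hball _ hx'
      rw [iteratedFDeriv_comp_add_left, iteratedFDeriv_comp_add_left,
        iteratedFDeriv_comp_add_left]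
      exact ⟨by linarith only [hMn', h7], by linarith only [hMn', h7], by linarith only [hMn', h7]⟩)
  rw [iteratedFDeriv_comp_add_left, add_zero] at key
  have h8 := (hball _ (hnsub (mem_closedBall_self hrn.le))).2.2.2.1
  have h9 : 2 / ‖iteratedFDeriv ℝ 2 F p‖ ≤ (n : ℝ) + 1 := by linarith only [hM, hMn']
  have h10 : 2 ≤ ((n : ℝ) + 1) * ‖iteratedFDeriv ℝ 2 F p‖ := by
    rwa [div_le_iff₀ hpos] at h9
  have hn1 : (0 : ℝ) < (n : ℝ) + 1 := by (clear * -; positivity)
  rw [lt_div_iff₀ hn1] at key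
  nlinarith only [key, h8, h10]

end Vale.Agent.P229.D
end
end

section

section

/-!
# P229, disproof, task T20b: transfer to `E2`
-/

open scoped ContDiff Topology RealInnerProductSpace
open MeasureTheory Set Metric

namespace Vale.Agent.P229.D

/-- `ℝ × ℝ → E2`. -/
noncomputable def toE2 : (ℝ × ℝ) →L[ℝ] E2 :=
  (ContinuousLinearMap.fst ℝ ℝ ℝ).smulRight (EuclideanSpace.single (0 : Fin 2) (1 : ℝ)) +
  (ContinuousLinearMap.snd ℝ ℝ ℝ).smulRight (EuclideanSpace.single (1 : Fin 2) (1 : ℝ))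

theorem toE2_apply (p : ℝ × ℝ) : toE2 p = p.1 • EuclideanSpace.single (0 : Fin 2) (1 : ℝ)
    + p.2 • EuclideanSpace.single (1 : Fin 2) (1 : ℝ) := rfl

theorem toE2_zero_apply (p : ℝ × ℝ) : (toE2 p) 0 = p.1 := by
  simp [toE2_apply]

theorem toE2_one_apply (p : ℝ × ℝ) : (toE2 p) 1 = p.2 := by
  simp [toE2_apply]

/-- The coordinates of a point of `E2`. -/
noncomputable def ofE2 (x : E2) : ℝ × ℝ := (x 0, x 1)

theorem ofE2_toE2 (p : ℝ × ℝ) : ofE2 (toE2 p) = p := by
  simp [ofE2, toE2_zero_apply, toE2_one_apply]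

theorem contDiff_ofE2 : ContDiff ℝ ∞ ofE2 :=
  ContDiff.prodMk ((EuclideanSpace.proj (𝕜 := ℝ) (0 : Fin 2)).contDiff)
    ((EuclideanSpace.proj (𝕜 := ℝ) (1 : Fin 2)).contDiff)

/-- From `main_pl` to the statement on `E2`. -/
theorem main_of_pl (h : ∃ φ : Pl → ℝ, ContDiff ℝ ∞ φ ∧ ∀ U : Set Pl, IsOpen U → (0 : Pl) ∈ U →
    ∀ F : Pl → E3, ContDiffOn ℝ 4 F U → ConfIso φ U F → False) :
    ∃ g : E2 → Matrix (Fin 2) (Fin 2) ℝ, IsMetricOn ∞ g Set.univ ∧
    ∀ n : WithTop ℕ∞, 4 ≤ n → ¬ LocallyRealizableAt n g 0 := by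
  obtain ⟨φ, hφ, hno⟩ := h
  refine ⟨fun x => Matrix.diagonal fun _ => Real.exp (2 * φ (ofE2 x)), ⟨?_, ?_⟩, ?_⟩
  · intro i j
    by_cases hij : i = j
    · subst hij
      simp only [Matrix.diagonal_apply_eq]
      exact (Real.contDiff_exp.comp (contDiff_const.mul (hφ.comp contDiff_ofE2))).contDiffOn
    · simp only [Matrix.diagonal_apply_ne _ hij]
      exact contDiffOn_const
  · intro x _
    exact Matrix.PosDef.diagonal fun _ => Real.exp_pos _
  · rintro n hn ⟨U, hU, h0, F, hF, hiso⟩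
    have hpre : IsOpen (toE2 ⁻¹' U) := hU.preimage toE2.continuous
    refine hno (toE2 ⁻¹' U) hpre (by simpa only [mem_preimage, map_zero] using h0) (fun p => F (toE2 p)) ?_ ?_
    · exact (hF.of_le hn).comp toE2.contDiff.contDiffOn fun p hp => hp
    · intro p hp
      have hd : DifferentiableAt ℝ F (toE2 p) :=
        (hF.contDiffAt (hU.mem_nhds hp)).differentiableAt
          (by
            rintro rfl
            exact absurd hn (by simp))
      have hfd : fderiv ℝ (fun p => F (toE2 p)) p = (fderiv ℝ F (toE2 p)).comp toE2 := by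
        have := fderiv_comp (𝕜 := ℝ) p hd toE2.differentiableAt
        rw [toE2.fderiv] at this
        exact this
      have e0 : toE2 (1, 0) = EuclideanSpace.single (0 : Fin 2) (1 : ℝ) := by
        simp [toE2_apply]
      have e1 : toE2 (0, 1) = EuclideanSpace.single (1 : Fin 2) (1 : ℝ) := by
        simp only [toE2_apply, Fin.isValue, zero_smul, one_smul, zero_add]
      rw [hfd]
      simp only [ContinuousLinearMap.comp_apply, e0, e1]
      have h00 := hiso _ hp 0 0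
      have h11 := hiso _ hp 1 1
      have h01 := hiso _ hp 0 1
      simp only [Matrix.diagonal_apply_eq, ofE2_toE2] at h00 h11
      have h01' : (Matrix.diagonal fun _ : Fin 2 => Real.exp (2 * φ (ofE2 (toE2 p)))) 0 1 = 0 :=
        Matrix.diagonal_apply_ne _ (by decide)
      exact ⟨h00, h11, h01.trans h01'⟩

end Vale.Agent.P229.D
end
end

section

section

/-!
# P229, disproof, task T20a: on the boundary of a square the second derivative does not vanish
identically (`PROOF.md`, §1)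
-/

open scoped ContDiff Topology RealInnerProductSpace
open MeasureTheory Set

namespace Vale.Agent.P229.D

theorem bp_mem_closedBall {c p : Pl} {r : ℝ} (h1 : |p.1 - c.1| ≤ r) (h2 : |p.2 - c.2| ≤ r) :
    p ∈ Metric.closedBall c r := by
  rw [Metric.mem_closedBall, Prod.dist_eq, Real.dist_eq, Real.dist_eq]
  exact max_le h1 h2

theorem bp_mem_sphere {c p : Pl} {r : ℝ} (h1 : |p.1 - c.1| ≤ r) (h2 : |p.2 - c.2| ≤ r)
    (h3 : |p.1 - c.1| = r ∨ |p.2 - c.2| = r) : p ∈ Metric.sphere c r := by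
  rw [Metric.mem_sphere, Prod.dist_eq, Real.dist_eq, Real.dist_eq]
  rcases h3 with h | h
  · rw [h]; exact max_eq_left h2
  · rw [h]; exact max_eq_right h1

/-- along a segment where the second derivative vanishes. -/
theorem bp_segment {U : Set Pl} (hU : IsOpen U) {F : Pl → E3} (hF : ContDiffOn ℝ 4 F U)
    {p v : Pl} (hmem : ∀ t : ℝ, 0 ≤ t → t ≤ 1 → p + t • v ∈ U)
    (h2 : ∀ t : ℝ, 0 ≤ t → t ≤ 1 → fderiv ℝ (fderiv ℝ F) (p + t • v) = 0) :
    fderiv ℝ F (p + v) = fderiv ℝ F p ∧ F (p + v) = F p + fderiv ℝ F p v := by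
  have hd1 : ∀ q ∈ U, DifferentiableAt ℝ F q := fun q hq =>
    (hF.contDiffAt (hU.mem_nhds hq)).differentiableAt (by norm_num)
  have hd2 : ∀ q ∈ U, DifferentiableAt ℝ (fderiv ℝ F) q := fun q hq =>
    ((hF.contDiffAt (hU.mem_nhds hq)).fderiv_right (m := 1) (by norm_num)).differentiableAt
      (by norm_num)
  have hl : ∀ t : ℝ, HasDerivAt (fun t : ℝ => p + t • v) v t := by
    intro t
    have h := ((hasDerivAt_id t).smul_const v).const_add p
    simpa using h
  have e1 : ∀ t ∈ Icc (0 : ℝ) 1, fderiv ℝ F (p + t • v) = fderiv ℝ F (p + (0 : ℝ) • v) := by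
    apply constant_of_has_deriv_right_zero (f := fun t : ℝ => fderiv ℝ F (p + t • v))
    · intro t ht
      have h := (hd2 _ (hmem t ht.1 ht.2)).continuousAt
      exact (ContinuousAt.comp (f := fun t : ℝ => p + t • v) h
        (hl t).continuousAt).continuousWithinAt
    · intro t ht
      have h := (hd2 _ (hmem t ht.1 ht.2.le)).hasFDerivAt.comp_hasDerivAt t (hl t)
      rw [h2 t ht.1 ht.2.le] at h
      exact h.hasDerivWithinAt
  have hp0 : p + (0 : ℝ) • v = p := by simp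
  have hp1 : p + (1 : ℝ) • v = p + v := by simp
  rw [hp0] at e1
  have e2 : ∀ t ∈ Icc (0 : ℝ) 1, F (p + t • v) - t • fderiv ℝ F p v
      = F (p + (0 : ℝ) • v) - (0 : ℝ) • fderiv ℝ F p v := by
    apply constant_of_has_deriv_right_zero (f := fun t : ℝ => F (p + t • v) - t • fderiv ℝ F p v)
    · intro t ht
      have h := (hd1 _ (hmem t ht.1 ht.2)).continuousAt
      exact ((ContinuousAt.comp (f := fun t : ℝ => p + t • v) h
        (hl t).continuousAt).sub (by fun_prop)).continuousWithinAt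
    · intro t ht
      have h := (hd1 _ (hmem t ht.1 ht.2.le)).hasFDerivAt.comp_hasDerivAt t (hl t)
      have h' := h.sub ((hasDerivAt_id t).smul_const (fderiv ℝ F p v))
      rw [e1 t ⟨ht.1, ht.2.le⟩] at h'
      have h3 : fderiv ℝ F p v - (1 : ℝ) • fderiv ℝ F p v = 0 := by simp
      rw [h3] at h'
      exact h'.hasDerivWithinAt
  have e3 := e1 1 ⟨zero_le_one, le_rfl⟩
  have e4 := e2 1 ⟨zero_le_one, le_rfl⟩
  rw [hp1] at e3 e4
  rw [hp0] at e4
  refine ⟨e3, ?_⟩
  simp only [one_smul, zero_smul, sub_zero] at e4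
  rw [← e4]
  simp

/-- On the boundary of a square the second derivative does not vanish identically. -/
theorem exists_boundary_point {U : Set Pl} (hU : IsOpen U) {c : Pl} {r : ℝ} (hr : 0 < r)
    (hsub : Metric.closedBall c r ⊆ U) {φ : Pl → ℝ} (hφ : Continuous φ)
    (hneg : ∀ p ∈ Metric.closedBall c r, φ p ≤ 0) (hc : φ c < 0)
    (hbd : ∀ p ∈ Metric.sphere c r, φ p = 0) {F : Pl → E3} (hF : ContDiffOn ℝ 4 F U)
    (hiso : ConfIso φ U F) : ∃ p ∈ Metric.sphere c r, iteratedFDeriv ℝ 2 F p ≠ 0 := by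
  by_contra hcon
  push Not at hcon
  have hz : ∀ p ∈ Metric.sphere c r, fderiv ℝ (fderiv ℝ F) p = 0 := by
    intro p hp
    refine ContinuousLinearMap.ext fun v => ContinuousLinearMap.ext fun w => ?_
    have h := iteratedFDeriv_two_apply (𝕜 := ℝ) F p ![v, w]
    rw [hcon p hp] at h
    simp only [Matrix.cons_val_zero, Matrix.cons_val_one] at h
    rw [← h]
    rfl
  have habs : ∀ {x : ℝ}, -r ≤ x → x ≤ r → |x| ≤ r := fun h1 h2 => abs_le.2 ⟨h1, h2⟩
  -- the three sides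
  set p0 : Pl := (c.1 - r, c.2) with hp0
  set p1 : Pl := (c.1 - r, c.2 + r) with hp1
  set p2 : Pl := (c.1 + r, c.2 + r) with hp2
  set p3 : Pl := (c.1 + r, c.2) with hp3
  have m1 : ∀ t : ℝ, 0 ≤ t → t ≤ 1 → p0 + t • ((0, r) : Pl) ∈ Metric.sphere c r := by
    intro t h0 h1
    refine bp_mem_sphere ?_ ?_ (Or.inl ?_)
    · simp only [hp0, Prod.fst_add, Prod.smul_fst, smul_eq_mul]
      exact habs (by linarith only []) (by linarith only [hr])
    · simp only [hp0, Prod.snd_add, Prod.smul_snd, smul_eq_mul]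
      exact habs (by nlinarith only [hr, h0]) (by nlinarith only [hr, h1])
    · simp only [hp0, Prod.fst_add, Prod.smul_fst, smul_eq_mul]
      rw [show c.1 - r + t * 0 - c.1 = -r by ring, abs_neg, abs_of_pos hr]
  have m2 : ∀ t : ℝ, 0 ≤ t → t ≤ 1 → p1 + t • ((2 * r, 0) : Pl) ∈ Metric.sphere c r := by
    intro t h0 h1
    refine bp_mem_sphere ?_ ?_ (Or.inr ?_)
    · simp only [hp1, Prod.fst_add, Prod.smul_fst, smul_eq_mul]
      exact habs (by nlinarith only [hr, h0]) (by nlinarith only [hr, h1])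
    · simp only [hp1, Prod.snd_add, Prod.smul_snd, smul_eq_mul]
      exact habs (by linarith) (by linarith)
    · simp only [hp1, Prod.snd_add, Prod.smul_snd, smul_eq_mul]
      rw [show c.2 + r + t * 0 - c.2 = r by ring, abs_of_pos hr]
  have m3 : ∀ t : ℝ, 0 ≤ t → t ≤ 1 → p2 + t • ((0, -r) : Pl) ∈ Metric.sphere c r := by
    intro t h0 h1
    refine bp_mem_sphere ?_ ?_ (Or.inl ?_)
    · simp only [hp2, Prod.fst_add, Prod.smul_fst, smul_eq_mul]
      exact habs (by linarith) (by linarith)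
    · simp only [hp2, Prod.snd_add, Prod.smul_snd, smul_eq_mul]
      exact habs (by nlinarith only [hr, h1]) (by nlinarith only [hr, h0])
    · simp only [hp2, Prod.fst_add, Prod.smul_fst, smul_eq_mul]
      rw [show c.1 + r + t * 0 - c.1 = r by ring, abs_of_pos hr]
  have hss : ∀ p ∈ Metric.sphere c r, p ∈ U := fun p hp => hsub (Metric.sphere_subset_closedBall hp)
  obtain ⟨a1, b1⟩ := bp_segment hU hF (fun t h0 h1 => hss _ (m1 t h0 h1))
    (fun t h0 h1 => hz _ (m1 t h0 h1))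
  obtain ⟨a2, b2⟩ := bp_segment hU hF (fun t h0 h1 => hss _ (m2 t h0 h1))
    (fun t h0 h1 => hz _ (m2 t h0 h1))
  obtain ⟨a3, b3⟩ := bp_segment hU hF (fun t h0 h1 => hss _ (m3 t h0 h1))
    (fun t h0 h1 => hz _ (m3 t h0 h1))
  have q1 : p0 + ((0, r) : Pl) = p1 := by
    rw [hp0, hp1]; ext <;> simp
  have q2 : p1 + ((2 * r, 0) : Pl) = p2 := by
    rw [hp1, hp2]; ext <;> simp; ring
  have q3 : p2 + ((0, -r) : Pl) = p3 := by
    rw [hp2, hp3]; ext <;> simp
  rw [q1] at a1 b1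
  rw [q2] at a2 b2
  rw [q3] at a3 b3
  have hF3 : F p3 - F p0 = (2 * r) • fderiv ℝ F p0 (1, 0) := by
    rw [b3, b2, b1, a2, a1]
    have e1 : ((2 * r, 0) : Pl) = (2 * r) • ((1, 0) : Pl) := by ext <;> simp
    have e2 : ((0, -r) : Pl) = -((0, r) : Pl) := by ext <;> simp
    rw [e2, map_neg, e1, map_smul]
    abel
  have hp0s : p0 ∈ Metric.sphere c r := by
    have := m1 0 le_rfl zero_le_one
    simpa only [mem_sphere_iff_norm, zero_smul, add_zero] using this
  have hn0 : ‖fderiv ℝ F p0 (1, 0)‖ = 1 := by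
    have h := (hiso p0 (hss _ hp0s)).1
    rw [hbd _ hp0s, mul_zero, Real.exp_zero, real_inner_self_eq_norm_sq] at h
    have := norm_nonneg (fderiv ℝ F p0 (1, 0))
    nlinarith only [h, this]
  have hlen : ‖F p3 - F p0‖ = 2 * r := by
    rw [hF3, norm_smul, hn0, Real.norm_eq_abs, abs_of_pos (by linarith only [hr]), mul_one]
  -- the horizontal segment through the centre
  have hmemh : ∀ x ∈ Icc (-r) r, ((c.1 + x, c.2) : Pl) ∈ Metric.closedBall c r := by
    intro x hx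
    refine bp_mem_closedBall ?_ ?_
    · simp only [add_sub_cancel_left]
      exact habs hx.1 hx.2
    · simp [hr.le]
  have hγ : ∀ x : ℝ, HasDerivAt (fun x : ℝ => ((c.1 + x, c.2) : Pl)) (1, 0) x := by
    intro x
    exact ((hasDerivAt_id x).const_add c.1).prodMk (hasDerivAt_const x c.2)
  have hder : ∀ x ∈ uIcc (-r) r, HasDerivAt (fun x : ℝ => F (c.1 + x, c.2))
      (fderiv ℝ F (c.1 + x, c.2) (1, 0)) x := by
    intro x hx
    rw [uIcc_of_le (by linarith only [hr])] at hx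
    have hd : DifferentiableAt ℝ F (c.1 + x, c.2) :=
      (hF.contDiffAt (hU.mem_nhds (hsub (hmemh x hx)))).differentiableAt (by norm_num)
    exact hd.hasFDerivAt.comp_hasDerivAt x (hγ x)
  have hcont : ContinuousOn (fun x : ℝ => fderiv ℝ F (c.1 + x, c.2) (1, 0)) (uIcc (-r) r) := by
    intro x hx
    rw [uIcc_of_le (by linarith only [hr])] at hx
    have hd : ContinuousAt (fderiv ℝ F) (c.1 + x, c.2) :=
      ((hF.contDiffAt (hU.mem_nhds (hsub (hmemh x hx)))).fderiv_right (m := 3)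
        (by norm_num)).continuousAt
    have h1 : ContinuousAt (fun x : ℝ => fderiv ℝ F (c.1 + x, c.2)) x :=
      ContinuousAt.comp (f := fun x : ℝ => ((c.1 + x, c.2) : Pl)) hd (hγ x).continuousAt
    exact (h1.clm_apply continuousAt_const).continuousWithinAt
  have hint := intervalIntegral.integral_eq_sub_of_hasDerivAt hder hcont.intervalIntegrable
  have hnorm : ∀ x ∈ Icc (-r) r, ‖fderiv ℝ F (c.1 + x, c.2) (1, 0)‖ = Real.exp (φ (c.1 + x, c.2)) := by
    intro x hx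
    have h := (hiso _ (hsub (hmemh x hx))).1
    rw [real_inner_self_eq_norm_sq, two_mul, Real.exp_add] at h
    have h1 := norm_nonneg (fderiv ℝ F (c.1 + x, c.2) (1, 0))
    have h2 := Real.exp_pos (φ (c.1 + x, c.2))
    nlinarith only [h, h1, h2]
  have hle := intervalIntegral.norm_integral_le_integral_norm (μ := volume)
    (f := fun x : ℝ => fderiv ℝ F (c.1 + x, c.2) (1, 0)) (show -r ≤ r by linarith only [hr])
  rw [hint] at hle
  have hlt : ∫ x in (-r)..r, ‖fderiv ℝ F (c.1 + x, c.2) (1, 0)‖ < ∫ _x in (-r)..r, (1 : ℝ) := by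
    refine intervalIntegral.integral_lt_integral_of_continuousOn_of_le_of_exists_lt
      (show -r < r by linarith only [hr]) ?_ continuousOn_const ?_ ?_
    · rw [uIcc_of_le (by linarith only [hr])] at hcont
      exact hcont.norm
    · intro x hx
      have hx' : x ∈ Icc (-r) r := ⟨hx.1.le, hx.2⟩
      rw [hnorm x hx']
      exact Real.exp_le_one_iff.2 (hneg _ (hmemh x hx'))
    · have h0 : (0 : ℝ) ∈ Icc (-r) r := ⟨by linarith only [hr], hr.le⟩
      refine ⟨0, h0, ?_⟩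
      rw [hnorm 0 h0]
      simp only [add_zero]
      exact Real.exp_lt_one_iff.2 hc
  rw [intervalIntegral.integral_const, smul_eq_mul, mul_one] at hlt
  have e5 : F (c.1 + r, c.2) - F (c.1 + -r, c.2) = F p3 - F p0 := by
    rw [hp3, hp0, ← sub_eq_add_neg]
  rw [e5, hlen] at hle
  linarith only [hle, hlt]

end Vale.Agent.P229.D
end
end

section

section

set_option linter.all false

/-!
# P229, disproof: the sequence of disjoint squares (`PROOF.md`, section 1)
-/

open scoped ContDiff Topology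
open MeasureTheory Set

namespace Vale.Agent.P229.D

/-- Dependent choice with full history. -/
theorem sq_seq_history {X : Type*} [Nonempty X] (P : ℕ → (ℕ → X) → X → Prop)
    (hloc : ∀ n (t t' : ℕ → X) x, (∀ i < n, t i = t' i) → P n t x → P n t' x)
    (hex : ∀ n t, ∃ x, P n t x) : ∃ s : ℕ → X, ∀ n, P n s (s n) := by
  classical
  let F : ∀ n, (∀ i, i < n → X) → X := fun n ih =>
    Classical.epsilon (P n (fun i => if h : i < n then ih i h else Classical.arbitrary X))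
  let s : ℕ → X := fun n => Nat.lt_wfRel.wf.fix F n
  have hs : ∀ n, s n = F n (fun i _ => s i) := fun n => Nat.lt_wfRel.wf.fix_eq F n
  refine ⟨s, fun n => ?_⟩
  have hag : ∀ i < n, s i = (fun i => if h : i < n then s i else Classical.arbitrary X) i := by
    intro i hi
    simp [hi]
  have h3 := Classical.epsilon_spec
    (hex n (fun i => if h : i < n then s i else Classical.arbitrary X))
  have h4 : s n = Classical.epsilon
      (P n (fun i => if h : i < n then s i else Classical.arbitrary X)) := hs n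
  rw [← h4] at h3
  exact hloc n _ _ _ (fun i hi => (hag i hi).symm) h3

/-- A sequence of nonzero points which meets every nonempty open set infinitely often. -/
theorem sq_dense : ∃ q : ℕ → Pl, (∀ n, q n ≠ 0) ∧
    ∀ U : Set Pl, IsOpen U → U.Nonempty → ∀ N, ∃ n, N ≤ n ∧ q n ∈ U := by
  classical
  let d := TopologicalSpace.denseSeq Pl
  refine ⟨fun n => if d (Nat.unpair n).1 = 0 then ((1, 0) : ℝ × ℝ) else d (Nat.unpair n).1,
    fun n => ?_, fun U hU hne N => ?_⟩
  · by_cases h : d (Nat.unpair n).1 = 0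
    · simp only [h, if_true]
      intro h1
      have := congrArg Prod.fst h1
      simp at this
    · simp only [h, if_false]
      exact h
  · have hV : IsOpen (U \ {0}) := hU.sdiff isClosed_singleton
    have hVne : (U \ {0}).Nonempty := by
      by_contra hcon
      rw [Set.not_nonempty_iff_eq_empty, Set.diff_eq_empty] at hcon
      obtain ⟨u, hu⟩ := hne
      have hu0 : u = 0 := hcon hu
      subst hu0
      obtain ⟨ε, hε, hb⟩ := Metric.isOpen_iff.mp hU _ hu
      have h1 : ((ε / 2, 0) : ℝ × ℝ) ∈ Metric.ball (0 : ℝ × ℝ) ε := by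
        rw [mem_ball_zero_iff, Prod.norm_def]
        simp only [norm_zero]
        rw [max_eq_left (norm_nonneg _), Real.norm_eq_abs, abs_of_pos (by positivity)]
        linarith
      have h2 := hcon (hb h1)
      have h3 := congrArg Prod.fst h2
      simp only [Prod.fst_zero] at h3
      have : ε / 2 = 0 := h3
      linarith only [hε, h3]
    obtain ⟨m, hm⟩ := (TopologicalSpace.denseRange_denseSeq Pl).exists_mem_open hV hVne
    refine ⟨Nat.pair m N, Nat.right_le_pair m N, ?_⟩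
    have e : (Nat.unpair (Nat.pair m N)).1 = m := by simp
    have hd0 : d m ≠ 0 := hm.2
    simp only [e, hd0, if_false]
    exact hm.1

/-- A sequence of disjoint squares accumulating at every uncovered point. -/
theorem exists_squares (rmax : ℕ → ℝ) (hr : ∀ n, 0 < rmax n) :
    ∃ (S : Set ℕ) (q : ℕ → Pl) (r : ℕ → ℝ),
      (∀ n ∈ S, 0 < r n ∧ r n ≤ rmax n ∧ (0 : Pl) ∉ Metric.closedBall (q n) (r n)) ∧
      (∀ n ∈ S, ∀ k ∈ S, n ≠ k →
        Disjoint (Metric.closedBall (q n) (r n)) (Metric.closedBall (q k) (r k))) ∧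
      ∀ p : Pl, (∀ n ∈ S, p ∉ Metric.ball (q n) (r n)) → ∀ s : ℝ, 0 < s → ∀ k : ℕ,
        ∃ n ∈ S, k ≤ n ∧ Metric.closedBall (q n) (r n) ⊆ Metric.ball p s := by
  classical
  obtain ⟨q, hq0, hq⟩ := sq_dense
  let C : ℕ → (ℕ → ℝ) → Set Pl := fun n r =>
    ⋃ j ∈ (Finset.range n).filter (fun j => 0 < r j), Metric.closedBall (q j) (r j)
  have hCcl : ∀ n r, IsClosed (C n r) := by
    intro n r
    exact Set.Finite.isClosed_biUnion (Finset.finite_toSet _)
      (fun j _ => Metric.isClosed_closedBall)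
  have hCcongr : ∀ n (r r' : ℕ → ℝ), (∀ i < n, r i = r' i) → C n r = C n r' := by
    intro n r r' h
    ext z
    simp only [C, Set.mem_iUnion, Finset.mem_filter, Finset.mem_range, exists_prop]
    constructor
    · rintro ⟨j, ⟨hj, hj0⟩, hz⟩
      exact ⟨j, ⟨hj, by rw [← h j hj]; exact hj0⟩, by rw [← h j hj]; exact hz⟩
    · rintro ⟨j, ⟨hj, hj0⟩, hz⟩
      exact ⟨j, ⟨hj, by rw [h j hj]; exact hj0⟩, by rw [h j hj]; exact hz⟩
  obtain ⟨r, hrr⟩ := sq_seq_history (X := ℝ)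
    (fun n r x => (q n ∈ C n r → x = 0) ∧ (q n ∉ C n r → 0 < x ∧ x ≤ rmax n ∧
      x ≤ (1 / 2 : ℝ) ^ n ∧ (0 : Pl) ∉ Metric.closedBall (q n) x ∧
      Disjoint (Metric.closedBall (q n) x) (C n r)))
    (by
      intro n t t' x h H
      simp only [hCcongr n t t' h] at H
      exact H)
    (by
      intro n r
      by_cases h : q n ∈ C n r
      · exact ⟨0, fun _ => rfl, fun h' => absurd h h'⟩
      · have hop : IsOpen ((C n r)ᶜ ∩ {(0 : Pl)}ᶜ) :=
          (hCcl n r).isOpen_compl.inter isClosed_singleton.isOpen_compl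
        have hmem : q n ∈ (C n r)ᶜ ∩ {(0 : Pl)}ᶜ := ⟨h, hq0 n⟩
        obtain ⟨ε, hε, hb⟩ := Metric.isOpen_iff.mp hop _ hmem
        refine ⟨min (ε / 2) (min (rmax n) ((1 / 2 : ℝ) ^ n)), fun h' => absurd h' h, fun _ => ?_⟩
        have hsub : Metric.closedBall (q n) (min (ε / 2) (min (rmax n) ((1 / 2 : ℝ) ^ n))) ⊆
            (C n r)ᶜ ∩ {(0 : Pl)}ᶜ := by
          refine Set.Subset.trans ?_ hb
          exact Metric.closedBall_subset_ball (lt_of_le_of_lt (min_le_left _ _) (by linarith))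
        refine ⟨?_, ?_, ?_, ?_, ?_⟩
        · exact lt_min (by linarith only [hε]) (lt_min (hr n) (by positivity))
        · exact (min_le_right _ _).trans (min_le_left _ _)
        · exact (min_le_right _ _).trans (min_le_right _ _)
        · intro h0
          exact (hsub h0).2 rfl
        · rw [Set.disjoint_left]
          intro z hz
          exact (hsub hz).1)
  have hS : ∀ n, 0 < r n → q n ∉ C n r := by
    intro n hn h
    have := (hrr n).1 h
    linarith
  have hgood : ∀ n, 0 < r n → r n ≤ rmax n ∧ r n ≤ (1 / 2 : ℝ) ^ n ∧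
      (0 : Pl) ∉ Metric.closedBall (q n) (r n) ∧
      Disjoint (Metric.closedBall (q n) (r n)) (C n r) := by
    intro n hn
    exact ((hrr n).2 (hS n hn)).2
  have hdis : ∀ n k, 0 < r n → 0 < r k → k < n →
      Disjoint (Metric.closedBall (q n) (r n)) (Metric.closedBall (q k) (r k)) := by
    intro n k hn hk hkn
    refine (hgood n hn).2.2.2.mono_right ?_
    intro z hz
    simp only [C, Set.mem_iUnion, Finset.mem_filter, Finset.mem_range, exists_prop]
    exact ⟨k, ⟨hkn, hk⟩, hz⟩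
  refine ⟨{n | 0 < r n}, q, r, ?_, ?_, ?_⟩
  · intro n hn
    exact ⟨hn, (hgood n hn).1, (hgood n hn).2.2.1⟩
  · intro n hn k hk hnk
    rcases lt_or_gt_of_ne hnk with h | h
    · exact (hdis k n hk hn h).symm
    · exact hdis n k hn hk h
  · intro p hp s hs k
    obtain ⟨k1, hk1⟩ : ∃ k1 : ℕ, (1 / 2 : ℝ) ^ k1 < s / 4 :=
      exists_pow_lt_of_lt_one (by linarith) (by norm_num)
    set k0 := max k k1 with hk0
    have hk0s : (1 / 2 : ℝ) ^ k0 < s / 4 :=
      lt_of_le_of_lt (pow_le_pow_of_le_one (by norm_num) (by norm_num) (le_max_right k k1)) hk1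
    -- a nonempty open set near `p` missing the first squares
    have hV : (Metric.ball p (s / 2) ∩ (C k0 r)ᶜ).Nonempty := by
      by_cases hpC : p ∈ C k0 r
      · simp only [C, Set.mem_iUnion, Finset.mem_filter, Finset.mem_range, exists_prop] at hpC
        obtain ⟨i, ⟨hik, hi0⟩, hpi⟩ := hpC
        have hpb := hp i hi0
        have hdist : dist p (q i) = r i := by
          refine le_antisymm (Metric.mem_closedBall.mp hpi) ?_
          rw [Metric.mem_ball, not_lt] at hpb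
          exact hpb
        -- the other squares
        let D : Set Pl := ⋃ j ∈ (Finset.range k0).filter (fun j => 0 < r j ∧ j ≠ i),
          Metric.closedBall (q j) (r j)
        have hDcl : IsClosed D := Set.Finite.isClosed_biUnion (Finset.finite_toSet _)
          (fun j _ => Metric.isClosed_closedBall)
        have hpD : p ∉ D := by
          intro h
          simp only [D, Set.mem_iUnion, Finset.mem_filter, Finset.mem_range, exists_prop] at h
          obtain ⟨j, ⟨hjk, hj0, hji⟩, hpj⟩ := h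
          rcases lt_or_gt_of_ne hji with h | h
          · exact (Set.disjoint_left.mp (hdis i j hi0 hj0 h)) hpi hpj
          · exact (Set.disjoint_left.mp (hdis j i hj0 hi0 h)) hpj hpi
        have hop : IsOpen (Metric.ball p (s / 2) ∩ Dᶜ) :=
          Metric.isOpen_ball.inter hDcl.isOpen_compl
        have hpm : p ∈ Metric.ball p (s / 2) ∩ Dᶜ := ⟨Metric.mem_ball_self (by linarith only [hs]), hpD⟩
        obtain ⟨ε, hε, hb⟩ := Metric.isOpen_iff.mp hop _ hpm
        have hne : 0 < ‖p - q i‖ := by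
          rw [← dist_eq_norm, hdist]; exact hi0
        -- the point `p + τ (p - q i)`
        set τ : ℝ := ε / (2 * ‖p - q i‖) with hτ
        have hτ0 : 0 < τ := by (clear * - hε hne; positivity)
        let z : Pl := p + τ • (p - q i)
        have hzp : dist z p = ε / 2 := by
          rw [dist_eq_norm]
          have : z - p = τ • (p - q i) := by simp [z]
          rw [this, norm_smul, Real.norm_eq_abs, abs_of_pos hτ0, hτ]
          (clear * - hne hε; field_simp)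
        have hzq : dist z (q i) = (1 + τ) * r i := by
          rw [dist_eq_norm]
          have : z - q i = (1 + τ) • (p - q i) := by
            simp only [z, add_smul, one_smul]
            abel
          rw [this, norm_smul, Real.norm_eq_abs, abs_of_pos (by linarith only [hτ0]), ← dist_eq_norm, hdist]
        have hzb : z ∈ Metric.ball p ε := by
          rw [Metric.mem_ball, hzp]; linarith only [hε]
        have hz1 := hb hzb
        refine ⟨z, hz1.1, ?_⟩
        intro hzC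
        simp only [C, Set.mem_iUnion, Finset.mem_filter, Finset.mem_range, exists_prop] at hzC
        obtain ⟨j, ⟨hjk, hj0⟩, hzj⟩ := hzC
        by_cases hji : j = i
        · subst hji
          rw [Metric.mem_closedBall, hzq] at hzj
          nlinarith only [hzj, hj0, hτ0]
        · apply hz1.2
          simp only [D, Set.mem_iUnion, Finset.mem_filter, Finset.mem_range, exists_prop]
          exact ⟨j, ⟨hjk, hj0, hji⟩, hzj⟩
      · exact ⟨p, Metric.mem_ball_self (by linarith only [hs]), hpC⟩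
    have hVo : IsOpen (Metric.ball p (s / 2) ∩ (C k0 r)ᶜ) :=
      Metric.isOpen_ball.inter (hCcl k0 r).isOpen_compl
    obtain ⟨n, hn, hqn⟩ := hq _ hVo hV k0
    -- `q n` lies in some square `j` with `k0 ≤ j`
    have hj : ∃ j, 0 < r j ∧ k0 ≤ j ∧ q n ∈ Metric.closedBall (q j) (r j) := by
      by_cases hnS : 0 < r n
      · exact ⟨n, hnS, hn, Metric.mem_closedBall_self hnS.le⟩
      · have hqC : q n ∈ C n r := by
          by_contra hcon
          exact hnS ((hrr n).2 hcon).1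
        simp only [C, Set.mem_iUnion, Finset.mem_filter, Finset.mem_range, exists_prop] at hqC
        obtain ⟨j, ⟨hjn, hj0⟩, hqj⟩ := hqC
        refine ⟨j, hj0, ?_, hqj⟩
        by_contra hlt
        rw [not_le] at hlt
        apply hqn.2
        simp only [C, Set.mem_iUnion, Finset.mem_filter, Finset.mem_range, exists_prop]
        exact ⟨j, ⟨hlt, hj0⟩, hqj⟩
    obtain ⟨j, hj0, hkj, hqj⟩ := hj
    refine ⟨j, hj0, (le_max_left k k1).trans hkj, ?_⟩
    intro z hz
    have h1 : r j ≤ (1 / 2 : ℝ) ^ k0 := (hgood j hj0).2.1.trans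
      (pow_le_pow_of_le_one (by norm_num) (by norm_num) hkj)
    have h2 : dist z (q j) ≤ r j := Metric.mem_closedBall.mp hz
    have h3 : dist (q n) (q j) ≤ r j := Metric.mem_closedBall.mp hqj
    have h4 : dist (q n) p < s / 2 := Metric.mem_ball.mp hqn.1
    rw [Metric.mem_ball]
    calc dist z p ≤ dist z (q j) + dist (q j) (q n) + dist (q n) p :=
          dist_triangle4 z (q j) (q n) p
      _ < s := by
          rw [dist_comm (q j) (q n)]
          linarith only [hk0s, h1, h2, h3, h4]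

end Vale.Agent.P229.D
end
end
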