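import Mathlib
import Vale.Agent.P229.Bdl.B1
attribute [-instance] ProperSMul.toContinuousSMul IsTopologicalTorsor.toContinuousSMul IdemSemiring.toCanonicallyOrderedAdd IdemSemiring.toMulLeftMono IdemSemiring.toMulRightMono AddQuantale.instAddLeftMono AddQuantale.instAddRightMono Quantale.instMulLeftMono Quantale.instMulRightMono FiniteDimensional.rclike_to_real IsScalarTower.complexToReal FiniteDimensional.complexToReal

set_option linter.all false

section

section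

/-!
# P229, disproof, task T12b: formulas for the coefficients `e₂` and `a` (`PROOF.md`, §5)
-/

open scoped ContDiff Topology
open MeasureTheory Set

namespace Vale.Agent.P229.D

theorem pe2_formula_aux {P β γ ut : Pl → ℝ} {p : Pl} (hPx : dx P p ≠ 0)
    (dPx : DifferentiableAt ℝ (dx P) p) (dPt : DifferentiableAt ℝ (dt P) p)
    (dβ : DifferentiableAt ℝ β p) (dγ : DifferentiableAt ℝ γ p)
    (dut : DifferentiableAt ℝ ut p)
    (c1 : dx (dt P) p = dt (dx P) p) (c2 : dx ut p = dt (dt P) p) :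
    (dt (dt P) p - 2 * β p * dt (dx P) p + γ p * dx (dx P) p)
      - dx (fun q => dt P q ^ 2 - 2 * β q * dt P q * dx P q + γ q * dx P q ^ 2) p / dx P p
    = 2 * dt P p * dx (fun q => β q - dt P q / dx P q) p
      + 2 * (dt P p / dx P p) * (β p - dt P p / dx P p) * dx (dx P) p
      - dx P p * dx (fun q => γ q - ut q / dx P q) p
      - (γ p - ut p / dx P p) * dx (dx P) p := by
  have q1 : DifferentiableAt ℝ (fun q => dt P q / dx P q) p := by
    simp only [div_eq_mul_inv]; exact dPt.mul (dPx.inv hPx)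
  have q2 : DifferentiableAt ℝ (fun q => ut q / dx P q) p := by
    simp only [div_eq_mul_inv]; exact dut.mul (dPx.inv hPx)
  have e1 : dx (fun q => β q - dt P q / dx P q) p
      = dx β p - (dt (dx P) p * dx P p - dt P p * dx (dx P) p) / dx P p ^ 2 := by
    rw [dx_sub dβ q1]
    have := fderiv_div_apply dPt dPx hPx (1, 0)
    have h2 : dx (fun q => dt P q / dx P q) p
        = (dx (dt P) p * dx P p - dt P p * dx (dx P) p) / dx P p ^ 2 := this
    rw [h2, c1]
  have e2 : dx (fun q => γ q - ut q / dx P q) p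
      = dx γ p - (dt (dt P) p * dx P p - ut p * dx (dx P) p) / dx P p ^ 2 := by
    rw [dx_sub dγ q2]
    have := fderiv_div_apply dut dPx hPx (1, 0)
    have h2 : dx (fun q => ut q / dx P q) p
        = (dx ut p * dx P p - ut p * dx (dx P) p) / dx P p ^ 2 := this
    rw [h2, c2]
  have e3 : dx (fun q => dt P q ^ 2 - 2 * β q * dt P q * dx P q + γ q * dx P q ^ 2) p
      = 2 * dt P p * dt (dx P) p
        - 2 * (dx β p * dt P p * dx P p + β p * dt (dx P) p * dx P p
            + β p * dt P p * dx (dx P) p)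
        + (dx γ p * dx P p ^ 2 + 2 * γ p * dx P p * dx (dx P) p) := by
    have f : (fun q => dt P q ^ 2 - 2 * β q * dt P q * dx P q + γ q * dx P q ^ 2)
        = fun q => (dt P q * dt P q - 2 * ((β q * dt P q) * dx P q)) + γ q * (dx P q * dx P q) := by
      funext q; ring
    rw [f, dx_add (f := fun q => dt P q * dt P q - 2 * ((β q * dt P q) * dx P q))
        (g := fun q => γ q * (dx P q * dx P q))
        ((dPt.mul dPt).sub (((dβ.mul dPt).mul dPx).const_mul 2)) (dγ.mul (dPx.mul dPx)),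
      dx_sub (f := fun q => dt P q * dt P q) (g := fun q => 2 * ((β q * dt P q) * dx P q))
        (dPt.mul dPt) (((dβ.mul dPt).mul dPx).const_mul 2),
      dx_mul (f := fun q => dt P q) dPt dPt,
      dx_const_mul (f := fun q => (β q * dt P q) * dx P q) 2 ((dβ.mul dPt).mul dPx),
      dx_mul (f := fun q => β q * dt P q) (g := fun q => dx P q) (dβ.mul dPt) dPx,
      dx_mul (f := fun q => β q) (g := fun q => dt P q) dβ dPt,
      dx_mul (f := fun q => γ q) (g := fun q => dx P q * dx P q) dγ (dPx.mul dPx),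
      dx_mul (f := fun q => dx P q) (g := fun q => dx P q) dPx dPx]
    have r1 : dx (fun q => dt P q) p = dt (dx P) p := c1
    have r2 : dx (fun q => dx P q) p = dx (dx P) p := rfl
    have r3 : dx (fun q => β q) p = dx β p := rfl
    have r4 : dx (fun q => γ q) p = dx γ p := rfl
    rw [r1, r2, r3, r4]
    ring
  rw [e1, e2, e3]
  field_simp
  ring

/-- The formula for `e₂` with the cancellation of the leading terms (`u0_x = P`). -/
theorem pe2_formula {ι : ℝ} {ph ph' u u' u0 : Pl → ℝ} (hP : Frame (dx u0)) (hu0 : ContDiff ℝ 4 u0)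
    (hph : ContDiff ℝ 4 ph) (hph' : ContDiff ℝ 4 ph') (hu : ContDiff ℝ 4 u)
    (hu' : ContDiff ℝ 4 u') (hA : ∀ q, pA ι ph ph' u u' q ≠ 0) (p : Pl) :
    pe2 ι ph ph' u u' (dx u0) p
    = 2 * dt (dx u0) p * dx (fun q => pB ι ph ph' u u' q / pA ι ph ph' u u' q
          - dt (dx u0) q / dx (dx u0) q) p
      + 2 * (dt (dx u0) p / dx (dx u0) p) * (pB ι ph ph' u u' p / pA ι ph ph' u u' p
          - dt (dx u0) p / dx (dx u0) p) * dx (dx (dx u0)) p
      - dx (dx u0) p * dx (fun q => pC ι ph ph' u u' q / pA ι ph ph' u u' q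
          - dt (dt u0) q / dx (dx u0) q) p
      - (pC ι ph ph' u u' p / pA ι ph ph' u u' p - dt (dt u0) p / dx (dx u0) p)
          * dx (dx (dx u0)) p
      + (pb1 ι ph ph' u u' p * dx (dx u0) p + pb2 ι ph ph' u u' p * dt (dx u0) p)
          / pA ι ph ph' u u' p := by
  have f1 : ContDiff ℝ 2 (dx ph) := contDiff_dx (m := 2) (hph.of_le (by norm_num) : ContDiff ℝ 3 ph) (by norm_num)
  have f2 : ContDiff ℝ 2 (dt ph) := contDiff_dt (m := 2) (hph.of_le (by norm_num) : ContDiff ℝ 3 ph) (by norm_num)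
  have f3 : ContDiff ℝ 2 (dx ph') := contDiff_dx (m := 2) (hph'.of_le (by norm_num) : ContDiff ℝ 3 ph') (by norm_num)
  have f4 : ContDiff ℝ 2 (dt ph') := contDiff_dt (m := 2) (hph'.of_le (by norm_num) : ContDiff ℝ 3 ph') (by norm_num)
  have g1 : ContDiff ℝ 3 (dx u) := contDiff_dx (m := 3) hu (by norm_num)
  have g2 : ContDiff ℝ 3 (dt u) := contDiff_dt (m := 3) hu (by norm_num)
  have g3 : ContDiff ℝ 3 (dx u') := contDiff_dx (m := 3) hu' (by norm_num)
  have g4 : ContDiff ℝ 3 (dt u') := contDiff_dt (m := 3) hu' (by norm_num)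
  have k1 : ContDiff ℝ 2 (dx (dx u)) := contDiff_dx (m := 2) g1 (by norm_num)
  have k2 : ContDiff ℝ 2 (dt (dx u)) := contDiff_dt (m := 2) g1 (by norm_num)
  have k3 : ContDiff ℝ 2 (dt (dt u)) := contDiff_dt (m := 2) g2 (by norm_num)
  have k4 : ContDiff ℝ 2 (dx (dx u')) := contDiff_dx (m := 2) g3 (by norm_num)
  have k5 : ContDiff ℝ 2 (dt (dx u')) := contDiff_dt (m := 2) g3 (by norm_num)
  have k6 : ContDiff ℝ 2 (dt (dt u')) := contDiff_dt (m := 2) g4 (by norm_num)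
  have g1' : ContDiff ℝ 2 (dx u) := g1.of_le (by norm_num)
  have g2' : ContDiff ℝ 2 (dt u) := g2.of_le (by norm_num)
  have g3' : ContDiff ℝ 2 (dx u') := g3.of_le (by norm_num)
  have g4' : ContDiff ℝ 2 (dt u') := g4.of_le (by norm_num)
  have cA : ContDiff ℝ 2 (pA ι ph ph' u u') := by
    unfold pA Hxx
    exact ((k1.sub (contDiff_const.mul ((f1.mul g1').sub (f2.mul g2')))).add
      (k4.sub (contDiff_const.mul ((f3.mul g3').sub (f4.mul g4'))))).div_const 2
  have cB : ContDiff ℝ 2 (pB ι ph ph' u u') := by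
    unfold pB Hxt
    exact ((k2.sub (contDiff_const.mul ((f2.mul g1').add (f1.mul g2')))).add
      (k5.sub (contDiff_const.mul ((f4.mul g3').add (f3.mul g4'))))).div_const 2
  have cC : ContDiff ℝ 2 (pC ι ph ph' u u') := by
    unfold pC Htt
    exact ((k3.add (contDiff_const.mul ((f1.mul g1').sub (f2.mul g2')))).add
      (k6.add (contDiff_const.mul ((f3.mul g3').sub (f4.mul g4'))))).div_const 2
  have hP2 : ContDiff ℝ 2 (dx u0) := hP.smooth.of_le (by norm_num)
  have dPx : DifferentiableAt ℝ (dx (dx u0)) p :=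
    (contDiff_dx (m := 1) hP2 (by norm_num)).differentiable (by norm_num) p
  have dPt : DifferentiableAt ℝ (dt (dx u0)) p :=
    (contDiff_dt (m := 1) hP2 (by norm_num)).differentiable (by norm_num) p
  have hu0t : ContDiff ℝ 3 (dt u0) := contDiff_dt (m := 3) hu0 (by norm_num)
  have hu0t2 : ContDiff ℝ 2 (dt u0) := hu0t.of_le (by norm_num)
  have hu02 : ContDiff ℝ 2 u0 := hu0.of_le (by norm_num)
  have dut : DifferentiableAt ℝ (dt (dt u0)) p :=
    (contDiff_dt (m := 1) hu0t2 (by norm_num)).differentiable (by norm_num) p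
  have c1 : dx (dt (dx u0)) p = dt (dx (dx u0)) p := dx_dt_comm hP2 p
  have hu0tt : ContDiff ℝ 2 (dt (dt u0)) := contDiff_dt (m := 2) hu0t (by norm_num)
  have c0 : dx (dt u0) = dt (dx u0) := funext fun q => dx_dt_comm hu02 q
  have c2 : dx (dt (dt u0)) p = dt (dt (dx u0)) p := by
    rw [dx_dt_comm hu0t2 p, c0]
  have dβ : DifferentiableAt ℝ (fun q => pB ι ph ph' u u' q / pA ι ph ph' u u' q) p :=
    (cB.div cA hA).differentiable (by norm_num) p
  have dγ : DifferentiableAt ℝ (fun q => pC ι ph ph' u u' q / pA ι ph ph' u u' q) p :=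
    (cC.div cA hA).differentiable (by norm_num) p
  have key := pe2_formula_aux (P := dx u0)
    (β := fun q => pB ι ph ph' u u' q / pA ι ph ph' u u' q)
    (γ := fun q => pC ι ph ph' u u' q / pA ι ph ph' u u' q) (ut := dt (dt u0))
    (hP.dx_ne p) dPx dPt dβ dγ dut c1 c2
  have hX : XX (dx u0) (pa ι ph ph' u u' (dx u0)) p
      = dx (fun q => dt (dx u0) q ^ 2
          - 2 * (pB ι ph ph' u u' q / pA ι ph ph' u u' q) * dt (dx u0) q * dx (dx u0) q
          + pC ι ph ph' u u' q / pA ι ph ph' u u' q * dx (dx u0) q ^ 2) p / dx (dx u0) p := rfl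
  rw [pe2, hX]
  linarith only [key]

/-- The formula for `a`. -/
theorem pa_formula {ι : ℝ} {ph ph' u u' P : Pl → ℝ} (hP : Frame P) (p : Pl)
    (hA : pA ι ph ph' u u' p ≠ 0) (h : Darb ι ph u p) (h' : Darb ι ph' u' p) :
    pa ι ph ph' u u' P p
    = dx P p ^ 2 * ((dt P p / dx P p - pB ι ph ph' u u' p / pA ι ph ph' u u' p) ^ 2
      + ((ff ph p * EE ι ph u p + ff ph' p * EE ι ph' u' p) / 2
        - ((Hxx ι ph u p - Hxx ι ph' u' p) * (Htt ι ph u p - Htt ι ph' u' p)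
            - (Hxt ι ph u p - Hxt ι ph' u' p) ^ 2) / 4) / pA ι ph ph' u u' p ^ 2) := by
  have k : Hxx ι ph u p * Htt ι ph u p - Hxt ι ph u p ^ 2 = ff ph p * EE ι ph u p := h
  have k' : Hxx ι ph' u' p * Htt ι ph' u' p - Hxt ι ph' u' p ^ 2 = ff ph' p * EE ι ph' u' p := h'
  have hne := hP.dx_ne p
  have e : (ff ph p * EE ι ph u p + ff ph' p * EE ι ph' u' p) / 2
        - ((Hxx ι ph u p - Hxx ι ph' u' p) * (Htt ι ph u p - Htt ι ph' u' p)
            - (Hxt ι ph u p - Hxt ι ph' u' p) ^ 2) / 4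
      = pA ι ph ph' u u' p * pC ι ph ph' u u' p - pB ι ph ph' u u' p ^ 2 := by
    rw [← k, ← k', pA, pB, pC]; ring
  rw [e, pa]
  field_simp
  ring

end Vale.Agent.P229.D
end
end

section

section

/-!
# P229, disproof, task T13b: a small calculus of `C¹` bounds at a point, and the bounds (H)
-/

open scoped ContDiff Topology
open MeasureTheory Set Filter

namespace Vale.Agent.P229.D.PH

/-- `C¹` bound at a point. -/
structure Bd (c : ℝ) (f : Pl → ℝ) (p : Pl) : Prop where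
  diff : DifferentiableAt ℝ f p
  val : |f p| ≤ c
  bx : |dx f p| ≤ c
  bt : |dt f p| ≤ c

namespace Bd

variable {c c' : ℝ} {f g : Pl → ℝ} {p : Pl}

theorem nonneg (h : Bd c f p) : 0 ≤ c := (abs_nonneg _).trans h.val

theorem mono (h : Bd c f p) (hc : c ≤ c') : Bd c' f p :=
  ⟨h.diff, h.val.trans hc, h.bx.trans hc, h.bt.trans hc⟩

theorem add (hf : Bd c f p) (hg : Bd c' g p) : Bd (c + c') (fun q => f q + g q) p := by
  refine ⟨hf.diff.add hg.diff, ?_, ?_, ?_⟩
  · exact (abs_add_le _ _).trans (add_le_add hf.val hg.val)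
  · rw [dx_add hf.diff hg.diff]
    exact (abs_add_le _ _).trans (add_le_add hf.bx hg.bx)
  · rw [dt_add hf.diff hg.diff]
    exact (abs_add_le _ _).trans (add_le_add hf.bt hg.bt)

theorem sub (hf : Bd c f p) (hg : Bd c' g p) : Bd (c + c') (fun q => f q - g q) p := by
  refine ⟨hf.diff.sub hg.diff, ?_, ?_, ?_⟩
  · exact (abs_sub _ _).trans (add_le_add hf.val hg.val)
  · rw [dx_sub hf.diff hg.diff]
    exact (abs_sub _ _).trans (add_le_add hf.bx hg.bx)
  · rw [dt_sub hf.diff hg.diff]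
    exact (abs_sub _ _).trans (add_le_add hf.bt hg.bt)

theorem mul (hf : Bd c f p) (hg : Bd c' g p) : Bd (2 * c * c') (fun q => f q * g q) p := by
  have h0 := hf.nonneg
  have h0' := hg.nonneg
  have key : ∀ a b a' b' : ℝ, |a| ≤ c → |b| ≤ c' → |a'| ≤ c → |b'| ≤ c' →
      |a * b + a' * b'| ≤ 2 * c * c' := by
    intro a b a' b' h1 h2 h3 h4
    calc |a * b + a' * b'| ≤ |a * b| + |a' * b'| := abs_add_le _ _
      _ = |a| * |b| + |a'| * |b'| := by rw [abs_mul, abs_mul]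
      _ ≤ c * c' + c * c' := by (clear * - h1 h2 h0 h3 h4; gcongr)
      _ = 2 * c * c' := by ring
  refine ⟨hf.diff.mul hg.diff, ?_, ?_, ?_⟩
  · have := key (f p) (g p) 0 0 hf.val hg.val (by simpa only [abs_zero] using h0) (by simpa only [abs_zero] using h0')
    simpa only [abs_mul, ge_iff_le, mul_zero, add_zero] using this
  · rw [dx_mul hf.diff hg.diff]
    exact key _ _ _ _ hf.bx hg.val hf.val hg.bx
  · rw [dt_mul hf.diff hg.diff]
    exact key _ _ _ _ hf.bt hg.val hf.val hg.bt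

theorem const (k : ℝ) (p : Pl) : Bd |k| (fun _ => k) p :=
  ⟨differentiableAt_const _, le_rfl, by rw [dx_const]; simp, by rw [dt_const]; simp⟩

theorem const_mul (k : ℝ) (hf : Bd c f p) : Bd (|k| * c) (fun q => k * f q) p := by
  refine ⟨hf.diff.const_mul k, ?_, ?_, ?_⟩
  · rw [abs_mul]; exact mul_le_mul_of_nonneg_left hf.val (abs_nonneg _)
  · rw [dx_const_mul k hf.diff, abs_mul]; exact mul_le_mul_of_nonneg_left hf.bx (abs_nonneg _)
  · rw [dt_const_mul k hf.diff, abs_mul]; exact mul_le_mul_of_nonneg_left hf.bt (abs_nonneg _)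

theorem congr (h : Bd c g p) (hfg : f =ᶠ[𝓝 p] g) : Bd c f p := by
  refine ⟨h.diff.congr_of_eventuallyEq hfg, ?_, ?_, ?_⟩
  · rw [hfg.eq_of_nhds]; exact h.val
  · have : dx f p = dx g p := by rw [dx, dx, hfg.fderiv_eq]
    rw [this]; exact h.bx
  · have : dt f p = dt g p := by rw [dt, dt, hfg.fderiv_eq]
    rw [this]; exact h.bt

theorem inv (h : Bd c f p) (hA : 1 / 2 ≤ |f p|) : Bd (4 * c) (fun q => (f q)⁻¹) p := by
  have hc : 1 / 2 ≤ c := hA.trans h.val
  have hne : f p ≠ 0 := by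
    intro h0; rw [h0] at hA; norm_num at hA
  have e : ∀ w : Pl, fderiv ℝ (fun q => (f q)⁻¹) p w = -(fderiv ℝ f p w) / (f p) ^ 2 := by
    intro w
    have h1 := fderiv_div_apply (f := fun _ => (1 : ℝ)) (g := f) (differentiableAt_const _) h.diff hne w
    have h2 : (fun q => (1 : ℝ) / f q) = fun q => (f q)⁻¹ := by
      funext q; rw [one_div]
    rw [h2] at h1
    rw [h1]
    simp only [fderiv_fun_const, Pi.zero_apply, zero_apply, zero_mul, one_mul, zero_sub]
  have hsq : 1 / 4 ≤ (f p) ^ 2 := by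
    rw [← sq_abs]; nlinarith only [hA]
  have key : ∀ a : ℝ, |a| ≤ c → |-a / (f p) ^ 2| ≤ 4 * c := by
    intro a ha
    rw [abs_div, abs_neg, abs_of_nonneg (sq_nonneg (f p))]
    rw [div_le_iff₀ (by linarith only [hsq])]
    nlinarith only [hsq, ha, hc]
  refine ⟨h.diff.inv hne, ?_, ?_, ?_⟩
  · rw [abs_inv]
    have : |f p|⁻¹ ≤ (1 / 2)⁻¹ := inv_anti₀ (by norm_num) hA
    norm_num at this
    linarith only [hc, this]
  · rw [dx, e]; exact key _ h.bx
  · rw [dt, e]; exact key _ h.bt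

theorem expm1 (h : Bd c f p) (hc : c ≤ 1) : Bd (4 * c) (fun q => Real.exp (f q) - 1) p := by
  have h0 := h.nonneg
  have hE : Real.exp (f p) ≤ 3 := by
    have : f p ≤ 1 := (le_abs_self _).trans (h.val.trans hc)
    calc Real.exp (f p) ≤ Real.exp 1 := Real.exp_le_exp.mpr this
      _ ≤ 3 := by linarith [Real.exp_one_lt_d9]
  have e : ∀ w : Pl, fderiv ℝ (fun q => Real.exp (f q) - 1) p w
      = Real.exp (f p) * fderiv ℝ f p w := by
    intro w
    have h1 := fderiv_comp_apply (φ := Real.exp) Real.differentiableAt_exp h.diff w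
    rw [Real.deriv_exp] at h1
    rw [← h1, fderiv_sub_const]
  have key : ∀ a : ℝ, |a| ≤ c → |Real.exp (f p) * a| ≤ 4 * c := by
    intro a ha
    rw [abs_mul, abs_of_pos (Real.exp_pos _)]
    nlinarith only [ha, hE, abs_nonneg a]
  refine ⟨(h.diff.exp).sub_const 1, ?_, ?_, ?_⟩
  · have := Real.abs_exp_sub_one_le (h.val.trans hc)
    linarith [h.val]
  · rw [dx, e]; exact key _ h.bx
  · rw [dt, e]; exact key _ h.bt

end Bd

/-! ## `Dle` calculus -/

theorem dle_mono {k : ℕ} : ∀ {f : Pl → ℝ} {c c' : ℝ} {p : Pl}, Dle k f c p → c ≤ c' → Dle k f c' p := by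
  induction k with
  | zero => intro f c c' p h hc; exact le_trans (show |f p| ≤ c from h) hc
  | succ k ih => intro f c c' p h hc; exact ⟨h.1.trans hc, ih h.2.1 hc, ih h.2.2 hc⟩

theorem ev_dx {f g : Pl → ℝ} {p : Pl} (h : f =ᶠ[𝓝 p] g) : dx f =ᶠ[𝓝 p] dx g := by
  filter_upwards [h.fderiv (𝕜 := ℝ)] with q hq
  rw [dx, dx, hq]

theorem ev_dt {f g : Pl → ℝ} {p : Pl} (h : f =ᶠ[𝓝 p] g) : dt f =ᶠ[𝓝 p] dt g := by
  filter_upwards [h.fderiv (𝕜 := ℝ)] with q hq
  rw [dt, dt, hq]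

theorem dle_add {k : ℕ} : ∀ {f g : Pl → ℝ} {c c' : ℝ} {p : Pl}, ContDiff ℝ k f → ContDiff ℝ k g →
    Dle k f c p → Dle k g c' p → Dle k (fun q => f q + g q) (c + c') p := by
  induction k with
  | zero =>
    intro f g c c' p _ _ h h'
    exact (abs_add_le _ _).trans (add_le_add h h')
  | succ k ih =>
    intro f g c c' p hf hg h h'
    have hf1 : Differentiable ℝ f := hf.differentiable (by simp only [Nat.cast_add, Nat.cast_one, ne_eq, add_eq_zero, Nat.cast_eq_zero, one_ne_zero, and_false, not_false_eq_true])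
    have hg1 : Differentiable ℝ g := hg.differentiable (by simp only [Nat.cast_add, Nat.cast_one, ne_eq, add_eq_zero, Nat.cast_eq_zero, one_ne_zero, and_false, not_false_eq_true])
    refine ⟨(abs_add_le _ _).trans (add_le_add h.1 h'.1), ?_, ?_⟩
    · have e : dx (fun q => f q + g q) = fun q => dx f q + dx g q := by
        funext q; exact dx_add (hf1 q) (hg1 q)
      rw [e]
      exact ih (contDiff_dx hf (by simp)) (contDiff_dx hg (by simp)) h.2.1 h'.2.1
    · have e : dt (fun q => f q + g q) = fun q => dt f q + dt g q := by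
        funext q; exact dt_add (hf1 q) (hg1 q)
      rw [e]
      exact ih (contDiff_dt hf (by simp)) (contDiff_dt hg (by simp)) h.2.2 h'.2.2

theorem dle_const_mul {k : ℕ} (a : ℝ) : ∀ {f : Pl → ℝ} {c : ℝ} {p : Pl}, ContDiff ℝ k f →
    Dle k f c p → Dle k (fun q => a * f q) (|a| * c) p := by
  induction k with
  | zero =>
    intro f c p _ h
    show |a * f p| ≤ |a| * c
    rw [abs_mul]; exact mul_le_mul_of_nonneg_left h (abs_nonneg _)
  | succ k ih =>
    intro f c p hf h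
    have hf1 : Differentiable ℝ f := hf.differentiable (by simp only [Nat.cast_add, Nat.cast_one, ne_eq, add_eq_zero, Nat.cast_eq_zero, one_ne_zero, and_false, not_false_eq_true])
    refine ⟨?_, ?_, ?_⟩
    · rw [abs_mul]; exact mul_le_mul_of_nonneg_left h.1 (abs_nonneg _)
    · have e : dx (fun q => a * f q) = fun q => a * dx f q := by
        funext q; exact dx_const_mul a (hf1 q)
      rw [e]
      exact ih (contDiff_dx hf (by simp)) h.2.1
    · have e : dt (fun q => a * f q) = fun q => a * dt f q := by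
        funext q; exact dt_const_mul a (hf1 q)
      rw [e]
      exact ih (contDiff_dt hf (by simp)) h.2.2

/-- compactly supported smooth functions have bounded derivatives. -/
theorem exists_Dle {k : ℕ} : ∀ {f : Pl → ℝ}, ContDiff ℝ ∞ f → HasCompactSupport f →
    ∃ c : ℝ, 0 ≤ c ∧ ∀ p, Dle k f c p := by
  induction k with
  | zero =>
    intro f hf hc
    obtain ⟨C, hC⟩ := hf.continuous.bounded_above_of_compact_support hc
    exact ⟨C, (norm_nonneg _).trans (hC 0), fun p => hC p⟩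
  | succ k ih =>
    intro f hf hc
    obtain ⟨C, hC⟩ := hf.continuous.bounded_above_of_compact_support hc
    obtain ⟨c1, h1, h1'⟩ := ih (contDiff_dx (m := ∞) hf (by simp))
      (HasCompactSupport.intro hc fun _ hp => dx_eq_zero_of_notMem_tsupport hp)
    obtain ⟨c2, h2, h2'⟩ := ih (contDiff_dt (m := ∞) hf (by simp))
      (HasCompactSupport.intro hc fun _ hp => dt_eq_zero_of_notMem_tsupport hp)
    refine ⟨max C (max c1 c2), le_max_of_le_right (le_max_of_le_left h1), fun p => ⟨?_, ?_, ?_⟩⟩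
    · exact (hC p).trans (le_max_left _ _)
    · exact dle_mono (h1' p) ((le_max_left _ _).trans (le_max_right _ _))
    · exact dle_mono (h2' p) ((le_max_right _ _).trans (le_max_right _ _))

theorem dle_bd {k : ℕ} {f : Pl → ℝ} {c : ℝ} {p : Pl} (hf : ContDiff ℝ 1 f)
    (h : Dle (k + 1) f c p) : Bd c f p := by
  refine ⟨hf.differentiable (by norm_num) p, h.1, ?_, ?_⟩
  · cases k with
    | zero => exact h.2.1
    | succ k => exact h.2.1.1
  · cases k with
    | zero => exact h.2.2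
    | succ k => exact h.2.2.1

/-! ## local data -/

/-- local data of one member at `p`, relative to the reference solution `u0`. -/
structure Loc (ε δ K : ℝ) (u0 q u : Pl → ℝ) (p : Pl) : Prop where
  wxx : Bd (ε * δ) (fun z => dx (dx u) z - dx (dx u0) z) p
  wxt : Bd (ε * δ) (fun z => dt (dx u) z - dt (dx u0) z) p
  wtt : Bd (ε * δ) (fun z => dt (dt u) z - dt (dt u0) z) p
  ux : Bd 2 (dx u) p
  ut : Bd 1 (dt u) p
  q0 : Bd (K * δ) q p
  qx : Bd (K * δ) (dx q) p
  qt : Bd (K * δ) (dt q) p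
  fq : Bd (K * (ε * δ)) (fun z => ff q z - δ * (rho2 z - 1 / 4)) p

/-- local data of the reference solution. -/
structure Ref (ε : ℝ) (u0 : Pl → ℝ) (p : Pl) : Prop where
  xx : Bd ε (fun z => dx (dx u0) z - 1) p
  xt : Bd ε (dt (dx u0)) p
  tt : Bd ε (dt (dt u0)) p
  x1 : |dx u0 p - p.1| ≤ ε
  rho : rho2 p < 0.7

/-- the parameters. -/
structure Par (ε δ K ι : ℝ) : Prop where
  ε_pos : 0 < ε
  K_one : 1 ≤ K
  Kε : K * ε ≤ 1 / 10 ^ 9
  δ_pos : 0 < δ
  δ_small : δ ≤ 1 / 1000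
  ι_nonneg : 0 ≤ ι
  ι_le : ι ≤ ε

section
variable {ε δ K ι : ℝ} {u0 q q' u u' : Pl → ℝ} {p : Pl}

theorem Par.ε_le' (h : Par ε δ K ι) : ε ≤ 1 / 10 ^ 9 := by
  have := h.K_one; have := h.ε_pos; have := h.Kε
  nlinarith

theorem Par.ε_le (h : Par ε δ K ι) : ε ≤ 1 / 10 ^ 4 := h.ε_le'.trans (by norm_num)

/-- the basic small quantity. -/
theorem Par.kap_nonneg (h : Par ε δ K ι) : 0 ≤ 7 * K * (ε * δ) := by
  have := h.K_one; have := h.ε_pos; have := h.δ_pos
  positivity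

theorem Par.kap_le (h : Par ε δ K ι) : 7 * K * (ε * δ) ≤ 1 / 10 ^ 6 := by
  have h1 := h.Kε; have h2 := h.δ_small; have h3 := h.δ_pos; have h4 := h.K_one; have h5 := h.ε_pos
  have : K * ε * δ ≤ 1 / 10 ^ 9 * (1 / 1000) := by
    apply mul_le_mul h1 h2 h3.le (by norm_num)
  linarith only [this]

theorem Hxx_loc (hp : Par ε δ K ι) (h : Loc ε δ K u0 q u p) :
    Bd (7 * K * (ε * δ)) (fun z => Hxx ι q u z - dx (dx u0) z) p := by
  have e : (fun z => Hxx ι q u z - dx (dx u0) z)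
      = fun z => (dx (dx u) z - dx (dx u0) z) - ι * (dx q z * dx u z - dt q z * dt u z) := by
    funext z; unfold Hxx; ring
  rw [e]
  refine (h.wxx.sub (((h.qx.mul h.ux).sub (h.qt.mul h.ut)).const_mul ι)).mono ?_
  rw [abs_of_nonneg hp.ι_nonneg]
  have h1 := hp.K_one; have h2 := hp.ε_pos; have h3 := hp.δ_pos; have h4 := hp.ι_le
  have h5 : ι * (K * δ) ≤ ε * (K * δ) := by (clear * - h4 h1 h3; gcongr)
  nlinarith only [h5, h1, mul_pos h2 h3]

theorem Htt_loc (hp : Par ε δ K ι) (h : Loc ε δ K u0 q u p) :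
    Bd (7 * K * (ε * δ)) (fun z => Htt ι q u z - dt (dt u0) z) p := by
  have e : (fun z => Htt ι q u z - dt (dt u0) z)
      = fun z => (dt (dt u) z - dt (dt u0) z) + ι * (dx q z * dx u z - dt q z * dt u z) := by
    funext z; unfold Htt; ring
  rw [e]
  refine (h.wtt.add (((h.qx.mul h.ux).sub (h.qt.mul h.ut)).const_mul ι)).mono ?_
  rw [abs_of_nonneg hp.ι_nonneg]
  have h1 := hp.K_one; have h2 := hp.ε_pos; have h3 := hp.δ_pos; have h4 := hp.ι_le
  have h5 : ι * (K * δ) ≤ ε * (K * δ) := by (clear * - h4 h1 h3; gcongr)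
  nlinarith only [h5, h1, mul_pos h2 h3]

theorem Hxt_loc (hp : Par ε δ K ι) (h : Loc ε δ K u0 q u p) :
    Bd (7 * K * (ε * δ)) (fun z => Hxt ι q u z - dt (dx u0) z) p := by
  have e : (fun z => Hxt ι q u z - dt (dx u0) z)
      = fun z => (dt (dx u) z - dt (dx u0) z) - ι * (dt q z * dx u z + dx q z * dt u z) := by
    funext z; unfold Hxt; ring
  rw [e]
  refine (h.wxt.sub (((h.qt.mul h.ux).add (h.qx.mul h.ut)).const_mul ι)).mono ?_
  rw [abs_of_nonneg hp.ι_nonneg]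
  have h1 := hp.K_one; have h2 := hp.ε_pos; have h3 := hp.δ_pos; have h4 := hp.ι_le
  have h5 : ι * (K * δ) ≤ ε * (K * δ) := by (clear * - h4 h1 h3; gcongr)
  nlinarith only [h5, h1, mul_pos h2 h3]

theorem half_bd {c : ℝ} {f g r : Pl → ℝ} (hf : Bd c (fun z => f z - r z) p)
    (hg : Bd c (fun z => g z - r z) p) : Bd c (fun z => (f z + g z) / 2 - r z) p := by
  have e : (fun z => (f z + g z) / 2 - r z)
      = fun z => (1 / 2) * ((f z - r z) + (g z - r z)) := by
    funext z; ring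
  rw [e]
  refine ((hf.add hg).const_mul (1 / 2)).mono (le_of_eq ?_)
  rw [abs_of_pos (by norm_num : (0 : ℝ) < 1 / 2)]; ring

theorem pA_loc (hp : Par ε δ K ι) (h : Loc ε δ K u0 q u p) (h' : Loc ε δ K u0 q' u' p) :
    Bd (7 * K * (ε * δ)) (fun z => pA ι q q' u u' z - dx (dx u0) z) p :=
  half_bd (Hxx_loc hp h) (Hxx_loc hp h')

theorem pB_loc (hp : Par ε δ K ι) (h : Loc ε δ K u0 q u p) (h' : Loc ε δ K u0 q' u' p) :
    Bd (7 * K * (ε * δ)) (fun z => pB ι q q' u u' z - dt (dx u0) z) p :=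
  half_bd (Hxt_loc hp h) (Hxt_loc hp h')

theorem pC_loc (hp : Par ε δ K ι) (h : Loc ε δ K u0 q u p) (h' : Loc ε δ K u0 q' u' p) :
    Bd (7 * K * (ε * δ)) (fun z => pC ι q q' u u' z - dt (dt u0) z) p :=
  half_bd (Htt_loc hp h) (Htt_loc hp h')

theorem Ref.Px (hr : Ref ε u0 p) (hp : Par ε δ K ι) : Bd 2 (dx (dx u0)) p := by
  have h1 := hr.xx.add (Bd.const 1 p)
  have e : (fun z => (dx (dx u0) z - 1) + 1) = dx (dx u0) := by funext z; ring
  rw [e] at h1
  refine h1.mono ?_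
  have := hp.ε_le
  rw [abs_one]; norm_num at this ⊢; linarith only [this]

theorem Ref.Px_val (hr : Ref ε u0 p) : |dx (dx u0) p - 1| ≤ ε := hr.xx.val

theorem pA_bd (hp : Par ε δ K ι) (hr : Ref ε u0 p) (h : Loc ε δ K u0 q u p)
    (h' : Loc ε δ K u0 q' u' p) : Bd 3 (pA ι q q' u u') p := by
  have h1 := (pA_loc hp h h').add (hr.Px hp)
  have e : (fun z => (pA ι q q' u u' z - dx (dx u0) z) + dx (dx u0) z) = pA ι q q' u u' := by
    funext z; ring
  rw [e] at h1
  refine h1.mono ?_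
  have := hp.kap_le
  norm_num at this ⊢; linarith only [this]

theorem pA_val (hp : Par ε δ K ι) (hr : Ref ε u0 p) (h : Loc ε δ K u0 q u p)
    (h' : Loc ε δ K u0 q' u' p) : 1 / 2 ≤ pA ι q q' u u' p := by
  have h1 := abs_le.1 (pA_loc hp h h').val
  have h2 := abs_le.1 hr.Px_val
  have h3 := hp.kap_le
  have h4 := hp.ε_le
  norm_num at h3 h4
  have := h1.1
  linarith [h2.1]

theorem iA_bd (hp : Par ε δ K ι) (hr : Ref ε u0 p) (h : Loc ε δ K u0 q u p)
    (h' : Loc ε δ K u0 q' u' p) : Bd 12 (fun z => (pA ι q q' u u' z)⁻¹) p := by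
  refine ((pA_bd hp hr h h').inv ?_).mono (by norm_num)
  exact (pA_val hp hr h h').trans (le_abs_self _)

theorem iP_bd (hp : Par ε δ K ι) (hr : Ref ε u0 p) : Bd 8 (fun z => (dx (dx u0) z)⁻¹) p := by
  refine ((hr.Px hp).inv ?_).mono (by norm_num)
  have h2 := abs_le.1 hr.Px_val
  have h4 := hp.ε_le
  norm_num at h4
  refine le_trans ?_ (le_abs_self _)
  linarith [h2.1]

/-- the coefficient `α`. -/
theorem palpha_loc (hp : Par ε δ K ι) (hr : Ref ε u0 p) (h : Loc ε δ K u0 q u p)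
    (h' : Loc ε δ K u0 q' u' p) (hA : ∀ z, pA ι q q' u u' z ≠ 0) :
    Bd (240 * (7 * K * (ε * δ))) (palpha ι q q' u u' (dx u0)) p := by
  have e : palpha ι q q' u u' (dx u0)
      = fun z => 2 * (((dt (dx u0) z) * (pA ι q q' u u' z - dx (dx u0) z)
          - (pB ι q q' u u' z - dt (dx u0) z) * dx (dx u0) z) * (pA ι q q' u u' z)⁻¹) := by
    funext z
    have := hA z
    unfold palpha
    field_simp
    ring
  rw [e]
  refine ((((hr.xt.mul (pA_loc hp h h')).sub ((pB_loc hp h h').mul (hr.Px hp))).mul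
    (iA_bd hp hr h h')).const_mul 2).mono ?_
  rw [abs_of_pos (by norm_num : (0 : ℝ) < 2)]
  have h1 := hp.kap_nonneg
  have h2 := hp.ε_le
  norm_num at h2
  have h3 : 2 * ε * (7 * K * (ε * δ)) ≤ 1 * (7 * K * (ε * δ)) := by
    apply mul_le_mul_of_nonneg_right _ h1
    linarith only [h2]
  linarith only [h3]

/-- `B/A - P_t/P_x`. -/
theorem mdiff_loc (hp : Par ε δ K ι) (hr : Ref ε u0 p) (h : Loc ε δ K u0 q u p)
    (h' : Loc ε δ K u0 q' u' p) (hA : ∀ z, pA ι q q' u u' z ≠ 0)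
    (hP : ∀ z, dx (dx u0) z ≠ 0) :
    Bd (1920 * (7 * K * (ε * δ))) (fun z => pB ι q q' u u' z / pA ι q q' u u' z
      - dt (dx u0) z / dx (dx u0) z) p := by
  have e : (fun z => pB ι q q' u u' z / pA ι q q' u u' z - dt (dx u0) z / dx (dx u0) z)
      = fun z => (-(1 / 2)) * (palpha ι q q' u u' (dx u0) z * (dx (dx u0) z)⁻¹) := by
    funext z
    have := hA z
    have := hP z
    unfold palpha
    field_simp
    ring
  rw [e]
  refine (((palpha_loc hp hr h h' hA).mul (iP_bd hp hr)).const_mul (-(1 / 2))).mono ?_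
  rw [abs_neg, abs_of_pos (by norm_num : (0 : ℝ) < 1 / 2)]
  linarith only

/-- `C/A - u0_tt/P_x`. -/
theorem cdiff_loc (hp : Par ε δ K ι) (hr : Ref ε u0 p) (h : Loc ε δ K u0 q u p)
    (h' : Loc ε δ K u0 q' u' p) (hA : ∀ z, pA ι q q' u u' z ≠ 0)
    (hP : ∀ z, dx (dx u0) z ≠ 0) :
    Bd (1920 * (7 * K * (ε * δ))) (fun z => pC ι q q' u u' z / pA ι q q' u u' z
      - dt (dt u0) z / dx (dx u0) z) p := by
  have e : (fun z => pC ι q q' u u' z / pA ι q q' u u' z - dt (dt u0) z / dx (dx u0) z)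
      = fun z => (((pC ι q q' u u' z - dt (dt u0) z) * dx (dx u0) z
          - dt (dt u0) z * (pA ι q q' u u' z - dx (dx u0) z)) * (pA ι q q' u u' z)⁻¹)
          * (dx (dx u0) z)⁻¹ := by
    funext z
    have := hA z
    have := hP z
    field_simp
    ring
  rw [e]
  refine (((((pC_loc hp h h').mul (hr.Px hp)).sub (hr.tt.mul (pA_loc hp h h'))).mul
    (iA_bd hp hr h h')).mul (iP_bd hp hr)).mono ?_
  have h1 := hp.kap_nonneg
  have h2 := hp.ε_le
  norm_num at h2
  have h3 : 2 * ε * (7 * K * (ε * δ)) ≤ 1 * (7 * K * (ε * δ)) := by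
    apply mul_le_mul_of_nonneg_right _ h1
    linarith only [h2]
  linarith only [h3]

/-- `E - 1`. -/
theorem EE_loc (hp : Par ε δ K ι) (h : Loc ε δ K u0 q u p) :
    Bd (18 * (K * ε)) (fun z => EE ι q u z - 1) p := by
  have e : (fun z => EE ι q u z - 1)
      = fun z => (Real.exp (2 * ι * q z) - 1) - ι * (dx u z * dx u z + dt u z * dt u z) := by
    funext z; unfold EE; ring
  rw [e]
  have h1 := hp.K_one; have h2 := hp.ε_pos; have h3 := hp.δ_pos; have h4 := hp.ι_le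
  have h5 := hp.ι_nonneg; have h6 := hp.Kε; have h7 := hp.δ_small
  have h8 : 2 * ι * (K * δ) ≤ 2 * (K * ε) := by
    have : ι * (K * δ) ≤ ε * (K * 1) := by gcongr; linarith only [h7]
    linarith only [this]
  norm_num at h6
  refine ((((h.q0.const_mul (2 * ι)).expm1 ?_)).sub
    (((h.ux.mul h.ux).add (h.ut.mul h.ut)).const_mul ι)).mono ?_
  · rw [abs_of_nonneg (by positivity)]; linarith only [h8, h6]
  · rw [abs_of_nonneg (by positivity), abs_of_nonneg h5]
    nlinarith only [h4, h8, h1, h2]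

theorem rho_bd (hr : rho2 p < 0.7) : Bd 2 (fun z => rho2 z - 1 / 4) p := by
  have hx : DifferentiableAt ℝ (fun z : Pl => z.1) p := differentiableAt_fst
  have ht : DifferentiableAt ℝ (fun z : Pl => z.2) p := differentiableAt_snd
  have e : (fun z => rho2 z - 1 / 4) = fun z : Pl => (z.1 * z.1 + z.2 * z.2) - 1 / 4 := by
    funext z; unfold rho2; ring
  have d1 : DifferentiableAt ℝ (fun z : Pl => z.1 * z.1) p := hx.mul hx
  have d2 : DifferentiableAt ℝ (fun z : Pl => z.2 * z.2) p := ht.mul ht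
  have d3 : DifferentiableAt ℝ (fun z : Pl => z.1 * z.1 + z.2 * z.2) p := d1.add d2
  have hx2 : |p.1| ≤ 1 := by
    rw [abs_le]; unfold rho2 at hr; constructor <;> nlinarith only [hr]
  have ht2 : |p.2| ≤ 1 := by
    rw [abs_le]; unfold rho2 at hr; constructor <;> nlinarith only [hr]
  refine ⟨?_, ?_, ?_, ?_⟩
  · rw [e]; exact d3.sub_const _
  · unfold rho2 at hr ⊢
    rw [abs_le]; constructor <;> nlinarith only [hr]
  · rw [e, dx_sub d3 (differentiableAt_const _), dx_add d1 d2, dx_mul hx hx, dx_mul ht ht, dx_const,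
      dx_fst, dx_snd]
    have : (1 : ℝ) * p.1 + p.1 * 1 + (0 * p.2 + p.2 * 0) - 0 = 2 * p.1 := by ring
    rw [this, abs_mul]; norm_num; exact hx2
  · rw [e, dt_sub d3 (differentiableAt_const _), dt_add d1 d2, dt_mul hx hx, dt_mul ht ht, dt_const,
      dt_fst, dt_snd]
    have : (0 : ℝ) * p.1 + p.1 * 0 + (1 * p.2 + p.2 * 1) - 0 = 2 * p.2 := by ring
    rw [this, abs_mul]; norm_num; exact ht2

theorem dx_rho : dx (fun z => rho2 z - 1 / 4) p = 2 * p.1 := by
  have hx : DifferentiableAt ℝ (fun z : Pl => z.1) p := differentiableAt_fst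
  have ht : DifferentiableAt ℝ (fun z : Pl => z.2) p := differentiableAt_snd
  have e : (fun z => rho2 z - 1 / 4) = fun z : Pl => (z.1 * z.1 + z.2 * z.2) - 1 / 4 := by
    funext z; unfold rho2; ring
  have d1 : DifferentiableAt ℝ (fun z : Pl => z.1 * z.1) p := hx.mul hx
  have d2 : DifferentiableAt ℝ (fun z : Pl => z.2 * z.2) p := ht.mul ht
  have d3 : DifferentiableAt ℝ (fun z : Pl => z.1 * z.1 + z.2 * z.2) p := d1.add d2
  rw [e, dx_sub d3 (differentiableAt_const _), dx_add d1 d2, dx_mul hx hx, dx_mul ht ht,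
    dx_const, dx_fst, dx_snd]
  ring

theorem dt_rho : dt (fun z => rho2 z - 1 / 4) p = 2 * p.2 := by
  have hx : DifferentiableAt ℝ (fun z : Pl => z.1) p := differentiableAt_fst
  have ht : DifferentiableAt ℝ (fun z : Pl => z.2) p := differentiableAt_snd
  have e : (fun z => rho2 z - 1 / 4) = fun z : Pl => (z.1 * z.1 + z.2 * z.2) - 1 / 4 := by
    funext z; unfold rho2; ring
  have d1 : DifferentiableAt ℝ (fun z : Pl => z.1 * z.1) p := hx.mul hx
  have d2 : DifferentiableAt ℝ (fun z : Pl => z.2 * z.2) p := ht.mul ht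
  have d3 : DifferentiableAt ℝ (fun z : Pl => z.1 * z.1 + z.2 * z.2) p := d1.add d2
  rw [e, dt_sub d3 (differentiableAt_const _), dt_add d1 d2, dt_mul hx hx, dt_mul ht ht,
    dt_const, dt_fst, dt_snd]
  ring

theorem ff_bd (hp : Par ε δ K ι) (hr : rho2 p < 0.7) (h : Loc ε δ K u0 q u p) :
    Bd (3 * δ) (ff q) p := by
  have h1 := h.fq.add ((rho_bd hr).const_mul δ)
  have e : (fun z => (ff q z - δ * (rho2 z - 1 / 4)) + δ * (rho2 z - 1 / 4)) = ff q := by
    funext z; ring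
  rw [e] at h1
  refine h1.mono ?_
  have h3 := hp.δ_pos; have h6 := hp.Kε
  rw [abs_of_pos h3]
  norm_num at h6
  nlinarith only [h3, h6]

theorem fE_loc (hp : Par ε δ K ι) (hr : rho2 p < 0.7) (h : Loc ε δ K u0 q u p) :
    Bd (16 * (7 * K * (ε * δ))) (fun z => ff q z * EE ι q u z - δ * (rho2 z - 1 / 4)) p := by
  have e : (fun z => ff q z * EE ι q u z - δ * (rho2 z - 1 / 4))
      = fun z => ff q z * (EE ι q u z - 1) + (ff q z - δ * (rho2 z - 1 / 4)) := by
    funext z; ring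
  rw [e]
  refine (((ff_bd hp hr h).mul (EE_loc hp h)).add h.fq).mono ?_
  have h1 := hp.K_one; have h2 := hp.ε_pos; have h3 := hp.δ_pos
  linarith only [mul_pos (mul_pos h2 h3) (lt_of_lt_of_le one_pos h1)]

theorem Hdet_loc (hp : Par ε δ K ι) (h : Loc ε δ K u0 q u p) (h' : Loc ε δ K u0 q' u' p) :
    Bd (7 * K * (ε * δ)) (fun z => ((Hxx ι q u z - Hxx ι q' u' z) * (Htt ι q u z - Htt ι q' u' z)
      - (Hxt ι q u z - Hxt ι q' u' z) * (Hxt ι q u z - Hxt ι q' u' z)) / 4) p := by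
  have e : (fun z => ((Hxx ι q u z - Hxx ι q' u' z) * (Htt ι q u z - Htt ι q' u' z)
      - (Hxt ι q u z - Hxt ι q' u' z) * (Hxt ι q u z - Hxt ι q' u' z)) / 4)
      = fun z => (1 / 4) * ((((Hxx ι q u z - dx (dx u0) z) - (Hxx ι q' u' z - dx (dx u0) z))
        * ((Htt ι q u z - dt (dt u0) z) - (Htt ι q' u' z - dt (dt u0) z)))
      - (((Hxt ι q u z - dt (dx u0) z) - (Hxt ι q' u' z - dt (dx u0) z))
        * ((Hxt ι q u z - dt (dx u0) z) - (Hxt ι q' u' z - dt (dx u0) z)))) := by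
    funext z; ring
  rw [e]
  have a1 := (Hxx_loc hp h).sub (Hxx_loc hp h')
  have a2 := (Htt_loc hp h).sub (Htt_loc hp h')
  have a3 := (Hxt_loc hp h).sub (Hxt_loc hp h')
  refine (((a1.mul a2).sub (a3.mul a3)).const_mul (1 / 4)).mono ?_
  rw [abs_of_pos (by norm_num : (0 : ℝ) < 1 / 4)]
  have k0 := hp.kap_nonneg
  have k1 := hp.kap_le
  norm_num at k1
  set κ := 7 * K * (ε * δ)
  nlinarith only [k0, k1]

/-- the coefficient `a`. -/
theorem pa_loc (hp : Par ε δ K ι) (hr : Ref ε u0 p) (h : Loc ε δ K u0 q u p)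
    (h' : Loc ε δ K u0 q' u' p) (hF : Frame (dx u0)) (hA : ∀ z, pA ι q q' u u' z ≠ 0)
    (hD : ∀ᶠ z in 𝓝 p, Darb ι q u z ∧ Darb ι q' u' z) :
    Bd (300 * (7 * K * (ε * δ))) (fun z => pa ι q q' u u' (dx u0) z - δ * (rho2 z - 1 / 4)) p := by
  have hP : ∀ z, dx (dx u0) z ≠ 0 := fun z => hF.dx_ne z
  have e : (fun z => pa ι q q' u u' (dx u0) z - δ * (rho2 z - 1 / 4)) =ᶠ[𝓝 p]
      fun z => ((dx (dx u0) z * dx (dx u0) z)
          * ((pB ι q q' u u' z / pA ι q q' u u' z - dt (dx u0) z / dx (dx u0) z)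
            * (pB ι q q' u u' z / pA ι q q' u u' z - dt (dx u0) z / dx (dx u0) z))
        + (1 - (((pA ι q q' u u' z - dx (dx u0) z) * (pA ι q q' u u' z + dx (dx u0) z))
            * ((pA ι q q' u u' z)⁻¹ * (pA ι q q' u u' z)⁻¹)))
          * (((ff q z * EE ι q u z - δ * (rho2 z - 1 / 4))
              + (ff q' z * EE ι q' u' z - δ * (rho2 z - 1 / 4))) * (1 / 2)
            - ((Hxx ι q u z - Hxx ι q' u' z) * (Htt ι q u z - Htt ι q' u' z)
              - (Hxt ι q u z - Hxt ι q' u' z) * (Hxt ι q u z - Hxt ι q' u' z)) / 4))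
        - (((pA ι q q' u u' z - dx (dx u0) z) * (pA ι q q' u u' z + dx (dx u0) z))
            * ((pA ι q q' u u' z)⁻¹ * (pA ι q q' u u' z)⁻¹)) * (δ * (rho2 z - 1 / 4)) := by
    filter_upwards [hD] with z hz
    rw [pa_formula hF z (hA z) hz.1 hz.2]
    have := hA z
    have := hP z
    field_simp
    ring
  refine Bd.congr ?_ e
  have b1 := mdiff_loc hp hr h h' hA hP
  have b2 := hr.Px hp
  have b3 := (b2.mul b2).mul (b1.mul b1)
  have b4 := pA_loc hp h h'
  have b5 := (pA_bd hp hr h h').add b2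
  have b6 := (b4.mul b5).mul ((iA_bd hp hr h h').mul (iA_bd hp hr h h'))
  have b7 := ((Bd.const 1 p).sub b6)
  have b8 := (((fE_loc hp hr.rho h).add (fE_loc hp hr.rho h')).mul (Bd.const (1 / 2) p))
  have b9 := b8.sub (Hdet_loc hp h h')
  have b10 := (rho_bd hr.rho).const_mul δ
  refine ((b3.add (b7.mul b9)).sub (b6.mul b10)).mono ?_
  have k0 := hp.kap_nonneg
  have k1 := hp.kap_le
  have k2 := hp.δ_pos
  have k3 := hp.δ_small
  norm_num at k1
  set κ := 7 * K * (ε * δ)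
  rw [abs_one, abs_of_pos (by norm_num : (0 : ℝ) < 1 / 2), abs_of_pos k2]
  have k4 : κ * κ ≤ 1 / 1000000 * κ := by nlinarith only [k0, k1]
  have k5 : κ * δ ≤ 1 / 1000 * κ := by nlinarith only [k3, k0]
  linarith only [k0, k4, k5]

/-- `|b₂|` -/
theorem pb2_loc (hp : Par ε δ K ι) (hr : Ref ε u0 p) (h : Loc ε δ K u0 q u p)
    (h' : Loc ε δ K u0 q' u' p) : |pb2 ι q q' u u' p| ≤ 3 * (7 * K * (ε * δ)) := by
  have a1 := (pA_bd hp hr h h').val
  have a2 := abs_le.1 (pC_loc hp h h').val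
  have a3 := abs_le.1 (pB_loc hp h h').val
  have a4 := abs_le.1 hr.tt.val
  have a5 := abs_le.1 hr.xt.val
  have k0 := hp.kap_nonneg
  have k1 := hp.kap_le
  have k2 := hp.ε_le
  norm_num at k1 k2
  have c1 : |pA ι q q' u u' p - pC ι q q' u u' p| ≤ 4 := by
    have : |pC ι q q' u u' p| ≤ 1 := by rw [abs_le]; constructor <;> linarith only [a2, a4, k1, k2]
    exact (abs_sub _ _).trans (by linarith only [a1, this])
  have c2 : |pB ι q q' u u' p| ≤ 1 := by
    rw [abs_le]; constructor <;> linarith only [a3, a5, k1, k2]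
  have avg : ∀ {x y c : ℝ}, |x| ≤ c → |y| ≤ c → |(x + y) / 2| ≤ c := by
    intro x y c hx hy
    rw [abs_le] at *; constructor <;> linarith only [hx.1, hy.1, hx.2, hy.2]
  have d1 := avg h.qt.val h'.qt.val
  have d2 := avg h.qx.val h'.qx.val
  have d3 := avg (ff_bd hp hr.rho h).val (ff_bd hp hr.rho h').val
  have d4 := avg h.ut.val h'.ut.val
  have e1 : |-(pA ι q q' u u' p - pC ι q q' u u' p) * ((dt q p + dt q' p) / 2)| ≤ 4 * (K * δ) := by
    rw [abs_mul, abs_neg]; exact mul_le_mul c1 d1 (abs_nonneg _) (by norm_num)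
  have e2 : |2 * pB ι q q' u u' p * ((dx q p + dx q' p) / 2)| ≤ 2 * (K * δ) := by
    rw [abs_mul, abs_mul, abs_two]
    have := mul_le_mul c2 d2 (abs_nonneg _) (by norm_num)
    linarith only [this]
  have e3 : |(ff q p + ff q' p) / 2 * ((dt u p + dt u' p) / 2)| ≤ 3 * δ := by
    rw [abs_mul]
    have := mul_le_mul d3 d4 (abs_nonneg _) ((abs_nonneg _).trans d3)
    linarith only [this]
  have h1 := hp.K_one; have h2 := hp.ε_pos; have h3 := hp.δ_pos; have h4 := hp.ι_le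
  have h5 := hp.ι_nonneg
  unfold pb2
  have e4 : ι * (-(pA ι q q' u u' p - pC ι q q' u u' p) * ((dt q p + dt q' p) / 2)
      + 2 * pB ι q q' u u' p * ((dx q p + dx q' p) / 2))
    + 2 * ι * ((ff q p + ff q' p) / 2) * ((dt u p + dt u' p) / 2)
    = ι * ((-(pA ι q q' u u' p - pC ι q q' u u' p) * ((dt q p + dt q' p) / 2)
      + 2 * pB ι q q' u u' p * ((dx q p + dx q' p) / 2))
      + 2 * ((ff q p + ff q' p) / 2 * ((dt u p + dt u' p) / 2))) := by ring
  rw [e4, abs_mul, abs_of_nonneg h5]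
  have e5 : |(-(pA ι q q' u u' p - pC ι q q' u u' p) * ((dt q p + dt q' p) / 2)
      + 2 * pB ι q q' u u' p * ((dx q p + dx q' p) / 2))
      + 2 * ((ff q p + ff q' p) / 2 * ((dt u p + dt u' p) / 2))| ≤ 12 * (K * δ) := by
    have f1 := abs_add_le (-(pA ι q q' u u' p - pC ι q q' u u' p) * ((dt q p + dt q' p) / 2)
      + 2 * pB ι q q' u u' p * ((dx q p + dx q' p) / 2))
      (2 * ((ff q p + ff q' p) / 2 * ((dt u p + dt u' p) / 2)))
    have f2 := abs_add_le (-(pA ι q q' u u' p - pC ι q q' u u' p) * ((dt q p + dt q' p) / 2))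
      (2 * pB ι q q' u u' p * ((dx q p + dx q' p) / 2))
    rw [abs_mul 2 ((ff q p + ff q' p) / 2 * ((dt u p + dt u' p) / 2)), abs_two] at f1
    nlinarith only [e1, e2, e3, f1, f2, h1, h3]
  calc ι * _ ≤ ε * (12 * (K * δ)) := mul_le_mul h4 e5 (abs_nonneg _) h2.le
    _ ≤ 3 * (7 * K * (ε * δ)) := by linarith only [a2]

/-- `|b₁|` -/
theorem pb1_loc (hp : Par ε δ K ι) (hr : Ref ε u0 p) (h : Loc ε δ K u0 q u p)
    (h' : Loc ε δ K u0 q' u' p) : |pb1 ι q q' u u' p| ≤ 3 * (7 * K * (ε * δ)) := by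
  have a1 := (pA_bd hp hr h h').val
  have a2 := abs_le.1 (pC_loc hp h h').val
  have a3 := abs_le.1 (pB_loc hp h h').val
  have a4 := abs_le.1 hr.tt.val
  have a5 := abs_le.1 hr.xt.val
  have k0 := hp.kap_nonneg
  have k1 := hp.kap_le
  have k2 := hp.ε_le
  norm_num at k1 k2
  have c1 : |pA ι q q' u u' p - pC ι q q' u u' p| ≤ 4 := by
    have : |pC ι q q' u u' p| ≤ 1 := by rw [abs_le]; constructor <;> linarith only [a2, a4, k1, k2]
    exact (abs_sub _ _).trans (by linarith only [a1, this])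
  have c2 : |pB ι q q' u u' p| ≤ 1 := by
    rw [abs_le]; constructor <;> linarith only [a3, a5, k1, k2]
  have avg : ∀ {x y c : ℝ}, |x| ≤ c → |y| ≤ c → |(x + y) / 2| ≤ c := by
    intro x y c hx hy
    rw [abs_le] at *; constructor <;> linarith only [hx.1, hy.1, hx.2, hy.2]
  have d1 := avg h.qt.val h'.qt.val
  have d2 := avg h.qx.val h'.qx.val
  have d3 := avg (ff_bd hp hr.rho h).val (ff_bd hp hr.rho h').val
  have d4 := avg h.ux.val h'.ux.val
  have e1 : |(pA ι q q' u u' p - pC ι q q' u u' p) * ((dx q p + dx q' p) / 2)| ≤ 4 * (K * δ) := by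
    rw [abs_mul]; exact mul_le_mul c1 d2 (abs_nonneg _) (by norm_num)
  have e2 : |2 * pB ι q q' u u' p * ((dt q p + dt q' p) / 2)| ≤ 2 * (K * δ) := by
    rw [abs_mul, abs_mul, abs_two]
    have := mul_le_mul c2 d1 (abs_nonneg _) (by norm_num)
    linarith only [this]
  have e3 : |(ff q p + ff q' p) / 2 * ((dx u p + dx u' p) / 2)| ≤ 6 * δ := by
    rw [abs_mul]
    have := mul_le_mul d3 d4 (abs_nonneg _) ((abs_nonneg _).trans d3)
    linarith only [this]
  have h1 := hp.K_one; have h2 := hp.ε_pos; have h3 := hp.δ_pos; have h4 := hp.ι_le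
  have h5 := hp.ι_nonneg
  unfold pb1
  have e4 : ι * ((pA ι q q' u u' p - pC ι q q' u u' p) * ((dx q p + dx q' p) / 2)
      + 2 * pB ι q q' u u' p * ((dt q p + dt q' p) / 2))
    + 2 * ι * ((ff q p + ff q' p) / 2) * ((dx u p + dx u' p) / 2)
    = ι * (((pA ι q q' u u' p - pC ι q q' u u' p) * ((dx q p + dx q' p) / 2)
      + 2 * pB ι q q' u u' p * ((dt q p + dt q' p) / 2))
      + 2 * ((ff q p + ff q' p) / 2 * ((dx u p + dx u' p) / 2))) := by ring
  rw [e4, abs_mul, abs_of_nonneg h5]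
  have e5 : |((pA ι q q' u u' p - pC ι q q' u u' p) * ((dx q p + dx q' p) / 2)
      + 2 * pB ι q q' u u' p * ((dt q p + dt q' p) / 2))
      + 2 * ((ff q p + ff q' p) / 2 * ((dx u p + dx u' p) / 2))| ≤ 18 * (K * δ) := by
    have f1 := abs_add_le ((pA ι q q' u u' p - pC ι q q' u u' p) * ((dx q p + dx q' p) / 2)
      + 2 * pB ι q q' u u' p * ((dt q p + dt q' p) / 2))
      (2 * ((ff q p + ff q' p) / 2 * ((dx u p + dx u' p) / 2)))
    have f2 := abs_add_le ((pA ι q q' u u' p - pC ι q q' u u' p) * ((dx q p + dx q' p) / 2))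
      (2 * pB ι q q' u u' p * ((dt q p + dt q' p) / 2))
    rw [abs_mul 2 ((ff q p + ff q' p) / 2 * ((dx u p + dx u' p) / 2)), abs_two] at f1
    nlinarith only [e1, e2, e3, f1, f2, h1, h3]
  calc ι * _ ≤ ε * (18 * (K * δ)) := mul_le_mul h4 e5 (abs_nonneg _) h2.le
    _ ≤ 3 * (7 * K * (ε * δ)) := by linarith only [a2]

theorem pe1_loc (hp : Par ε δ K ι) (hr : Ref ε u0 p) (h : Loc ε δ K u0 q u p)
    (h' : Loc ε δ K u0 q' u' p) : |pe1 ι q q' u u' p| ≤ 6 * (7 * K * (ε * δ)) := by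
  have a1 := pA_val hp hr h h'
  have a2 := pb2_loc hp hr h h'
  unfold pe1
  rw [abs_div, abs_of_pos (by linarith : 0 < pA ι q q' u u' p), div_le_iff₀ (by linarith only [a1])]
  have k0 := hp.kap_nonneg
  nlinarith only [a2, a1, k0]

theorem pe2_loc (hp : Par ε δ K ι) (hr : Ref ε u0 p) (h : Loc ε δ K u0 q u p)
    (h' : Loc ε δ K u0 q' u' p) (hF : Frame (dx u0)) (hA : ∀ z, pA ι q q' u u' z ≠ 0)
    (hu0 : ContDiff ℝ 4 u0) (hq : ContDiff ℝ 4 q) (hq' : ContDiff ℝ 4 q')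
    (hu : ContDiff ℝ 4 u) (hu' : ContDiff ℝ 4 u') :
    |pe2 ι q q' u u' (dx u0) p| ≤ 5000 * (7 * K * (ε * δ)) := by
  have hP : ∀ z, dx (dx u0) z ≠ 0 := fun z => hF.dx_ne z
  rw [pe2_formula hF hu0 hq hq' hu hu' hA p]
  have b1 := mdiff_loc hp hr h h' hA hP
  have b2 := cdiff_loc hp hr h h' hA hP
  have b3 := pb1_loc hp hr h h'
  have b4 := pb2_loc hp hr h h'
  have b5 := pA_val hp hr h h'
  have b6 := hr.xt.val
  have b7 := (hr.Px hp).val
  have b8 : |dx (dx (dx u0)) p| ≤ ε := by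
    have h1 := hr.xx.bx
    have hd : DifferentiableAt ℝ (dx (dx u0)) p := (hr.Px hp).diff
    rw [dx_sub hd (differentiableAt_const _), dx_const, sub_zero] at h1
    exact h1
  have b9 : |dt (dx u0) p / dx (dx u0) p| ≤ 2 * ε := by
    have h2 := abs_le.1 hr.Px_val
    have h4 := hp.ε_le
    norm_num at h4
    have hpos : 1 / 2 ≤ dx (dx u0) p := by linarith only [h2, h4]
    rw [abs_div, abs_of_pos (by linarith only [h2, h4] : 0 < dx (dx u0) p), div_le_iff₀ (by linarith only [h2, h4])]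
    have := hp.ε_pos
    nlinarith only [b6, h2, h4]
  have k0 := hp.kap_nonneg
  have k1 := hp.kap_le
  have k2 := hp.ε_le
  have k3 := hp.ε_pos
  norm_num at k1 k2
  set κ := 7 * K * (ε * δ)
  have t1 : |2 * dt (dx u0) p * dx (fun q_1 => pB ι q q' u u' q_1 / pA ι q q' u u' q_1
          - dt (dx u0) q_1 / dx (dx u0) q_1) p| ≤ κ := by
    rw [abs_mul, abs_mul, abs_two]
    have := mul_le_mul b6 b1.bx (abs_nonneg _) k3.le
    nlinarith only [k0, this, k2]
  have t2 : |2 * (dt (dx u0) p / dx (dx u0) p) * (pB ι q q' u u' p / pA ι q q' u u' p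
          - dt (dx u0) p / dx (dx u0) p) * dx (dx (dx u0)) p| ≤ κ := by
    rw [abs_mul, abs_mul, abs_mul, abs_two]
    have s1 := mul_le_mul b9 b1.val (abs_nonneg _) (by linarith only [k3])
    have s2 := mul_le_mul s1 b8 (abs_nonneg _) (by (clear * - k3 k0; positivity))
    have s3 : 2 * ε * (1920 * κ) * ε ≤ κ / 2 := by
      have : ε * ε ≤ 1 / 10000 * (1 / 10000) := by nlinarith only [k2, k3]
      nlinarith only [k0, this]
    linarith only [s2, s3]
  have t3 : |dx (dx u0) p * dx (fun q_1 => pC ι q q' u u' q_1 / pA ι q q' u u' q_1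
          - dt (dt u0) q_1 / dx (dx u0) q_1) p| ≤ 3840 * κ := by
    rw [abs_mul]
    have := mul_le_mul b7 b2.bx (abs_nonneg _) (by norm_num)
    linarith only [this]
  have t4 : |(pC ι q q' u u' p / pA ι q q' u u' p - dt (dt u0) p / dx (dx u0) p)
          * dx (dx (dx u0)) p| ≤ κ := by
    rw [abs_mul]
    have := mul_le_mul b2.val b8 (abs_nonneg _) (by (clear * - k0; positivity))
    nlinarith only [k0, this, k2]
  have t5 : |(pb1 ι q q' u u' p * dx (dx u0) p + pb2 ι q q' u u' p * dt (dx u0) p)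
          / pA ι q q' u u' p| ≤ 20 * κ := by
    rw [abs_div, abs_of_pos (by linarith only [b5] : 0 < pA ι q q' u u' p), div_le_iff₀ (by linarith only [b5])]
    have s1 := abs_add_le (pb1 ι q q' u u' p * dx (dx u0) p) (pb2 ι q q' u u' p * dt (dx u0) p)
    rw [abs_mul, abs_mul] at s1
    have s2 := mul_le_mul b3 b7 (abs_nonneg _) (by (clear * - k0; positivity))
    have s3 := mul_le_mul b4 b6 (abs_nonneg _) (by (clear * - k0; positivity))
    nlinarith only [k0, s1, s2, s3, b5, k2]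
  rw [abs_le] at *
  constructor <;> linarith only [t1, t2, t3, t4, t5]

/-- `g - 1`. -/
theorem pg_loc (hp : Par ε δ K ι) (hr : Ref ε u0 p) (h : Loc ε δ K u0 q u p)
    (h' : Loc ε δ K u0 q' u' p) (hA : ∀ z, pA ι q q' u u' z ≠ 0) :
    Bd (1 / 10) (fun z => pg ι q q' u u' z - 1) p := by
  have e : (fun z => pg ι q q' u u' z - 1)
      = fun z => (((EE ι q u z - 1) + (EE ι q' u' z - 1)) * (1 / 2)
        - ((pA ι q q' u u' z - dx (dx u0) z) + (dx (dx u0) z - 1))) * (pA ι q q' u u' z)⁻¹ := by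
    funext z
    have := hA z
    unfold pg
    field_simp
    ring
  rw [e]
  refine ((((((EE_loc hp h).add (EE_loc hp h')).mul (Bd.const (1 / 2) p)).sub
    ((pA_loc hp h h').add hr.xx)).mul (iA_bd hp hr h h'))).mono ?_
  rw [abs_of_pos (by norm_num : (0 : ℝ) < 1 / 2)]
  have k1 := hp.kap_le
  have k2 := hp.ε_le
  have k3 := hp.Kε
  norm_num at k1 k2 k3 ⊢
  linarith only [k1, k2, k3]

theorem pF_alg {ψx ψt ψxx ψtt : ℝ} (hA0 : pA ι q q' u u' p ≠ 0) (ex : dx q p - dx q' p = ψx)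
    (et : dt q p - dt q' p = ψt) (exx : dx (dx q) p - dx (dx q') p = ψxx)
    (ett : dt (dt q) p - dt (dt q') p = ψtt) :
    pF ι q q' u u' p + pg ι q q' u u' p * (ψxx + ψtt)
      = ((ff q p + ff q' p) / 2 * (Real.exp (2 * ι * q p) - Real.exp (2 * ι * q' p))
        - ι * ((pA ι q q' u u' p - pC ι q q' u u' p)
          * (ψx * ((dx u p + dx u' p) / 2) - ψt * ((dt u p + dt u' p) / 2))
        + 2 * pB ι q q' u u' p * (ψt * ((dx u p + dx u' p) / 2)
          + ψx * ((dt u p + dt u' p) / 2)))) / pA ι q q' u u' p := by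
  rw [← exx, ← ett, ← ex, ← et]
  unfold pF pg ff
  field_simp
  ring

theorem exp_diff {a b c : ℝ} (hb : |b| ≤ 1) (hab : |a - b| ≤ 1) (hc : |a - b| ≤ 2 * c) :
    |Real.exp a - Real.exp b| ≤ 12 * c := by
  have s1 : Real.exp a - Real.exp b = Real.exp b * (Real.exp (a - b) - 1) := by
    rw [mul_sub, ← Real.exp_add]; ring_nf
  rw [s1, abs_mul, abs_of_pos (Real.exp_pos _)]
  have s2 : Real.exp b ≤ 3 := by
    calc Real.exp b ≤ Real.exp 1 := Real.exp_le_exp.mpr ((le_abs_self _).trans hb)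
      _ ≤ 3 := by linarith [Real.exp_one_lt_d9]
  have s3 := Real.abs_exp_sub_one_le hab
  have s5 : |Real.exp (a - b) - 1| ≤ 4 * c := by linarith only [hc, s3]
  calc Real.exp b * |Real.exp (a - b) - 1| ≤ 3 * (4 * c) :=
        mul_le_mul s2 s5 (abs_nonneg _) (by norm_num)
    _ = 12 * c := by ring

theorem pF_real {AC B ux ut ψx ψt ι ε : ℝ} (c1 : |AC| ≤ 4) (c2 : |B| ≤ 1) (d4 : |ux| ≤ 2)
    (d5 : |ut| ≤ 1) (h5 : 0 ≤ ι) (h4 : ι ≤ ε) :
    |ι * (AC * (ψx * ux - ψt * ut) + 2 * B * (ψt * ux + ψx * ut))|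
      ≤ ε * (12 * (|ψx| + |ψt|)) := by
  have n1 := abs_nonneg ψx
  have n2 := abs_nonneg ψt
  have u1 : |ψx * ux - ψt * ut| ≤ 2 * |ψx| + |ψt| := by
    refine (abs_sub _ _).trans ?_
    rw [abs_mul, abs_mul]
    have s1 := mul_le_mul_of_nonneg_left d4 n1
    have s2 := mul_le_mul_of_nonneg_left d5 n2
    linarith
  have u2 : |ψt * ux + ψx * ut| ≤ 2 * |ψt| + |ψx| := by
    refine (abs_add_le _ _).trans ?_
    rw [abs_mul, abs_mul]
    have s1 := mul_le_mul_of_nonneg_left d4 n2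
    have s2 := mul_le_mul_of_nonneg_left d5 n1
    linarith only [s1, s2]
  have t2 : |AC * (ψx * ux - ψt * ut) + 2 * B * (ψt * ux + ψx * ut)|
      ≤ 12 * (|ψx| + |ψt|) := by
    refine (abs_add_le _ _).trans ?_
    rw [abs_mul, abs_mul (2 * B), abs_mul, abs_two]
    have s1 := mul_le_mul c1 u1 (abs_nonneg _) (by norm_num)
    have s2 := mul_le_mul c2 u2 (abs_nonneg _) (by norm_num)
    linarith only [n1, n2, s1, s2]
  rw [abs_mul, abs_of_nonneg h5]
  exact mul_le_mul h4 t2 (abs_nonneg _) (h5.trans h4)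

theorem q_diff {ψ : Pl → ℝ} (hψ : (fun z => q z - q' z) =ᶠ[𝓝 p] ψ)
    (hq : ContDiff ℝ 4 q) (hq' : ContDiff ℝ 4 q') :
    q p - q' p = ψ p ∧ dx q p - dx q' p = dx ψ p ∧ dt q p - dt q' p = dt ψ p ∧
    dx (dx q) p - dx (dx q') p = dx (dx ψ) p ∧ dt (dt q) p - dt (dt q') p = dt (dt ψ) p := by
  have dq : Differentiable ℝ q := hq.differentiable (by norm_num)
  have dq' : Differentiable ℝ q' := hq'.differentiable (by norm_num)
  have dqx : Differentiable ℝ (dx q) := (contDiff_dx (m := 1) hq (by norm_num)).differentiable (by norm_num)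
  have dqx' : Differentiable ℝ (dx q') := (contDiff_dx (m := 1) hq' (by norm_num)).differentiable (by norm_num)
  have dqt : Differentiable ℝ (dt q) := (contDiff_dt (m := 1) hq (by norm_num)).differentiable (by norm_num)
  have dqt' : Differentiable ℝ (dt q') := (contDiff_dt (m := 1) hq' (by norm_num)).differentiable (by norm_num)
  have ex0 : (fun z => dx q z - dx q' z) =ᶠ[𝓝 p] dx ψ := by
    have := ev_dx hψ
    have e : dx (fun z => q z - q' z) = fun z => dx q z - dx q' z := by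
      funext z; exact dx_sub (dq z) (dq' z)
    rwa [e] at this
  have et0 : (fun z => dt q z - dt q' z) =ᶠ[𝓝 p] dt ψ := by
    have := ev_dt hψ
    have e : dt (fun z => q z - q' z) = fun z => dt q z - dt q' z := by
      funext z; exact dt_sub (dq z) (dq' z)
    rwa [e] at this
  refine ⟨hψ.eq_of_nhds, ex0.eq_of_nhds, et0.eq_of_nhds, ?_, ?_⟩
  · have := (ev_dx ex0).eq_of_nhds
    rw [dx_sub (dqx p) (dqx' p)] at this
    exact this
  · have := (ev_dt et0).eq_of_nhds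
    rw [dt_sub (dqt p) (dqt' p)] at this
    exact this

theorem AC_val (hp : Par ε δ K ι) (hr : Ref ε u0 p) (h : Loc ε δ K u0 q u p)
    (h' : Loc ε δ K u0 q' u' p) : |pA ι q q' u u' p - pC ι q q' u u' p| ≤ 4 ∧
      |pB ι q q' u u' p| ≤ 1 := by
  have a1 := (pA_bd hp hr h h').val
  have a2 := abs_le.1 (pC_loc hp h h').val
  have a3 := abs_le.1 (pB_loc hp h h').val
  have a4 := abs_le.1 hr.tt.val
  have a5 := abs_le.1 hr.xt.val
  have k0 := hp.kap_nonneg
  have k1 := hp.kap_le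
  have k2 := hp.ε_le
  norm_num at k1 k2
  constructor
  · have : |pC ι q q' u u' p| ≤ 1 := by rw [abs_le]; constructor <;> linarith only [a2, a4, k1, k2]
    exact (abs_sub _ _).trans (by linarith only [a1, this])
  · rw [abs_le]; constructor <;> linarith only [a3, a5, k1, k2]

theorem avg_le {x y c : ℝ} (hx : |x| ≤ c) (hy : |y| ≤ c) : |(x + y) / 2| ≤ c := by
  rw [abs_le] at *; constructor <;> linarith only [hx.1, hy.1, hx.2, hy.2]

/-- the forcing. -/
theorem pF_loc (hp : Par ε δ K ι) (hr : Ref ε u0 p) (h : Loc ε δ K u0 q u p)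
    (h' : Loc ε δ K u0 q' u' p) {ψ : Pl → ℝ} (hψ : (fun z => q z - q' z) =ᶠ[𝓝 p] ψ)
    (hq : ContDiff ℝ 4 q) (hq' : ContDiff ℝ 4 q') :
    |pF ι q q' u u' p + pg ι q q' u u' p * (dx (dx ψ) p + dt (dt ψ) p)|
      ≤ |ψ p| + |dx ψ p| + |dt ψ p| := by
  obtain ⟨e0, ex, et, exx, ett⟩ := q_diff hψ hq hq'
  have hApos := pA_val hp hr h h'
  have hA0 : pA ι q q' u u' p ≠ 0 := by linarith only [hApos]
  rw [pF_alg hA0 ex et exx ett, abs_div, abs_of_pos (by linarith only [hApos] : 0 < pA ι q q' u u' p),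
    div_le_iff₀ (by linarith only [hApos])]
  obtain ⟨c1, c2⟩ := AC_val hp hr h h'
  have d3 := avg_le (ff_bd hp hr.rho h).val (ff_bd hp hr.rho h').val
  have d4 := avg_le h.ux.val h'.ux.val
  have d5 := avg_le h.ut.val h'.ut.val
  have h1 := hp.K_one; have h2 := hp.ε_pos; have h3 := hp.δ_pos; have h4 := hp.ι_le
  have h5 := hp.ι_nonneg; have h6 := hp.Kε; have h7 := hp.δ_small
  have k2 := hp.ε_le
  norm_num at h6 k2
  have hKd : ε * (K * δ) ≤ 1 / 10 := by nlinarith only [h7, h6, h3]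
  have hexp : |Real.exp (2 * ι * q p) - Real.exp (2 * ι * q' p)| ≤ 12 * |ψ p| := by
    have e2 : 2 * ι * q p - 2 * ι * q' p = 2 * ι * ψ p := by rw [← e0]; ring
    apply exp_diff
    · rw [abs_mul, abs_of_nonneg (by (clear * - h5; positivity))]
      have := h'.q0.val
      have s : 2 * ι * |q' p| ≤ 2 * ε * (K * δ) := by (clear * - h4 this h2; gcongr)
      linarith only [hKd, s]
    · rw [e2, ← e0, abs_mul, abs_of_nonneg (by (clear * - h5; positivity))]
      have s0 : |q p - q' p| ≤ K * δ + K * δ := (abs_sub _ _).trans (add_le_add h.q0.val h'.q0.val)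
      have s : 2 * ι * |q p - q' p| ≤ 2 * ε * (K * δ + K * δ) := by (clear * - h4 s0 h2; gcongr)
      linarith only [hKd, s]
    · rw [e2, abs_mul, abs_of_nonneg (by (clear * - h5; positivity))]
      have : ι ≤ 1 := by linarith only [h4, k2]
      nlinarith only [h4, k2, abs_nonneg (ψ p)]
  have t1 : |(ff q p + ff q' p) / 2 * (Real.exp (2 * ι * q p) - Real.exp (2 * ι * q' p))|
      ≤ 3 * δ * (12 * |ψ p|) := by
    rw [abs_mul]
    exact mul_le_mul d3 hexp (abs_nonneg _) (by positivity)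
  have t3 := pF_real (ψx := dx ψ p) (ψt := dt ψ p) c1 c2 d4 d5 h5 h4
  refine (abs_sub _ _).trans ((add_le_add t1 t3).trans ?_)
  have n1 := abs_nonneg (ψ p)
  have n2 := abs_nonneg (dx ψ p)
  have n3 := abs_nonneg (dt ψ p)
  have m1 : 3 * δ * (12 * |ψ p|) ≤ 1 / 2 * |ψ p| := by nlinarith only [n1, h7]
  have m2 : ε * (12 * (|dx ψ p| + |dt ψ p|)) ≤ 1 / 2 * (|dx ψ p| + |dt ψ p|) := by nlinarith only [n2, n3, h1, h6]
  have m3 : (|ψ p| + |dx ψ p| + |dt ψ p|) * (1 / 2)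
      ≤ (|ψ p| + |dx ψ p| + |dt ψ p|) * pA ι q q' u u' p :=
    mul_le_mul_of_nonneg_left hApos (by (clear * -; positivity))
  linarith only [m1, m2, m3]

end

/-! ## smoothness of the coefficients -/

section
variable {ι : ℝ} {q q' u u' P : Pl → ℝ}

theorem contDiff_Hxx (hq : ContDiff ℝ 4 q) (hu : ContDiff ℝ 4 u) : ContDiff ℝ 2 (Hxx ι q u) := by
  have h1 : ContDiff ℝ 3 (dx u) := contDiff_dx hu (by norm_num)
  have h2 : ContDiff ℝ 3 (dt u) := contDiff_dt hu (by norm_num)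
  have h3 : ContDiff ℝ 3 (dx q) := contDiff_dx hq (by norm_num)
  have h4 : ContDiff ℝ 3 (dt q) := contDiff_dt hq (by norm_num)
  have h5 : ContDiff ℝ 2 (dx (dx u)) := contDiff_dx h1 (by norm_num)
  have h6 : ContDiff ℝ 2 (fun p => dx q p * dx u p - dt q p * dt u p) :=
    ((h3.mul h1).sub (h4.mul h2)).of_le (by norm_num)
  exact h5.sub (contDiff_const.mul h6)

theorem contDiff_Htt (hq : ContDiff ℝ 4 q) (hu : ContDiff ℝ 4 u) : ContDiff ℝ 2 (Htt ι q u) := by
  have h1 : ContDiff ℝ 3 (dx u) := contDiff_dx hu (by norm_num)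
  have h2 : ContDiff ℝ 3 (dt u) := contDiff_dt hu (by norm_num)
  have h3 : ContDiff ℝ 3 (dx q) := contDiff_dx hq (by norm_num)
  have h4 : ContDiff ℝ 3 (dt q) := contDiff_dt hq (by norm_num)
  have h5 : ContDiff ℝ 2 (dt (dt u)) := contDiff_dt h2 (by norm_num)
  have h6 : ContDiff ℝ 2 (fun p => dx q p * dx u p - dt q p * dt u p) :=
    ((h3.mul h1).sub (h4.mul h2)).of_le (by norm_num)
  exact h5.add (contDiff_const.mul h6)

theorem contDiff_Hxt (hq : ContDiff ℝ 4 q) (hu : ContDiff ℝ 4 u) : ContDiff ℝ 2 (Hxt ι q u) := by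
  have h1 : ContDiff ℝ 3 (dx u) := contDiff_dx hu (by norm_num)
  have h2 : ContDiff ℝ 3 (dt u) := contDiff_dt hu (by norm_num)
  have h3 : ContDiff ℝ 3 (dx q) := contDiff_dx hq (by norm_num)
  have h4 : ContDiff ℝ 3 (dt q) := contDiff_dt hq (by norm_num)
  have h5 : ContDiff ℝ 2 (dt (dx u)) := contDiff_dt h1 (by norm_num)
  have h6 : ContDiff ℝ 2 (fun p => dt q p * dx u p + dx q p * dt u p) :=
    ((h4.mul h1).add (h3.mul h2)).of_le (by norm_num)
  exact h5.sub (contDiff_const.mul h6)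

theorem contDiff_ff (hq : ContDiff ℝ 4 q) : ContDiff ℝ 2 (ff q) := by
  have h3 : ContDiff ℝ 3 (dx q) := contDiff_dx hq (by norm_num)
  have h4 : ContDiff ℝ 3 (dt q) := contDiff_dt hq (by norm_num)
  have h5 : ContDiff ℝ 2 (dx (dx q)) := contDiff_dx h3 (by norm_num)
  have h6 : ContDiff ℝ 2 (dt (dt q)) := contDiff_dt h4 (by norm_num)
  exact (h5.add h6).neg

theorem contDiff_EE (hq : ContDiff ℝ 4 q) (hu : ContDiff ℝ 4 u) : ContDiff ℝ 2 (EE ι q u) := by
  have h1 : ContDiff ℝ 3 (dx u) := contDiff_dx hu (by norm_num)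
  have h2 : ContDiff ℝ 3 (dt u) := contDiff_dt hu (by norm_num)
  have h3 : ContDiff ℝ 2 (fun p => Real.exp (2 * ι * q p)) :=
    ((contDiff_const.mul hq).exp).of_le (by norm_num)
  have h4 : ContDiff ℝ 2 (fun p => dx u p ^ 2 + dt u p ^ 2) :=
    ((h1.pow 2).add (h2.pow 2)).of_le (by norm_num)
  exact h3.sub (contDiff_const.mul h4)

theorem contDiff_pA (hq : ContDiff ℝ 4 q) (hu : ContDiff ℝ 4 u) (hq' : ContDiff ℝ 4 q')
    (hu' : ContDiff ℝ 4 u') : ContDiff ℝ 2 (pA ι q q' u u') :=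
  ((contDiff_Hxx hq hu).add (contDiff_Hxx hq' hu')).div_const 2

theorem contDiff_pB (hq : ContDiff ℝ 4 q) (hu : ContDiff ℝ 4 u) (hq' : ContDiff ℝ 4 q')
    (hu' : ContDiff ℝ 4 u') : ContDiff ℝ 2 (pB ι q q' u u') :=
  ((contDiff_Hxt hq hu).add (contDiff_Hxt hq' hu')).div_const 2

theorem contDiff_pC (hq : ContDiff ℝ 4 q) (hu : ContDiff ℝ 4 u) (hq' : ContDiff ℝ 4 q')
    (hu' : ContDiff ℝ 4 u') : ContDiff ℝ 2 (pC ι q q' u u') :=
  ((contDiff_Htt hq hu).add (contDiff_Htt hq' hu')).div_const 2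

theorem contDiff_pa (hP : Frame P) (hq : ContDiff ℝ 4 q) (hu : ContDiff ℝ 4 u)
    (hq' : ContDiff ℝ 4 q') (hu' : ContDiff ℝ 4 u') (hA : ∀ z, pA ι q q' u u' z ≠ 0) :
    ContDiff ℝ 2 (pa ι q q' u u' P) := by
  have h1 := hP.contDiff_dx (m := 2) le_rfl
  have h2 := hP.contDiff_dt (m := 2) le_rfl
  have hA2 : ContDiff ℝ 2 (pA ι q q' u u') := contDiff_pA hq hu hq' hu'
  have hB2 : ContDiff ℝ 2 (pB ι q q' u u') := contDiff_pB hq hu hq' hu'
  have hC2 : ContDiff ℝ 2 (pC ι q q' u u') := contDiff_pC hq hu hq' hu'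
  exact ((h2.pow 2).sub (((contDiff_const.mul (hB2.div hA2 hA)).mul h2).mul h1)).add
    ((hC2.div hA2 hA).mul (h1.pow 2))

theorem contDiff_palpha (hP : Frame P) (hq : ContDiff ℝ 4 q) (hu : ContDiff ℝ 4 u)
    (hq' : ContDiff ℝ 4 q') (hu' : ContDiff ℝ 4 u') (hA : ∀ z, pA ι q q' u u' z ≠ 0) :
    ContDiff ℝ 2 (palpha ι q q' u u' P) := by
  have h1 := hP.contDiff_dx (m := 2) le_rfl
  have h2 := hP.contDiff_dt (m := 2) le_rfl
  have hA2 : ContDiff ℝ 2 (pA ι q q' u u') := contDiff_pA hq hu hq' hu'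
  have hB2 : ContDiff ℝ 2 (pB ι q q' u u') := contDiff_pB hq hu hq' hu'
  exact contDiff_const.mul (h2.sub ((hB2.div hA2 hA).mul h1))

theorem contDiff_pg (hq : ContDiff ℝ 4 q) (hu : ContDiff ℝ 4 u)
    (hq' : ContDiff ℝ 4 q') (hu' : ContDiff ℝ 4 u') (hA : ∀ z, pA ι q q' u u' z ≠ 0) :
    ContDiff ℝ 2 (pg ι q q' u u') :=
  (((contDiff_EE hq hu).add (contDiff_EE hq' hu')).div_const 2).div (contDiff_pA hq hu hq' hu') hA

theorem contDiff_avg {f g : Pl → ℝ} {m : WithTop ℕ∞} (hf : ContDiff ℝ m f) (hg : ContDiff ℝ m g) :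
    ContDiff ℝ m (fun p => (f p + g p) / 2) := (hf.add hg).div_const 2

theorem contDiff_pb1 (hq : ContDiff ℝ 4 q) (hu : ContDiff ℝ 4 u)
    (hq' : ContDiff ℝ 4 q') (hu' : ContDiff ℝ 4 u') : ContDiff ℝ 2 (pb1 ι q q' u u') := by
  have hA2 : ContDiff ℝ 2 (pA ι q q' u u') := contDiff_pA hq hu hq' hu'
  have hB2 : ContDiff ℝ 2 (pB ι q q' u u') := contDiff_pB hq hu hq' hu'
  have hC2 : ContDiff ℝ 2 (pC ι q q' u u') := contDiff_pC hq hu hq' hu'
  have c1 : ContDiff ℝ 2 (fun p => (dx q p + dx q' p) / 2) :=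
    (contDiff_avg (contDiff_dx (m := 3) hq (by norm_num)) (contDiff_dx (m := 3) hq' (by norm_num))).of_le
      (by norm_num)
  have c2 : ContDiff ℝ 2 (fun p => (dt q p + dt q' p) / 2) :=
    (contDiff_avg (contDiff_dt (m := 3) hq (by norm_num)) (contDiff_dt (m := 3) hq' (by norm_num))).of_le
      (by norm_num)
  have c3 : ContDiff ℝ 2 (fun p => (dx u p + dx u' p) / 2) :=
    (contDiff_avg (contDiff_dx (m := 3) hu (by norm_num)) (contDiff_dx (m := 3) hu' (by norm_num))).of_le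
      (by norm_num)
  have c4 : ContDiff ℝ 2 (fun p => (ff q p + ff q' p) / 2) :=
    contDiff_avg (contDiff_ff hq) (contDiff_ff hq')
  exact (contDiff_const.mul (((hA2.sub hC2).mul c1).add ((contDiff_const.mul hB2).mul c2))).add
    ((contDiff_const.mul c4).mul c3)

theorem contDiff_pb2 (hq : ContDiff ℝ 4 q) (hu : ContDiff ℝ 4 u)
    (hq' : ContDiff ℝ 4 q') (hu' : ContDiff ℝ 4 u') : ContDiff ℝ 2 (pb2 ι q q' u u') := by
  have hA2 : ContDiff ℝ 2 (pA ι q q' u u') := contDiff_pA hq hu hq' hu'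
  have hB2 : ContDiff ℝ 2 (pB ι q q' u u') := contDiff_pB hq hu hq' hu'
  have hC2 : ContDiff ℝ 2 (pC ι q q' u u') := contDiff_pC hq hu hq' hu'
  have c1 : ContDiff ℝ 2 (fun p => (dx q p + dx q' p) / 2) :=
    (contDiff_avg (contDiff_dx (m := 3) hq (by norm_num)) (contDiff_dx (m := 3) hq' (by norm_num))).of_le
      (by norm_num)
  have c2 : ContDiff ℝ 2 (fun p => (dt q p + dt q' p) / 2) :=
    (contDiff_avg (contDiff_dt (m := 3) hq (by norm_num)) (contDiff_dt (m := 3) hq' (by norm_num))).of_le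
      (by norm_num)
  have c3 : ContDiff ℝ 2 (fun p => (dt u p + dt u' p) / 2) :=
    (contDiff_avg (contDiff_dt (m := 3) hu (by norm_num)) (contDiff_dt (m := 3) hu' (by norm_num))).of_le
      (by norm_num)
  have c4 : ContDiff ℝ 2 (fun p => (ff q p + ff q' p) / 2) :=
    contDiff_avg (contDiff_ff hq) (contDiff_ff hq')
  exact (contDiff_const.mul (((hA2.sub hC2).neg.mul c2).add ((contDiff_const.mul hB2).mul c1))).add
    ((contDiff_const.mul c4).mul c3)

theorem continuous_pe1 (hq : ContDiff ℝ 4 q) (hu : ContDiff ℝ 4 u)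
    (hq' : ContDiff ℝ 4 q') (hu' : ContDiff ℝ 4 u') (hA : ∀ z, pA ι q q' u u' z ≠ 0) :
    Continuous (pe1 ι q q' u u') :=
  ((contDiff_pb2 (ι := ι) hq hu hq' hu').div (contDiff_pA hq hu hq' hu') hA).continuous

theorem continuous_pe2 (hP : Frame P) (hq : ContDiff ℝ 4 q) (hu : ContDiff ℝ 4 u)
    (hq' : ContDiff ℝ 4 q') (hu' : ContDiff ℝ 4 u') (hA : ∀ z, pA ι q q' u u' z ≠ 0) :
    Continuous (pe2 ι q q' u u' P) := by
  have h1 := hP.contDiff_dx (m := 2) le_rfl
  have h2 := hP.contDiff_dt (m := 2) le_rfl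
  have hA2 : Continuous (pA ι q q' u u') := (contDiff_pA hq hu hq' hu').continuous
  have hB2 : Continuous (pB ι q q' u u') := (contDiff_pB hq hu hq' hu').continuous
  have hC2 : Continuous (pC ι q q' u u') := (contDiff_pC hq hu hq' hu').continuous
  have g1 : Continuous (dt (dt P)) := (contDiff_dt (m := 1) h2 (by norm_num)).continuous
  have g2 : Continuous (dt (dx P)) := (contDiff_dt (m := 1) h1 (by norm_num)).continuous
  have g3 : Continuous (dx (dx P)) := (contDiff_dx (m := 1) h1 (by norm_num)).continuous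
  have b1 : Continuous (pb1 ι q q' u u') := (contDiff_pb1 hq hu hq' hu').continuous
  have b2 : Continuous (pb2 ι q q' u u') := (contDiff_pb2 hq hu hq' hu').continuous
  have x1 : Continuous (XX P (pa ι q q' u u' P)) :=
    (contDiff_XX hP (m := 1) (contDiff_pa hP hq hu hq' hu' hA) (by norm_num) (by norm_num)).continuous
  exact (((g1.sub ((continuous_const.mul (hB2.div hA2 hA)).mul g2)).add
    ((hC2.div hA2 hA).mul g3)).add
    (((b1.mul h1.continuous).add (b2.mul h2.continuous)).div hA2 hA)).sub x1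

theorem continuous_pF (hq : ContDiff ℝ 4 q) (hu : ContDiff ℝ 4 u)
    (hq' : ContDiff ℝ 4 q') (hu' : ContDiff ℝ 4 u') (hA : ∀ z, pA ι q q' u u' z ≠ 0) :
    Continuous (pF ι q q' u u') := by
  have hA2 : Continuous (pA ι q q' u u') := (contDiff_pA hq hu hq' hu').continuous
  have hB2 : Continuous (pB ι q q' u u') := (contDiff_pB hq hu hq' hu').continuous
  have hC2 : Continuous (pC ι q q' u u') := (contDiff_pC hq hu hq' hu').continuous
  have f1 : Continuous (ff q) := (contDiff_ff hq).continuous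
  have f2 : Continuous (ff q') := (contDiff_ff hq').continuous
  have e1 : Continuous (EE ι q u) := (contDiff_EE hq hu).continuous
  have e2 : Continuous (EE ι q' u') := (contDiff_EE hq' hu').continuous
  have a1 : Continuous (dx q) := (contDiff_dx (m := 3) hq (by norm_num)).continuous
  have a2 : Continuous (dx q') := (contDiff_dx (m := 3) hq' (by norm_num)).continuous
  have a3 : Continuous (dt q) := (contDiff_dt (m := 3) hq (by norm_num)).continuous
  have a4 : Continuous (dt q') := (contDiff_dt (m := 3) hq' (by norm_num)).continuous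
  have a5 : Continuous (dx u) := (contDiff_dx (m := 3) hu (by norm_num)).continuous
  have a6 : Continuous (dx u') := (contDiff_dx (m := 3) hu' (by norm_num)).continuous
  have a7 : Continuous (dt u) := (contDiff_dt (m := 3) hu (by norm_num)).continuous
  have a8 : Continuous (dt u') := (contDiff_dt (m := 3) hu' (by norm_num)).continuous
  have x1 : Continuous (fun p => Real.exp (2 * ι * q p)) :=
    (continuous_const.mul hq.continuous).rexp
  have x2 : Continuous (fun p => Real.exp (2 * ι * q' p)) :=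
    (continuous_const.mul hq'.continuous).rexp
  refine Continuous.div ?_ hA2 hA
  refine ((((f1.sub f2).mul ((e1.add e2).div_const 2)).add
    (((f1.add f2).div_const 2).mul (x1.sub x2))).sub ?_).sub ?_
  · exact (continuous_const.mul (hA2.sub hC2)).mul (((a1.sub a2).mul ((a5.add a6).div_const 2)).sub
      ((a3.sub a4).mul ((a7.add a8).div_const 2)))
  · exact (continuous_const.mul hB2).mul (((a3.sub a4).mul ((a5.add a6).div_const 2)).add
      ((a1.sub a2).mul ((a7.add a8).div_const 2)))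

end

/-! ## assembly of the pair equation -/

theorem XX_YY_from_bd {u0 : Pl → ℝ} {p : Pl} {ε δ κ : ℝ} {a : Pl → ℝ} (hε : 0 < ε)
    (hε1 : ε ≤ 1 / 10 ^ 9) (hδ : 0 < δ) (hx : |dx (dx u0) p - 1| ≤ ε) (hxt : |dt (dx u0) p| ≤ ε)
    (hx1 : |dx u0 p - p.1| ≤ ε) (hrho : rho2 p < 0.64)
    (ha : Bd κ (fun z => a z - δ * (rho2 z - 1 / 4)) p) (had : DifferentiableAt ℝ a p)
    (hκ : κ ≤ δ / 10 ^ 4) :
    |a p - δ * ((dx u0 p) ^ 2 + p.2 ^ 2 - 1 / 4)| ≤ δ / 1000 ∧
    |XX (dx u0) a p - 2 * δ * dx u0 p| ≤ δ / 1000 ∧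
    |YY (dx u0) a p - 2 * δ * p.2| ≤ δ / 1000 := by
  have hr : rho2 p < 0.7 := by linarith only [hrho]
  have drho : DifferentiableAt ℝ (fun z : Pl => δ * (rho2 z - 1 / 4)) p :=
    (rho_bd hr).diff.const_mul δ
  have ax : |dx a p - δ * (2 * p.1)| ≤ κ := by
    have := ha.bx
    rw [dx_sub had drho, dx_const_mul δ (rho_bd hr).diff, dx_rho] at this
    exact this
  have at' : |dt a p - δ * (2 * p.2)| ≤ κ := by
    have := ha.bt
    rw [dt_sub had drho, dt_const_mul δ (rho_bd hr).diff, dt_rho] at this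
    exact this
  have a0 := ha.val
  have hp1 : |p.1| ≤ 1 := by
    rw [abs_le]; unfold rho2 at hrho; constructor <;> nlinarith only [hrho]
  have hκ0 := ha.nonneg
  norm_num at hε1 hκ
  rw [abs_le] at hx hxt hx1 ax at' a0 hp1
  have hPpos : 0 < dx (dx u0) p := by linarith only [hx, hε1]
  refine ⟨?_, ?_, ?_⟩
  · have e1 : |(dx u0 p) ^ 2 - p.1 ^ 2| ≤ 3 * ε := by
      rw [abs_le]; constructor <;> nlinarith only [hε1, hx1, hp1]
    have e2 : |δ * ((dx u0 p) ^ 2 - p.1 ^ 2)| ≤ δ * (3 * ε) := by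
      rw [abs_mul, abs_of_pos hδ]; exact mul_le_mul_of_nonneg_left e1 hδ.le
    rw [abs_le] at e2 ⊢
    unfold rho2 at a0
    constructor <;> nlinarith only [a0, hκ, e2, hε1]
  · rw [XX]
    have e1 : dx a p / dx (dx u0) p - 2 * δ * dx u0 p
        = (dx a p - 2 * δ * dx u0 p * dx (dx u0) p) / dx (dx u0) p := by
      (clear * - hPpos; field_simp)
    rw [e1, abs_div, abs_of_pos hPpos, div_le_iff₀ hPpos]
    have e2 : |p.1 - dx u0 p * dx (dx u0) p| ≤ 4 * ε := by
      have g1 : p.1 - dx u0 p * dx (dx u0) p = (p.1 - dx u0 p) + dx u0 p * (1 - dx (dx u0) p) := by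
        ring
      have g2 : |dx u0 p| ≤ 2 := by rw [abs_le]; constructor <;> linarith only [hx1, hp1, hε1]
      have g3 : |1 - dx (dx u0) p| ≤ ε := by rw [abs_le]; constructor <;> linarith only [hx]
      have g4 : |p.1 - dx u0 p| ≤ ε := by rw [abs_le]; constructor <;> linarith only [hx1]
      have g5 : |dx u0 p * (1 - dx (dx u0) p)| ≤ 2 * ε := by
        rw [abs_mul]; exact mul_le_mul g2 g3 (abs_nonneg _) (by norm_num)
      rw [g1]
      exact (abs_add_le _ _).trans (by linarith only [hε, g4, g5])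
    have e3 : |2 * δ * (p.1 - dx u0 p * dx (dx u0) p)| ≤ 2 * δ * (4 * ε) := by
      rw [abs_mul, abs_of_pos (by positivity : 0 < 2 * δ)]
      exact mul_le_mul_of_nonneg_left e2 (by positivity)
    rw [abs_le] at e3 ⊢
    constructor <;> nlinarith only [ax, hκ, e3, hx, hε1]
  · rw [YY]
    have e1 : |dt (dx u0) p / dx (dx u0) p| ≤ 2 * ε := by
      rw [abs_div, abs_of_pos hPpos, div_le_iff₀ hPpos, abs_le]
      constructor <;> nlinarith only [hxt, hx, hε1]
    have e2 : |dx a p| ≤ 3 * δ := by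
      rw [abs_le]; constructor <;> nlinarith only [ax, hκ, hp1]
    have e3 : |dt (dx u0) p / dx (dx u0) p * dx a p| ≤ 2 * ε * (3 * δ) := by
      rw [abs_mul]; exact mul_le_mul e1 e2 (abs_nonneg _) (by positivity)
    rw [abs_le] at e3 ⊢
    constructor <;> nlinarith only [at', hκ, e3, hε1]

theorem XX_YY_small {u0 : Pl → ℝ} {p : Pl} {ε κ : ℝ} {f : Pl → ℝ} (hε : 0 < ε)
    (hε1 : ε ≤ 1 / 10 ^ 9) (hx : |dx (dx u0) p - 1| ≤ ε) (hxt : |dt (dx u0) p| ≤ ε)
    (hf : Bd κ f p) : |XX (dx u0) f p| ≤ 2 * κ ∧ |YY (dx u0) f p| ≤ 2 * κ := by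
  have hκ := hf.nonneg
  norm_num at hε1
  rw [abs_le] at hx hxt
  have hPpos : 0 < dx (dx u0) p := by linarith [hx.1]
  constructor
  · rw [XX, abs_div, abs_of_pos hPpos, div_le_iff₀ hPpos]
    nlinarith only [hκ, hx, hε1, hf.bx]
  · rw [YY]
    have e1 : |dt (dx u0) p / dx (dx u0) p| ≤ 1 := by
      rw [abs_div, abs_of_pos hPpos, div_le_iff₀ hPpos, abs_le]
      constructor <;> linarith only [hx, hxt, hε1]
    have e3 : |dt (dx u0) p / dx (dx u0) p * dx f p| ≤ 1 * κ := by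
      rw [abs_mul]; exact mul_le_mul e1 hf.bx (abs_nonneg _) (by norm_num)
    refine (abs_sub _ _).trans ?_
    linarith only [e3, hf.bt]

/-- From local data to the pair equation. -/
theorem pairEq_of_loc {ε δ K ι : ℝ} {u0 q q' u u' : Pl → ℝ} (hp : Par ε δ K ι)
    (hF : Frame (dx u0)) (hA : ∀ z, pA ι q q' u u' z ≠ 0)
    (hu0 : ContDiff ℝ 4 u0) (hq : ContDiff ℝ 4 q) (hq' : ContDiff ℝ 4 q')
    (hu : ContDiff ℝ 4 u) (hu' : ContDiff ℝ 4 u')
    (hr : ∀ p, rho2 p < 0.64 → Ref ε u0 p) (h : ∀ p, rho2 p < 0.64 → Loc ε δ K u0 q u p)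
    (h' : ∀ p, rho2 p < 0.64 → Loc ε δ K u0 q' u' p)
    (hD : ∀ p, rho2 p < 0.64 → Darb ι q u p ∧ Darb ι q' u' p)
    (ψ : Pl → ℝ) (hψ : ∀ p, rho2 p < 0.64 → (fun z => q z - q' z) =ᶠ[𝓝 p] ψ) :
    ∃ a α e1 e2 F g : Pl → ℝ,
      PairEq (dx u0) (fun z => u z - u' z) a α e1 e2 F δ ∧
      ContDiff ℝ 1 g ∧
      (∀ p, rho2 p < 0.64 → |g p - 1| ≤ 1 / 10 ∧ |dx g p| ≤ 1 ∧ |dt g p| ≤ 1) ∧
      (∀ p, rho2 p < 0.64 → |F p + g p * (dx (dx ψ) p + dt (dt ψ) p)|
          ≤ |ψ p| + |dx ψ p| + |dt ψ p|) := by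
  have hopen : IsOpen {p : Pl | rho2 p < 0.64} := by
    apply isOpen_lt _ continuous_const
    unfold rho2; fun_prop
  have hev : ∀ p, rho2 p < 0.64 → ∀ᶠ z in 𝓝 p, Darb ι q u z ∧ Darb ι q' u' z := by
    intro p hpp
    filter_upwards [hopen.mem_nhds hpp] with z hz
    exact hD z hz
  have k1 := hp.kap_nonneg
  have k2 := hp.ε_le'
  have k3 := hp.δ_pos
  have k4 : 7 * K * (ε * δ) ≤ δ / 10 ^ 8 := by
    have := hp.Kε
    have : K * ε * δ ≤ 1 / 10 ^ 9 * δ := mul_le_mul_of_nonneg_right this k3.le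
    norm_num at this ⊢
    linarith only [k3, this]
  norm_num at k4
  have ha : ∀ p, rho2 p < 0.64 →
      |pa ι q q' u u' (dx u0) p - δ * ((dx u0 p) ^ 2 + p.2 ^ 2 - 1 / 4)| ≤ δ / 1000 ∧
      |XX (dx u0) (pa ι q q' u u' (dx u0)) p - 2 * δ * dx u0 p| ≤ δ / 1000 ∧
      |YY (dx u0) (pa ι q q' u u' (dx u0)) p - 2 * δ * p.2| ≤ δ / 1000 := by
    intro p hpp
    have hrp := hr p hpp
    refine XX_YY_from_bd hp.ε_pos k2 k3 hrp.Px_val hrp.xt.val hrp.x1 hpp
      (pa_loc hp hrp (h p hpp) (h' p hpp) hF hA (hev p hpp)) ?_ ?_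
    · exact (contDiff_pa hF hq hu hq' hu' hA).differentiable (by norm_num) p
    · norm_num; linarith only [k3, k4]
  have hα : ∀ p, rho2 p < 0.64 → Bd (240 * (7 * K * (ε * δ))) (palpha ι q q' u u' (dx u0)) p :=
    fun p hpp => palpha_loc hp (hr p hpp) (h p hpp) (h' p hpp) hA
  have hα2 : ∀ p, rho2 p < 0.64 →
      |XX (dx u0) (palpha ι q q' u u' (dx u0)) p| ≤ 2 * (240 * (7 * K * (ε * δ))) ∧
      |YY (dx u0) (palpha ι q q' u u' (dx u0)) p| ≤ 2 * (240 * (7 * K * (ε * δ))) :=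
    fun p hpp => XX_YY_small hp.ε_pos k2 (hr p hpp).Px_val (hr p hpp).xt.val (hα p hpp)
  refine ⟨pa ι q q' u u' (dx u0), palpha ι q q' u u' (dx u0), pe1 ι q q' u u',
    pe2 ι q q' u u' (dx u0), pF ι q q' u u', pg ι q q' u u', ?_, ?_, ?_, ?_⟩
  · exact
    { frame := hF
      v_smooth := (hu.sub hu').of_le (by norm_num)
      a_smooth := (contDiff_pa hF hq hu hq' hu' hA).of_le (by norm_num)
      α_smooth := (contDiff_palpha hF hq hu hq' hu' hA).of_le (by norm_num)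
      e1_cont := continuous_pe1 hq hu hq' hu' hA
      e2_cont := continuous_pe2 hF hq hu hq' hu' hA
      F_cont := continuous_pF hq hu hq' hu' hA
      δ_pos := k3
      δ_small := hp.δ_small
      eq := fun p hpp => pair_alg hF hq hq' hu hu' hA p (hD p hpp).1 (hD p hpp).2
      a_bd := fun p hpp => (ha p hpp).1
      aX_bd := fun p hpp => (ha p hpp).2.1
      aY_bd := fun p hpp => (ha p hpp).2.2
      α_bd := fun p hpp => (hα p hpp).val.trans (by linarith only [k3, k4])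
      αX_bd := fun p hpp => (hα2 p hpp).1.trans (by linarith only [k3, k4])
      αY_bd := fun p hpp => (hα2 p hpp).2.trans (by linarith only [k3, k4])
      e1_bd := fun p hpp => (pe1_loc hp (hr p hpp) (h p hpp) (h' p hpp)).trans (by linarith only [k3, k4])
      e2_bd := fun p hpp => (pe2_loc hp (hr p hpp) (h p hpp) (h' p hpp) hF hA hu0 hq hq' hu hu').trans
        (by linarith only [k3, k4]) }
  · exact (contDiff_pg hq hu hq' hu' hA).of_le (by norm_num)
  · intro p hpp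
    have hb := pg_loc hp (hr p hpp) (h p hpp) (h' p hpp) hA
    have hd : DifferentiableAt ℝ (pg ι q q' u u') p :=
      (contDiff_pg hq hu hq' hu' hA).differentiable (by norm_num) p
    refine ⟨hb.val, ?_, ?_⟩
    · have := hb.bx
      rw [dx_sub hd (differentiableAt_const _), dx_const, sub_zero] at this
      linarith only [this]
    · have := hb.bt
      rw [dt_sub hd (differentiableAt_const _), dt_const, sub_zero] at this
      linarith only [this]
  · intro p hpp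
    exact pF_loc hp (hr p hpp) (h p hpp) (h' p hpp) (hψ p hpp) hq hq'

end Vale.Agent.P229.D.PH
end
end

section

section

/-!
# P229, disproof, task T13: the bounds (H) for a pair of members of the normalised family
(`phi0_smooth`, `ff_phi0`, `bits_small`, `bits_smooth` are in `Bits.lean`; the bounds for one pair
are in `PairBdH.lean`).
-/

open scoped ContDiff Topology
open MeasureTheory Set Filter

namespace Vale.Agent.P229.D

/-- the difference of the bits of two strings. -/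
noncomputable def psi (cs b' : ℝ) (n : ℕ) (s s' : Fin (n ^ 107) → Bool) (p : Pl) : ℝ :=
  b' * (bits cs n s p - bits cs n s' p)

namespace PH

/-! ## the cut-off potentials -/

theorem three_le_inf : (3 : WithTop ℕ∞) ≤ ∞ := by
  have : ((3 : ℕ∞) : WithTop ℕ∞) ≤ ((⊤ : ℕ∞) : WithTop ℕ∞) := WithTop.coe_le_coe.mpr le_top
  exact this

theorem four_le_inf : (4 : WithTop ℕ∞) ≤ ∞ := by
  have : ((4 : ℕ∞) : WithTop ℕ∞) ≤ ((⊤ : ℕ∞) : WithTop ℕ∞) := WithTop.coe_le_coe.mpr le_top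
  exact this

theorem dx_half_sq (q : Pl) : dx (fun q : Pl => q.1 ^ 2 / 2) q = q.1 := by
  have e0 : (fun q : Pl => q.1 ^ 2 / 2) = fun q : Pl => (1 / 2 : ℝ) * (q.1 * q.1) := by
    funext q; ring
  have d1 : DifferentiableAt ℝ (fun q : Pl => q.1) q := differentiableAt_fst
  have d2 : DifferentiableAt ℝ (fun q : Pl => q.1 * q.1) q := d1.mul d1
  rw [e0, dx_const_mul _ d2, dx_mul d1 d1, dx_fst]; ring

theorem dt_half_sq (q : Pl) : dt (fun q : Pl => q.1 ^ 2 / 2) q = 0 := by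
  have e0 : (fun q : Pl => q.1 ^ 2 / 2) = fun q : Pl => (1 / 2 : ℝ) * (q.1 * q.1) := by
    funext q; ring
  have d1 : DifferentiableAt ℝ (fun q : Pl => q.1) q := differentiableAt_fst
  have d2 : DifferentiableAt ℝ (fun q : Pl => q.1 * q.1) q := d1.mul d1
  rw [e0, dt_const_mul _ d2, dt_mul d1 d1, dt_fst]; ring

/-- cut-off: `1` for `rho2 ≤ 0.7`, `0` for `rho2 ≥ 0.9`. -/
noncomputable def omc (p : Pl) : ℝ := Real.smoothTransition ((0.9 - rho2 p) / 0.2)

theorem rho2_contDiff {m : WithTop ℕ∞} : ContDiff ℝ m rho2 := by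
  unfold rho2; fun_prop

theorem omc_smooth : ContDiff ℝ ∞ omc := by
  have h1 : ContDiff ℝ ∞ (fun p : Pl => (0.9 - rho2 p) / 0.2) :=
    (contDiff_const.sub rho2_contDiff).div_const _
  exact Real.smoothTransition.contDiff.comp h1

theorem omc_one {p : Pl} (hp : rho2 p ≤ 0.7) : omc p = 1 := by
  apply Real.smoothTransition.one_of_one_le
  rw [le_div_iff₀ (by norm_num)]; linarith

theorem omc_zero {p : Pl} (hp : 0.9 ≤ rho2 p) : omc p = 0 := by
  apply Real.smoothTransition.zero_of_nonpos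
  apply div_nonpos_of_nonpos_of_nonneg <;> linarith only [hp]

theorem rho2_big {p : Pl} (hp : p ∉ Metric.closedBall (0 : Pl) 1) : 0.9 ≤ rho2 p := by
  rw [Metric.mem_closedBall, dist_zero_right, not_le, Prod.norm_def, lt_max_iff] at hp
  unfold rho2
  rcases hp with h | h
  · rw [Real.norm_eq_abs] at h
    have : 1 < |p.1| ^ 2 := by nlinarith only [h]
    rw [sq_abs] at this
    linarith only [this, sq_nonneg p.2]
  · rw [Real.norm_eq_abs] at h
    have : 1 < |p.2| ^ 2 := by nlinarith only [h]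
    rw [sq_abs] at this
    linarith only [this, sq_nonneg p.1]

theorem omc_compact : HasCompactSupport omc :=
  HasCompactSupport.intro (isCompact_closedBall (0 : Pl) 1) fun _ hp => omc_zero (rho2_big hp)

theorem phi0_hasCompactSupport : HasCompactSupport phi0 := by
  refine HasCompactSupport.intro (isCompact_closedBall (0 : Pl) 1) fun p hp => ?_
  have : Real.smoothTransition ((0.9 - rho2 p) / 0.2) = 0 := omc_zero (rho2_big hp)
  rw [phi0, this, zero_mul]

/-- the cut-off potential. -/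
noncomputable def qc (cs δ b' : ℝ) (n : ℕ) (G : Pl → ℝ) (s : Fin (n ^ 107) → Bool) (p : Pl) : ℝ :=
  omc p * phn cs δ b' n G s p

section
variable {cs δ b' ε K K0 M ι : ℝ} {n : ℕ} {G : Pl → ℝ} {s s' : Fin (n ^ 107) → Bool}

theorem phn_smooth (hG : ContDiff ℝ ∞ G) : ContDiff ℝ ∞ (phn cs δ b' n G s) :=
  ((contDiff_const.mul phi0_smooth).add hG).add (contDiff_const.mul (bits_smooth cs n s))

theorem qc_smooth (hG : ContDiff ℝ ∞ G) : ContDiff ℝ ∞ (qc cs δ b' n G s) :=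
  omc_smooth.mul (phn_smooth hG)

theorem isOpen_rho_lt (c : ℝ) : IsOpen {p : Pl | rho2 p < c} :=
  isOpen_lt (rho2_contDiff (m := 0)).continuous continuous_const

theorem qc_ev {p : Pl} (hp : rho2 p < 0.7) :
    qc cs δ b' n G s =ᶠ[𝓝 p] phn cs δ b' n G s := by
  filter_upwards [(isOpen_rho_lt 0.7).mem_nhds hp] with z hz
  rw [qc, omc_one (le_of_lt hz), one_mul]

theorem Darb_congr {ι : ℝ} {f g v : Pl → ℝ} {p : Pl} (h : f =ᶠ[𝓝 p] g) (hD : Darb ι g v p) :
    Darb ι f v p := by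
  have h1 := (ev_dx h)
  have h2 := (ev_dt h)
  unfold Darb at hD ⊢
  rw [h1.eq_of_nhds, h2.eq_of_nhds, (ev_dx h1).eq_of_nhds, (ev_dt h2).eq_of_nhds, h.eq_of_nhds]
  exact hD

/-- the potential is bounded in `C³`. -/
theorem phn_Dle (hG : ContDiff ℝ ∞ G) (hG3 : ∀ p, Dle 3 G (ε * δ) p)
    (hb : ∀ p, Dle 3 (fun q => b' * bits cs n s q) (ε * δ) p) (hphi : ∀ p, Dle 3 phi0 K0 p)
    (hδ : 0 < δ) (p : Pl) : Dle 3 (phn cs δ b' n G s) (δ * K0 + ε * δ + ε * δ) p := by
  have h1 : Dle 3 (fun q => δ * phi0 q) (|δ| * K0) p :=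
    dle_const_mul δ (phi0_smooth.of_le three_le_inf) (hphi p)
  rw [abs_of_pos hδ] at h1
  have s1 : ContDiff ℝ 3 (fun q => δ * phi0 q) :=
    (contDiff_const.mul phi0_smooth).of_le three_le_inf
  have s2 : ContDiff ℝ 3 G := hG.of_le three_le_inf
  have s3 : ContDiff ℝ 3 (fun q => b' * bits cs n s q) :=
    (contDiff_const.mul (bits_smooth cs n s)).of_le three_le_inf
  exact dle_add (s1.add s2) s3 (dle_add s1 s2 h1 (hG3 p)) (hb p)

theorem bd_of_Dle3 {f : Pl → ℝ} {c : ℝ} {p : Pl} (hf : ContDiff ℝ 3 f) (h : Dle 3 f c p) :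
    Bd c f p ∧ Bd c (dx f) p ∧ Bd c (dt f) p ∧ Bd c (dx (dx f)) p ∧ Bd c (dt (dx f)) p ∧
      Bd c (dt (dt f)) p := by
  have h1 : ContDiff ℝ 2 (dx f) := contDiff_dx hf (by norm_num)
  have h2 : ContDiff ℝ 2 (dt f) := contDiff_dt hf (by norm_num)
  have h3 : ContDiff ℝ 1 (dx (dx f)) := contDiff_dx h1 (by norm_num)
  have h4 : ContDiff ℝ 1 (dt (dx f)) := contDiff_dt h1 (by norm_num)
  have h5 : ContDiff ℝ 1 (dt (dt f)) := contDiff_dt h2 (by norm_num)
  refine ⟨dle_bd (k := 2) (hf.of_le (by norm_num)) h, dle_bd (k := 1) (h1.of_le (by norm_num)) h.2.1,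
    dle_bd (k := 1) (h2.of_le (by norm_num)) h.2.2, dle_bd (k := 0) h3 h.2.1.2.1,
    dle_bd (k := 0) h4 h.2.1.2.2, dle_bd (k := 0) h5 h.2.2.2.2⟩

theorem ff_phn (hG : ContDiff ℝ ∞ G) (p : Pl) : ff (phn cs δ b' n G s) p
    = δ * ff phi0 p + ff G p + ff (fun q => b' * bits cs n s q) p := by
  have s1 : ContDiff ℝ ∞ (fun q => δ * phi0 q) := contDiff_const.mul phi0_smooth
  have s3 : ContDiff ℝ ∞ (fun q => b' * bits cs n s q) := contDiff_const.mul (bits_smooth cs n s)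
  have lin : ∀ {f g : Pl → ℝ}, ContDiff ℝ ∞ f → ContDiff ℝ ∞ g →
      ∀ p, ff (fun q => f q + g q) p = ff f p + ff g p := by
    intro f g hf hg p
    have df : Differentiable ℝ f := hf.differentiable (by simp)
    have dg : Differentiable ℝ g := hg.differentiable (by simp)
    have e1 : dx (fun q => f q + g q) = fun q => dx f q + dx g q := by
      funext q; exact dx_add (df q) (dg q)
    have e2 : dt (fun q => f q + g q) = fun q => dt f q + dt g q := by
      funext q; exact dt_add (df q) (dg q)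
    have f1 : ContDiff ℝ ∞ (dx f) := contDiff_dx hf (by simp)
    have f2 : ContDiff ℝ ∞ (dt f) := contDiff_dt hf (by simp)
    have g1 : ContDiff ℝ ∞ (dx g) := contDiff_dx hg (by simp)
    have g2 : ContDiff ℝ ∞ (dt g) := contDiff_dt hg (by simp)
    unfold ff
    rw [e1, e2, dx_add (f1.differentiable (by simp) p) (g1.differentiable (by simp) p),
      dt_add (f2.differentiable (by simp) p) (g2.differentiable (by simp) p)]
    ring
  have lin2 : ∀ p, ff (fun q => δ * phi0 q) p = δ * ff phi0 p := by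
    intro p
    have df : Differentiable ℝ phi0 := phi0_smooth.differentiable (by simp)
    have e1 : dx (fun q => δ * phi0 q) = fun q => δ * dx phi0 q := by
      funext q; exact dx_const_mul δ (df q)
    have e2 : dt (fun q => δ * phi0 q) = fun q => δ * dt phi0 q := by
      funext q; exact dt_const_mul δ (df q)
    have f1 : ContDiff ℝ ∞ (dx phi0) := contDiff_dx phi0_smooth (by simp)
    have f2 : ContDiff ℝ ∞ (dt phi0) := contDiff_dt phi0_smooth (by simp)
    unfold ff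
    rw [e1, e2, dx_const_mul δ (f1.differentiable (by simp) p),
      dt_const_mul δ (f2.differentiable (by simp) p)]
    ring
  have e : phn cs δ b' n G s = fun q => (δ * phi0 q + G q) + b' * bits cs n s q := rfl
  rw [e, lin (s1.add hG) s3, lin s1 hG, lin2]

theorem ev_ff {f g : Pl → ℝ} {p : Pl} (h : f =ᶠ[𝓝 p] g) : ff f =ᶠ[𝓝 p] ff g := by
  filter_upwards [ev_dx (ev_dx h), ev_dt (ev_dt h)] with z hz1 hz2
  rw [ff, ff, hz1, hz2]

theorem ff_bd_small {f : Pl → ℝ} {c : ℝ} {p : Pl} (hf : ContDiff ℝ 3 f) (h : Dle 3 f c p) :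
    Bd (2 * c) (ff f) p := by
  obtain ⟨_, _, _, h1, _, h2⟩ := bd_of_Dle3 hf h
  have h3 := (h1.add h2).const_mul (-1)
  have e : ff f = fun z => (-1) * (dx (dx f) z + dt (dt f) z) := by
    funext z; unfold ff; ring
  rw [e]
  refine h3.mono ?_
  rw [abs_neg, abs_one]; linarith

/-- the term `f - δ (ρ² - 1/4)`. -/
theorem fq_bd (hG : ContDiff ℝ ∞ G) (hG3 : ∀ p, Dle 3 G (ε * δ) p)
    (hb : ∀ p, Dle 3 (fun q => b' * bits cs n s q) (ε * δ) p) {p : Pl} (hp : rho2 p < 0.7) :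
    Bd (4 * (ε * δ)) (fun z => ff (qc cs δ b' n G s) z - δ * (rho2 z - 1 / 4)) p := by
  have s2 : ContDiff ℝ 3 G := hG.of_le three_le_inf
  have s3 : ContDiff ℝ 3 (fun q => b' * bits cs n s q) :=
    (contDiff_const.mul (bits_smooth cs n s)).of_le three_le_inf
  have h1 := (ff_bd_small s2 (hG3 p)).add (ff_bd_small s3 (hb p))
  refine (h1.congr ?_).mono (by linarith only [])
  filter_upwards [ev_ff (qc_ev (cs := cs) (δ := δ) (b' := b') (n := n) (G := G) (s := s) hp),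
    (isOpen_rho_lt 0.7).mem_nhds hp] with z hz1 hz2
  rw [hz1, ff_phn hG, ff_phi0 hz2]
  ring

/-- the cut-off potentials are small in `C¹` globally, and vanish outside the unit disc. -/
theorem qc_global (hG : ContDiff ℝ ∞ G) (hG3 : ∀ p, Dle 3 G (ε * δ) p)
    (hb : ∀ p, Dle 3 (fun q => b' * bits cs n s q) (ε * δ) p) (hphi : ∀ p, Dle 3 phi0 K0 p)
    (hom : ∀ p, Dle 3 omc K0 p) (hK0 : 1 ≤ K0) (hδ : 0 < δ) (hε : 0 < ε) (hε1 : ε ≤ 1 / 2)
    (p : Pl) : |dx (qc cs δ b' n G s) p| ≤ (10 * K0 ^ 2 + 10) * δ ∧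
      |dt (qc cs δ b' n G s) p| ≤ (10 * K0 ^ 2 + 10) * δ ∧
      (1 ≤ rho2 p → dx (qc cs δ b' n G s) p = 0 ∧ dt (qc cs δ b' n G s) p = 0) := by
  have h1 := phn_Dle hG hG3 hb hphi hδ p
  have h2 := hom p
  have c1 : δ * K0 + ε * δ + ε * δ ≤ 2 * K0 * δ := by nlinarith only [hK0, hδ, hε1]
  have b1 := (bd_of_Dle3 ((phn_smooth hG).of_le three_le_inf) h1).1.mono c1
  have b2 := (bd_of_Dle3 (omc_smooth.of_le three_le_inf) h2).1
  have b3 : Bd (2 * K0 * (2 * K0 * δ)) (qc cs δ b' n G s) p := b2.mul b1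
  have c2 : 2 * K0 * (2 * K0 * δ) ≤ (10 * K0 ^ 2 + 10) * δ := by nlinarith only [hδ]
  have b4 := b3.mono c2
  refine ⟨b4.bx, b4.bt, fun hp => ?_⟩
  have hev : qc cs δ b' n G s =ᶠ[𝓝 p] fun _ => 0 := by
    have ho : IsOpen {z : Pl | 0.9 < rho2 z} :=
      isOpen_lt continuous_const (rho2_contDiff (m := 0)).continuous
    filter_upwards [ho.mem_nhds (show (0.9 : ℝ) < rho2 p by linarith only [hp])] with z hz
    rw [qc, omc_zero (le_of_lt hz), zero_mul]
  constructor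
  · rw [(ev_dx hev).eq_of_nhds, dx_const]
  · rw [(ev_dt hev).eq_of_nhds, dt_const]

/-- local data of a member of the family. -/
theorem loc_of (hG : ContDiff ℝ ∞ G) (hG3 : ∀ p, Dle 3 G (ε * δ) p)
    (hb : ∀ p, Dle 3 (fun q => b' * bits cs n s q) (ε * δ) p) (hphi : ∀ p, Dle 3 phi0 K0 p)
    (hK0 : 1 ≤ K0) (hp : Par ε δ (10 * K0 ^ 2 + 10) ι) {u u0 : Pl → ℝ}
    (hu : ContDiff ℝ 4 u) (hu0 : ContDiff ℝ 4 u0)
    (href : ∀ p, Dle 3 (fun q => u0 q - q.1 ^ 2 / 2) ε p)
    (hclose : ∀ p, Dle 3 (fun q => u q - u0 q) (ε * δ) p) {p : Pl} (hpp : rho2 p < 0.64) :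
    Loc ε δ (10 * K0 ^ 2 + 10) u0 (qc cs δ b' n G s) u p := by
  have hp7 : rho2 p < 0.7 := by linarith only [hpp]
  have hε := hp.ε_pos
  have hδ := hp.δ_pos
  have hε1 := hp.ε_le
  have hδ1 := hp.δ_small
  norm_num at hε1
  -- the potential
  have h1 := phn_Dle hG hG3 hb hphi hδ p
  have c1 : δ * K0 + ε * δ + ε * δ ≤ (10 * K0 ^ 2 + 10) * δ := by nlinarith only [hδ, hε1, sq_nonneg (K0 - 1)]
  obtain ⟨b0, bx, bt, _, _, _⟩ := bd_of_Dle3 ((phn_smooth hG).of_le three_le_inf) h1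
  have hev := qc_ev (cs := cs) (δ := δ) (b' := b') (n := n) (G := G) (s := s) hp7
  -- the functions
  have du : Differentiable ℝ u := hu.differentiable (by norm_num)
  have du0 : Differentiable ℝ u0 := hu0.differentiable (by norm_num)
  have hux : ContDiff ℝ 3 (dx u) := contDiff_dx hu (by norm_num)
  have hut : ContDiff ℝ 3 (dt u) := contDiff_dt hu (by norm_num)
  have hu0x : ContDiff ℝ 3 (dx u0) := contDiff_dx hu0 (by norm_num)
  have hu0t : ContDiff ℝ 3 (dt u0) := contDiff_dt hu0 (by norm_num)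
  have dux : Differentiable ℝ (dx u) := hux.differentiable (by norm_num)
  have dut : Differentiable ℝ (dt u) := hut.differentiable (by norm_num)
  have du0x : Differentiable ℝ (dx u0) := hu0x.differentiable (by norm_num)
  have du0t : Differentiable ℝ (dt u0) := hu0t.differentiable (by norm_num)
  have w1 : ContDiff ℝ 3 (fun q => u q - u0 q) := (hu.sub hu0).of_le (by norm_num)
  obtain ⟨_, wx, wt, wxx, wxt, wtt⟩ := bd_of_Dle3 w1 (hclose p)
  have ex : dx (fun q => u q - u0 q) = fun q => dx u q - dx u0 q := by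
    funext q; exact dx_sub (du q) (du0 q)
  have et : dt (fun q => u q - u0 q) = fun q => dt u q - dt u0 q := by
    funext q; exact dt_sub (du q) (du0 q)
  have exx : dx (fun q => dx u q - dx u0 q) = fun q => dx (dx u) q - dx (dx u0) q := by
    funext q; exact dx_sub (dux q) (du0x q)
  have ext : dt (fun q => dx u q - dx u0 q) = fun q => dt (dx u) q - dt (dx u0) q := by
    funext q; exact dt_sub (dux q) (du0x q)
  have ett : dt (fun q => dt u q - dt u0 q) = fun q => dt (dt u) q - dt (dt u0) q := by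
    funext q; exact dt_sub (dut q) (du0t q)
  rw [ex] at wx wxx wxt
  rw [et] at wt wtt
  rw [exx] at wxx
  rw [ext] at wxt
  rw [ett] at wtt
  -- the reference
  have hsq : ContDiff ℝ 4 (fun q : Pl => q.1 ^ 2 / 2) := by fun_prop
  have r1 : ContDiff ℝ 3 (fun q => u0 q - q.1 ^ 2 / 2) := (hu0.sub hsq).of_le (by norm_num)
  obtain ⟨_, rx, rt, _, _, _⟩ := bd_of_Dle3 r1 (href p)
  have dsq : ∀ q : Pl, DifferentiableAt ℝ (fun q : Pl => q.1 ^ 2 / 2) q := fun q =>
    hsq.differentiable (by norm_num) q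
  have efst : DifferentiableAt ℝ (fun q : Pl => q.1) p := differentiableAt_fst
  have esq1 : ∀ q : Pl, dx (fun q : Pl => q.1 ^ 2 / 2) q = q.1 := dx_half_sq
  have esq2 : ∀ q : Pl, dt (fun q : Pl => q.1 ^ 2 / 2) q = 0 := dt_half_sq
  have erx : dx (fun q => u0 q - q.1 ^ 2 / 2) = fun q => dx u0 q - q.1 := by
    funext q; rw [dx_sub (du0 q) (dsq q), esq1]
  have ert : dt (fun q => u0 q - q.1 ^ 2 / 2) = fun q => dt u0 q - 0 := by
    funext q; rw [dt_sub (du0 q) (dsq q), esq2]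
  rw [erx] at rx
  rw [ert] at rt
  have hfst : Bd 1 (fun q : Pl => q.1) p := by
    refine ⟨efst, ?_, ?_, ?_⟩
    · rw [abs_le]; unfold rho2 at hpp; constructor <;> nlinarith only [hpp]
    · rw [dx_fst, abs_one]
    · rw [dt_fst, abs_zero]; norm_num
  have hεδ : ε * δ ≤ 1 / 10 := by nlinarith only [hε, hε1, hδ1]
  refine ⟨wxx, wxt, wtt, ?_, ?_, ?_, ?_, ?_, ?_⟩
  · have := (wx.add rx).add hfst
    have e : (fun q => (dx u q - dx u0 q + (dx u0 q - q.1)) + q.1) = dx u := by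
      funext q; ring
    rw [e] at this
    exact this.mono (by linarith only [hε1, hεδ])
  · have := wt.add rt
    have e : (fun q => dt u q - dt u0 q + (dt u0 q - 0)) = dt u := by
      funext q; ring
    rw [e] at this
    exact this.mono (by linarith only [hε1, hεδ])
  · exact (b0.mono c1).congr hev
  · exact (bx.mono c1).congr (ev_dx hev)
  · exact (bt.mono c1).congr (ev_dt hev)
  · refine (fq_bd hG hG3 hb hp7).mono ?_
    have : 0 < ε * δ := by (clear * - hε hδ; positivity)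
    nlinarith only [this]

/-- local data of the reference. -/
theorem ref_of {u0 : Pl → ℝ} (hu0 : ContDiff ℝ 4 u0)
    (href : ∀ p, Dle 3 (fun q => u0 q - q.1 ^ 2 / 2) ε p) (p : Pl) :
    Bd ε (fun z => dx (dx u0) z - 1) p ∧ Bd ε (dt (dx u0)) p ∧ Bd ε (dt (dt u0)) p ∧
      |dx u0 p - p.1| ≤ ε := by
  have du0 : Differentiable ℝ u0 := hu0.differentiable (by norm_num)
  have hu0x : ContDiff ℝ 3 (dx u0) := contDiff_dx hu0 (by norm_num)
  have hu0t : ContDiff ℝ 3 (dt u0) := contDiff_dt hu0 (by norm_num)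
  have du0x : Differentiable ℝ (dx u0) := hu0x.differentiable (by norm_num)
  have du0t : Differentiable ℝ (dt u0) := hu0t.differentiable (by norm_num)
  have hsq : ContDiff ℝ 4 (fun q : Pl => q.1 ^ 2 / 2) := by fun_prop
  have r1 : ContDiff ℝ 3 (fun q => u0 q - q.1 ^ 2 / 2) := (hu0.sub hsq).of_le (by norm_num)
  obtain ⟨_, rx, rt, rxx, rxt, rtt⟩ := bd_of_Dle3 r1 (href p)
  have dsq : ∀ q : Pl, DifferentiableAt ℝ (fun q : Pl => q.1 ^ 2 / 2) q := fun q =>
    hsq.differentiable (by norm_num) q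
  have dfst : ∀ q : Pl, DifferentiableAt ℝ (fun q : Pl => q.1) q := fun q => differentiableAt_fst
  have esq1 : ∀ q : Pl, dx (fun q : Pl => q.1 ^ 2 / 2) q = q.1 := dx_half_sq
  have esq2 : ∀ q : Pl, dt (fun q : Pl => q.1 ^ 2 / 2) q = 0 := dt_half_sq
  have erx : dx (fun q => u0 q - q.1 ^ 2 / 2) = fun q => dx u0 q - q.1 := by
    funext q; rw [dx_sub (du0 q) (dsq q), esq1]
  have ert : dt (fun q => u0 q - q.1 ^ 2 / 2) = dt u0 := by
    funext q; rw [dt_sub (du0 q) (dsq q), esq2, sub_zero]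
  have erxx : dx (fun q => dx u0 q - q.1) = fun q => dx (dx u0) q - 1 := by
    funext q; rw [dx_sub (du0x q) (dfst q), dx_fst]
  have erxt : dt (fun q => dx u0 q - q.1) = dt (dx u0) := by
    funext q; rw [dt_sub (du0x q) (dfst q), dt_fst, sub_zero]
  rw [erx] at rx rxx rxt
  rw [erxx] at rxx
  rw [erxt] at rxt
  rw [ert] at rtt
  exact ⟨rxx, rxt, rtt, rx.val⟩

end

end PH

open PH in
/-- The pair data of two members of the normalised family. -/
theorem normfam_pair : ∃ ε : ℝ, 0 < ε ∧ ε ≤ 1 / 1000 ∧ ∀ M : ℝ, 1 ≤ M → ∀ cs : ℝ, 0 < cs →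
    cs ≤ 1 → ∃ n0 : ℕ, ∀ n : ℕ, n0 ≤ n →
    ∀ (δ ι b' : ℝ) (G : Pl → ℝ) (S : Finset (Fin (n ^ 107) → Bool)) (s0 : Fin (n ^ 107) → Bool)
      (u : (Fin (n ^ 107) → Bool) → Pl → ℝ),
    0 ≤ b' → b' ≤ 4 * M ^ 2 / (n : ℝ) ^ 1000 →
    NormFam n M cs δ ι b' ε G S s0 u →
    Frame (dx (u s0)) ∧ ∀ s ∈ S, ∀ s' ∈ S, ∃ a α e1 e2 F g : Pl → ℝ,
      PairEq (dx (u s0)) (fun q => u s q - u s' q) a α e1 e2 F δ ∧
      ContDiff ℝ 1 g ∧
      (∀ p, rho2 p < 0.64 → |g p - 1| ≤ 1 / 10 ∧ |dx g p| ≤ 1 ∧ |dt g p| ≤ 1) ∧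
      (∀ p, rho2 p < 0.64 →
        |F p + g p * (dx (dx (psi cs b' n s s')) p + dt (dt (psi cs b' n s s')) p)|
          ≤ |psi cs b' n s s' p| + |dx (psi cs b' n s s') p| + |dt (psi cs b' n s s') p|) := by
  obtain ⟨c1, _, hc1⟩ := exists_Dle (k := 3) phi0_smooth phi0_hasCompactSupport
  obtain ⟨c2, _, hc2⟩ := exists_Dle (k := 3) omc_smooth omc_compact
  set K0 : ℝ := max 1 (max c1 c2) with hK0def
  have hK0 : 1 ≤ K0 := le_max_left _ _
  have hphi : ∀ p, Dle 3 phi0 K0 p := fun p =>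
    dle_mono (hc1 p) ((le_max_left _ _).trans (le_max_right _ _))
  have hom : ∀ p, Dle 3 omc K0 p := fun p =>
    dle_mono (hc2 p) ((le_max_right _ _).trans (le_max_right _ _))
  have hKpos : 0 < 10 * K0 ^ 2 + 10 := by positivity
  have hK1 : 1 ≤ 10 * K0 ^ 2 + 10 := by linarith only [sq_nonneg K0]
  set ε : ℝ := 1 / (10 ^ 9 * (10 * K0 ^ 2 + 10)) with hεdef
  have hε : 0 < ε := by positivity
  have hKε : (10 * K0 ^ 2 + 10) * ε = 1 / 10 ^ 9 := by
    rw [hεdef]; field_simp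
  have hε9 : ε ≤ 1 / 10 ^ 9 := by
    rw [← hKε]; nlinarith only [hKε]
  refine ⟨ε, hε, hε9.trans (by norm_num), ?_⟩
  intro M hM cs hcs hcs1
  obtain ⟨n1, hn1⟩ := bits_small cs hcs M hM ε hε
  obtain ⟨n2, hn2⟩ := exists_nat_ge (4000 * M ^ 2)
  refine ⟨max n1 (max n2 1), ?_⟩
  intro n hn δ ι b' G S s0 u hb0 hb1 h
  have hnn1 : n1 ≤ n := (le_max_left _ _).trans hn
  have hnn2 : n2 ≤ n := ((le_max_left _ _).trans (le_max_right _ _)).trans hn
  have hnn3 : 1 ≤ n := ((le_max_right _ _).trans (le_max_right _ _)).trans hn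
  have hnR : (1 : ℝ) ≤ (n : ℝ) := by exact_mod_cast hnn3
  have hnM : 4000 * M ^ 2 ≤ (n : ℝ) := hn2.trans (by exact_mod_cast hnn2)
  have hn16 : (n : ℝ) ≤ (n : ℝ) ^ 16 := le_self_pow₀ hnR (by norm_num)
  have hn0 : (0 : ℝ) < (n : ℝ) ^ 16 := by positivity
  have hM0 : 0 < M := by linarith only [hM]
  have hδpos : 0 < δ := lt_of_lt_of_le (by positivity) h.δ_lower
  have hδ1 : δ ≤ 1 / 1000 := by
    refine h.δ_upper.trans ?_
    rw [div_le_iff₀ hn0]; linarith only [hnM, hn16]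
  have hpar : Par ε δ (10 * K0 ^ 2 + 10) ι :=
    ⟨hε, hK1, hKε.le, hδpos, hδ1, h.ι_nonneg, h.ι_small⟩
  have hbits : ∀ s p, Dle 3 (fun q => b' * bits cs n s q) (ε * δ) p := by
    intro s p
    refine dle_mono (hn1 n hnn1 b' hb0 hb1 s p) ?_
    have := mul_le_mul_of_nonneg_left h.δ_lower hε.le
    calc ε / (4 * M ^ 2 * (n : ℝ) ^ 16) = ε * (1 / (4 * M ^ 2 * (n : ℝ) ^ 16)) := by ring
      _ ≤ ε * δ := this
  have hus0 : ContDiff ℝ 4 (u s0) := h.smooth s0 h.s0_mem
  have hε4 : ε ≤ 1 / 10 ^ 4 := hpar.ε_le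
  norm_num at hε4
  -- the frame
  have hframe : Frame (dx (u s0)) := by
    have hx3 : ContDiff ℝ 3 (dx (u s0)) := contDiff_dx hus0 (by norm_num)
    have hxx : ContDiff ℝ 2 (dx (dx (u s0))) := contDiff_dx hx3 (by norm_num)
    have hd : Differentiable ℝ (dx (dx (u s0))) := hxx.differentiable (by norm_num)
    refine ⟨hx3, ?_, ?_, ?_, ?_, ?_, h.ref_dx⟩
    · intro p
      exact ((ref_of hus0 h.ref p).1.val).trans (by linarith only [hε9])
    · intro p
      exact ((ref_of hus0 h.ref p).2.1.val).trans (by linarith only [hε9])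
    · intro p
      have := (ref_of hus0 h.ref p).1.bx
      rw [dx_sub (hd p) (differentiableAt_const _), dx_const, sub_zero] at this
      exact this.trans (by linarith only [hε9])
    · intro p
      have := (ref_of hus0 h.ref p).1.bt
      rw [dt_sub (hd p) (differentiableAt_const _), dt_const, sub_zero] at this
      exact this.trans (by linarith only [hε9])
    · intro p
      exact ((ref_of hus0 h.ref p).2.1.bt).trans (by linarith only [hε9])
  refine ⟨hframe, ?_⟩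
  -- the Hessian brackets never vanish
  have hH : ∀ s ∈ S, ∀ p, 1 / 2 ≤ Hxx ι (qc cs δ b' n G s) (u s) p := by
    intro s hs p
    obtain ⟨g1, g2, g3⟩ := qc_global h.G_smooth h.G_small (hbits s) hphi hom hK0 hδpos hε
      (by linarith only [hε9]) p
    have hus : ContDiff ℝ 4 (u s) := h.smooth s hs
    have du : Differentiable ℝ (u s) := hus.differentiable (by norm_num)
    have du0 : Differentiable ℝ (u s0) := hus0.differentiable (by norm_num)
    have dux : Differentiable ℝ (dx (u s)) :=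
      (contDiff_dx (m := 3) hus (by norm_num)).differentiable (by norm_num)
    have du0x : Differentiable ℝ (dx (u s0)) :=
      (contDiff_dx (m := 3) hus0 (by norm_num)).differentiable (by norm_num)
    have w1 : ContDiff ℝ 3 (fun q => u s q - u s0 q) := (hus.sub hus0).of_le (by norm_num)
    obtain ⟨_, wx, wt, wxx, _, _⟩ := bd_of_Dle3 w1 (h.close s hs p)
    have ex : dx (fun q => u s q - u s0 q) = fun q => dx (u s) q - dx (u s0) q := by
      funext q; exact dx_sub (du q) (du0 q)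
    have et : dt (fun q => u s q - u s0 q) = fun q => dt (u s) q - dt (u s0) q := by
      funext q; exact dt_sub (du q) (du0 q)
    have exx : dx (fun q => dx (u s) q - dx (u s0) q)
        = fun q => dx (dx (u s)) q - dx (dx (u s0)) q := by
      funext q; exact dx_sub (dux q) (du0x q)
    rw [ex] at wx wxx
    rw [et] at wt
    rw [exx] at wxx
    have r1 := (ref_of hus0 h.ref p).1.val
    have w2 := wxx.val
    have hεδ : ε * δ ≤ 1 / 10000 := by nlinarith only [hKε, hδ1]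
    rw [abs_le] at r1 w2
    unfold Hxx
    by_cases hp1 : 1 ≤ rho2 p
    · rw [(g3 hp1).1, (g3 hp1).2]
      linarith only [hε9, r1, w2, hεδ]
    · push Not at hp1
      have r2 := (ref_of hus0 h.ref p).2.2.2
      have hsq : ContDiff ℝ 4 (fun q : Pl => q.1 ^ 2 / 2) := by fun_prop
      have hp1' : |p.1| ≤ 1 := by
        rw [abs_le]; unfold rho2 at hp1; constructor <;> nlinarith only [hp1]
      have hux : |dx (u s) p| ≤ 2 := by
        have a1 := wx.val
        rw [abs_le] at a1 r2 hp1' ⊢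
        constructor <;> linarith only [hε9, hεδ, r2, hp1', a1]
      have hut : |dt (u s) p| ≤ 1 := by
        have a1 := wt.val
        have r3 : |dt (fun q => u s0 q - q.1 ^ 2 / 2) p| ≤ ε := (h.ref p).2.2.1
        have esq2 : dt (fun q : Pl => q.1 ^ 2 / 2) p = 0 := dt_half_sq p
        rw [dt_sub (du0 p) (hsq.differentiable (by norm_num) p), esq2, sub_zero] at r3
        rw [abs_le] at a1 r3 ⊢
        constructor <;> linarith only [hε9, hεδ, a1, r3]
      set K := 10 * K0 ^ 2 + 10 with hKdef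
      have t1 : |dx (qc cs δ b' n G s) p * dx (u s) p - dt (qc cs δ b' n G s) p * dt (u s) p|
          ≤ 3 * (K * δ) := by
        refine (abs_sub _ _).trans ?_
        rw [abs_mul, abs_mul]
        have s1 := mul_le_mul g1 hux (abs_nonneg _) (by positivity)
        have s2 := mul_le_mul g2 hut (abs_nonneg _) (by positivity)
        linarith only [s1, s2]
      have t2 : |ι * (dx (qc cs δ b' n G s) p * dx (u s) p
          - dt (qc cs δ b' n G s) p * dt (u s) p)| ≤ ε * (3 * (K * δ)) := by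
        rw [abs_mul, abs_of_nonneg h.ι_nonneg]
        exact mul_le_mul h.ι_small t1 (abs_nonneg _) hε.le
      have t3 : ε * (3 * (K * δ)) ≤ 1 / 10 := by
        have : ε * (3 * (K * δ)) = 3 * (K * ε) * δ := by ring
        rw [this, hKε]
        norm_num
        linarith only [hδ1]
      rw [abs_le] at t2
      linarith only [hε9, r1, w2, hεδ, t2, t3]
  intro s hs s' hs'
  have hA : ∀ z, pA ι (qc cs δ b' n G s) (qc cs δ b' n G s') (u s) (u s') z ≠ 0 := by
    intro z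
    have h1 := hH s hs z
    have h2 := hH s' hs' z
    unfold pA
    intro h3
    linarith only [h1, h2, h3]
  refine pairEq_of_loc hpar hframe hA hus0
    ((qc_smooth h.G_smooth).of_le four_le_inf)
    ((qc_smooth h.G_smooth).of_le four_le_inf) (h.smooth s hs) (h.smooth s' hs')
    ?_ ?_ ?_ ?_ (psi cs b' n s s') ?_
  · intro p hp
    obtain ⟨r1, r2, r3, r4⟩ := ref_of hus0 h.ref p
    exact ⟨r1, r2, r3, r4, by linarith only [hp]⟩
  · intro p hp
    exact loc_of h.G_smooth h.G_small (hbits s) hphi hK0 hpar (h.smooth s hs) hus0 h.ref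
      (h.close s hs) hp
  · intro p hp
    exact loc_of h.G_smooth h.G_small (hbits s') hphi hK0 hpar (h.smooth s' hs') hus0 h.ref
      (h.close s' hs') hp
  · intro p hp
    have hp7 : rho2 p < 0.7 := by linarith only [hp]
    exact ⟨Darb_congr (qc_ev hp7) (h.darb s hs p hp), Darb_congr (qc_ev hp7) (h.darb s' hs' p hp)⟩
  · intro p hp
    have hp7 : rho2 p < 0.7 := by linarith only [hp]
    filter_upwards [(isOpen_rho_lt 0.7).mem_nhds hp7] with z hz
    rw [qc, qc, omc_one (le_of_lt hz), phn, phn, psi]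
    ring

end Vale.Agent.P229.D
end
end

section

section

/-!
# P229, disproof, task T17: normalisation of one immersion, the situation at `0`
-/

open scoped ContDiff Topology RealInnerProductSpace
open MeasureTheory Set

namespace Vale.Agent.P229.D

/-- all derivatives of order `≤ 3` of the potentials are small. -/
theorem phc_BD3 (cs : ℝ) (hcs : 0 < cs) (e : ℝ) (he : 0 < e) (qb : ℕ)
    (hqb : 1000 ≤ qb) : ∃ n0 : ℕ, ∀ n : ℕ, n0 ≤ n →
    ∀ σ : Fin (n ^ 9) → Fin (n ^ 107) → Bool, BB.BD 3 e (phc cs (1 / (n : ℝ) ^ qb) n σ) := by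
  obtain ⟨C, hC1, hC⟩ := BB.BD.of_compact BB.Phi_smooth BB.Phi_compact 3
  obtain ⟨C0, hC01, hC0⟩ := BB.BD.of_compact BB.phi0_smooth' BB.phi0_compact 3
  obtain ⟨n1, hn1, hsc⟩ := BB.scale_bd cs hcs
  obtain ⟨n2, hn2⟩ := exists_nat_ge (C + C0 + 30 + 2 * C0 / e + 2 / e)
  have hpos1 : 0 < 2 * C0 / e := by positivity
  have hpos2 : 0 < 2 / e := by positivity
  refine ⟨max n1 n2, fun n hn σ => ?_⟩
  have hn1' : n1 ≤ n := (le_max_left _ _).trans hn
  have hn2' : (n2 : ℝ) ≤ n := by exact_mod_cast (le_max_right _ _).trans hn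
  have hnn : 1 ≤ n := hn1.trans hn1'
  have hnR : (1 : ℝ) ≤ n := by exact_mod_cast hnn
  have hCn : C ≤ n := by linarith only [hC01, hn2, hpos1, hpos2, hn2']
  have hC0n : C0 ≤ n := by linarith only [hC1, hn2, hpos1, hpos2, hn2']
  have hn0 : (0 : ℝ) < n := by linarith only [hC1, hC01, hn2, hpos1, hpos2, hn2']
  have hne1 : 1 / (n : ℝ) ≤ e / 2 := by
    rw [div_le_iff₀ hn0]
    have : 2 / e ≤ n := by linarith only [hC1, hC01, hn2, hpos1, hn2']
    rw [div_le_iff₀ he] at this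
    linarith only [this]
  have hne2 : C0 / (n : ℝ) ≤ e / 2 := by
    rw [div_le_iff₀ hn0]
    have : 2 * C0 / e ≤ n := by linarith only [hC1, hC01, hn2, hpos2, hn2']
    rw [div_le_iff₀ he] at this
    linarith only [this]
  obtain ⟨s1, s2⟩ := hsc n hn1'
  have hR : ∀ k : Fin (n ^ 9), ‖BB.rotL (-ang n k)‖ ≤ 4 := fun k =>
    (BB.rotL_norm _).trans (by norm_num)
  have h := BB.BD.sum (m := 3) (C := (n : ℝ) ^ 107 * (C * (n : ℝ) ^ (124 * 3)))
    (Finset.univ : Finset (Fin (n ^ 9)))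
    (f := fun k p => bits cs n (σ k) (rot (-ang n k) p)) (fun k _ => by
      have h3 := BB.bits_BD cs n (σ k) 3 hC _ (hR k) hnn s1 s2
      have e : (fun p => bits cs n (σ k) (BB.rotL (-ang n k) p))
          = fun p => bits cs n (σ k) (rot (-ang n k) p) := by
        funext p
        rw [BB.rotL_apply]
      rw [e] at h3
      exact h3)
  rw [Finset.card_univ, Fintype.card_fin] at h
  push_cast at h
  have hb1 : 1 / (n : ℝ) ^ qb ≤ 1 / (n : ℝ) ^ 1000 :=
    one_div_le_one_div_of_le (by positivity) (pow_le_pow_right₀ hnR hqb)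
  have hb2 : 1 / (n : ℝ) ^ 100 ≤ 1 / (n : ℝ) := by
    apply one_div_le_one_div_of_le hn0
    calc (n : ℝ) = (n : ℝ) ^ 1 := (pow_one _).symm
      _ ≤ (n : ℝ) ^ 100 := pow_le_pow_right₀ hnR (by norm_num)
  have hb := (h.const_mul (1 / (n : ℝ) ^ qb)).mono
    ((BB.num_G hnR hC1 hCn (by positivity) hb1).trans hb2)
  have ha : BB.BD 3 (e / 2) (fun p => ((n : ℝ) ^ 16)⁻¹ * phi0 p) := by
    refine (hC0.const_mul ((n : ℝ) ^ 16)⁻¹).mono (le_trans ?_ hne2)
    rw [abs_of_pos (by positivity), ← div_eq_inv_mul]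
    gcongr
    have := one_le_pow₀ (n := 15) hnR
    calc (n : ℝ) = n * 1 := by ring
      _ ≤ n * (n : ℝ) ^ 15 := by (clear * - this hnn; gcongr)
      _ = _ := by ring
  exact (ha.add hb).mono (show e / 2 + 1 / (n : ℝ) ≤ e by linarith only [hne1])

/-- a unit vector normal to two orthogonal vectors of the same length, with Parseval's identity -/
theorem geom_unit_normal {a b : E3} {s : ℝ} (hs : 0 < s) (ha : ⟪a, a⟫ = s) (hb : ⟪b, b⟫ = s)
    (hab : ⟪a, b⟫ = 0) :
    ∃ n : E3, ‖n‖ = 1 ∧ ⟪a, n⟫ = 0 ∧ ⟪b, n⟫ = 0 ∧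
      ∀ x y : E3, s * ⟪x, y⟫ = ⟪x, a⟫ * ⟪y, a⟫ + ⟪x, b⟫ * ⟪y, b⟫ +
      s * (⟪x, n⟫ * ⟪y, n⟫) := by
  obtain ⟨n, hn⟩ := geom_normal hs ha hb hab
  have h1 : ⟪a, n⟫ = 0 := by
    have h := hn a a
    rw [ha, hab] at h
    have : s * (⟪a, n⟫ * ⟪a, n⟫) = 0 := by linear_combination -h
    rcases mul_eq_zero.1 this with h2 | h2
    · exact absurd h2 hs.ne'
    · exact mul_self_eq_zero.1 h2
  have h2 : ⟪b, n⟫ = 0 := by
    have h := hn b b
    rw [hb, real_inner_comm, hab] at h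
    have : s * (⟪b, n⟫ * ⟪b, n⟫) = 0 := by linear_combination -h
    rcases mul_eq_zero.1 this with h2 | h2
    · exact absurd h2 hs.ne'
    · exact mul_self_eq_zero.1 h2
  -- `n ≠ 0` since `a, b` do not span `E3`
  have hn0 : n ≠ 0 := by
    intro h0
    have hsp : ∀ x : E3, x ∈ Submodule.span ℝ ({a, b} : Set E3) := by
      intro x
      have hx : x = (⟪x, a⟫ / s) • a + (⟪x, b⟫ / s) • b := by
        apply ext_inner_right ℝ
        intro y
        have h := hn x y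
        rw [h0, inner_zero_right, inner_zero_right] at h
        rw [inner_add_left, real_inner_smul_left, real_inner_smul_left, real_inner_comm y a,
          real_inner_comm y b]
        field_simp
        linear_combination h
      rw [hx]
      exact Submodule.add_mem _ (Submodule.smul_mem _ _ (Submodule.subset_span (by simp)))
        (Submodule.smul_mem _ _ (Submodule.subset_span (by simp)))
    have htop : Submodule.span ℝ ({a, b} : Set E3) = ⊤ := by
      rw [Submodule.eq_top_iff']; exact hsp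
    have h3 : Module.finrank ℝ E3 ≤ 2 := by
      rw [← finrank_top ℝ E3, ← htop]
      have := finrank_span_le_card (R := ℝ) ({a, b} : Set E3)
      refine this.trans ?_
      rw [Set.toFinset_card]
      exact (Fintype.card_le_of_injective _ (Set.inclusion_injective (Set.Subset.refl _))).trans
        (by
          have := Finset.card_le_two (a := a) (b := b)
          simpa only [Fintype.card_ofFinset, toFinset_singleton, ge_iff_le] using this)
    rw [show Module.finrank ℝ E3 = 3 by simp] at h3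
    norm_num at h3
  have h4 : ⟪n, n⟫ = 1 := by
    have h := hn n n
    rw [real_inner_comm a n, real_inner_comm b n, h1, h2] at h
    have hpos : 0 < ⟪n, n⟫ := real_inner_self_pos.2 hn0
    have : s * ⟪n, n⟫ * (⟪n, n⟫ - 1) = 0 := by linear_combination -h
    rcases mul_eq_zero.1 this with h5 | h5
    · exact absurd h5 (by (clear * - hs hpos; positivity))
    · linarith only [h5]
  refine ⟨n, ?_, h1, h2, hn⟩
  rw [real_inner_self_eq_norm_sq] at h4
  have := norm_nonneg n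
  nlinarith only [h4, this]

/-- the tangential components of the second derivatives. -/
theorem gauss_rel {V : Set Pl} (hV : IsOpen V) {F : Pl → E3} (hF : ContDiffOn ℝ 4 F V)
    {φ : Pl → ℝ} (hφd : Differentiable ℝ φ) (hiso : ConfIso φ V F) {q : Pl} (hq : q ∈ V) :
    ⟪geomD (1, 0) (geomD (1, 0) F) q, geomD (1, 0) F q⟫ = geomD (1, 0) φ q * Real.exp (2 * φ q) ∧
    ⟪geomD (1, 0) (geomD (1, 0) F) q, geomD (0, 1) F q⟫
      = -(geomD (0, 1) φ q * Real.exp (2 * φ q)) ∧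
    ⟪geomD (0, 1) (geomD (1, 0) F) q, geomD (1, 0) F q⟫ = geomD (0, 1) φ q * Real.exp (2 * φ q) ∧
    ⟪geomD (0, 1) (geomD (1, 0) F) q, geomD (0, 1) F q⟫ = geomD (1, 0) φ q * Real.exp (2 * φ q) ∧
    ⟪geomD (0, 1) (geomD (0, 1) F) q, geomD (1, 0) F q⟫
      = -(geomD (1, 0) φ q * Real.exp (2 * φ q)) ∧
    ⟪geomD (0, 1) (geomD (0, 1) F) q, geomD (0, 1) F q⟫
      = geomD (0, 1) φ q * Real.exp (2 * φ q) := by
  have hF4 : ∀ q ∈ V, ContDiffAt ℝ 4 F q := fun q hq => hF.contDiffAt (hV.mem_nhds hq)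
  obtain ⟨a, ha⟩ : ∃ a : Pl → E3, a = geomD (1, 0) F := ⟨_, rfl⟩
  obtain ⟨b, hb⟩ : ∃ b : Pl → E3, b = geomD (0, 1) F := ⟨_, rfl⟩
  have ha3 : ∀ q ∈ V, ContDiffAt ℝ 3 a q := fun q hq => by
    rw [ha]; exact geomD_contDiffAt (hF4 q hq) (by norm_num) _
  have hb3 : ∀ q ∈ V, ContDiffAt ℝ 3 b q := fun q hq => by
    rw [hb]; exact geomD_contDiffAt (hF4 q hq) (by norm_num) _
  have had : ∀ q ∈ V, DifferentiableAt ℝ a q := fun q hq => (ha3 q hq).differentiableAt (by norm_num)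
  have hbd : ∀ q ∈ V, DifferentiableAt ℝ b q := fun q hq => (hb3 q hq).differentiableAt (by norm_num)
  have hcomm : ∀ q ∈ V, geomD (1, 0) b q = geomD (0, 1) a q := fun q hq => by
    rw [ha, hb]
    exact geomD_comm ((hF4 q hq).of_le (by norm_num)) _ _
  have hcongr : ∀ {f g : Pl → ℝ}, (∀ q ∈ V, f q = g q) → ∀ q ∈ V, ∀ v : Pl,
      geomD v f q = geomD v g q := fun h q hq v =>
    geomD_congr (Filter.eventuallyEq_of_mem (hV.mem_nhds hq) h) v
  have R1 : ∀ v : Pl, ∀ q ∈ V, ⟪a q, geomD v a q⟫ = geomD v φ q * Real.exp (2 * φ q) := by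
    intro v q hq
    have h := hcongr (f := fun x => ⟪a x, a x⟫) (g := fun x => Real.exp (2 * φ x))
      (fun x hx => by rw [ha]; exact (hiso x hx).1) q hq v
    rw [geomD_inner (had q hq) (had q hq), geomD_exp (hφd q), real_inner_comm (a q) (geomD v a q)] at h
    linear_combination h / 2
  have R2 : ∀ v : Pl, ∀ q ∈ V, ⟪b q, geomD v b q⟫ = geomD v φ q * Real.exp (2 * φ q) := by
    intro v q hq
    have h := hcongr (f := fun x => ⟪b x, b x⟫) (g := fun x => Real.exp (2 * φ x))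
      (fun x hx => by rw [hb]; exact (hiso x hx).2.1) q hq v
    rw [geomD_inner (hbd q hq) (hbd q hq), geomD_exp (hφd q), real_inner_comm (b q) (geomD v b q)] at h
    linear_combination h / 2
  have R3 : ∀ v : Pl, ∀ q ∈ V, ⟪a q, geomD v b q⟫ + ⟪geomD v a q, b q⟫ = 0 := by
    intro v q hq
    have h := hcongr (f := fun x => ⟪a x, b x⟫) (g := fun _ => (0 : ℝ))
      (fun x hx => by rw [ha, hb]; exact (hiso x hx).2.2) q hq v
    rw [geomD_inner (had q hq) (hbd q hq)] at h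
    rw [h]
    simp [geomD]
  have h4 : ⟪geomD (0, 1) a q, b q⟫ = geomD (1, 0) φ q * Real.exp (2 * φ q) := by
    rw [← hcomm q hq, real_inner_comm]; exact R2 _ q hq
  rw [← ha, ← hb]
  refine ⟨by rw [real_inner_comm]; exact R1 _ q hq, ?_, by rw [real_inner_comm]; exact R1 _ q hq,
    h4, ?_, by rw [real_inner_comm]; exact R2 _ q hq⟩
  · have h := R3 (1, 0) q hq
    rw [hcomm q hq, R1 _ q hq] at h
    linear_combination h
  · have h := R3 (0, 1) q hq
    rw [h4] at h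
    rw [real_inner_comm]
    linear_combination h

/-- the second derivative in terms of `geomD`. -/
theorem iter2_apply {F : Pl → E3} {q : Pl} (hF : ContDiffAt ℝ 2 F q) (v w : Pl) :
    iteratedFDeriv ℝ 2 F q ![v, w] = geomD v (geomD w F) q := by
  rw [iteratedFDeriv_two_apply]
  have hd : DifferentiableAt ℝ (fderiv ℝ F) q :=
    (hF.fderiv_right (m := 1) (by norm_num)).differentiableAt (by norm_num)
  have h : HasFDerivAt (fun x => fderiv ℝ F x w) _ q := hd.hasFDerivAt.clm_apply (hasFDerivAt_const w q)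
  change _ = fderiv ℝ (fun x => fderiv ℝ F x w) q v
  rw [h.fderiv]
  simp

theorem geomD_add_dir {F : Pl → E3} {q : Pl} (v w : Pl) (c d : ℝ) :
    geomD (c • v + d • w) F q = c • geomD v F q + d • geomD w F q := by
  unfold geomD
  rw [map_add, map_smul, map_smul]

/-- bilinearity -/
theorem geomD2_bilin {F : Pl → E3} {q : Pl} (hF : ContDiffAt ℝ 2 F q) (c d c' d' : ℝ) :
    geomD (c • ((1, 0) : Pl) + d • ((0, 1) : Pl))
      (geomD (c' • ((1, 0) : Pl) + d' • ((0, 1) : Pl)) F) q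
    = (c * c') • geomD (1, 0) (geomD (1, 0) F) q
      + (c * d' + d * c') • geomD (0, 1) (geomD (1, 0) F) q
      + (d * d') • geomD (0, 1) (geomD (0, 1) F) q := by
  have hd : ∀ v : Pl, DifferentiableAt ℝ (geomD v F) q := fun v =>
    (geomD_contDiffAt (m := 1) hF (by norm_num) v).differentiableAt (by norm_num)
  have e1 : geomD (c' • ((1, 0) : Pl) + d' • ((0, 1) : Pl)) F
      = fun x => c' • geomD (1, 0) F x + d' • geomD (0, 1) F x := by
    funext x; exact geomD_add_dir _ _ _ _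
  have e2 : ∀ v : Pl, geomD v (fun x => c' • geomD (1, 0) F x + d' • geomD (0, 1) F x) q
      = c' • geomD v (geomD (1, 0) F) q + d' • geomD v (geomD (0, 1) F) q := by
    intro v
    have h1 := ((hd (1, 0)).hasFDerivAt.const_smul c').add ((hd (0, 1)).hasFDerivAt.const_smul d')
    have h2 : fderiv ℝ (fun x => c' • geomD (1, 0) F x + d' • geomD (0, 1) F x) q
        = c' • fderiv ℝ (geomD (1, 0) F) q + d' • fderiv ℝ (geomD (0, 1) F) q := h1.fderiv
    change fderiv ℝ (fun x => c' • geomD (1, 0) F x + d' • geomD (0, 1) F x) q v = _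
    rw [h2]
    rfl
  rw [e1, geomD_add_dir, e2, e2, geomD_comm hF (1, 0) (0, 1)]
  module

/-- norm of the second derivative -/
theorem iter2_norm_le {F : Pl → E3} {q : Pl} (hF : ContDiffAt ℝ 2 F q) :
    ‖iteratedFDeriv ℝ 2 F q‖ ≤ ‖geomD (1, 0) (geomD (1, 0) F) q‖
      + 2 * ‖geomD (0, 1) (geomD (1, 0) F) q‖ + ‖geomD (0, 1) (geomD (0, 1) F) q‖ := by
  refine ContinuousMultilinearMap.opNorm_le_bound (by positivity) fun m => ?_
  have em : m = ![m 0, m 1] := by
    funext i; fin_cases i <;> rfl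
  have edec : ∀ v : Pl, v = v.1 • ((1, 0) : Pl) + v.2 • ((0, 1) : Pl) := by
    intro v; ext <;> simp
  rw [em, iter2_apply hF, edec (m 0), edec (m 1), geomD2_bilin hF]
  rw [← edec (m 0), ← edec (m 1)]
  have b1 : ∀ v : Pl, |v.1| ≤ ‖v‖ := fun v => norm_fst_le v
  have b2 : ∀ v : Pl, |v.2| ≤ ‖v‖ := fun v => norm_snd_le v
  rw [Fin.prod_univ_two]
  simp only [Matrix.cons_val_zero, Matrix.cons_val_one]
  generalize geomD (1, 0) (geomD (1, 0) F) q = A
  generalize geomD (0, 1) (geomD (1, 0) F) q = B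
  generalize geomD (0, 1) (geomD (0, 1) F) q = C
  have n0 := norm_nonneg (m 0)
  have n1 := norm_nonneg (m 1)
  have c1 : |(m 0).1 * (m 1).1| ≤ ‖m 0‖ * ‖m 1‖ := by
    rw [abs_mul]; exact mul_le_mul (b1 _) (b1 _) (abs_nonneg _) n0
  have c2 : |(m 0).1 * (m 1).2| ≤ ‖m 0‖ * ‖m 1‖ := by
    rw [abs_mul]; exact mul_le_mul (b1 _) (b2 _) (abs_nonneg _) n0
  have c3 : |(m 0).2 * (m 1).1| ≤ ‖m 0‖ * ‖m 1‖ := by
    rw [abs_mul]; exact mul_le_mul (b2 _) (b1 _) (abs_nonneg _) n0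
  have c4 : |(m 0).2 * (m 1).2| ≤ ‖m 0‖ * ‖m 1‖ := by
    rw [abs_mul]; exact mul_le_mul (b2 _) (b2 _) (abs_nonneg _) n0
  have c5 : |(m 0).1 * (m 1).2 + (m 0).2 * (m 1).1| ≤ 2 * (‖m 0‖ * ‖m 1‖) := by
    refine (abs_add_le _ _).trans ?_
    linarith
  calc ‖((m 0).1 * (m 1).1) • A + ((m 0).1 * (m 1).2 + (m 0).2 * (m 1).1) • B
        + ((m 0).2 * (m 1).2) • C‖
      ≤ ‖((m 0).1 * (m 1).1) • A‖ + ‖((m 0).1 * (m 1).2 + (m 0).2 * (m 1).1) • B‖
        + ‖((m 0).2 * (m 1).2) • C‖ := norm_add₃_le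
    _ = |(m 0).1 * (m 1).1| * ‖A‖ + |(m 0).1 * (m 1).2 + (m 0).2 * (m 1).1| * ‖B‖
        + |(m 0).2 * (m 1).2| * ‖C‖ := by
        rw [norm_smul, norm_smul, norm_smul, Real.norm_eq_abs, Real.norm_eq_abs, Real.norm_eq_abs]
    _ ≤ (‖m 0‖ * ‖m 1‖) * ‖A‖ + (2 * (‖m 0‖ * ‖m 1‖)) * ‖B‖ + (‖m 0‖ * ‖m 1‖) * ‖C‖ := by
        (clear * - c1 c5 c4; gcongr)
    _ = _ := by ring

/-- one vector -/
theorem normal_lower_aux {a b n x : E3} {s px pt ρ : ℝ} (hs : 0 < s) (hs2 : s ≤ 2)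
    (hn : ∀ x y : E3, s * ⟪x, y⟫ = ⟪x, a⟫ * ⟪y, a⟫ + ⟪x, b⟫ * ⟪y, b⟫ + s * (⟪x, n⟫ * ⟪y, n⟫))
    (h1 : ⟪x, a⟫ ^ 2 + ⟪x, b⟫ ^ 2 = (px ^ 2 + pt ^ 2) * s ^ 2) (hρ : 0 < ρ)
    (hpx : |px| ≤ ρ / 4) (hpt : |pt| ≤ ρ / 4) (hxn : |⟪x, n⟫| < ρ / 2) : ‖x‖ < ρ := by
  have h := hn x x
  rw [real_inner_self_eq_norm_sq] at h
  have h2 : s * ‖x‖ ^ 2 = s * ((px ^ 2 + pt ^ 2) * s + ⟪x, n⟫ ^ 2) := by
    linear_combination h + h1
  have h3 := mul_left_cancel₀ hs.ne' h2
  have h4 : px ^ 2 ≤ (ρ / 4) ^ 2 := sq_le_sq' (by linarith only [(abs_le.1 hpx).1]) (abs_le.1 hpx).2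
  have h5 : pt ^ 2 ≤ (ρ / 4) ^ 2 := sq_le_sq' (by linarith only [(abs_le.1 hpt).1]) (abs_le.1 hpt).2
  have h6 : ⟪x, n⟫ ^ 2 < (ρ / 2) ^ 2 := sq_lt_sq' (abs_lt.1 hxn).1 (abs_lt.1 hxn).2
  have h7 : (px ^ 2 + pt ^ 2) * s ≤ (2 * (ρ / 4) ^ 2) * 2 := by
    apply mul_le_mul (by linarith only [h4, h5]) hs2 hs.le (by positivity)
  have h8 : ‖x‖ ^ 2 < ρ ^ 2 := by nlinarith only [h3, h6, h7]
  exact lt_of_pow_lt_pow_left₀ 2 hρ.le h8

/-- the normal curvature is not small at `0`. -/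
theorem normal_lower {V : Set Pl} (hV : IsOpen V) {F : Pl → E3} (hF : ContDiffOn ℝ 4 F V)
    {q : Pl} (hq : q ∈ V)
    {φ : Pl → ℝ} (hφd : Differentiable ℝ φ) (hiso : ConfIso φ V F) {r M : ℝ} (hr : 0 < r)
    (hM : 1 ≤ M) (hlow : r / M ≤ ‖iteratedFDeriv ℝ 2 F q‖) (hφ0 : |φ q| ≤ 1 / 10)
    (hφx : |geomD (1, 0) φ q| ≤ r / (16 * M)) (hφt : |geomD (0, 1) φ q| ≤ r / (16 * M)) :
    ∃ e : E3, ‖e‖ = 1 ∧ ⟪geomD (1, 0) F q, e⟫ = 0 ∧ ⟪geomD (0, 1) F q, e⟫ = 0 ∧
      (1 / (8 * M) ≤ |⟪geomD (1, 0) (geomD (1, 0) F) q, e⟫ / r| ∨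
       1 / (8 * M) ≤ |⟪geomD (0, 1) (geomD (1, 0) F) q, e⟫ / r| ∨
       1 / (8 * M) ≤ |⟪geomD (0, 1) (geomD (0, 1) F) q, e⟫ / r|) := by
  have hM0 : 0 < M := by linarith only [hM]
  obtain ⟨g1, g2, g3, g4, g5, g6⟩ := gauss_rel hV hF hφd hiso hq
  obtain ⟨i1, i2, i3⟩ := hiso q hq
  obtain ⟨e, he, ha, hb, hn⟩ := geom_unit_normal (Real.exp_pos (2 * φ q)) i1 i2 i3
  have hs2 : Real.exp (2 * φ q) ≤ 2 := by
    have h1 : 2 * φ q ≤ 1 / 5 := by linarith only [(abs_le.1 hφ0).2]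
    have h2 : Real.exp (2 * φ q) ≤ Real.exp (1 / 5) := Real.exp_le_exp.2 h1
    have h3 : Real.exp (1 / 5) ≤ Real.exp (Real.log 2) :=
      Real.exp_le_exp.2 (by linarith only [Real.log_two_gt_d9])
    rw [Real.exp_log (by norm_num)] at h3
    linarith only [h2, h3]
  refine ⟨e, he, ha, hb, ?_⟩
  by_contra hcon
  push Not at hcon
  obtain ⟨c1, c2, c3⟩ := hcon
  have hρ : 0 < r / (4 * M) := by positivity
  have e1 : r / (4 * M) / 4 = r / (16 * M) := by field_simp; norm_num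
  have e2 : ∀ x : E3, |⟪x, e⟫ / r| < 1 / (8 * M) → |⟪x, e⟫| < r / (4 * M) / 2 := by
    intro x hx
    rw [abs_div, abs_of_pos hr, div_lt_iff₀ hr] at hx
    have : 1 / (8 * M) * r = r / (4 * M) / 2 := by field_simp; norm_num
    linarith only [hx, this]
  have s1 := normal_lower_aux (px := geomD (1, 0) φ q) (pt := geomD (0, 1) φ q)
    (x := geomD (1, 0) (geomD (1, 0) F) q) (Real.exp_pos (2 * φ q)) hs2 hn
    (by
      have g1' : ⟪geomD (1, 0) (geomD (1, 0) F) q, fderiv ℝ F q (1, 0)⟫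
        = geomD (1, 0) φ q * Real.exp (2 * φ q) := g1
      have g2' : ⟪geomD (1, 0) (geomD (1, 0) F) q, fderiv ℝ F q (0, 1)⟫
        = -(geomD (0, 1) φ q * Real.exp (2 * φ q)) := g2
      rw [g1', g2']; ring) hρ (by rw [e1]; exact hφx) (by rw [e1]; exact hφt) (e2 _ c1)
  have s2 := normal_lower_aux (px := geomD (1, 0) φ q) (pt := geomD (0, 1) φ q)
    (x := geomD (0, 1) (geomD (1, 0) F) q) (Real.exp_pos (2 * φ q)) hs2 hn
    (by
      have g1' : ⟪geomD (0, 1) (geomD (1, 0) F) q, fderiv ℝ F q (1, 0)⟫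
        = geomD (0, 1) φ q * Real.exp (2 * φ q) := g3
      have g2' : ⟪geomD (0, 1) (geomD (1, 0) F) q, fderiv ℝ F q (0, 1)⟫
        = geomD (1, 0) φ q * Real.exp (2 * φ q) := g4
      rw [g1', g2']; ring) hρ (by rw [e1]; exact hφx) (by rw [e1]; exact hφt) (e2 _ c2)
  have s3 := normal_lower_aux (px := geomD (1, 0) φ q) (pt := geomD (0, 1) φ q)
    (x := geomD (0, 1) (geomD (0, 1) F) q) (Real.exp_pos (2 * φ q)) hs2 hn
    (by
      have g1' : ⟪geomD (0, 1) (geomD (0, 1) F) q, fderiv ℝ F q (1, 0)⟫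
        = -(geomD (1, 0) φ q * Real.exp (2 * φ q)) := g5
      have g2' : ⟪geomD (0, 1) (geomD (0, 1) F) q, fderiv ℝ F q (0, 1)⟫
        = geomD (0, 1) φ q * Real.exp (2 * φ q) := g6
      rw [g1', g2']; ring) hρ (by rw [e1]; exact hφx) (by rw [e1]; exact hφt) (e2 _ c3)
  have h4 := iter2_norm_le (F := F) (q := q) ((hF.contDiffAt (hV.mem_nhds hq)).of_le (by norm_num))
  have h5 : r / M = 4 * (r / (4 * M)) := by (clear * - hM hr; field_simp)
  rw [h5] at hlow
  linarith only [hlow, s1, s2, s3, h4]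

/-- derivatives of `F ∘ rot θ`. -/
theorem geomD_comp_rot {V : Set Pl} (hV : IsOpen V) {F : Pl → E3} {θ : ℝ} {k : WithTop ℕ∞}
    (hk : 1 ≤ k) (hF : ContDiffOn ℝ k F V) {p : Pl} (hp : rot θ p ∈ V) (v : Pl) :
    geomD v (fun q => F (rot θ q)) p = geomD (rotCLM θ v) F (rot θ p) := by
  have hd : DifferentiableAt ℝ F (rot θ p) :=
    (hF.contDiffAt (hV.mem_nhds hp)).differentiableAt (by
      intro h; rw [h] at hk; exact absurd hk (by norm_num))
  have h : HasFDerivAt (fun q => F (rot θ q)) ((fderiv ℝ F (rot θ p)).comp (rotCLM θ)) p :=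
    hd.hasFDerivAt.comp p (hasFDerivAt_rot θ p)
  unfold geomD
  rw [h.fderiv]
  rfl

theorem continuous_rot (θ : ℝ) : Continuous (rot θ) := by
  have : rot θ = fun q => rotCLM θ q := by funext q; exact (rotCLM_apply θ q).symm
  rw [this]
  exact (rotCLM θ).continuous

theorem geomD2_comp_rot {V : Set Pl} (hV : IsOpen V) {F : Pl → E3} {θ : ℝ}
    (hF : ContDiffOn ℝ 4 F V) {p : Pl} (hp : rot θ p ∈ V) (v w : Pl) :
    geomD v (geomD w (fun q => F (rot θ q))) p
      = geomD (rotCLM θ v) (geomD (rotCLM θ w) F) (rot θ p) := by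
  have hV' : IsOpen (rot θ ⁻¹' V) := hV.preimage (continuous_rot θ)
  have h1 : geomD w (fun q => F (rot θ q)) =ᶠ[𝓝 p] fun q => geomD (rotCLM θ w) F (rot θ q) :=
    Filter.eventuallyEq_of_mem (hV'.mem_nhds hp) fun q hq =>
      geomD_comp_rot hV (by norm_num) hF hq w
  rw [geomD_congr h1]
  refine geomD_comp_rot hV (k := 3) (by norm_num) ?_ hp v
  intro q hq
  exact (geomD_contDiffAt (hF.contDiffAt (hV.mem_nhds hq)) (by norm_num) _).contDiffWithinAt

end Vale.Agent.P229.D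
end
end

section

section

/-!
# P229, disproof, task T17: normalisation of one immersion (`PROOF.md`, §4)
-/

open scoped ContDiff Topology RealInnerProductSpace
open MeasureTheory Set

namespace Vale.Agent.P229.D

/-- A raw solution: height function of an immersion in the good coordinates. -/
structure RawSol (n : ℕ) (M r cs : ℝ) (ph U : Pl → ℝ) : Prop where
  smooth : ContDiffOn ℝ 4 U {p | rho2 p < 1}
  bd2 : ∀ p, rho2 p < 1 → |dx (dx U) p| ≤ M ∧ |dt (dx U) p| ≤ M ∧ |dt (dt U) p| ≤ M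
  bd3 : ∀ p, rho2 p < 1 → Dle 1 (dx (dx (dx U))) (M * r) p ∧ Dle 1 (dt (dx (dx U))) (M * r) p ∧
    Dle 1 (dt (dt (dx U))) (M * r) p ∧ Dle 1 (dt (dt (dt U))) (M * r) p
  zero : U 0 = 0
  dx_zero : dx U 0 = 0
  dt_zero : dt U 0 = 0
  lower : 1 / M ≤ dx (dx U) 0
  slope : |dt (dx U) 0| ≤ varpi cs n / 2 * dx (dx U) 0
  darb : ∀ p, rho2 p < 1 → Darb (r ^ 2) ph U p

/-- Normalisation of one immersion. -/
theorem normalize (M : ℝ) (hM : 1 ≤ M) : ∃ M' : ℝ, 1 ≤ M' ∧ ∀ cs : ℝ, 0 < cs → cs ≤ 1 →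
    ∀ qb : ℕ, 1000 ≤ qb → ∀ r : ℝ, 0 < r → r ≤ 1 → ∃ n0 : ℕ, ∀ n : ℕ, n0 ≤ n →
    ∀ (σ : Fin (n ^ 9) → Fin (n ^ 107) → Bool) (F : Pl → E3),
    ContDiffOn ℝ 4 F (Metric.ball (0 : Pl) 1) →
    ConfIso (fun p => r ^ 2 * phc cs (1 / (n : ℝ) ^ qb) n σ p) (Metric.ball (0 : Pl) 1) F →
    (∀ p ∈ Metric.ball (0 : Pl) 1, ‖iteratedFDeriv ℝ 2 F p‖ ≤ M * r ∧
      ‖iteratedFDeriv ℝ 3 F p‖ ≤ M * r ^ 2 ∧ ‖iteratedFDeriv ℝ 4 F p‖ ≤ M * r ^ 3) →
    r / M ≤ ‖iteratedFDeriv ℝ 2 F 0‖ →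
    ∃ (l : Fin (n ^ 9)) (U : Pl → ℝ),
      RawSol n M' r cs (fun p => phc cs (1 / (n : ℝ) ^ qb) n σ (rot (ang n l) p)) U := by
  have hM0 : 0 < M := by linarith only [hM]
  refine ⟨16 * M, by linarith only [hM], fun cs hcs hcs1 qb hqb r hr hr1 => ?_⟩
  obtain ⟨n1, hn1⟩ := phc_BD3 cs hcs (1 / (16 * M)) (by positivity) qb hqb
  obtain ⟨n2, hn2⟩ := exists_nat_ge (64 / cs)
  refine ⟨max n1 n2, fun n hn σ F hF hiso hbd hlow => ?_⟩
  have hBD := hn1 n ((le_max_left _ _).trans hn) σ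
  have hn64 : 64 / cs ≤ (n : ℝ) := hn2.trans (by exact_mod_cast (le_max_right _ _).trans hn)
  set ph : Pl → ℝ := phc cs (1 / (n : ℝ) ^ qb) n σ with hph
  have hph_smooth : ContDiff ℝ ∞ ph := hBD.1
  have hph_diff : Differentiable ℝ ph := hph_smooth.differentiable (by norm_num)
  have hV : IsOpen (Metric.ball (0 : Pl) 1) := Metric.isOpen_ball
  have h0 : (0 : Pl) ∈ Metric.ball (0 : Pl) 1 := Metric.mem_ball_self one_pos
  have hd := hBD.dle 0
  have hd0 : |ph 0| ≤ 1 / (16 * M) := hd.1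
  have hdx : |dx ph 0| ≤ 1 / (16 * M) := hd.2.1.1
  have hdt : |dt ph 0| ≤ 1 / (16 * M) := hd.2.2.1
  have hgeo : ∀ v : Pl, ∀ q, geomD v (fun p => r ^ 2 * ph p) q = r ^ 2 * geomD v ph q := by
    intro v q
    unfold geomD
    rw [fderiv_const_mul (hph_diff q)]
    simp
  have hr2 : r ^ 2 ≤ r := by nlinarith only [hr, hr1]
  have hr21 : r ^ 2 ≤ 1 := by linarith only [hr1, hr2]
  have hr20 : 0 < r ^ 2 := by positivity
  have hq16 : 0 < 1 / (16 * M) := by positivity
  have hsmall : ∀ x : ℝ, |x| ≤ 1 / (16 * M) → |r ^ 2 * x| ≤ r / (16 * M) := by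
    intro x hx
    rw [abs_mul, abs_of_pos hr20]
    calc r ^ 2 * |x| ≤ r * (1 / (16 * M)) := mul_le_mul hr2 hx (abs_nonneg _) hr.le
      _ = r / (16 * M) := by ring
  obtain ⟨e, he, hea, heb, hor⟩ := normal_lower hV hF h0 (φ := fun p => r ^ 2 * ph p)
    (hph_diff.const_mul _) hiso hr hM hlow
    (by
      change |r ^ 2 * ph 0| ≤ 1 / 10
      refine (hsmall _ hd0).trans ?_
      rw [div_le_div_iff₀ (by positivity) (by norm_num)]
      linarith only [hM, hr1])
    (by rw [hgeo]; exact hsmall _ hdx) (by rw [hgeo]; exact hsmall _ hdt)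
  obtain ⟨l, s, hs, hl1, hl2⟩ := dir_choice hcs hcs1 hn64 hor
  set θ := ang n l with hθ
  set U : Pl → ℝ := fun p => s * (⟪F (rot θ p) - F 0, e⟫ / r) with hU
  obtain ⟨j1, j2, j3⟩ := rotJets hM hr hr1 hF hbd he θ s hs hU
  have hrot0 : rot θ 0 = 0 := by simp [rot]
  -- the unit vector `s e`
  have hse : ‖s • e‖ = 1 := by
    rw [norm_smul, he, mul_one, Real.norm_eq_abs]
    rcases hs with h | h <;> rw [h] <;> simp
  have hU' : U = fun p => ⟪F (rot θ p) - F 0, s • e⟫ / r := by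
    rw [hU]
    funext p
    rw [real_inner_smul_right]
    ring
  have hVr : IsOpen (rot θ ⁻¹' Metric.ball (0 : Pl) 1) := hV.preimage (continuous_rot θ)
  have hFr : ContDiffOn ℝ 4 (fun q => F (rot θ q)) (rot θ ⁻¹' Metric.ball (0 : Pl) 1) := by
    have hrs : ContDiff ℝ 4 (rot θ) := by
      have : rot θ = fun q => rotCLM θ q := by funext q; exact (rotCLM_apply θ q).symm
      rw [this]; exact (rotCLM θ).contDiff
    exact hF.comp hrs.contDiffOn (fun q hq => hq)
  have hmem : ∀ p, rho2 p < 1 → rot θ p ∈ Metric.ball (0 : Pl) 1 := by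
    intro p hp
    have h1 : rho2 (rot θ p) < 1 := by rw [rho2_rot]; exact hp
    rw [mem_ball_zero_iff, Prod.norm_def, max_lt_iff, Real.norm_eq_abs, Real.norm_eq_abs]
    unfold rho2 at h1
    constructor
    · exact (sq_lt_one_iff_abs_lt_one _).1 (by linarith only [h1, sq_nonneg (rot θ p).2])
    · exact (sq_lt_one_iff_abs_lt_one _).1 (by linarith only [h1, sq_nonneg (rot θ p).1])
  have h0' : (0 : Pl) ∈ rot θ ⁻¹' Metric.ball (0 : Pl) 1 := by
    change rot θ 0 ∈ Metric.ball (0 : Pl) 1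
    rw [hrot0]; exact h0
  -- derivatives of `U`
  have hFd : ∀ q ∈ rot θ ⁻¹' Metric.ball (0 : Pl) 1,
      ContDiffAt ℝ 4 (fun q => F (rot θ q)) q := fun q hq => hFr.contDiffAt (hVr.mem_nhds hq)
  have u1 : ∀ v : Pl, ∀ q ∈ rot θ ⁻¹' Metric.ball (0 : Pl) 1,
      geomD v U q = ⟪geomD v (fun q => F (rot θ q)) q, s • e⟫ / r := by
    intro v q hq
    have hq' : DifferentiableAt ℝ (fun q => F (rot θ q)) q :=
      (hFd q hq).differentiableAt (by norm_num)
    rw [hU', geomD_inner_const (hq'.sub_const _)]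
    congr 2
    unfold geomD
    rw [fderiv_sub_const]
  have u2 : ∀ v w : Pl, geomD w (geomD v U) 0
      = ⟪geomD w (geomD v (fun q => F (rot θ q))) 0, s • e⟫ / r := by
    intro v w
    rw [geomD_congr (Filter.eventuallyEq_of_mem (hVr.mem_nhds h0') (u1 v)) w]
    refine geomD_inner_const ?_ _ r w
    exact (geomD_contDiffAt (m := 3) (hFd 0 h0') (by norm_num) v).differentiableAt (by norm_num)
  have hF2 : ContDiffAt ℝ 2 F 0 := (hF.contDiffAt (hV.mem_nhds h0)).of_le (by norm_num)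
  have hxx0 : dx (dx U) 0 = s * hxx (⟪geomD (1, 0) (geomD (1, 0) F) 0, e⟫ / r)
      (⟪geomD (0, 1) (geomD (1, 0) F) 0, e⟫ / r) (⟪geomD (0, 1) (geomD (0, 1) F) 0, e⟫ / r) θ := by
    change geomD (1, 0) (geomD (1, 0) U) 0 = _
    rw [u2, geomD2_comp_rot hV hF h0', hrot0, rotCLM_e1, geomD2_bilin hF2]
    unfold hxx
    simp only [inner_add_left, real_inner_smul_left, real_inner_smul_right]
    ring
  have hxt0 : dt (dx U) 0 = s * hxt (⟪geomD (1, 0) (geomD (1, 0) F) 0, e⟫ / r)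
      (⟪geomD (0, 1) (geomD (1, 0) F) 0, e⟫ / r) (⟪geomD (0, 1) (geomD (0, 1) F) 0, e⟫ / r) θ := by
    change geomD (0, 1) (geomD (1, 0) U) 0 = _
    rw [u2, geomD2_comp_rot hV hF h0', hrot0, rotCLM_e1, rotCLM_e2, geomD2_bilin hF2]
    unfold hxt
    simp only [inner_add_left, real_inner_smul_left, real_inner_smul_right]
    ring
  refine ⟨l, U, ⟨j1, j2, j3, ?_, ?_, ?_, ?_, ?_, ?_⟩⟩
  · change s * (⟪F (rot θ 0) - F 0, e⟫ / r) = 0
    rw [hrot0, sub_self, inner_zero_left, zero_div, mul_zero]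
  · change geomD (1, 0) U 0 = 0
    rw [u1 _ _ h0', geomD_comp_rot (k := 4) hV (by norm_num) hF h0', hrot0, rotCLM_e1, geomD_add_dir]
    simp only [inner_add_left, real_inner_smul_left, real_inner_smul_right, hea, heb]
    simp
  · change geomD (0, 1) U 0 = 0
    rw [u1 _ _ h0', geomD_comp_rot (k := 4) hV (by norm_num) hF h0', hrot0, rotCLM_e2, geomD_add_dir]
    simp only [inner_add_left, real_inner_smul_right, real_inner_smul_left, hea, heb]
    simp
  · rw [hxx0]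
    refine le_trans (le_of_eq ?_) hl1
    field_simp
    norm_num
  · rw [hxx0, hxt0, abs_mul]
    have : |s| = 1 := by rcases hs with h | h <;> rw [h] <;> simp
    rw [this, one_mul]
    exact hl2
  · intro p hp
    have hisor : ConfIso (fun p => r ^ 2 * ph (rot θ p)) (rot θ ⁻¹' Metric.ball (0 : Pl) 1)
        (fun q => F (rot θ q)) := confIso_rot_raw hV hF hiso θ
    have hphr : ContDiff ℝ ∞ (fun p => ph (rot θ p)) := by
      have hrs : ContDiff ℝ ∞ (rot θ) := by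
        have : rot θ = fun q => rotCLM θ q := by funext q; exact (rotCLM_apply θ q).symm
        rw [this]; exact (rotCLM θ).contDiff
      exact hph_smooth.comp hrs
    have h := darboux hVr hFr hr hphr hisor hse (p := p) (hmem p hp)
    have e1 : (fun q => ⟪F (rot θ q) - F (rot θ 0), s • e⟫ / r) = U := by
      rw [hU', hrot0]
    rw [e1] at h
    exact h

end Vale.Agent.P229.D
end
end

section

section

/-!
# P229, disproof, task T19b (part B): cutoff, bounds for raw solutions, scaling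
-/

open scoped ContDiff Topology
open MeasureTheory Set

namespace Vale.Agent.P229.D.Raw

/-! ## the cutoff -/

/-- cutoff: `1` for `ρ² ≤ 0.7`, `0` for `ρ² ≥ 0.9`. -/
noncomputable def chi (p : Pl) : ℝ := Real.smoothTransition ((0.9 - rho2 p) / 0.2)

theorem chi_smooth : ContDiff ℝ ∞ chi := by
  unfold chi
  exact (Real.smoothTransition.contDiff (n := ⊤)).comp
    ((contDiff_const.sub contDiff_rho2).div_const _)

theorem chi_one {p : Pl} (hp : rho2 p ≤ 0.7) : chi p = 1 := by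
  unfold chi
  refine Real.smoothTransition.one_of_one_le ?_
  rw [le_div_iff₀ (by norm_num)]; linarith only [hp]

theorem chi_zero {p : Pl} (hp : 0.9 ≤ rho2 p) : chi p = 0 := by
  unfold chi
  refine Real.smoothTransition.zero_of_nonpos ?_
  exact div_nonpos_of_nonpos_of_nonneg (by linarith) (by norm_num)

theorem chi_compact : HasCompactSupport chi := by
  refine HasCompactSupport.intro (isCompact_closedBall (0 : Pl) 1) fun p hp => ?_
  refine chi_zero ?_
  by_contra h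
  rw [not_le] at h
  refine hp ?_
  rw [Metric.mem_closedBall]
  exact dist_zero_le (by linarith)

theorem der_compact {f : Pl → ℝ} (hf : ContDiff ℝ ∞ f) (hc : HasCompactSupport f) :
    ∀ k : ℕ, ∃ C : ℝ, 0 ≤ C ∧ ∀ p, Dle k f C p := by
  intro k
  induction k generalizing f with
  | zero =>
    obtain ⟨C, hC⟩ := hc.exists_bound_of_continuous hf.continuous
    exact ⟨max C 0, le_max_right _ _, fun p => (hC p).trans (le_max_left _ _)⟩
  | succ k ih =>
    obtain ⟨C, hC⟩ := hc.exists_bound_of_continuous hf.continuous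
    have h1 : HasCompactSupport (dx f) :=
      HasCompactSupport.intro hc fun _ hp => dx_eq_zero_of_notMem_tsupport hp
    have h2 : HasCompactSupport (dt f) :=
      HasCompactSupport.intro hc fun _ hp => dt_eq_zero_of_notMem_tsupport hp
    obtain ⟨C1, h10, hC1⟩ := ih (contDiff_dx hf (by simp)) h1
    obtain ⟨C2, h20, hC2⟩ := ih (contDiff_dt hf (by simp)) h2
    refine ⟨max C 0 + C1 + C2, by (clear * - h10 h20; positivity), fun p => ⟨?_, ?_, ?_⟩⟩
    · have := (hC p).trans (le_max_left C 0)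
      rw [Real.norm_eq_abs] at this
      linarith
    · exact (hC1 p).mono (by have := le_max_right C 0; linarith)
    · exact (hC2 p).mono (by have := le_max_right C 0; linarith)

theorem chi_bdd : ∃ C : ℝ, 1 ≤ C ∧ ∀ p, Dle 3 chi C p := by
  obtain ⟨C, h0, hC⟩ := der_compact chi_smooth chi_compact 3
  exact ⟨C + 1, by linarith, fun p => (hC p).mono (by linarith)⟩

theorem rho2_continuous : Continuous rho2 := contDiff_rho2.continuous

theorem ext_contDiff {g : Pl → ℝ} {n : WithTop ℕ∞} (hn : n ≤ ∞)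
    (hg : ContDiffOn ℝ n g {p | rho2 p < 1}) : ContDiff ℝ n (fun p => chi p * g p) := by
  rw [contDiff_iff_contDiffAt]
  intro p
  by_cases hp : rho2 p < 1
  · have h1 : ContDiffAt ℝ n g p := hg.contDiffAt ((isOpen_rho2_lt 1).mem_nhds hp)
    exact (chi_smooth.contDiffAt.of_le hn).mul h1
  · have hp' : 0.9 < rho2 p := by rw [not_lt] at hp; linarith
    have : (fun p => chi p * g p) =ᶠ[𝓝 p] fun _ => 0 := by
      filter_upwards [(isOpen_lt continuous_const rho2_continuous).mem_nhds hp'] with q hq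
      have hq' : 0.9 < rho2 q := hq
      rw [chi_zero hq'.le, zero_mul]
    exact contDiffAt_const.congr_of_eventuallyEq this

theorem ext_dle {g : Pl → ℝ} (hg : ContDiffOn ℝ 3 g {p | rho2 p < 1}) {c C : ℝ} (hc : 0 ≤ c)
    (hC : 0 ≤ C) (hchi : ∀ p, Dle 3 chi C p) (h : ∀ p, rho2 p ≤ 0.9 → Dle 3 g c p) (p : Pl) :
    Dle 3 (fun q => chi q * g q) (8 * C * c) p := by
  by_cases hp : rho2 p ≤ 0.9
  · have h1 : ContDiffAt ℝ 3 g p := hg.contDiffAt ((isOpen_rho2_lt 1).mem_nhds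
      (show rho2 p < 1 by linarith))
    have h2 : ContDiffAt ℝ 3 chi p := chi_smooth.contDiffAt.of_le (by decide)
    have := Dle.mul h2 h1 hC hc (hchi p) (h p hp)
    exact this.mono (by norm_num)
  · rw [not_le] at hp
    refine Dle.congr (Dle_zero_fun (by positivity)) ?_
    filter_upwards [(isOpen_lt continuous_const rho2_continuous).mem_nhds hp] with q hq
    have hq' : 0.9 < rho2 q := hq
    rw [chi_zero hq'.le, zero_mul]

/-! ## derivatives of multiples (no differentiability needed) -/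

theorem dx_smul (c : ℝ) (f : Pl → ℝ) : dx (fun q => c * f q) = fun q => c * dx f q := by
  funext p
  have : fderiv ℝ (fun q => c * f q) p = c • fderiv ℝ f p := by
    have h := congrFun (fderiv_const_smul_field (𝕜 := ℝ) (f := f) c) p
    exact h
  rw [dx, this]; rfl

theorem dt_smul (c : ℝ) (f : Pl → ℝ) : dt (fun q => c * f q) = fun q => c * dt f q := by
  funext p
  have : fderiv ℝ (fun q => c * f q) p = c • fderiv ℝ f p := by
    have h := congrFun (fderiv_const_smul_field (𝕜 := ℝ) (f := f) c) p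
    exact h
  rw [dt, this]; rfl

theorem Dle_smul (c : ℝ) : ∀ {k : ℕ} {f : Pl → ℝ} {a : ℝ} {p : Pl}, Dle k f a p →
    Dle k (fun q => c * f q) (|c| * a) p
  | 0, f, a, p, h => by
    show |c * f p| ≤ |c| * a
    rw [abs_mul]
    exact mul_le_mul_of_nonneg_left h (abs_nonneg c)
  | k + 1, f, a, p, h => by
    refine ⟨?_, ?_, ?_⟩
    · rw [abs_mul]
      exact mul_le_mul_of_nonneg_left h.1 (abs_nonneg c)
    · rw [dx_smul]; exact Dle_smul c h.2.1
    · rw [dt_smul]; exact Dle_smul c h.2.2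

/-! ## the Darboux equation -/

theorem Darb_congr {ι : ℝ} {ph u v : Pl → ℝ} {p : Pl} (h : u =ᶠ[𝓝 p] v) (hD : Darb ι ph v p) :
    Darb ι ph u p := by
  have h1 := dx_congr h
  have h2 := dt_congr h
  unfold Darb at hD ⊢
  rw [(dx_congr h1).self_of_nhds, (dt_congr h2).self_of_nhds, (dt_congr h1).self_of_nhds,
    h1.self_of_nhds, h2.self_of_nhds]
  exact hD

theorem Darb_scale {r L : ℝ} (hL : L ≠ 0) {ph U : Pl → ℝ} {p : Pl} (h : Darb (r ^ 2) ph U p) :
    Darb ((r * L) ^ 2) (fun q => (1 / L ^ 2) * ph q) (fun q => (1 / L) * U q) p := by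
  unfold Darb at h ⊢
  simp only [dx_smul, dt_smul]
  have e : 2 * (r * L) ^ 2 * (1 / L ^ 2 * ph p) = 2 * r ^ 2 * ph p := by
    field_simp
  rw [e]
  generalize Real.exp (2 * r ^ 2 * ph p) = E at h ⊢
  field_simp
  linear_combination h

/-! ## `ff` -/

theorem ff_add {f g : Pl → ℝ} (hf : ContDiff ℝ ∞ f) (hg : ContDiff ℝ ∞ g) (p : Pl) :
    ff (fun q => f q + g q) p = ff f p + ff g p := by
  have df : Differentiable ℝ f := hf.differentiable (by simp)
  have dg : Differentiable ℝ g := hg.differentiable (by simp)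
  have dfx : Differentiable ℝ (dx f) := (contDiff_dx hf (m := ∞) (by simp)).differentiable (by simp)
  have dgx : Differentiable ℝ (dx g) := (contDiff_dx hg (m := ∞) (by simp)).differentiable (by simp)
  have dft : Differentiable ℝ (dt f) := (contDiff_dt hf (m := ∞) (by simp)).differentiable (by simp)
  have dgt : Differentiable ℝ (dt g) := (contDiff_dt hg (m := ∞) (by simp)).differentiable (by simp)
  have e1 : dx (fun q => f q + g q) = fun q => dx f q + dx g q :=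
    funext fun q => dx_add (df q) (dg q)
  have e2 : dt (fun q => f q + g q) = fun q => dt f q + dt g q :=
    funext fun q => dt_add (df q) (dg q)
  rw [ff, e1, e2, dx_add (dfx p) (dgx p), dt_add (dft p) (dgt p), ff, ff]
  ring

theorem ff_smul (c : ℝ) (f : Pl → ℝ) (p : Pl) : ff (fun q => c * f q) p = c * ff f p := by
  rw [ff, dx_smul, dx_smul, dt_smul, dt_smul, ff]; ring

theorem ff_le {f : Pl → ℝ} {c : ℝ} {p : Pl} (h : Dle 3 f c p) : |ff f p| ≤ 2 * c := by
  have h1 : |dx (dx f) p| ≤ c := h.2.1.2.1.1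
  have h2 : |dt (dt f) p| ≤ c := h.2.2.2.2.1
  rw [ff, abs_neg]
  exact (abs_add_le _ _).trans (by linarith)

/-! ## raw solutions -/

section
variable {n : ℕ} {M r cs : ℝ} {ph U : Pl → ℝ}

theorem raw_contDiffAt (h : RawSol n M r cs ph U) {p : Pl} (hp : rho2 p < 1) :
    ContDiffAt ℝ 4 U p := h.smooth.contDiffAt ((isOpen_rho2_lt 1).mem_nhds hp)

theorem raw_dx_le (h : RawSol n M r cs ph U) {p : Pl} (hp : rho2 p < 1) : |dx U p| ≤ 2 * M := by
  have hM : 0 ≤ M := (abs_nonneg _).trans (h.bd2 p hp).1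
  have h1 : |dx U p - dx U 0| ≤ 2 * M * dist p 0 := by
    refine lip_disc (fun q hq => ?_) (fun q hq => ⟨(h.bd2 q hq).1, (h.bd2 q hq).2.1⟩) hp
      (by rw [rho2_zero]; norm_num)
    exact (contDiffAt_dx (raw_contDiffAt h hq) (m := 3) (by norm_num)).differentiableAt
      (by norm_num)
  rw [h.dx_zero, sub_zero] at h1
  have h2 := dist_zero_le hp
  nlinarith only [h1, hM, h2]

theorem raw_dt_le (h : RawSol n M r cs ph U) {p : Pl} (hp : rho2 p < 1) : |dt U p| ≤ 2 * M := by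
  have hM : 0 ≤ M := (abs_nonneg _).trans (h.bd2 p hp).1
  have h1 : |dt U p - dt U 0| ≤ 2 * M * dist p 0 := by
    refine lip_disc (fun q hq => ?_) (fun q hq => ⟨?_, (h.bd2 q hq).2.2⟩) hp
      (by rw [rho2_zero]; norm_num)
    · exact (contDiffAt_dt (raw_contDiffAt h hq) (m := 3) (by norm_num)).differentiableAt
        (by norm_num)
    · rw [comm_at ((raw_contDiffAt h hq).of_le (by norm_num))]
      exact (h.bd2 q hq).2.1
  rw [h.dt_zero, sub_zero] at h1
  have h2 := dist_zero_le hp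
  nlinarith only [h1, hM, h2]

theorem raw_le (h : RawSol n M r cs ph U) {p : Pl} (hp : rho2 p < 1) : |U p| ≤ 4 * M := by
  have hM : 0 ≤ M := (abs_nonneg _).trans (h.bd2 p hp).1
  have h1 : |U p - U 0| ≤ 2 * (2 * M) * dist p 0 := by
    refine lip_disc (fun q hq => ?_) (fun q hq => ⟨raw_dx_le h hq, raw_dt_le h hq⟩) hp
      (by rw [rho2_zero]; norm_num)
    exact (raw_contDiffAt h hq).differentiableAt (by norm_num)
  rw [h.zero, sub_zero] at h1
  have h2 := dist_zero_le hp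
  nlinarith only [h1, hM, h2]

/-- values and gradients of the ten sorted derivatives. -/
theorem raw_words (hM1 : 1 ≤ M) (hr : r ≤ 1) (h : RawSol n M r cs ph U) (k : Fin 10) {p : Pl}
    (hp : rho2 p < 1) : DifferentiableAt ℝ (der (wd k) U) p ∧ |der (wd k) U p| ≤ 4 * M ∧
      |dx (der (wd k) U) p| ≤ 2 * M ∧ |dt (der (wd k) U) p| ≤ 2 * M := by
  have hM : 0 ≤ M := (abs_nonneg _).trans (h.bd2 p hp).1
  have hMr : M * r ≤ M := by nlinarith only [hr, hM1]
  have c4 := raw_contDiffAt h hp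
  have ev4 : ∀ᶠ q in 𝓝 p, ContDiffAt ℝ 4 U q := c4.eventually (by decide)
  have cx : ContDiffAt ℝ 3 (dx U) p := contDiffAt_dx c4 (by norm_num)
  have ct : ContDiffAt ℝ 3 (dt U) p := contDiffAt_dt c4 (by norm_num)
  have cxx : ContDiffAt ℝ 2 (dx (dx U)) p := contDiffAt_dx cx (by norm_num)
  have cxt : ContDiffAt ℝ 2 (dt (dx U)) p := contDiffAt_dt cx (by norm_num)
  have ctt : ContDiffAt ℝ 2 (dt (dt U)) p := contDiffAt_dt ct (by norm_num)
  have cxxx : ContDiffAt ℝ 1 (dx (dx (dx U))) p := contDiffAt_dx cxx (by norm_num)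
  have cxxt : ContDiffAt ℝ 1 (dt (dx (dx U))) p := contDiffAt_dt cxx (by norm_num)
  have cxtt : ContDiffAt ℝ 1 (dt (dt (dx U))) p := contDiffAt_dt cxt (by norm_num)
  have cttt : ContDiffAt ℝ 1 (dt (dt (dt U))) p := contDiffAt_dt ctt (by norm_num)
  obtain ⟨b1, b2, b3⟩ := h.bd2 p hp
  obtain ⟨t1, t2, t3, t4⟩ := h.bd3 p hp
  have e1 : dx (dt U) =ᶠ[𝓝 p] dt (dx U) := by
    filter_upwards [ev4] with q hq
    exact comm_at (hq.of_le (by norm_num))
  have e2 : dx (dt (dx U)) p = dt (dx (dx U)) p := comm_at (cx.of_le (by norm_num))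
  have e4 : dt (dx (dt U)) p = dt (dt (dx U)) p := (dt_congr e1).self_of_nhds
  have e5 : dx (dt (dt U)) p = dt (dt (dx U)) p := by
    rw [comm_at (ct.of_le (by norm_num)), e4]
  have x0 := raw_le h hp
  have x1 := raw_dx_le h hp
  have x2 := raw_dt_le h hp
  have y1 : |dx (dx (dx U)) p| ≤ M := t1.1.trans hMr
  have y2 : |dt (dx (dx U)) p| ≤ M := t2.1.trans hMr
  have y3 : |dt (dt (dx U)) p| ≤ M := t3.1.trans hMr
  have y4 : |dt (dt (dt U)) p| ≤ M := t4.1.trans hMr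
  have z1 : |dx (dx (dx (dx U))) p| ≤ M := t1.2.1.trans hMr
  have z2 : |dt (dx (dx (dx U))) p| ≤ M := t1.2.2.trans hMr
  have z3 : |dx (dt (dx (dx U))) p| ≤ M := t2.2.1.trans hMr
  have z4 : |dt (dt (dx (dx U))) p| ≤ M := t2.2.2.trans hMr
  have z5 : |dx (dt (dt (dx U))) p| ≤ M := t3.2.1.trans hMr
  have z6 : |dt (dt (dt (dx U))) p| ≤ M := t3.2.2.trans hMr
  have z7 : |dx (dt (dt (dt U))) p| ≤ M := t4.2.1.trans hMr
  have z8 : |dt (dt (dt (dt U))) p| ≤ M := t4.2.2.trans hMr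
  fin_cases k
  · exact ⟨c4.differentiableAt (by norm_num), x0, x1, x2⟩
  · exact ⟨cx.differentiableAt (by norm_num), by
      show |dx U p| ≤ _; linarith only [hM1, x1], by show |dx (dx U) p| ≤ _; linarith only [hM1, b1],
      by show |dt (dx U) p| ≤ _; linarith only [hM1, b2]⟩
  · refine ⟨ct.differentiableAt (by norm_num), ?_, ?_, ?_⟩
    · show |dt U p| ≤ _; linarith only [hM1, x2]
    · show |dx (dt U) p| ≤ _
      rw [e1.self_of_nhds]; linarith only [hM1, b2]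
    · show |dt (dt U) p| ≤ _; linarith only [hM1, b3]
  · refine ⟨cxx.differentiableAt (by norm_num), ?_, ?_, ?_⟩
    · show |dx (dx U) p| ≤ _; linarith only [hM1, b1]
    · show |dx (dx (dx U)) p| ≤ _; linarith only [hM1, y1]
    · show |dt (dx (dx U)) p| ≤ _; linarith only [hM1, y2]
  · refine ⟨cxt.differentiableAt (by norm_num), ?_, ?_, ?_⟩
    · show |dt (dx U) p| ≤ _; linarith only [hM1, b2]
    · show |dx (dt (dx U)) p| ≤ _
      rw [e2]; linarith only [hM1, y2]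
    · show |dt (dt (dx U)) p| ≤ _; linarith only [hM1, y3]
  · refine ⟨ctt.differentiableAt (by norm_num), ?_, ?_, ?_⟩
    · show |dt (dt U) p| ≤ _; linarith only [hM1, b3]
    · show |dx (dt (dt U)) p| ≤ _
      rw [e5]; linarith only [hM1, y3]
    · show |dt (dt (dt U)) p| ≤ _; linarith only [hM1, y4]
  · refine ⟨cxxx.differentiableAt (by norm_num), ?_, ?_, ?_⟩
    · show |dx (dx (dx U)) p| ≤ _; linarith only [hM1, y1]
    · show |dx (dx (dx (dx U))) p| ≤ _; linarith only [hM1, z1]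
    · show |dt (dx (dx (dx U))) p| ≤ _; linarith only [hM1, z2]
  · refine ⟨cxxt.differentiableAt (by norm_num), ?_, ?_, ?_⟩
    · show |dt (dx (dx U)) p| ≤ _; linarith only [hM1, y2]
    · show |dx (dt (dx (dx U))) p| ≤ _; linarith only [hM1, z3]
    · show |dt (dt (dx (dx U))) p| ≤ _; linarith only [hM1, z4]
  · refine ⟨cxtt.differentiableAt (by norm_num), ?_, ?_, ?_⟩
    · show |dt (dt (dx U)) p| ≤ _; linarith only [hM1, y3]
    · show |dx (dt (dt (dx U))) p| ≤ _; linarith only [hM1, z5]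
    · show |dt (dt (dt (dx U))) p| ≤ _; linarith only [hM1, z6]
  · refine ⟨cttt.differentiableAt (by norm_num), ?_, ?_, ?_⟩
    · show |dt (dt (dt U)) p| ≤ _; linarith only [hM1, y4]
    · show |dx (dt (dt (dt U))) p| ≤ _; linarith only [hM1, z7]
    · show |dt (dt (dt (dt U))) p| ≤ _; linarith only [hM1, z8]

theorem raw_words_lip (hM1 : 1 ≤ M) (hr : r ≤ 1) (h : RawSol n M r cs ph U) (k : Fin 10)
    {p q : Pl} (hp : rho2 p < 1) (hq : rho2 q < 1) :
    |der (wd k) U p - der (wd k) U q| ≤ 4 * M * dist p q := by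
  have := lip_disc (f := der (wd k) U) (c := 2 * M)
    (fun q hq => (raw_words hM1 hr h k hq).1) (fun q hq => (raw_words hM1 hr h k hq).2.2) hp hq
  linarith

/-- closeness of the ten sorted derivatives gives `Dle 3` for the difference. -/
theorem dle_of_words {f g : Pl → ℝ} {p : Pl} {c : ℝ} (hf : ContDiffAt ℝ 3 f p)
    (hg : ContDiffAt ℝ 3 g p) (h : ∀ k : Fin 10, |der (wd k) f p - der (wd k) g p| ≤ c) :
    Dle 3 (fun q => f q - g q) c p := by
  have key : ∀ k : Fin 10, |der (wd k) (fun q => f q - g q) p| ≤ c := by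
    intro k
    have hl : (wd k).length ≤ 3 := by fin_cases k <;> decide
    have hl' : (((wd k).length : ℕ) : WithTop ℕ∞) ≤ 3 := by exact_mod_cast hl
    rw [der_sub (wd k) (hf.of_le hl') (hg.of_le hl')]
    exact h k
  exact Dle3_of_sorted (hf.sub hg) (key 0) (key 1) (key 2) (key 3) (key 4) (key 5) (key 6)
    (key 7) (key 8) (key 9)

end

end Vale.Agent.P229.D.Raw
end
end

section

section

/-!
# P229, disproof, task T19b (part C): from raw solutions to a normalised family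
-/

open scoped ContDiff Topology
open MeasureTheory Set

namespace Vale.Agent.P229.D.Raw

/-- the potential of the raw family. -/
theorem ff_raw {cs : ℝ} {n : ℕ} {b : ℝ} {G : Pl → ℝ} (hG : ContDiff ℝ ∞ G)
    (hG1 : Dle 3 G (1 / (n : ℝ) ^ 100) 0) {s : Fin (n ^ 107) → Bool}
    (hb : Dle 3 (fun q => b * bits cs n s q) (1 / (4 * (n : ℝ) ^ 16)) 0) (hn : 1 ≤ n) :
    |ff (fun p => ((n : ℝ) ^ 16)⁻¹ * phi0 p + G p + b * bits cs n s p) 0| ≤ 3 / (n : ℝ) ^ 16 := by
  have hnR : (1 : ℝ) ≤ n := by exact_mod_cast hn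
  have hn16 : (0 : ℝ) < (n : ℝ) ^ 16 := by positivity
  have s1 : ContDiff ℝ ∞ (fun p : Pl => ((n : ℝ) ^ 16)⁻¹ * phi0 p) := contDiff_const.mul phi0_smooth
  have s2 : ContDiff ℝ ∞ (fun p : Pl => b * bits cs n s p) := contDiff_const.mul (bits_smooth cs n s)
  rw [ff_add (s1.add hG) s2, ff_add s1 hG, ff_smul, ff_phi0 (by rw [rho2_zero]; norm_num), rho2_zero]
  have h1 := ff_le hG1
  have h2 := ff_le hb
  have h3 : 1 / (n : ℝ) ^ 100 ≤ 1 / (n : ℝ) ^ 16 :=
    one_div_le_one_div_of_le hn16 (pow_le_pow_right₀ hnR (by norm_num))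
  have e1 : 3 / (n : ℝ) ^ 16 = 3 * (1 / (n : ℝ) ^ 16) := by ring
  have e2 : 1 / (4 * (n : ℝ) ^ 16) = (1 / 4) * (1 / (n : ℝ) ^ 16) := by
    field_simp
  have e3 : ((n : ℝ) ^ 16)⁻¹ = 1 / (n : ℝ) ^ 16 := by rw [one_div]
  rw [e2] at h2
  rw [e1, e3]
  have h0 : 0 < 1 / (n : ℝ) ^ 16 := by positivity
  set x := 1 / (n : ℝ) ^ 16
  rw [abs_le] at h1 h2 ⊢
  constructor <;> linarith only [h1, h2, h3]

theorem ph_raw {cs : ℝ} {n : ℕ} {b : ℝ} {G : Pl → ℝ}
    (hG1 : Dle 3 G (1 / (n : ℝ) ^ 100) 0) {s : Fin (n ^ 107) → Bool}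
    (hb : Dle 3 (fun q => b * bits cs n s q) (1 / (4 * (n : ℝ) ^ 16)) 0) (hn : 6 ≤ n) :
    ((n : ℝ) ^ 16)⁻¹ * phi0 0 + G 0 + b * bits cs n s 0 ≤ 1 / 2 := by
  have hnR : (6 : ℝ) ≤ n := by exact_mod_cast hn
  have hn1 : (1 : ℝ) ≤ n := by linarith only [hnR]
  have h1 : |G 0| ≤ _ := hG1.1
  have h2 : |b * bits cs n s 0| ≤ _ := hb.1
  have h3 : phi0 0 ≤ 0 := by
    rw [phi0_eq (by rw [rho2_zero]; norm_num), rho2_zero]; norm_num
  have h4 : ((n : ℝ) ^ 16)⁻¹ * phi0 0 ≤ 0 := mul_nonpos_of_nonneg_of_nonpos (by positivity) h3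
  have h6 : (6 : ℝ) ≤ (n : ℝ) ^ 16 := by
    calc (6 : ℝ) ≤ n := hnR
      _ = (n : ℝ) ^ 1 := (pow_one _).symm
      _ ≤ (n : ℝ) ^ 16 := pow_le_pow_right₀ hn1 (by norm_num)
  have h7 : (6 : ℝ) ≤ (n : ℝ) ^ 100 := h6.trans (pow_le_pow_right₀ hn1 (by norm_num))
  have h8 : 1 / (n : ℝ) ^ 100 ≤ 1 / 6 := one_div_le_one_div_of_le (by norm_num) h7
  have h9 : 1 / (4 * (n : ℝ) ^ 16) ≤ 1 / 6 := one_div_le_one_div_of_le (by norm_num) (by linarith only [h6])
  have := le_abs_self (G 0)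
  have := le_abs_self (b * bits cs n s 0)
  linarith

/-- second `t` derivative at `0` from the Darboux equation. -/
theorem raw_tt {n : ℕ} {M r cs : ℝ} {ph U : Pl → ℝ} (hM : 1 ≤ M) (hr0 : 0 < r) (hr : r ≤ 1)
    (hcs0 : 0 < cs) (hcs : cs ≤ 1) (hn : 1 ≤ n)
    (h : RawSol n M r cs ph U) (h1 : |ff ph 0| ≤ 3 / (n : ℝ) ^ 16) (h2 : ph 0 ≤ 1 / 2) :
    |dt (dt U) 0| ≤ 10 * M ^ 3 / (n : ℝ) ^ 16 := by
  have h0 : rho2 (0 : Pl) < 1 := by rw [rho2_zero]; norm_num
  have hD := h.darb 0 h0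
  unfold Darb at hD
  rw [h.dx_zero, h.dt_zero] at hD
  have hM0 : 0 < M := by linarith only [hM]
  have hL := h.lower
  have hLM : dx (dx U) 0 ≤ M := (le_abs_self _).trans (h.bd2 0 h0).1
  have hsl := h.slope
  set L := dx (dx U) 0 with hLdef
  set B := dt (dx U) 0 with hBdef
  set T := dt (dt U) 0 with hTdef
  have hff : ff ph 0 = -(dx (dx ph) 0 + dt (dt ph) 0) := rfl
  rw [← hff] at hD
  set E := Real.exp (2 * r ^ 2 * ph 0) with hE
  have hn16 : (0 : ℝ) < (n : ℝ) ^ 16 := by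
    have : (0 : ℝ) < n := by exact_mod_cast hn
    positivity
  set y := 1 / (n : ℝ) ^ 16 with hy
  have hy0 : 0 < y := by positivity
  have hLpos : 0 < L := lt_of_lt_of_le (by positivity) hL
  have hE3 : E ≤ 3 := by
    have : 2 * r ^ 2 * ph 0 ≤ 1 := by
      have hr2 : r ^ 2 ≤ 1 := pow_le_one₀ hr0.le hr
      have hr20 : 0 ≤ r ^ 2 := by positivity
      nlinarith only [hr2, h2]
    calc E ≤ Real.exp 1 := Real.exp_le_exp.2 this
      _ ≤ 3 := by linarith only [Real.exp_one_lt_d9]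
  have hE0 : 0 < E := Real.exp_pos _
  have hLT : L * T = B ^ 2 + ff ph 0 * E := by linear_combination hD
  have hvar : varpi cs n ^ 2 ≤ y := by
    unfold varpi
    rw [div_pow, hy, ← pow_mul]
    gcongr
    exact pow_le_one₀ hcs0.le hcs
  have hvar0 : 0 ≤ varpi cs n := by unfold varpi; positivity
  have hB2 : B ^ 2 ≤ M ^ 2 * y := by
    have h3 : |B| ≤ varpi cs n * M := by
      refine hsl.trans ?_
      nlinarith only [hvar0, hM, hLM]
    calc B ^ 2 = |B| ^ 2 := (sq_abs B).symm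
      _ ≤ (varpi cs n * M) ^ 2 := pow_le_pow_left₀ (abs_nonneg _) h3 2
      _ = M ^ 2 * varpi cs n ^ 2 := by ring
      _ ≤ M ^ 2 * y := by (clear * - hvar hM; gcongr)
  have hf : |ff ph 0| ≤ 3 * y := by
    refine h1.trans (le_of_eq ?_)
    rw [hy]; ring
  have hLT2 : |L * T| ≤ 10 * M ^ 2 * y := by
    rw [hLT]
    have hM2 : 1 ≤ M ^ 2 := one_le_pow₀ hM
    calc |B ^ 2 + ff ph 0 * E| ≤ |B ^ 2| + |ff ph 0 * E| := abs_add_le _ _
      _ = B ^ 2 + |ff ph 0| * E := by rw [abs_of_nonneg (sq_nonneg B), abs_mul, abs_of_pos hE0]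
      _ ≤ M ^ 2 * y + (3 * y) * 3 := by (clear * - hB2 hf hE3 hn; gcongr)
      _ ≤ 10 * M ^ 2 * y := by nlinarith only [hy0, hM2]
  have hT : |T| ≤ M * |L * T| := by
    rw [abs_mul, abs_of_pos hLpos]
    have : 1 ≤ M * L := by
      calc 1 = M * (1 / M) := by field_simp
        _ ≤ M * L := by (clear * - hL hM; gcongr)
    nlinarith only [this, abs_nonneg T]
  calc |T| ≤ M * |L * T| := hT
    _ ≤ M * (10 * M ^ 2 * y) := by (clear * - hLT2 hM; gcongr)
    _ = 10 * M ^ 3 / (n : ℝ) ^ 16 := by rw [hy]; ring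

/-- the quadratic part. -/
noncomputable def qd (p : Pl) : ℝ := p.1 ^ 2 / 2

theorem qd_smooth : ContDiff ℝ ∞ qd := by unfold qd; fun_prop

theorem dx_qd : dx qd = fun p => p.1 := by
  funext p
  have e : qd = fun q : Pl => (fun y : ℝ => y ^ 2 / 2) q.1 := rfl
  rw [e, dx_comp (φ := fun y : ℝ => y ^ 2 / 2) (f := fun q : Pl => q.1) (p := p) (by fun_prop)
    differentiableAt_fst, dx_fst]
  have : HasDerivAt (fun y : ℝ => y ^ 2 / 2) (2 * p.1 / 2) p.1 := by
    simpa only [ne_eq, OfNat.ofNat_ne_zero, not_false_eq_true, mul_div_cancel_left₀, Pi.pow_apply, id_eq,     Nat.cast_ofNat, Nat.add_one_sub_one, pow_one, mul_one] using ((hasDerivAt_id p.1).pow 2).div_const 2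
  rw [this.deriv]; ring

theorem dt_qd : dt qd = fun _ => 0 := by
  funext p
  have e : qd = fun q : Pl => (fun y : ℝ => y ^ 2 / 2) q.1 := rfl
  rw [e, dt_comp (φ := fun y : ℝ => y ^ 2 / 2) (f := fun q : Pl => q.1) (p := p) (by fun_prop)
    differentiableAt_fst, dt_fst, mul_zero]

theorem dxx_qd : dx (dx qd) = fun _ => 1 := by
  rw [dx_qd]; funext p; exact dx_fst

theorem dtx_qd : dt (dx qd) = fun _ => 0 := by
  rw [dx_qd]; funext p; exact dt_fst

theorem dt_zero_fun : dt (fun _ : Pl => (0 : ℝ)) = fun _ => 0 := funext fun _ => dt_const 0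

theorem dx_one_fun : dx (fun _ : Pl => (1 : ℝ)) = fun _ => 0 := funext fun _ => dx_const 1

theorem dt_one_fun : dt (fun _ : Pl => (1 : ℝ)) = fun _ => 0 := funext fun _ => dt_const 1

/-- The normalised solution minus its quadratic part is `C³`-small. -/
theorem w_small {n : ℕ} {M r cs c : ℝ} {ph U : Pl → ℝ} (hM : 1 ≤ M)
    (hc : 0 ≤ c) (hcs1 : varpi cs n ≤ c) (_hvar0 : 0 ≤ varpi cs n)
    (h : RawSol n M r cs ph U) (htt : |dt (dt U) 0| ≤ c / M) (hrc : M ^ 2 * r ≤ c) {p : Pl}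
    (hp : rho2 p < 1) :
    Dle 3 (fun q => 1 / dx (dx U) 0 * U q - qd q) (100 * c) p := by
  have h0 : rho2 (0 : Pl) < 1 := by rw [rho2_zero]; norm_num
  have hM0 : 0 < M := by linarith only [hM]
  have hLpos : 0 < dx (dx U) 0 := lt_of_lt_of_le (by positivity) h.lower
  have hLinv : 1 / dx (dx U) 0 ≤ M := by
    rw [div_le_iff₀ hLpos]
    have := h.lower
    calc 1 = M * (1 / M) := by field_simp
      _ ≤ M * dx (dx U) 0 := by (clear * - this hM; gcongr)
  set L := dx (dx U) 0 with hL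
  have hLinv0 : 0 < 1 / L := by positivity
  -- smoothness
  have sU : ∀ q, rho2 q < 1 → ContDiffAt ℝ 4 (fun q => 1 / L * U q) q := fun q hq =>
    contDiffAt_const.mul (raw_contDiffAt h hq)
  have sq : ∀ q, ContDiffAt ℝ 4 qd q := fun q => (qd_smooth.of_le (by decide)).contDiffAt
  have key : ∀ (w : List Bool) (q : Pl), w.length ≤ 3 → rho2 q < 1 →
      der w (fun q => 1 / L * U q - qd q) q = der w (fun q => 1 / L * U q) q - der w qd q := by
    intro w q hw hq
    have hl : ((w.length : ℕ) : WithTop ℕ∞) ≤ 4 := by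
      have : w.length ≤ 4 := by omega
      exact_mod_cast this
    exact der_sub w ((sU q hq).of_le hl) ((sq q).of_le hl)
  refine Dle.of_jet ?_ hc hp ?_ ?_
  · intro q hq
    exact (((sU q hq).sub (sq q)).of_le (by norm_num)).contDiffWithinAt
  · -- the jet at 0
    have k1 := key [false] 0 (by simp) h0
    have k2 := key [true] 0 (by simp) h0
    have k3 := key [false, false] 0 (by simp) h0
    have k4 := key [false, true] 0 (by simp) h0
    have k5 := key [true, true] 0 (by simp) h0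
    simp only [der, dx_smul, dt_smul, dx_qd, dt_qd] at k1 k2 k3 k4 k5
    rw [h.dx_zero] at k1
    rw [h.dt_zero] at k2
    rw [← hL, dx_fst] at k3
    rw [dt_fst] at k4
    rw [dt_const] at k5
    have v0 : |(1 / L * U 0 - qd 0)| ≤ c := by
      rw [h.zero]; simp only [qd]; simpa only [one_div, mul_zero, Prod.fst_zero, ne_eq, OfNat.ofNat_ne_zero, not_false_eq_true, zero_pow,     zero_div, sub_self, abs_zero] using hc
    have v1 : |dx (fun q => 1 / L * U q - qd q) 0| ≤ c := by rw [k1]; simpa only [one_div, mul_zero, Prod.fst_zero, sub_self, abs_zero] using hc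
    have v2 : |dt (fun q => 1 / L * U q - qd q) 0| ≤ c := by rw [k2]; simpa only [one_div, mul_zero, sub_self, abs_zero] using hc
    have v3 : |dx (dx (fun q => 1 / L * U q - qd q)) 0| ≤ c := by
      rw [k3]
      have : 1 / L * L - 1 = 0 := by field_simp; ring
      rw [this, abs_zero]; exact hc
    have v4 : |dt (dx (fun q => 1 / L * U q - qd q)) 0| ≤ c := by
      rw [k4, sub_zero, abs_mul, abs_of_pos hLinv0]
      have := h.slope
      rw [← hL] at this
      calc 1 / L * |dt (dx U) 0| ≤ 1 / L * (varpi cs n / 2 * L) := by (clear * - this hLpos; gcongr)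
        _ = varpi cs n / 2 := by (clear * - hLpos; field_simp)
        _ ≤ c := by linarith only [hc, hcs1]
    have v5 : |dt (dt (fun q => 1 / L * U q - qd q)) 0| ≤ c := by
      rw [k5, sub_zero, abs_mul, abs_of_pos hLinv0]
      calc 1 / L * |dt (dt U) 0| ≤ M * (c / M) := by (clear * - hLinv htt hM; gcongr)
        _ = c := by (clear * - hM; field_simp)
    have hcomm : dx (dt (fun q => 1 / L * U q - qd q)) 0
        = dt (dx (fun q => 1 / L * U q - qd q)) 0 :=
      comm_at (((sU 0 h0).sub (sq 0)).of_le (by norm_num))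
    refine ⟨v0, ⟨v1, v3, v4⟩, ⟨v2, ?_, v5⟩⟩
    show |dx (dt (fun q => 1 / L * U q - qd q)) 0| ≤ c
    rw [hcomm]; exact v4
  · -- third derivatives
    intro q hq
    have k6 := key [false, false, false] q (by simp) hq
    have k7 := key [false, false, true] q (by simp) hq
    have k8 := key [false, true, true] q (by simp) hq
    have k9 := key [true, true, true] q (by simp) hq
    simp only [der, dx_smul, dt_smul] at k6 k7 k8 k9
    rw [dxx_qd, dx_one_fun] at k6
    rw [dxx_qd, dt_one_fun] at k7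
    rw [dtx_qd, dt_zero_fun] at k8
    rw [dt_qd, dt_zero_fun, dt_zero_fun] at k9
    obtain ⟨t1, t2, t3, t4⟩ := h.bd3 q hq
    have fin : ∀ x : ℝ, |x| ≤ M * r → |1 / L * x - 0| ≤ c := by
      intro x hx
      rw [sub_zero, abs_mul, abs_of_pos hLinv0]
      calc 1 / L * |x| ≤ M * (M * r) := by (clear * - hLinv hx hM; gcongr)
        _ = M ^ 2 * r := by ring
        _ ≤ c := hrc
    refine ⟨?_, ?_, ?_, ?_⟩
    · show |_| ≤ c
      rw [k6]; exact fin _ t1.1
    · show |_| ≤ c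
      rw [k7]; exact fin _ t2.1
    · show |_| ≤ c
      rw [k8]; exact fin _ t3.1
    · show |_| ≤ c
      rw [k9]; exact fin _ t4.1

/-- the normalised functions. -/
noncomputable def nrm (L : ℝ) (V : Pl → ℝ) (p : Pl) : ℝ :=
  qd p + chi p * (1 / L * V p - qd p)

theorem nrm_loc (L : ℝ) (V : Pl → ℝ) {p : Pl} (hp : rho2 p < 0.7) :
    nrm L V =ᶠ[𝓝 p] fun q => 1 / L * V q := by
  filter_upwards [(isOpen_rho2_lt 0.7).mem_nhds hp] with q hq
  have hq' : rho2 q < 0.7 := hq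
  rw [nrm, chi_one hq'.le]; ring

theorem nrm_smooth {L : ℝ} {V : Pl → ℝ} (hV : ContDiffOn ℝ 4 V {p | rho2 p < 1}) :
    ContDiff ℝ 4 (nrm L V) := by
  have hsU : ContDiffOn ℝ 4 (fun p => 1 / L * V p - qd p) {p | rho2 p < 1} :=
    (contDiffOn_const.mul hV).sub (qd_smooth.of_le (by decide)).contDiffOn
  exact (qd_smooth.of_le (by decide)).add (ext_contDiff (by decide) hsU)

theorem nrm_darb {cs : ℝ} {n : ℕ} {r L B : ℝ} (hL : L ≠ 0) {G V : Pl → ℝ}
    {s : Fin (n ^ 107) → Bool} {p : Pl} (hp : rho2 p < 0.64)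
    (h : Darb (r ^ 2) (fun p => ((n : ℝ) ^ 16)⁻¹ * phi0 p + G p + B * bits cs n s p) V p) :
    Darb ((r * L) ^ 2) (phn cs (((n : ℝ) ^ 16)⁻¹ * (1 / L ^ 2)) (B * (1 / L ^ 2)) n
        (fun p => 1 / L ^ 2 * G p) s) (nrm L V) p := by
  have h2 := Darb_scale hL h
  have e : phn cs (((n : ℝ) ^ 16)⁻¹ * (1 / L ^ 2)) (B * (1 / L ^ 2)) n
      (fun p => 1 / L ^ 2 * G p) s
      = fun q => (1 / L ^ 2) * (((n : ℝ) ^ 16)⁻¹ * phi0 q + G q + B * bits cs n s q) := by
    funext q; unfold phn; ring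
  rw [e]
  exact Darb_congr (nrm_loc L V (by linarith only [hp])) h2

theorem nrm_ref {K c ε L : ℝ} (hK0 : 0 < K) (hK : ∀ p, Dle 3 chi K p) (hc0 : 0 < c)
    (hc : c = ε / (800 * K)) {V : Pl → ℝ} (hV : ContDiffOn ℝ 4 V {p | rho2 p < 1})
    (h : ∀ p, rho2 p < 1 → Dle 3 (fun q => 1 / L * V q - qd q) (100 * c) p) (p : Pl) :
    Dle 3 (fun q => nrm L V q - q.1 ^ 2 / 2) ε p := by
  have e : (fun q : Pl => nrm L V q - q.1 ^ 2 / 2)
      = fun q => chi q * (1 / L * V q - qd q) := by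
    funext q; simp only [nrm, qd]; ring
  rw [e]
  have hsU : ContDiffOn ℝ 3 (fun p => 1 / L * V p - qd p) {p | rho2 p < 1} :=
    ((contDiffOn_const.mul hV).sub
      (qd_smooth.of_le (by decide)).contDiffOn).of_le (by norm_num)
  have := ext_dle hsU (c := 100 * c) (by positivity) hK0.le hK
    (fun q hq => h q (by linarith only [hq])) p
  refine this.mono (le_of_eq ?_)
  rw [hc]; field_simp; ring

theorem nrm_close {K η L : ℝ} (hK0 : 0 < K) (hK : ∀ p, Dle 3 chi K p) (hL : 0 < L)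
    (hη : 0 ≤ η) {V W : Pl → ℝ} (hV : ContDiffOn ℝ 4 V {p | rho2 p < 1})
    (hW : ContDiffOn ℝ 4 W {p | rho2 p < 1})
    (h : ∀ (k : Fin 10) (q : Pl), rho2 q ≤ 0.9 → |der (wd k) V q - der (wd k) W q| ≤ η)
    (p : Pl) : Dle 3 (fun q => nrm L V q - nrm L W q) (8 * K * (1 / L * η)) p := by
  have e : (fun q => nrm L V q - nrm L W q) = fun q => chi q * (1 / L * (V q - W q)) := by
    funext q; simp only [nrm]; ring
  rw [e]
  have hsU : ContDiffOn ℝ 3 (fun p => 1 / L * (V p - W p)) {p | rho2 p < 1} :=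
    (contDiffOn_const.mul (hV.sub hW)).of_le (by norm_num)
  have hD1 : ∀ q, rho2 q ≤ 0.9 → Dle 3 (fun p => 1 / L * (V p - W p)) (1 / L * η) q := by
    intro q hq
    have hq1 : {p | rho2 p < 1} ∈ 𝓝 q := (isOpen_rho2_lt 1).mem_nhds
      (show rho2 q < 1 by linarith only [hq])
    have h1 := dle_of_words ((hV.contDiffAt hq1).of_le (by norm_num))
      ((hW.contDiffAt hq1).of_le (by norm_num)) (fun k => h k q hq)
    have h2 := Dle_smul (1 / L) h1
    rwa [abs_of_pos (by positivity)] at h2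
  exact ext_dle hsU (c := 1 / L * η) (by positivity) hK0.le hK hD1 p

theorem G_bd {ε L : ℝ} {n : ℕ} (hn : 1 ≤ n) (hε : 0 < ε) (hne : 1 / ε ≤ n) (hL : 0 < L)
    {G : Pl → ℝ} {p : Pl} (hG : Dle 3 G (1 / (n : ℝ) ^ 100) p) :
    Dle 3 (fun p => 1 / L ^ 2 * G p) (ε * (((n : ℝ) ^ 16)⁻¹ * (1 / L ^ 2))) p := by
  have hnR : (1 : ℝ) ≤ n := by exact_mod_cast hn
  have hnpos : (0 : ℝ) < n := by linarith only [hnR]
  have h1 := Dle_smul (1 / L ^ 2) hG
  refine h1.mono ?_
  rw [abs_of_pos (by positivity)]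
  have h2 : 1 / (n : ℝ) ^ 100 ≤ ε * ((n : ℝ) ^ 16)⁻¹ := by
    rw [div_le_iff₀ (by positivity)]
    have e : ε * ((n : ℝ) ^ 16)⁻¹ * (n : ℝ) ^ 100 = ε * (n : ℝ) ^ 84 := by
      field_simp
    rw [e]
    have h3 := (div_le_iff₀ hε).1 hne
    have h4 : (n : ℝ) ≤ (n : ℝ) ^ 84 := le_self_pow₀ hnR (by norm_num)
    nlinarith only [h3, hε, h4]
  calc 1 / L ^ 2 * (1 / (n : ℝ) ^ 100) ≤ 1 / L ^ 2 * (ε * ((n : ℝ) ^ 16)⁻¹) := by (clear * - h2 hL; gcongr)
    _ = ε * (((n : ℝ) ^ 16)⁻¹ * (1 / L ^ 2)) := by ring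

/-- the number of grid cells. -/
theorem grid_count {M K ε : ℝ} (hM : 1 ≤ M) (hK : 1 ≤ K) (hε : 0 < ε) {n : ℕ}
    (hn : 1 ≤ n) :
    ((⌈8 * (4 * M) / (ε / (8 * K * M * (n : ℝ) ^ 16))⌉₊ : ℕ) : ℝ)
      ≤ (8 * (4 * M) * (8 * K * M) / ε + 1) * (n : ℝ) ^ 16 := by
  have hnR : (1 : ℝ) ≤ n := by exact_mod_cast hn
  have hn16 : (1 : ℝ) ≤ (n : ℝ) ^ 16 := one_le_pow₀ hnR
  have hM0 : 0 < M := by linarith only [hM]
  have hK0 : 0 < K := by linarith only [hK]
  have e : 8 * (4 * M) / (ε / (8 * K * M * (n : ℝ) ^ 16))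
      = 8 * (4 * M) * (8 * K * M) / ε * (n : ℝ) ^ 16 := by
    field_simp
  rw [e]
  have h := (Nat.ceil_lt_add_one (a := 8 * (4 * M) * (8 * K * M) / ε * (n : ℝ) ^ 16)
    (by positivity)).le
  refine h.trans ?_
  rw [add_mul, one_mul]
  linarith only [hn16]

theorem low_bd {M x y : ℝ} (hM : 1 ≤ M) (hx : 0 < x) (hy : 1 / M ^ 2 ≤ y) :
    1 / (4 * M ^ 2 * x) ≤ x⁻¹ * y := by
  have hM0 : 0 < M := by linarith only [hM]
  have hx' : 0 < x⁻¹ := inv_pos.2 hx
  have hy0 : 0 < 1 / M ^ 2 := by positivity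
  calc 1 / (4 * M ^ 2 * x) = 1 / 4 * (x⁻¹ * (1 / M ^ 2)) := by field_simp
    _ ≤ 1 * (x⁻¹ * (1 / M ^ 2)) := by gcongr; norm_num
    _ ≤ x⁻¹ * y := by rw [one_mul]; gcongr

theorem up_bd {M x y : ℝ} (hx : 0 < x) (hy : y ≤ M ^ 2) :
    x⁻¹ * y ≤ 4 * M ^ 2 / x := by
  have hx' : 0 < x⁻¹ := inv_pos.2 hx
  rw [div_eq_inv_mul]
  gcongr
  nlinarith only [hy]

/-- The normalised family from close raw solutions. -/
theorem normfam_of_close {M ε K c r cs : ℝ} {qb n : ℕ} (hM : 1 ≤ M) (hε : 0 < ε)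
    (hK1 : 1 ≤ K) (hK : ∀ p, Dle 3 chi K p) (hc : c = ε / (800 * K)) (hr0 : 0 < r) (hr1 : r ≤ 1)
    (hrc : M ^ 2 * r ≤ c) (hre : M ^ 2 * r ≤ ε) (hcs0 : 0 < cs) (hcs : cs ≤ 1)
    (hn6 : 6 ≤ n) (hnc : 1 / c ≤ n) (hnM : 10 * M ^ 4 / c ≤ n) (hne : 1 / ε ≤ n)
    {G : Pl → ℝ} (hG : ContDiff ℝ ∞ G) (hG3 : ∀ p, Dle 3 G (1 / (n : ℝ) ^ 100) p)
    (hbits : ∀ s : Fin (n ^ 107) → Bool,
      Dle 3 (fun q => 1 / (n : ℝ) ^ qb * bits cs n s q) (1 / (4 * (n : ℝ) ^ 16)) 0)
    {T : Finset (Fin (n ^ 107) → Bool)} {U : (Fin (n ^ 107) → Bool) → Pl → ℝ}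
    (hU : ∀ s ∈ T, RawSol n M r cs
      (fun p => ((n : ℝ) ^ 16)⁻¹ * phi0 p + G p + 1 / (n : ℝ) ^ qb * bits cs n s p) (U s))
    (hT : ∀ s ∈ T, ∀ s' ∈ T, ∀ k : Fin 10, ∀ p : Pl, rho2 p ≤ 0.9 →
      |der (wd k) (U s) p - der (wd k) (U s') p| ≤ ε / (8 * K * M * (n : ℝ) ^ 16))
    {s0 : Fin (n ^ 107) → Bool} (hs0 : s0 ∈ T) :
    ∃ (δ ι b' : ℝ) (G' : Pl → ℝ) (u : (Fin (n ^ 107) → Bool) → Pl → ℝ),
      1 / (4 * M ^ 2 * (n : ℝ) ^ qb) ≤ b' ∧ b' ≤ 4 * M ^ 2 / (n : ℝ) ^ qb ∧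
      NormFam n M cs δ ι b' ε G' T s0 u := by
  have hM0 : 0 < M := by linarith only [hM]
  have hK0 : 0 < K := by linarith only [hK1]
  have hc0 : 0 < c := by rw [hc]; positivity
  have hM2 : 1 ≤ M ^ 2 := one_le_pow₀ hM
  have hn1' : 1 ≤ n := by omega
  have hnR : (1 : ℝ) ≤ n := by exact_mod_cast hn1'
  have hnpos : (0 : ℝ) < n := by linarith only [hnR]
  have hn16 : (0 : ℝ) < (n : ℝ) ^ 16 := by positivity
  have H0 := hU s0 hs0
  have h0 : rho2 (0 : Pl) < 1 := by rw [rho2_zero]; norm_num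
  have h07 : rho2 (0 : Pl) < 0.7 := by rw [rho2_zero]; norm_num
  set L : ℝ := dx (dx (U s0)) 0 with hL
  have hLlow : 1 / M ≤ L := H0.lower
  have hLpos : 0 < L := lt_of_lt_of_le (by positivity) hLlow
  have hLM : L ≤ M := (le_abs_self _).trans (H0.bd2 0 h0).1
  have hL2M : L ^ 2 ≤ M ^ 2 := pow_le_pow_left₀ hLpos.le hLM 2
  have hL2low : 1 / M ^ 2 ≤ L ^ 2 := by
    have := pow_le_pow_left₀ (by positivity) hLlow 2
    rwa [div_pow, one_pow] at this
  have hL2inv : 1 / L ^ 2 ≤ M ^ 2 := by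
    rw [div_le_iff₀ (by (clear * - hLpos; positivity))]
    calc 1 = M ^ 2 * (1 / M ^ 2) := by field_simp
      _ ≤ M ^ 2 * L ^ 2 := by (clear * - hL2low hM; gcongr)
  have hL2inv' : 1 / M ^ 2 ≤ 1 / L ^ 2 := one_div_le_one_div_of_le (by (clear * - hLpos; positivity)) hL2M
  have hvar0 : 0 ≤ varpi cs n := by unfold varpi; positivity
  have hn8 : (n : ℝ) ≤ (n : ℝ) ^ 8 := le_self_pow₀ hnR (by norm_num)
  have hn16' : (n : ℝ) ≤ (n : ℝ) ^ 16 := le_self_pow₀ hnR (by norm_num)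
  have hvarc : varpi cs n ≤ c := by
    unfold varpi
    rw [div_le_iff₀ (by positivity)]
    have : 1 ≤ c * n := by
      have := (div_le_iff₀ hc0).1 hnc
      linarith only [this]
    nlinarith only [hcs, this, hc0, hn8]
  have hff := ff_raw hG (hG3 0) (hbits s0) hn1'
  have hph := ph_raw (hG3 0) (hbits s0) hn6
  have htt0 := raw_tt hM hr0 hr1 hcs0 hcs hn1' H0 hff hph
  have htt : |dt (dt (U s0)) 0| ≤ c / M := by
    refine htt0.trans ?_
    rw [div_le_div_iff₀ hn16 hM0]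
    have h1 := (div_le_iff₀ hc0).1 hnM
    nlinarith only [h1, hc0, hn16']
  refine ⟨((n : ℝ) ^ 16)⁻¹ * (1 / L ^ 2), (r * L) ^ 2, 1 / (n : ℝ) ^ qb * (1 / L ^ 2),
    fun p => 1 / L ^ 2 * G p, fun s => nrm L (U s), ?_, ?_, ?_⟩
  · rw [one_div ((n : ℝ) ^ qb)]
    exact low_bd hM (by positivity) hL2inv'
  · rw [one_div ((n : ℝ) ^ qb)]
    exact up_bd (by positivity) hL2inv
  refine
    { s0_mem := hs0
      smooth := fun s hs => nrm_smooth (hU s hs).smooth
      G_smooth := contDiff_const.mul hG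
      G_small := fun p => G_bd hn1' hε hne hLpos (hG3 p)
      δ_lower := low_bd hM hn16 hL2inv'
      δ_upper := up_bd hn16 hL2inv
      ι_nonneg := sq_nonneg _
      ι_small := ?_
      darb := fun s hs p hp => nrm_darb hLpos.ne' hp ((hU s hs).darb p (by linarith only [hp]))
      ref := fun p => nrm_ref hK0 hK hc0 hc H0.smooth
        (fun q hq => w_small hM hc0.le hvarc hvar0 H0 htt hrc hq) p
      ref_dx := ?_
      ref_dt := ?_
      slope := ?_
      close := ?_ }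
  · calc (r * L) ^ 2 = r * r * L ^ 2 := by ring
      _ ≤ r * 1 * M ^ 2 := by (clear * - hr1 hr0 hL2M hLpos; gcongr)
      _ ≤ ε := by linarith only [hre]
  · show dx (nrm L (U s0)) 0 = 0
    rw [(dx_congr (nrm_loc L (U s0) h07)).self_of_nhds, dx_smul]
    show 1 / L * dx (U s0) 0 = 0
    rw [H0.dx_zero, mul_zero]
  · show dt (nrm L (U s0)) 0 = 0
    rw [(dt_congr (nrm_loc L (U s0) h07)).self_of_nhds, dt_smul]
    show 1 / L * dt (U s0) 0 = 0
    rw [H0.dt_zero, mul_zero]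
  · show |dt (dx (nrm L (U s0))) 0| ≤ varpi cs n
    rw [(dt_congr (dx_congr (nrm_loc L (U s0) h07))).self_of_nhds, dx_smul, dt_smul]
    show |1 / L * dt (dx (U s0)) 0| ≤ varpi cs n
    rw [abs_mul, abs_of_pos (by (clear * - hLpos; positivity))]
    have h1 := H0.slope
    rw [← hL] at h1
    calc 1 / L * |dt (dx (U s0)) 0| ≤ 1 / L * (varpi cs n / 2 * L) := by (clear * - h1 hLpos; gcongr)
      _ = varpi cs n / 2 := by (clear * - hLpos; field_simp)
      _ ≤ varpi cs n := by linarith only [hvar0]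
  · intro s hs p
    have h1 := nrm_close hK0 hK hLpos (by positivity) (hU s hs).smooth H0.smooth
      (fun k q hq => hT s hs s0 hs0 k q hq) p
    refine h1.mono ?_
    have hMinv : 1 / M ≤ 1 / L := one_div_le_one_div_of_le hLpos hLM
    calc 8 * K * (1 / L * (ε / (8 * K * M * (n : ℝ) ^ 16)))
        = ε * (((n : ℝ) ^ 16)⁻¹ * (1 / L * (1 / M))) := by (clear * - hK1 hn6 hM hε hLpos; field_simp)
      _ ≤ ε * (((n : ℝ) ^ 16)⁻¹ * (1 / L * (1 / L))) := by (clear * - hMinv hLpos hn6 hε; gcongr)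
      _ = ε * (((n : ℝ) ^ 16)⁻¹ * (1 / L ^ 2)) := by ring

end Vale.Agent.P229.D.Raw

namespace Vale.Agent.P229.D

open Raw in
/-- T19. From raw solutions to a normalised family. -/
theorem raw_to_normfam (M : ℝ) (hM : 1 ≤ M) (ε : ℝ) (hε : 0 < ε) (hε1 : ε ≤ 1 / 1000) :
    ∃ r1 : ℝ, 0 < r1 ∧ ∀ r : ℝ, 0 < r → r ≤ r1 → ∀ cs : ℝ, 0 < cs → cs ≤ 1 →
    ∀ qb : ℕ, 1000 ≤ qb → ∃ n0 : ℕ, ∀ n : ℕ, n0 ≤ n →
    ∀ (G : Pl → ℝ), ContDiff ℝ ∞ G → (∀ p, Dle 3 G (1 / (n : ℝ) ^ 100) p) →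
    ∀ (S : Finset (Fin (n ^ 107) → Bool)) (U : (Fin (n ^ 107) → Bool) → Pl → ℝ),
    (∀ s ∈ S, RawSol n M r cs
      (fun p => ((n : ℝ) ^ 16)⁻¹ * phi0 p + G p + 1 / (n : ℝ) ^ qb * bits cs n s p) (U s)) →
    2 ^ (n ^ 107) ≤ n ^ 9 * S.card →
    ∃ (δ ι b' : ℝ) (G' : Pl → ℝ) (S' : Finset (Fin (n ^ 107) → Bool))
      (s0 : Fin (n ^ 107) → Bool) (u : (Fin (n ^ 107) → Bool) → Pl → ℝ),
      1 / (4 * M ^ 2 * (n : ℝ) ^ qb) ≤ b' ∧ b' ≤ 4 * M ^ 2 / (n : ℝ) ^ qb ∧
      NormFam n M cs δ ι b' ε G' S' s0 u ∧ 2 ^ (n ^ 106) ≤ S'.card := by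
  obtain ⟨K, hK1, hK⟩ := chi_bdd
  have hM0 : 0 < M := by linarith only [hM]
  have hK0 : 0 < K := by linarith only [hK1]
  have hε1' : ε ≤ 1 := by linarith
  obtain ⟨c, hc⟩ : ∃ c : ℝ, c = ε / (800 * K) := ⟨_, rfl⟩
  have hc0 : 0 < c := by rw [hc]; positivity
  have hM2 : 1 ≤ M ^ 2 := one_le_pow₀ hM
  refine ⟨min 1 (min (c / M ^ 2) (ε / M ^ 2)), by positivity, fun r hr0 hr cs hcs0 hcs qb hqb => ?_⟩
  have hr1 : r ≤ 1 := hr.trans (min_le_left _ _)
  have hrc : M ^ 2 * r ≤ c := by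
    have : r ≤ c / M ^ 2 := hr.trans ((min_le_right _ _).trans (min_le_left _ _))
    rw [le_div_iff₀ (by positivity)] at this
    linarith only [this]
  have hre : M ^ 2 * r ≤ ε := by
    have : r ≤ ε / M ^ 2 := hr.trans ((min_le_right _ _).trans (min_le_right _ _))
    rw [le_div_iff₀ (by positivity)] at this
    linarith only [this]
  obtain ⟨n1, hn1⟩ := bits_small cs hcs0 1 le_rfl 1 one_pos
  obtain ⟨n2, hn2⟩ := count_lemma (8 * (4 * M) * (8 * K * M) / ε + 1)
  refine ⟨max (max n1 n2) (max (max 6 ⌈1 / c⌉₊) (max ⌈10 * M ^ 4 / c⌉₊ ⌈1 / ε⌉₊)), ?_⟩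
  intro n hn G hG hG3 S U hU hcard
  have hnn1 : n1 ≤ n := (le_max_left _ _).trans ((le_max_left _ _).trans hn)
  have hnn2 : n2 ≤ n := (le_max_right _ _).trans ((le_max_left _ _).trans hn)
  have hn6 : 6 ≤ n := (le_max_left _ _).trans ((le_max_left _ _).trans ((le_max_right _ _).trans hn))
  have hnc : 1 / c ≤ n := (Nat.le_ceil _).trans (by
    exact_mod_cast (le_max_right _ _).trans ((le_max_left _ _).trans ((le_max_right _ _).trans hn)))
  have hnM : 10 * M ^ 4 / c ≤ n := (Nat.le_ceil _).trans (by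
    exact_mod_cast (le_max_left _ _).trans ((le_max_right _ _).trans ((le_max_right _ _).trans hn)))
  have hne : 1 / ε ≤ n := (Nat.le_ceil _).trans (by
    exact_mod_cast (le_max_right _ _).trans ((le_max_right _ _).trans ((le_max_right _ _).trans hn)))
  have hn1' : 1 ≤ n := by omega
  have hnR : (1 : ℝ) ≤ n := by exact_mod_cast hn1'
  have hnpos : (0 : ℝ) < n := by linarith only [hnR]
  have hn16 : (1 : ℝ) ≤ (n : ℝ) ^ 16 := one_le_pow₀ hnR
  have hη0 : 0 < ε / (8 * K * M * (n : ℝ) ^ 16) := by positivity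
  have hη1 : ε / (8 * K * M * (n : ℝ) ^ 16) ≤ 1 := by
    rw [div_le_one (by positivity)]
    calc ε ≤ 1 := hε1'
      _ ≤ 8 * 1 * 1 * 1 := by norm_num
      _ ≤ 8 * K * M * (n : ℝ) ^ 16 := by (clear * - hK1 hM hn16; gcongr)
  obtain ⟨T, hTS, hTc, hT⟩ := grid_pigeon (ι := Fin (n ^ 107) → Bool) (m := 10)
    (K := {p : Pl | rho2 p ≤ 0.9}) (Λ := 4 * M) (η := ε / (8 * K * M * (n : ℝ) ^ 16))
    (fun p hp => by
      have hp' : rho2 p ≤ 0.9 := hp
      rw [Metric.mem_closedBall]; exact dist_zero_le (by linarith only [hp'])) (by linarith only [hM]) hη0 hη1 S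
    (fun s k => der (wd k) (U s))
    (fun s hs k p hp => (raw_words hM hr1 (hU s hs) k
      (show rho2 p < 1 by have hp' : rho2 p ≤ 0.9 := hp; linarith only [hp'])).2.1)
    (fun s hs k p hp q hq => raw_words_lip hM hr1 (hU s hs) k
      (show rho2 p < 1 by have hp' : rho2 p ≤ 0.9 := hp; linarith only [hp'])
      (show rho2 q < 1 by have hq' : rho2 q ≤ 0.9 := hq; linarith only [hq']))
  have hTcard : 2 ^ (n ^ 106) ≤ T.card :=
    hn2 n hnn2 S.card T.card _ (grid_count hM hK1 hε hn1') hcard hTc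
  have hTne : T.Nonempty := by
    rw [← Finset.card_pos]
    exact lt_of_lt_of_le (by positivity) hTcard
  obtain ⟨s0, hs0⟩ := hTne
  have hbits : ∀ s : Fin (n ^ 107) → Bool,
      Dle 3 (fun q => 1 / (n : ℝ) ^ qb * bits cs n s q) (1 / (4 * (n : ℝ) ^ 16)) 0 := by
    intro s
    have := hn1 n hnn1 (1 / (n : ℝ) ^ qb) (by positivity) (by
      have : 1 / (n : ℝ) ^ qb ≤ 1 / (n : ℝ) ^ 1000 :=
        one_div_le_one_div_of_le (by positivity) (pow_le_pow_right₀ hnR hqb)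
      refine this.trans ?_
      gcongr
      norm_num) s 0
    simpa only [one_div, mul_inv_rev, one_pow, mul_one] using this
  obtain ⟨δ, ι, b', G', u, h1, h2, h3⟩ := normfam_of_close (T := T) (U := U) (qb := qb) hM hε hK1 hK
    hc hr0 hr1 hrc hre hcs0 hcs hn6 hnc hnM hne hG hG3 hbits (fun s hs => hU s (hTS hs))
    (fun s hs s' hs' k p hp => hT s hs s' hs' k p hp) hs0
  exact ⟨δ, ι, b', G', T, s0, u, h1, h2, h3, hTcard⟩

end Vale.Agent.P229.D
end
end

section

section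

/-!
# P229, disproof, task T3: the weight `μ₀`
-/

open scoped ContDiff Topology
open MeasureTheory Set

namespace Vale.Agent.P229.D

/-- auxiliary: `e^{5s/4} p(B/s) e^{-B/s}`. -/
theorem muP_hasDerivAt {B : ℝ} (p : Polynomial ℝ) (s : ℝ) :
    HasDerivAt (fun s => Real.exp (5 / 4 * s) * (p.eval (s / B)⁻¹ * expNegInvGlue (s / B)))
      (Real.exp (5 / 4 * s) * (5 / 4 * (p.eval (s / B)⁻¹ * expNegInvGlue (s / B))
        + 1 / B * (((s / B)⁻¹ ^ 2 * (p.eval (s / B)⁻¹ - p.derivative.eval (s / B)⁻¹))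
          * expNegInvGlue (s / B)))) s := by
  have h1 : HasDerivAt (fun s : ℝ => Real.exp (5 / 4 * s)) (Real.exp (5 / 4 * s) * (5 / 4 * 1)) s :=
    ((hasDerivAt_id s).const_mul (5 / 4)).exp
  have h2 := expNegInvGlue.hasDerivAt_polynomial_eval_inv_mul p (s / B)
  have h3 : HasDerivAt (fun s : ℝ => s / B) (1 / B) s := (hasDerivAt_id s).div_const B
  have h4 := h1.mul (h2.comp s h3)
  refine h4.congr_deriv ?_
  simp only [Polynomial.eval_mul, Polynomial.eval_pow, Polynomial.eval_X, Polynomial.eval_sub,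
    Function.comp]
  ring

theorem muP_glue {B s : ℝ} (hB : 0 < B) :
    expNegInvGlue (s / B) = if 0 < s then Real.exp (-(B / s)) else 0 := by
  unfold expNegInvGlue
  by_cases hs : 0 < s
  · rw [if_neg (not_le.2 (div_pos hs hB)), if_pos hs, inv_div]
  · rw [if_pos (div_nonpos_of_nonpos_of_nonneg (not_lt.1 hs) hB.le), if_neg hs]

theorem mu0_eq_muP {B : ℝ} (hB : 0 < B) :
    mu0 B = fun s => Real.exp (5 / 4 * s) *
      ((1 : Polynomial ℝ).eval (s / B)⁻¹ * expNegInvGlue (s / B)) := by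
  funext s
  rw [muP_glue hB, mu0]
  split_ifs
  · rw [Real.exp_add, Polynomial.eval_one]; ring
  · simp

theorem mu1_eq_muP {B : ℝ} (hB : 0 < B) :
    mu1 B = fun s => Real.exp (5 / 4 * s) *
      ((Polynomial.C (1 / B) * Polynomial.X ^ 2 + Polynomial.C (5 / 4) : Polynomial ℝ).eval
        (s / B)⁻¹ * expNegInvGlue (s / B)) := by
  funext s
  rw [muP_glue hB, mu1]
  split_ifs with hs
  · rw [Real.exp_add]
    simp only [Polynomial.eval_add, Polynomial.eval_mul, Polynomial.eval_C, Polynomial.eval_pow,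
      Polynomial.eval_X, inv_div]
    field_simp
  · simp only [inv_div, one_div, Polynomial.eval_add, Polynomial.eval_mul, Polynomial.eval_C, Polynomial.eval_pow, Polynomial.eval_X, mul_zero]

theorem mu2_eq_muP {B : ℝ} (hB : 0 < B) :
    mu2 B = fun s => Real.exp (5 / 4 * s) *
      ((5 / 4 * ((Polynomial.C (1 / B) * Polynomial.X ^ 2 + Polynomial.C (5 / 4) :
        Polynomial ℝ).eval (s / B)⁻¹ * expNegInvGlue (s / B)))
        + 1 / B * (((s / B)⁻¹ ^ 2 *
          ((Polynomial.C (1 / B) * Polynomial.X ^ 2 + Polynomial.C (5 / 4) :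
            Polynomial ℝ).eval (s / B)⁻¹
          - (Polynomial.C (1 / B) * Polynomial.X ^ 2 + Polynomial.C (5 / 4) :
            Polynomial ℝ).derivative.eval (s / B)⁻¹)) * expNegInvGlue (s / B))) := by
  funext s
  rw [muP_glue hB, mu2]
  split_ifs with hs
  · rw [Real.exp_add]
    simp only [Polynomial.eval_add, Polynomial.eval_mul, Polynomial.eval_C, Polynomial.eval_pow,
      Polynomial.eval_X, inv_div, Polynomial.derivative_add, Polynomial.derivative_C_mul,
      Polynomial.derivative_X_pow, Polynomial.derivative_C, Polynomial.eval_zero,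
      Nat.add_one_sub_one, pow_one, Nat.cast_ofNat]
    field_simp
    ring
  · simp only [inv_div, one_div, Polynomial.eval_add, Polynomial.eval_mul, Polynomial.eval_C, Polynomial.eval_pow, Polynomial.eval_X, mul_zero, Polynomial.derivative_add, Polynomial.derivative_mul, Polynomial.derivative_C, zero_mul, Polynomial.derivative_X_pow_succ, Nat.cast_one, map_add, map_one, pow_one, zero_add, add_zero, Polynomial.eval_one]

theorem hasDerivAt_mu0 {B : ℝ} (hB : 0 < B) (s : ℝ) : HasDerivAt (mu0 B) (mu1 B s) s := by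
  have h := muP_hasDerivAt (B := B) 1 s
  rw [mu0_eq_muP hB]
  refine h.congr_deriv ?_
  rw [mu1_eq_muP hB]
  simp only [Polynomial.eval_add, Polynomial.eval_mul, Polynomial.eval_C, Polynomial.eval_pow,
    Polynomial.eval_X, Polynomial.eval_one, Polynomial.derivative_one, Polynomial.eval_zero]
  ring

theorem hasDerivAt_mu1 {B : ℝ} (hB : 0 < B) (s : ℝ) : HasDerivAt (mu1 B) (mu2 B s) s := by
  have h := muP_hasDerivAt (B := B) (Polynomial.C (1 / B) * Polynomial.X ^ 2 + Polynomial.C (5 / 4)) s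
  rw [mu1_eq_muP hB]
  refine h.congr_deriv ?_
  rw [mu2_eq_muP hB]

theorem continuous_mu2 {B : ℝ} (hB : 0 < B) : Continuous (mu2 B) := by
  have h1 := expNegInvGlue.continuous_polynomial_eval_inv_mul
    (Polynomial.C (1 / B) * Polynomial.X ^ 2 + Polynomial.C (5 / 4))
  have h2 := expNegInvGlue.continuous_polynomial_eval_inv_mul
    (Polynomial.X ^ 2 * ((Polynomial.C (1 / B) * Polynomial.X ^ 2 + Polynomial.C (5 / 4)) -
      (Polynomial.C (1 / B) * Polynomial.X ^ 2 + Polynomial.C (5 / 4)).derivative))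
  have h3 : Continuous (fun s : ℝ => s / B) := continuous_id.div_const B
  have h4 := h1.comp h3
  have h5 := h2.comp h3
  have h6 : Continuous (fun s : ℝ => Real.exp (5 / 4 * s)) :=
    Real.continuous_exp.comp (continuous_const.mul continuous_id)
  rw [mu2_eq_muP hB]
  refine (h6.mul ((h4.const_mul (5 / 4)).add (h5.const_mul (1 / B)))).congr ?_
  intro s
  simp only [Function.comp, Polynomial.eval_mul, Polynomial.eval_pow, Polynomial.eval_X,
    Polynomial.eval_sub, Pi.add_apply, Pi.mul_apply]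

theorem mu0_nonneg (B s : ℝ) : 0 ≤ mu0 B s := by
  unfold mu0
  split_ifs
  · exact (Real.exp_pos _).le
  · exact le_rfl

theorem mu0_eq_zero {B s : ℝ} (hs : s ≤ 0) : mu0 B s = 0 := by
  unfold mu0; rw [if_neg (not_lt.2 hs)]

theorem mu1_eq_zero {B s : ℝ} (hs : s ≤ 0) : mu1 B s = 0 := by
  unfold mu1; rw [if_neg (not_lt.2 hs)]

theorem mu2_eq_zero {B s : ℝ} (hs : s ≤ 0) : mu2 B s = 0 := by
  unfold mu2; rw [if_neg (not_lt.2 hs)]

theorem exp_five_fourth_le : Real.exp (5 / 4) ≤ 4 := by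
  have h1 : Real.exp (1 / 4) ^ 4 ≤ (1.4 : ℝ) ^ 4 := by
    rw [← Real.exp_nat_mul]
    have : ((4 : ℕ) : ℝ) * (1 / 4) = 1 := by norm_num
    rw [this]
    exact Real.exp_one_lt_d9.le.trans (by norm_num)
  have h2 : Real.exp (1 / 4) ≤ 1.4 := by
    exact le_of_pow_le_pow_left₀ (by norm_num) (by norm_num) h1
  have h3 : Real.exp (5 / 4) = Real.exp 1 * Real.exp (1 / 4) := by
    rw [← Real.exp_add]; norm_num
  rw [h3]
  have h4 := Real.exp_one_lt_d9.le
  calc Real.exp 1 * Real.exp (1 / 4) ≤ 2.7182818286 * 1.4 :=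
        mul_le_mul h4 h2 (Real.exp_pos _).le (by norm_num)
    _ ≤ 4 := by norm_num

theorem exp_weight_le {B s : ℝ} (hs : s ≤ 1) :
    Real.exp (-(B / s) + 5 / 4 * s) ≤ 4 * Real.exp (-(B / s)) := by
  rw [Real.exp_add, mul_comm]
  refine mul_le_mul_of_nonneg_right ?_ (Real.exp_pos _).le
  refine (Real.exp_le_exp.2 ?_).trans exp_five_fourth_le
  linarith

theorem pow_mul_exp_neg_le {t : ℝ} (ht : 0 ≤ t) (k : ℕ) :
    t ^ k * Real.exp (-t) ≤ (k.factorial : ℝ) := by
  have h := Real.pow_div_factorial_le_exp t ht k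
  rw [Real.exp_neg, ← div_eq_mul_inv, div_le_iff₀ (Real.exp_pos t)]
  rw [div_le_iff₀ (by exact_mod_cast k.factorial_pos)] at h
  linarith

/-- `(5/4) μ₀ ≤ μ₀'`. -/
theorem mu0_le_mu1 {B : ℝ} (hB : 0 < B) (s : ℝ) : 5 / 4 * mu0 B s ≤ mu1 B s := by
  unfold mu0 mu1
  split_ifs with h
  · refine mul_le_mul_of_nonneg_right ?_ (Real.exp_pos _).le
    have : 0 < B / s ^ 2 := by positivity
    linarith
  · norm_num

theorem mu1_le {B s : ℝ} (hB : 0 < B) (hB1 : B ≤ 1) (hs : s ≤ 1) : mu1 B s ≤ 20 / B := by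
  unfold mu1
  split_ifs with h
  · have ht : 0 < B / s := div_pos hB h
    have e1 : B / s ^ 2 = (B / s) ^ 2 / B := by field_simp
    have h1 := pow_mul_exp_neg_le ht.le 2
    have h0 := pow_mul_exp_neg_le ht.le 0
    simp only [pow_zero, one_mul, Nat.factorial] at h0 h1
    push_cast at h0 h1
    have hE := exp_weight_le (B := B) hs
    have hp : 0 < B / s ^ 2 + 5 / 4 := by positivity
    calc (B / s ^ 2 + 5 / 4) * Real.exp (-(B / s) + 5 / 4 * s)
        ≤ (B / s ^ 2 + 5 / 4) * (4 * Real.exp (-(B / s))) :=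
          mul_le_mul_of_nonneg_left hE hp.le
      _ = 4 * (((B / s) ^ 2 * Real.exp (-(B / s))) / B + 5 / 4 * Real.exp (-(B / s))) := by
          rw [e1]; ring
      _ ≤ 4 * (2 / B + 5 / 4 * 1) := by
          have : ((B / s) ^ 2 * Real.exp (-(B / s))) / B ≤ 2 / B :=
            div_le_div_of_nonneg_right (by linarith only [h1]) hB.le
          linarith only [h0, this]
      _ ≤ 20 / B := by
          rw [le_div_iff₀ hB]
          have : 4 * (2 / B + 5 / 4 * 1) * B = 8 + 5 * B := by field_simp; ring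
          rw [this]; linarith only [hB1]
  · positivity

theorem mu1_sq_le {B s : ℝ} (hB : 0 < B) (hB1 : B ≤ 1) (hs : s ≤ 1) :
    mu1 B s ^ 2 ≤ 10 ^ 4 / B ^ 2 * mu0 B s := by
  unfold mu0 mu1
  split_ifs with h
  · set t := B / s with htdef
    have ht : 0 < t := div_pos hB h
    have e1 : B / s ^ 2 = t ^ 2 / B := by rw [htdef]; field_simp
    have h4 := pow_mul_exp_neg_le ht.le 4
    have h0 := pow_mul_exp_neg_le ht.le 0
    simp only [pow_zero, one_mul, Nat.factorial] at h0 h4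
    push_cast at h0 h4
    have hE := exp_weight_le (B := B) hs
    rw [← htdef] at hE
    set E := Real.exp (-t + 5 / 4 * s) with hEdef
    have hEpos : 0 < E := Real.exp_pos _
    have key : (t ^ 2 / B + 5 / 4) ^ 2 * E ≤ 10 ^ 4 / B ^ 2 := by
      have hb : (t ^ 2 / B + 5 / 4) ≤ (t ^ 2 + 5 / 4) / B := by
        rw [add_div]
        have : (5 : ℝ) / 4 ≤ 5 / 4 / B := by
          rw [le_div_iff₀ hB]; linarith only [hB1]
        linarith only [this]
      calc (t ^ 2 / B + 5 / 4) ^ 2 * E ≤ ((t ^ 2 + 5 / 4) / B) ^ 2 * (4 * Real.exp (-t)) := by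
            apply mul_le_mul _ hE hEpos.le (by positivity)
            exact pow_le_pow_left₀ (by positivity) hb 2
        _ = 4 * ((t ^ 2 + 5 / 4) ^ 2 * Real.exp (-t)) / B ^ 2 := by
            field_simp
        _ ≤ 10 ^ 4 / B ^ 2 := by
            apply div_le_div_of_nonneg_right _ (by positivity)
            have : (t ^ 2 + 5 / 4) ^ 2 ≤ 2 * t ^ 4 + 25 / 8 := by linarith only [sq_nonneg (t ^ 2 - 5 / 4)]
            have h5 : (t ^ 2 + 5 / 4) ^ 2 * Real.exp (-t) ≤ (2 * t ^ 4 + 25 / 8) * Real.exp (-t) :=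
              mul_le_mul_of_nonneg_right this (Real.exp_pos _).le
            linarith only [h4, h0, h5]
    rw [e1]
    calc ((t ^ 2 / B + 5 / 4) * E) ^ 2 = ((t ^ 2 / B + 5 / 4) ^ 2 * E) * E := by ring
      _ ≤ 10 ^ 4 / B ^ 2 * E := mul_le_mul_of_nonneg_right key hEpos.le
  · simp

theorem mu2_sq_le {B s : ℝ} (hB : 0 < B) (hB1 : B ≤ 1) (hs : s ≤ 1) :
    mu2 B s ^ 2 ≤ 10 ^ 8 / B ^ 4 * mu0 B s := by
  unfold mu0 mu2
  split_ifs with h
  · set t := B / s with htdef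
    have ht : 0 < t := div_pos hB h
    have e1 : B / s ^ 2 = t ^ 2 / B := by rw [htdef]; field_simp
    have e2 : 2 * B / s ^ 3 = 2 * t ^ 3 / B ^ 2 := by rw [htdef]; field_simp
    have h8 := pow_mul_exp_neg_le ht.le 8
    have h0 := pow_mul_exp_neg_le ht.le 0
    simp only [pow_zero, one_mul, Nat.factorial] at h0 h8
    push_cast at h0 h8
    have hE := exp_weight_le (B := B) hs
    rw [← htdef] at hE
    set E := Real.exp (-t + 5 / 4 * s) with hEdef
    have hEpos : 0 < E := Real.exp_pos _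
    have hb : (t ^ 2 / B + 5 / 4) ≤ (t ^ 2 + 5 / 4) / B := by
      rw [add_div]
      have : (5 : ℝ) / 4 ≤ 5 / 4 / B := by
        rw [le_div_iff₀ hB]; linarith only [hB1]
      linarith only [this]
    have hb2 : (t ^ 2 / B + 5 / 4) ^ 2 ≤ ((t ^ 2 + 5 / 4) / B) ^ 2 :=
      pow_le_pow_left₀ (by positivity) hb 2
    have hb3 : ((t ^ 2 + 5 / 4) / B) ^ 2 = (t ^ 2 + 5 / 4) ^ 2 / B ^ 2 := by rw [div_pow]
    have habs : |(t ^ 2 / B + 5 / 4) ^ 2 - 2 * t ^ 3 / B ^ 2| ≤ (4 * t ^ 4 + 4) / B ^ 2 := by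
      have q1 : 0 ≤ 2 * t ^ 3 / B ^ 2 := by positivity
      have q2 : 0 ≤ (t ^ 2 / B + 5 / 4) ^ 2 := by positivity
      have q3 : (t ^ 2 + 5 / 4) ^ 2 / B ^ 2 + 2 * t ^ 3 / B ^ 2 ≤ (4 * t ^ 4 + 4) / B ^ 2 := by
        rw [← add_div]
        apply div_le_div_of_nonneg_right _ (by positivity)
        linarith only [sq_nonneg (t ^ 2 - 5 / 4), sq_nonneg (t ^ 2 - t), sq_nonneg (t ^ 2 - 1 / 2)]
      rw [abs_le]
      constructor
      · have : (t ^ 2 + 5 / 4) ^ 2 / B ^ 2 ≥ 0 := by positivity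
        linarith only [hb2, hb3, q2, q3]
      · rw [hb3] at hb2
        linarith only [hb2, q1, q3]
    have key : ((t ^ 2 / B + 5 / 4) ^ 2 - 2 * t ^ 3 / B ^ 2) ^ 2 * E ≤ 10 ^ 8 / B ^ 4 := by
      calc ((t ^ 2 / B + 5 / 4) ^ 2 - 2 * t ^ 3 / B ^ 2) ^ 2 * E
          ≤ ((4 * t ^ 4 + 4) / B ^ 2) ^ 2 * (4 * Real.exp (-t)) := by
            apply mul_le_mul _ hE hEpos.le (by positivity)
            exact sq_le_sq' (by linarith only [(abs_le.1 habs).1]) (abs_le.1 habs).2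
        _ = 4 * ((4 * t ^ 4 + 4) ^ 2 * Real.exp (-t)) / B ^ 4 := by
            field_simp
        _ ≤ 10 ^ 8 / B ^ 4 := by
            apply div_le_div_of_nonneg_right _ (by positivity)
            have : (4 * t ^ 4 + 4) ^ 2 ≤ 32 * t ^ 8 + 32 := by linarith only [sq_nonneg (t ^ 4 - 1)]
            have h5 : (4 * t ^ 4 + 4) ^ 2 * Real.exp (-t) ≤ (32 * t ^ 8 + 32) * Real.exp (-t) :=
              mul_le_mul_of_nonneg_right this (Real.exp_pos _).le
            linarith only [h8, h0, h5]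
    rw [e1, e2]
    calc (((t ^ 2 / B + 5 / 4) ^ 2 - 2 * t ^ 3 / B ^ 2) * E) ^ 2
        = (((t ^ 2 / B + 5 / 4) ^ 2 - 2 * t ^ 3 / B ^ 2) ^ 2 * E) * E := by ring
      _ ≤ 10 ^ 8 / B ^ 4 * E := mul_le_mul_of_nonneg_right key hEpos.le
  · simp

/-- either `μ₀' ≤ (200/δ) μ₀` or `μ₀'` is super-exponentially small. -/
theorem mu1_le_or {B s δ : ℝ} (hB : 0 < B) (hB1 : B ≤ 1) (hδ : 0 < δ) (hδ1 : δ ≤ 1 / 1000)
    (hs : s ≤ 1) :
    mu1 B s ≤ 200 / δ * mu0 B s + 100 / B * Real.exp (-Real.sqrt (B / δ)) := by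
  unfold mu0 mu1
  split_ifs with h
  · by_cases hc : B / s ^ 2 + 5 / 4 ≤ 200 / δ
    · have h1 : (B / s ^ 2 + 5 / 4) * Real.exp (-(B / s) + 5 / 4 * s)
          ≤ 200 / δ * Real.exp (-(B / s) + 5 / 4 * s) :=
        mul_le_mul_of_nonneg_right hc (Real.exp_pos _).le
      have h2 : 0 ≤ 100 / B * Real.exp (-Real.sqrt (B / δ)) := by positivity
      linarith only [h1, h2]
    · push Not at hc
      set t := B / s with htdef
      have ht : 0 < t := div_pos hB h
      have e1 : B / s ^ 2 = t ^ 2 / B := by rw [htdef]; field_simp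
      have hlow : 100 / δ ≤ t ^ 2 / B := by
        have h5 : (5 : ℝ) / 4 ≤ 100 / δ := by
          rw [le_div_iff₀ hδ]; linarith only [hδ1]
        have h6 : 200 / δ = 100 / δ + 100 / δ := by ring
        rw [e1] at hc
        linarith only [hc, h5, h6]
      have hlow2 : B / δ ≤ (t / 10) ^ 2 := by
        rw [le_div_iff₀ hB] at hlow
        have : (t / 10) ^ 2 = t ^ 2 / 100 := by ring
        rw [this, le_div_iff₀ (by norm_num)]
        calc B / δ * 100 = 100 / δ * B := by ring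
          _ ≤ t ^ 2 := hlow
      have hsq : Real.sqrt (B / δ) ≤ t / 10 := by
        rw [Real.sqrt_le_left (by positivity)]
        exact hlow2
      have hE := exp_weight_le (B := B) hs
      rw [← htdef] at hE
      have hhalf := pow_mul_exp_neg_le (t := t / 2) (by positivity) 2
      have hhalf0 := pow_mul_exp_neg_le (t := t / 2) (by positivity) 0
      simp only [pow_zero, one_mul, Nat.factorial] at hhalf hhalf0
      push_cast at hhalf hhalf0
      have hsplit : Real.exp (-t) = Real.exp (-(t / 2)) * Real.exp (-(t / 2)) := by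
        rw [← Real.exp_add]; congr 1; ring
      have hfin : Real.exp (-(t / 2)) ≤ Real.exp (-Real.sqrt (B / δ)) := by
        apply Real.exp_le_exp.2
        linarith only [ht, hsq]
      have hfirst : 0 ≤ 200 / δ * Real.exp (-t + 5 / 4 * s) := by positivity
      have hmain : (B / s ^ 2 + 5 / 4) * Real.exp (-t + 5 / 4 * s)
          ≤ 100 / B * Real.exp (-(t / 2)) := by
        have hp : 0 < B / s ^ 2 + 5 / 4 := by positivity
        calc (B / s ^ 2 + 5 / 4) * Real.exp (-t + 5 / 4 * s)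
            ≤ (B / s ^ 2 + 5 / 4) * (4 * Real.exp (-t)) := mul_le_mul_of_nonneg_left hE hp.le
          _ = (16 * ((t / 2) ^ 2 * Real.exp (-(t / 2))) / B + 5 * Real.exp (-(t / 2)))
                * Real.exp (-(t / 2)) := by
              rw [hsplit, e1]; ring
          _ ≤ (16 * 2 / B + 5 * 1) * Real.exp (-(t / 2)) := by
              apply mul_le_mul_of_nonneg_right _ (Real.exp_pos _).le
              have : 16 * ((t / 2) ^ 2 * Real.exp (-(t / 2))) / B ≤ 16 * 2 / B :=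
                div_le_div_of_nonneg_right (by linarith only [hhalf]) hB.le
              linarith only [hhalf0, this]
          _ ≤ 100 / B * Real.exp (-(t / 2)) := by
              apply mul_le_mul_of_nonneg_right _ (Real.exp_pos _).le
              rw [le_div_iff₀ hB]
              have : (16 * 2 / B + 5 * 1) * B = 32 + 5 * B := by field_simp; ring
              rw [this]; linarith only [hB1]
      calc (B / s ^ 2 + 5 / 4) * Real.exp (-t + 5 / 4 * s)
          ≤ 100 / B * Real.exp (-(t / 2)) := hmain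
        _ ≤ 100 / B * Real.exp (-Real.sqrt (B / δ)) :=
            mul_le_mul_of_nonneg_left hfin (by positivity)
        _ ≤ _ := by linarith only [hfirst]
  · have : 0 ≤ 100 / B * Real.exp (-Real.sqrt (B / δ)) := by positivity
    linarith only [this]

theorem exp_neg_one_le_mu0 {B s : ℝ} (hB : 0 < B) (hs : B ≤ s) : Real.exp (-1) ≤ mu0 B s := by
  have h : 0 < s := hB.trans_le hs
  unfold mu0
  rw [if_pos h]
  apply Real.exp_le_exp.2
  have : B / s ≤ 1 := (div_le_one h).2 hs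
  linarith only [hB, hs, this]

end Vale.Agent.P229.D
end
end

section

section

/-!
# P229, disproof, task T4: the left/right lemma (`PROOF.md`, §7)
-/

open scoped ContDiff Topology
open MeasureTheory Set

namespace Vale.Agent.P229.D

section
variable {P : Pl → ℝ}

theorem Frame.abs_le (hP : Frame P) {p : Pl} (hp : rho2 p < 0.64) : |P p| ≤ 0.81 := by
  have h := hP.abs_sub_fst_le p
  have hx : |p.1| ≤ 0.8 := by
    rw [_root_.abs_le]; constructor <;> · simp only [rho2] at hp; nlinarith only [hp]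
  have ht : |p.2| ≤ 0.8 := by
    rw [_root_.abs_le]; constructor <;> · simp only [rho2] at hp; nlinarith only [hp]
  have h1 := _root_.abs_le.1 h
  have h2 := _root_.abs_le.1 hx
  rw [_root_.abs_le]; constructor <;> linarith only [hx, ht, h1, h2]

theorem abs_snd_le {p : Pl} (hp : rho2 p < 0.64) : |p.2| ≤ 0.8 := by
  rw [_root_.abs_le]; constructor <;> · simp only [rho2] at hp; nlinarith only [hp]

theorem abs_fst_le {p : Pl} (hp : rho2 p < 0.64) : |p.1| ≤ 0.8 := by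
  rw [_root_.abs_le]; constructor <;> · simp only [rho2] at hp; nlinarith only [hp]

theorem Frame.sq_add_sq_le (hP : Frame P) {p : Pl} (hp : rho2 p < 0.64) :
    P p ^ 2 + p.2 ^ 2 ≤ 0.65 := by
  have h := hP.abs_sub_fst_le p
  have hx := abs_fst_le hp
  have ht := abs_snd_le hp
  have h1 : |P p - p.1| ≤ 0.0016 := h.trans (by linarith only [hx, ht])
  have h2 : |(P p - p.1) * (P p + p.1)| ≤ 0.0016 * 1.61 := by
    apply abs_mul_le' h1
    have h3 := _root_.abs_le.1 (hP.abs_le hp)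
    have h4 := _root_.abs_le.1 hx
    rw [_root_.abs_le]; constructor <;> linarith only [h3, h4]
  have h3 := (_root_.abs_le.1 h2).2
  have e : (P p - p.1) * (P p + p.1) = P p ^ 2 - p.1 ^ 2 := by ring
  rw [e] at h3
  simp only [rho2] at hp
  norm_num at *
  linarith only [hp, h3]

variable (P) in
/-- the shifted variable -/
noncomputable def lrs (sg d : ℝ) (p : Pl) : ℝ := sg * P p - d

theorem differentiableAt_lrs (hP : Frame P) (sg d : ℝ) (p : Pl) :
    DifferentiableAt ℝ (lrs P sg d) p := by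
  unfold lrs
  exact ((hP.differentiableAt p).const_mul sg).sub_const d

theorem XX_lrs (hP : Frame P) (sg d : ℝ) (p : Pl) : XX P (lrs P sg d) p = sg := by
  unfold lrs
  rw [XX_sub ((hP.differentiableAt p).const_mul sg) (differentiableAt_const _),
    XX_const_mul _ (hP.differentiableAt p), XX_self hP, XX_const]
  ring

theorem YY_lrs (hP : Frame P) (sg d : ℝ) (p : Pl) : YY P (lrs P sg d) p = 0 := by
  unfold lrs
  rw [YY_sub ((hP.differentiableAt p).const_mul sg) (differentiableAt_const _),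
    YY_const_mul _ (hP.differentiableAt p), YY_self hP, YY_const]
  ring

theorem XX_mu0 (hP : Frame P) (sg d : ℝ) {B : ℝ} (hB : 0 < B) (p : Pl) :
    XX P (fun q => mu0 B (lrs P sg d q)) p = sg * mu1 B (lrs P sg d p) := by
  rw [XX_comp (hasDerivAt_mu0 hB _).differentiableAt (differentiableAt_lrs hP sg d p),
    XX_lrs hP, (hasDerivAt_mu0 hB _).deriv]
  ring

theorem YY_mu0 (hP : Frame P) (sg d : ℝ) {B : ℝ} (hB : 0 < B) (p : Pl) :
    YY P (fun q => mu0 B (lrs P sg d q)) p = 0 := by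
  rw [YY_comp (hasDerivAt_mu0 hB _).differentiableAt (differentiableAt_lrs hP sg d p),
    YY_lrs hP]
  ring

theorem XX_mu1 (hP : Frame P) (sg d : ℝ) {B : ℝ} (hB : 0 < B) (p : Pl) :
    XX P (fun q => mu1 B (lrs P sg d q)) p = sg * mu2 B (lrs P sg d p) := by
  rw [XX_comp (hasDerivAt_mu1 hB _).differentiableAt (differentiableAt_lrs hP sg d p),
    XX_lrs hP, (hasDerivAt_mu1 hB _).deriv]
  ring

theorem YY_mu1 (hP : Frame P) (sg d : ℝ) {B : ℝ} (hB : 0 < B) (p : Pl) :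
    YY P (fun q => mu1 B (lrs P sg d q)) p = 0 := by
  rw [YY_comp (hasDerivAt_mu1 hB _).differentiableAt (differentiableAt_lrs hP sg d p),
    YY_lrs hP]
  ring

theorem contDiff_mu1 {B : ℝ} (hB : 0 < B) : ContDiff ℝ 1 (mu1 B) := by
  rw [contDiff_one_iff_deriv]
  refine ⟨fun s => (hasDerivAt_mu1 hB s).differentiableAt, ?_⟩
  have : deriv (mu1 B) = mu2 B := funext fun s => (hasDerivAt_mu1 hB s).deriv
  rw [this]; exact continuous_mu2 hB

theorem contDiff_mu0 {B : ℝ} (hB : 0 < B) : ContDiff ℝ 1 (mu0 B) := by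
  rw [contDiff_one_iff_deriv]
  refine ⟨fun s => (hasDerivAt_mu0 hB s).differentiableAt, ?_⟩
  have : deriv (mu0 B) = mu1 B := funext fun s => (hasDerivAt_mu0 hB s).deriv
  rw [this]; exact (contDiff_mu1 hB).continuous

theorem contDiff_lrs (hP : Frame P) (sg d : ℝ) : ContDiff ℝ 1 (lrs P sg d) := by
  unfold lrs
  exact (contDiff_const.mul (hP.smooth.of_le (by norm_num))).sub contDiff_const

end

/-- multipliers -/
noncomputable def lrMu (P χ : Pl → ℝ) (sg d B : ℝ) (p : Pl) : ℝ :=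
  -(sg * (χ p * mu0 B (lrs P sg d p)))
noncomputable def lrNu (P χ : Pl → ℝ) (sg d B : ℝ) (p : Pl) : ℝ :=
  -(p.2 / 2) * (χ p * mu0 B (lrs P sg d p))
noncomputable def lrLam (P χ a : Pl → ℝ) (δ sg d B : ℝ) (p : Pl) : ℝ :=
  χ p * (mu1 B (lrs P sg d p) / 2 - mu0 B (lrs P sg d p) / 4 + mu1 B (lrs P sg d p) * (a p / δ))

section
variable {P χ a : Pl → ℝ} {δ sg d B : ℝ} {p : Pl}

theorem contDiff_lrMu (hP : Frame P) (hχ : ContDiff ℝ 1 χ) (hB : 0 < B) :
    ContDiff ℝ 1 (lrMu P χ sg d B) := by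
  unfold lrMu
  exact (contDiff_const.mul (hχ.mul ((contDiff_mu0 hB).comp (contDiff_lrs hP sg d)))).neg

theorem contDiff_lrNu (hP : Frame P) (hχ : ContDiff ℝ 1 χ) (hB : 0 < B) :
    ContDiff ℝ 1 (lrNu P χ sg d B) := by
  unfold lrNu
  have := (contDiff_mu0 hB).comp (contDiff_lrs hP sg d)
  exact ((contDiff_snd.div_const 2).neg).mul (hχ.mul this)

theorem contDiff_lrLam (hP : Frame P) (hχ : ContDiff ℝ 1 χ) (ha : ContDiff ℝ 1 a) (hB : 0 < B) :
    ContDiff ℝ 1 (lrLam P χ a δ sg d B) := by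
  unfold lrLam
  have h0 := (contDiff_mu0 hB).comp (contDiff_lrs hP sg d)
  have h1 := (contDiff_mu1 hB).comp (contDiff_lrs hP sg d)
  exact hχ.mul (((h1.div_const 2).sub (h0.div_const 4)).add (h1.mul (ha.div_const δ)))

theorem differentiableAt_mu0 (hP : Frame P) (hB : 0 < B) (p : Pl) :
    DifferentiableAt ℝ (fun q => mu0 B (lrs P sg d q)) p :=
  ((contDiff_mu0 hB).comp (contDiff_lrs hP sg d)).differentiable (by norm_num) p

theorem differentiableAt_mu1 (hP : Frame P) (hB : 0 < B) (p : Pl) :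
    DifferentiableAt ℝ (fun q => mu1 B (lrs P sg d q)) p :=
  ((contDiff_mu1 hB).comp (contDiff_lrs hP sg d)).differentiable (by norm_num) p

theorem XX_lrMu (hP : Frame P) (hχ : ContDiff ℝ 1 χ) (hB : 0 < B) (hsg2 : sg ^ 2 = 1) (p : Pl) :
    XX P (lrMu P χ sg d B) p
      = -(sg * (XX P χ p * mu0 B (lrs P sg d p))) - χ p * mu1 B (lrs P sg d p) := by
  have dχ := hχ.differentiable (by norm_num) p
  have d0 := differentiableAt_mu0 (sg := sg) (d := d) hP hB p
  have e : lrMu P χ sg d B = fun q => (-sg) * (χ q * mu0 B (lrs P sg d q)) := by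
    funext q; unfold lrMu; ring
  rw [e, XX_const_mul _ (dχ.fun_mul d0), XX_mul dχ d0, XX_mu0 hP _ _ hB]
  linear_combination -(χ p * mu1 B (lrs P sg d p)) * hsg2

theorem YY_lrMu (hP : Frame P) (hχ : ContDiff ℝ 1 χ) (hB : 0 < B) (p : Pl) :
    YY P (lrMu P χ sg d B) p = -(sg * (YY P χ p * mu0 B (lrs P sg d p))) := by
  have dχ := hχ.differentiable (by norm_num) p
  have d0 := differentiableAt_mu0 (sg := sg) (d := d) hP hB p
  have e : lrMu P χ sg d B = fun q => (-sg) * (χ q * mu0 B (lrs P sg d q)) := by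
    funext q; unfold lrMu; ring
  rw [e, YY_const_mul _ (dχ.fun_mul d0), YY_mul dχ d0, YY_mu0 hP _ _ hB]
  ring

theorem XX_lrNu (hP : Frame P) (hχ : ContDiff ℝ 1 χ) (hB : 0 < B) (p : Pl) :
    XX P (lrNu P χ sg d B) p
      = -(p.2 / 2) * (XX P χ p * mu0 B (lrs P sg d p) + χ p * (sg * mu1 B (lrs P sg d p))) := by
  have dχ := hχ.differentiable (by norm_num) p
  have d0 := differentiableAt_mu0 (sg := sg) (d := d) hP hB p
  have dt' : DifferentiableAt ℝ (fun q : Pl => q.2) p := differentiableAt_snd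
  have e : lrNu P χ sg d B = fun q => (-(1 / 2) * q.2) * (χ q * mu0 B (lrs P sg d q)) := by
    funext q; unfold lrNu; ring
  rw [e, XX_mul (dt'.const_mul _) (dχ.fun_mul d0), XX_const_mul _ dt', XX_snd, XX_mul dχ d0,
    XX_mu0 hP _ _ hB]
  ring

theorem YY_lrNu (hP : Frame P) (hχ : ContDiff ℝ 1 χ) (hB : 0 < B) (p : Pl) :
    YY P (lrNu P χ sg d B) p
      = -(1 / 2) * (χ p * mu0 B (lrs P sg d p)) - p.2 / 2 * (YY P χ p * mu0 B (lrs P sg d p)) := by
  have dχ := hχ.differentiable (by norm_num) p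
  have d0 := differentiableAt_mu0 (sg := sg) (d := d) hP hB p
  have dt' : DifferentiableAt ℝ (fun q : Pl => q.2) p := differentiableAt_snd
  have e : lrNu P χ sg d B = fun q => (-(1 / 2) * q.2) * (χ q * mu0 B (lrs P sg d q)) := by
    funext q; unfold lrNu; ring
  rw [e, YY_mul (dt'.const_mul _) (dχ.fun_mul d0), YY_const_mul _ dt', YY_snd, YY_mul dχ d0,
    YY_mu0 hP _ _ hB]
  ring

theorem XX_lrLam (hP : Frame P) (hχ : ContDiff ℝ 1 χ) (ha : ContDiff ℝ 1 a) (hB : 0 < B)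
    (p : Pl) :
    XX P (lrLam P χ a δ sg d B) p
      = XX P χ p * (mu1 B (lrs P sg d p) / 2 - mu0 B (lrs P sg d p) / 4
          + mu1 B (lrs P sg d p) * (a p / δ))
        + χ p * (sg * mu2 B (lrs P sg d p) / 2 - sg * mu1 B (lrs P sg d p) / 4
          + (sg * mu2 B (lrs P sg d p) * (a p / δ) + mu1 B (lrs P sg d p) * (XX P a p / δ))) := by
  have dχ := hχ.differentiable (by norm_num) p
  have da := ha.differentiable (by norm_num) p
  have d0 := differentiableAt_mu0 (sg := sg) (d := d) hP hB p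
  have d1 := differentiableAt_mu1 (sg := sg) (d := d) hP hB p
  have e : lrLam P χ a δ sg d B = fun q => χ q * (((1 / 2) * mu1 B (lrs P sg d q)
      + (-(1 / 4)) * mu0 B (lrs P sg d q)) + (1 / δ) * (mu1 B (lrs P sg d q) * a q)) := by
    funext q; unfold lrLam; ring
  have g1 : DifferentiableAt ℝ (fun q => (1 / 2) * mu1 B (lrs P sg d q)) p := d1.const_mul _
  have g2 : DifferentiableAt ℝ (fun q => (-(1 / 4)) * mu0 B (lrs P sg d q)) p := d0.const_mul _
  have g3 : DifferentiableAt ℝ (fun q => mu1 B (lrs P sg d q) * a q) p := d1.fun_mul da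
  have g4 : DifferentiableAt ℝ (fun q => (1 / δ) * (mu1 B (lrs P sg d q) * a q)) p := g3.const_mul _
  rw [e, XX_mul dχ ((g1.fun_add g2).fun_add g4), XX_add (g1.fun_add g2) g4, XX_add g1 g2,
    XX_const_mul _ d1, XX_const_mul _ d0, XX_const_mul _ g3, XX_mul d1 da,
    XX_mu0 hP _ _ hB, XX_mu1 hP _ _ hB]
  ring

theorem YY_lrLam (hP : Frame P) (hχ : ContDiff ℝ 1 χ) (ha : ContDiff ℝ 1 a) (hB : 0 < B)
    (p : Pl) :
    YY P (lrLam P χ a δ sg d B) p
      = YY P χ p * (mu1 B (lrs P sg d p) / 2 - mu0 B (lrs P sg d p) / 4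
          + mu1 B (lrs P sg d p) * (a p / δ))
        + χ p * (mu1 B (lrs P sg d p) * (YY P a p / δ)) := by
  have dχ := hχ.differentiable (by norm_num) p
  have da := ha.differentiable (by norm_num) p
  have d0 := differentiableAt_mu0 (sg := sg) (d := d) hP hB p
  have d1 := differentiableAt_mu1 (sg := sg) (d := d) hP hB p
  have e : lrLam P χ a δ sg d B = fun q => χ q * (((1 / 2) * mu1 B (lrs P sg d q)
      + (-(1 / 4)) * mu0 B (lrs P sg d q)) + (1 / δ) * (mu1 B (lrs P sg d q) * a q)) := by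
    funext q; unfold lrLam; ring
  have g1 : DifferentiableAt ℝ (fun q => (1 / 2) * mu1 B (lrs P sg d q)) p := d1.const_mul _
  have g2 : DifferentiableAt ℝ (fun q => (-(1 / 4)) * mu0 B (lrs P sg d q)) p := d0.const_mul _
  have g3 : DifferentiableAt ℝ (fun q => mu1 B (lrs P sg d q) * a q) p := d1.fun_mul da
  have g4 : DifferentiableAt ℝ (fun q => (1 / δ) * (mu1 B (lrs P sg d q) * a q)) p := g3.const_mul _
  rw [e, YY_mul dχ ((g1.fun_add g2).fun_add g4), YY_add (g1.fun_add g2) g4, YY_add g1 g2,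
    YY_const_mul _ d1, YY_const_mul _ d0, YY_const_mul _ g3, YY_mul d1 da,
    YY_mu0 hP _ _ hB, YY_mu1 hP _ _ hB]
  ring

theorem tsupport_lrMu_subset : tsupport (lrMu P χ sg d B) ⊆ tsupport χ := by
  apply closure_mono
  intro q hq
  simp only [Function.mem_support, ne_eq] at hq ⊢
  intro h; apply hq; simp [lrMu, h]

theorem tsupport_lrNu_subset : tsupport (lrNu P χ sg d B) ⊆ tsupport χ := by
  apply closure_mono
  intro q hq
  simp only [Function.mem_support, ne_eq] at hq ⊢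
  intro h; apply hq; simp [lrNu, h]

theorem tsupport_lrLam_subset : tsupport (lrLam P χ a δ sg d B) ⊆ tsupport χ := by
  apply closure_mono
  intro q hq
  simp only [Function.mem_support, ne_eq] at hq ⊢
  intro h; apply hq; simp [lrLam, h]

end

/-- the integrand of the multiplier identity (all terms on one side) -/
noncomputable def lrG (P v a α e1 e2 χ : Pl → ℝ) (δ sg d B : ℝ) (p : Pl) : ℝ :=
  ((XX P (lrMu P χ sg d B) p / 2 - YY P (lrNu P χ sg d B) p / 2 - lrLam P χ a δ sg d B p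
        - XX P (fun q => α q * lrNu P χ sg d B q) p / 2) * (YY P v p) ^ 2
    + (lrMu P χ sg d B p * XX P a p / 2 - a p * XX P (lrMu P χ sg d B) p / 2
        + YY P (fun q => lrNu P χ sg d B q * a q) p / 2
        - lrLam P χ a δ sg d B p * a p - YY P (fun q => α q * lrMu P χ sg d B q) p / 2)
        * (XX P v p) ^ 2
    - (YY P (lrMu P χ sg d B) p + a p * XX P (lrNu P χ sg d B) p
        + α p * lrLam P χ a δ sg d B p) * YY P v p * XX P v p
    - YY P (lrLam P χ a δ sg d B) p * v p * YY P v p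
    - (a p * XX P (lrLam P χ a δ sg d B) p + YY P (fun q => α q * lrLam P χ a δ sg d B q) p)
        * v p * XX P v p)
  + (lrMu P χ sg d B p * XX P v p + lrNu P χ sg d B p * YY P v p
      + lrLam P χ a δ sg d B p * v p) * (e1 p * YY P v p + e2 p * XX P v p)

section
variable {P v a α e1 e2 F χ : Pl → ℝ} {δ sg d B : ℝ}

theorem continuous_lrG (h : PairEq P v a α e1 e2 F δ) (hχ : ContDiff ℝ 1 χ) (hB : 0 < B) :
    Continuous (lrG P v a α e1 e2 χ δ sg d B) := by
  have hP := h.frame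
  have cmu := contDiff_lrMu (sg := sg) (d := d) hP hχ hB
  have cnu := contDiff_lrNu (sg := sg) (d := d) hP hχ hB
  have clam := contDiff_lrLam (δ := δ) (sg := sg) (d := d) hP hχ h.a_smooth hB
  have c1 : Continuous (XX P v) := (contDiff_XX (m := 1) hP h.v_smooth (by norm_num) (by norm_num)).continuous
  have c2 : Continuous (YY P v) := (contDiff_YY (m := 1) hP h.v_smooth (by norm_num) (by norm_num)).continuous
  have c3 : Continuous (XX P (lrMu P χ sg d B)) := (contDiff_XX (m := 0) hP cmu (by norm_num) (by norm_num)).continuous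
  have c4 : Continuous (YY P (lrMu P χ sg d B)) := (contDiff_YY (m := 0) hP cmu (by norm_num) (by norm_num)).continuous
  have c5 : Continuous (XX P (lrNu P χ sg d B)) := (contDiff_XX (m := 0) hP cnu (by norm_num) (by norm_num)).continuous
  have c6 : Continuous (YY P (lrNu P χ sg d B)) := (contDiff_YY (m := 0) hP cnu (by norm_num) (by norm_num)).continuous
  have c7 : Continuous (XX P (lrLam P χ a δ sg d B)) := (contDiff_XX (m := 0) hP clam (by norm_num) (by norm_num)).continuous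
  have c8 : Continuous (YY P (lrLam P χ a δ sg d B)) := (contDiff_YY (m := 0) hP clam (by norm_num) (by norm_num)).continuous
  have c9 : Continuous (XX P (fun q => α q * lrNu P χ sg d B q)) :=
    (contDiff_XX (m := 0) hP (h.α_smooth.mul cnu) (by norm_num) (by norm_num)).continuous
  have c10 : Continuous (YY P (fun q => lrNu P χ sg d B q * a q)) :=
    (contDiff_YY (m := 0) hP (cnu.mul h.a_smooth) (by norm_num) (by norm_num)).continuous
  have c11 : Continuous (YY P (fun q => α q * lrMu P χ sg d B q)) :=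
    (contDiff_YY (m := 0) hP (h.α_smooth.mul cmu) (by norm_num) (by norm_num)).continuous
  have c12 : Continuous (YY P (fun q => α q * lrLam P χ a δ sg d B q)) :=
    (contDiff_YY (m := 0) hP (h.α_smooth.mul clam) (by norm_num) (by norm_num)).continuous
  have c13 : Continuous (XX P a) := (contDiff_XX (m := 0) hP h.a_smooth (by norm_num) (by norm_num)).continuous
  have c14 := cmu.continuous
  have c15 := cnu.continuous
  have c16 := clam.continuous
  have c17 := h.a_smooth.continuous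
  have c18 := h.α_smooth.continuous
  have c19 := h.v_smooth.continuous
  have c20 := h.e1_cont
  have c21 := h.e2_cont
  unfold lrG
  fun_prop

theorem lrG_eq_zero {p : Pl} (hp : p ∉ tsupport χ) :
    lrG P v a α e1 e2 χ δ sg d B p = 0 := by
  have n1 : p ∉ tsupport (lrMu P χ sg d B) := fun hh => hp (tsupport_lrMu_subset hh)
  have n2 : p ∉ tsupport (lrNu P χ sg d B) := fun hh => hp (tsupport_lrNu_subset hh)
  have n3 : p ∉ tsupport (lrLam P χ a δ sg d B) := fun hh => hp (tsupport_lrLam_subset hh)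
  have n4 : p ∉ tsupport (fun q => α q * lrNu P χ sg d B q) := fun hh =>
    n2 (tsupport_mul_subset_right hh)
  have n5 : p ∉ tsupport (fun q => lrNu P χ sg d B q * a q) := fun hh =>
    n2 (tsupport_mul_subset_left hh)
  have n6 : p ∉ tsupport (fun q => α q * lrMu P χ sg d B q) := fun hh =>
    n1 (tsupport_mul_subset_right hh)
  have n7 : p ∉ tsupport (fun q => α q * lrLam P χ a δ sg d B q) := fun hh =>
    n3 (tsupport_mul_subset_right hh)
  unfold lrG
  rw [image_eq_zero_of_notMem_tsupport n1, image_eq_zero_of_notMem_tsupport n2,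
    image_eq_zero_of_notMem_tsupport n3, XX_eq_zero_of_notMem_tsupport n1,
    YY_eq_zero_of_notMem_tsupport n1, XX_eq_zero_of_notMem_tsupport n2,
    YY_eq_zero_of_notMem_tsupport n2, XX_eq_zero_of_notMem_tsupport n3,
    YY_eq_zero_of_notMem_tsupport n3, XX_eq_zero_of_notMem_tsupport n4,
    YY_eq_zero_of_notMem_tsupport n5, YY_eq_zero_of_notMem_tsupport n6,
    YY_eq_zero_of_notMem_tsupport n7]
  ring

theorem integral_lrG (h : PairEq P v a α e1 e2 F δ) (hχ : ContDiff ℝ 1 χ) (hB : 0 < B)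
    (sχ : tsupport χ ⊆ {p | rho2 p < 0.64}) (hF : ∀ p ∈ tsupport χ, d < sg * P p → F p = 0) :
    ∫ p, lrG P v a α e1 e2 χ δ sg d B p * dx P p = 0 := by
  have hP := h.frame
  have cmu := contDiff_lrMu (sg := sg) (d := d) hP hχ hB
  have cnu := contDiff_lrNu (sg := sg) (d := d) hP hχ hB
  have clam := contDiff_lrLam (δ := δ) (sg := sg) (d := d) hP hχ h.a_smooth hB
  have H := h.gmi cmu cnu clam (tsupport_lrMu_subset.trans sχ) (tsupport_lrNu_subset.trans sχ)
    (tsupport_lrLam_subset.trans sχ)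
  have cχ : HasCompactSupport χ := hasCompactSupport_of_tsupport_subset_disc sχ
  have c1 : Continuous (XX P v) := (contDiff_XX (m := 1) hP h.v_smooth (by norm_num) (by norm_num)).continuous
  have c2 : Continuous (YY P v) := (contDiff_YY (m := 1) hP h.v_smooth (by norm_num) (by norm_num)).continuous
  have cdx : Continuous (dx P) := (hP.contDiff_dx (m := 0) (by norm_num)).continuous
  -- the F-term vanishes
  have hz : ∀ p, (lrMu P χ sg d B p * XX P v p + lrNu P χ sg d B p * YY P v p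
      + lrLam P χ a δ sg d B p * v p) * F p = 0 := by
    intro p
    by_cases hp : p ∈ tsupport χ
    · by_cases hd : d < sg * P p
      · rw [hF p hp hd, mul_zero]
      · have hs : lrs P sg d p ≤ 0 := by unfold lrs; linarith only [hd]
        have m0 := mu0_eq_zero (B := B) hs
        have m1 := mu1_eq_zero (B := B) hs
        simp [lrMu, lrNu, lrLam, m0, m1]
    · have : χ p = 0 := image_eq_zero_of_notMem_tsupport hp
      simp [lrMu, lrNu, lrLam, this]
  set K : Pl → ℝ := fun p => (lrMu P χ sg d B p * XX P v p + lrNu P χ sg d B p * YY P v p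
      + lrLam P χ a δ sg d B p * v p) * (e1 p * YY P v p + e2 p * XX P v p) * dx P p with hK
  have e0 : ∀ p, (lrMu P χ sg d B p * XX P v p + lrNu P χ sg d B p * YY P v p
      + lrLam P χ a δ sg d B p * v p) * (F p - e1 p * YY P v p - e2 p * XX P v p) * dx P p
      = - K p := by
    intro p
    have := hz p
    simp only [hK]
    linear_combination (dx P p) * this
  rw [integral_congr_ae (Filter.Eventually.of_forall e0), integral_neg] at H
  have cK : Continuous K := by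
    have c14 := cmu.continuous
    have c15 := cnu.continuous
    have c16 := clam.continuous
    have c19 := h.v_smooth.continuous
    have c20 := h.e1_cont
    have c21 := h.e2_cont
    simp only [hK]
    fun_prop
  have sK : HasCompactSupport K := by
    refine HasCompactSupport.intro cχ fun p hp => ?_
    have : χ p = 0 := image_eq_zero_of_notMem_tsupport hp
    simp only [hK, lrMu, neg_mul, lrNu, lrLam, this, zero_mul, mul_zero, neg_zero, add_zero]
  have iK := cK.integrable_of_hasCompactSupport sK (μ := volume)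
  have iG : Integrable (fun p => lrG P v a α e1 e2 χ δ sg d B p * dx P p) volume := by
    apply ((continuous_lrG h hχ hB).mul cdx).integrable_of_hasCompactSupport
    refine HasCompactSupport.intro cχ fun p hp => ?_
    rw [Pi.mul_apply, lrG_eq_zero hp, zero_mul]
  have iR := iG.sub iK
  have e2 : ∫ p, (lrG P v a α e1 e2 χ δ sg d B p * dx P p - K p) = - ∫ p, K p := by
    rw [H]
    refine integral_congr_ae (Filter.Eventually.of_forall fun p => ?_)
    simp only [hK, lrG]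
    ring
  rw [integral_sub iG iK] at e2
  linarith only [e2]

/-- pointwise lower bound -/
theorem lrG_lower (h : PairEq P v a α e1 e2 F δ) (hsg : sg = 1 ∨ sg = -1) (hd : 0 ≤ d)
    (hB : 0 < B) (hB1 : B ≤ 1) (hχ : ContDiff ℝ 1 χ) (hχ0 : ∀ p, 0 ≤ χ p ∧ χ p ≤ 1)
    (sχ : tsupport χ ⊆ {p | rho2 p < 0.64}) (p : Pl) :
    χ p * mu0 B (sg * P p - d) * ((YY P v p) ^ 2 + δ * (XX P v p) ^ 2) ≤
      -60 * lrG P v a α e1 e2 χ δ sg d B p
      + ({p | d < sg * P p}.indicator (fun p => 60 * 10 ^ 7 / B ^ 4 * (χ p * (v p) ^ 2)) p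
        + {p | d < sg * P p}.indicator (fun p => 3600 / B * ((|XX P χ p| + |YY P χ p|)
            * ((XX P v p) ^ 2 + (YY P v p) ^ 2 + (v p) ^ 2))) p
        + 60 / B * Real.exp (-Real.sqrt (B / δ)) * (χ p * (XX P v p) ^ 2)) := by
  have hP := h.frame
  have hδ := h.δ_pos
  have hsg2 : sg ^ 2 = 1 := by rcases hsg with h | h <;> rw [h] <;> norm_num
  have hE : 0 ≤ Real.exp (-Real.sqrt (B / δ)) := (Real.exp_pos _).le
  have hχp := (hχ0 p).1
  by_cases hp : p ∈ tsupport χ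
  · have hpd : rho2 p < 0.64 := sχ hp
    by_cases hds : d < sg * P p
    · have hmem : p ∈ {p | d < sg * P p} := hds
      rw [indicator_of_mem hmem, indicator_of_mem hmem]
      have hs1 : lrs P sg d p ≤ 1 := by
        have := _root_.abs_le.1 (hP.abs_le hpd)
        unfold lrs
        rcases hsg with h | h <;> rw [h] <;> linarith only [hd, this]
      have dα := h.α_smooth.differentiable (by norm_num) p
      have da := h.a_smooth.differentiable (by norm_num) p
      have dmu := (contDiff_lrMu (sg := sg) (d := d) hP hχ hB).differentiable (by norm_num) p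
      have dnu := (contDiff_lrNu (sg := sg) (d := d) hP hχ hB).differentiable (by norm_num) p
      have dlam := (contDiff_lrLam (δ := δ) (sg := sg) (d := d) hP hχ h.a_smooth hB).differentiable
        (by norm_num) p
      have bA : |a p / δ - (P p ^ 2 + p.2 ^ 2 - 1 / 4)| ≤ 1 / 1000 := by
        have := h.a_bd p hpd
        have e : a p / δ - (P p ^ 2 + p.2 ^ 2 - 1 / 4)
          = (a p - δ * (P p ^ 2 + p.2 ^ 2 - 1 / 4)) / δ := by (clear * - hδ; field_simp)
        rw [e, abs_div, abs_of_pos hδ, div_le_iff₀ hδ]; linarith only [this]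
      have bAX : |XX P a p / δ - 2 * P p| ≤ 1 / 1000 := by
        have := h.aX_bd p hpd
        have e : XX P a p / δ - 2 * P p = (XX P a p - 2 * δ * P p) / δ := by (clear * - hδ; field_simp)
        rw [e, abs_div, abs_of_pos hδ, div_le_iff₀ hδ]; linarith only [this]
      have bAY : |YY P a p / δ - 2 * p.2| ≤ 1 / 1000 := by
        have := h.aY_bd p hpd
        have e : YY P a p / δ - 2 * p.2 = (YY P a p - 2 * δ * p.2) / δ := by (clear * - hδ; field_simp)
        rw [e, abs_div, abs_of_pos hδ, div_le_iff₀ hδ]; linarith only [this]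
      have key := lr_pointwise (c := χ p) (m := mu0 B (lrs P sg d p)) (w := mu1 B (lrs P sg d p))
        (w1 := mu2 B (lrs P sg d p)) (A := a p / δ) (AX := XX P a p / δ) (AY := YY P a p / δ)
        (Pp := P p) (t := p.2) (sg := sg) (α := α p) (αX := XX P α p) (αY := YY P α p)
        (e1 := e1 p) (e2 := e2 p) (p := XX P v p) (q := YY P v p) (v := v p)
        (cX := XX P χ p) (cY := YY P χ p) (δ := δ) (B := B) (E := Real.exp (-Real.sqrt (B / δ)))
        hχp hδ h.δ_small hB hB1 (mu0_nonneg _ _) (mu0_le_mu1 hB _) (mu1_le hB hB1 hs1)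
        (mu1_sq_le hB hB1 hs1) (mu2_sq_le hB hB1 hs1) (mu1_le_or hB hB1 hδ h.δ_small hs1) hE
        bA bAX bAY hsg (by linarith only [hd, hds]) (hP.abs_le hpd) (abs_snd_le hpd) (hP.sq_add_sq_le hpd)
        (h.α_bd p hpd) (h.αX_bd p hpd) (h.αY_bd p hpd) (h.e1_bd p hpd) (h.e2_bd p hpd)
      have ha' : δ * (a p / δ) = a p := by (clear * - hδ; field_simp)
      have haX' : δ * (XX P a p / δ) = XX P a p := by (clear * - hδ; field_simp)
      have haY' : δ * (YY P a p / δ) = YY P a p := by (clear * - hδ; field_simp)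
      rw [ha', haX', haY'] at key
      have key' : 1 / 60 * (χ p * mu0 B (lrs P sg d p) * (YY P v p ^ 2 + δ * XX P v p ^ 2)) ≤
          -lrG P v a α e1 e2 χ δ sg d B p + 10 ^ 7 / B ^ 4 * (χ p * v p ^ 2)
          + 60 / B * ((|XX P χ p| + |YY P χ p|) * (XX P v p ^ 2 + YY P v p ^ 2 + v p ^ 2))
          + 1 / B * Real.exp (-Real.sqrt (B / δ)) * (χ p * XX P v p ^ 2) := by
        refine key.trans (le_of_eq ?_)
        unfold lrG
        rw [XX_mul dα dnu, YY_mul dnu da, YY_mul dα dmu, YY_mul dα dlam,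
          XX_lrMu hP hχ hB hsg2, YY_lrMu hP hχ hB, XX_lrNu hP hχ hB, YY_lrNu hP hχ hB,
          XX_lrLam hP hχ h.a_smooth hB, YY_lrLam hP hχ h.a_smooth hB]
        unfold lrMu lrNu lrLam
        ring
      have es : lrs P sg d p = sg * P p - d := rfl
      rw [es] at key'
      have r1 : 60 * 10 ^ 7 / B ^ 4 * (χ p * v p ^ 2) = 60 * (10 ^ 7 / B ^ 4 * (χ p * v p ^ 2)) := by
        ring
      have r2 : 3600 / B * ((|XX P χ p| + |YY P χ p|) * (XX P v p ^ 2 + YY P v p ^ 2 + v p ^ 2))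
        = 60 * (60 / B * ((|XX P χ p| + |YY P χ p|) * (XX P v p ^ 2 + YY P v p ^ 2 + v p ^ 2))) := by
        ring
      have r3 : 60 / B * Real.exp (-Real.sqrt (B / δ)) * (χ p * XX P v p ^ 2)
        = 60 * (1 / B * Real.exp (-Real.sqrt (B / δ)) * (χ p * XX P v p ^ 2)) := by
        ring
      rw [r1, r2, r3]
      linarith only [key']
    · have hnm : p ∉ {p | d < sg * P p} := hds
      rw [indicator_of_notMem hnm, indicator_of_notMem hnm]
      have hs : lrs P sg d p ≤ 0 := by unfold lrs; linarith only [hds]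
      have m0 := mu0_eq_zero (B := B) hs
      have m1 := mu1_eq_zero (B := B) hs
      have m2 := mu2_eq_zero (B := B) hs
      have hG : lrG P v a α e1 e2 χ δ sg d B p = 0 := by
        have dα := h.α_smooth.differentiable (by norm_num) p
        have da := h.a_smooth.differentiable (by norm_num) p
        have dmu := (contDiff_lrMu (sg := sg) (d := d) hP hχ hB).differentiable (by norm_num) p
        have dnu := (contDiff_lrNu (sg := sg) (d := d) hP hχ hB).differentiable (by norm_num) p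
        have dlam := (contDiff_lrLam (δ := δ) (sg := sg) (d := d) hP hχ h.a_smooth hB).differentiable
          (by norm_num) p
        unfold lrG
        rw [XX_mul dα dnu, YY_mul dnu da, YY_mul dα dmu, YY_mul dα dlam,
          XX_lrMu hP hχ hB hsg2, YY_lrMu hP hχ hB, XX_lrNu hP hχ hB, YY_lrNu hP hχ hB,
          XX_lrLam hP hχ h.a_smooth hB, YY_lrLam hP hχ h.a_smooth hB]
        unfold lrMu lrNu lrLam
        rw [m0, m1, m2]
        ring
      have es : lrs P sg d p = sg * P p - d := rfl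
      rw [es] at m0
      rw [m0, hG]
      have : 0 ≤ 60 / B * Real.exp (-Real.sqrt (B / δ)) * (χ p * (XX P v p) ^ 2) := by (clear * - hB hχp; positivity)
      linarith only [this]
  · have z0 : χ p = 0 := image_eq_zero_of_notMem_tsupport hp
    have z1 : XX P χ p = 0 := XX_eq_zero_of_notMem_tsupport hp
    have z2 : YY P χ p = 0 := YY_eq_zero_of_notMem_tsupport hp
    rw [lrG_eq_zero hp, z0]
    by_cases hds : p ∈ {p | d < sg * P p}
    · rw [indicator_of_mem hds, indicator_of_mem hds, z0, z1, z2]; simp only [zero_mul, mul_zero, abs_zero, add_zero, Std.le_refl]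
    · rw [indicator_of_notMem hds, indicator_of_notMem hds]; simp only [zero_mul, mul_zero, add_zero, Std.le_refl]

end

/-- The left/right lemma. -/
theorem left_right : ∃ C : ℝ, 0 < C ∧ ∀ (P v a α e1 e2 F : Pl → ℝ) (δ : ℝ),
    PairEq P v a α e1 e2 F δ → ∀ sg : ℝ, (sg = 1 ∨ sg = -1) → ∀ d : ℝ, 0 ≤ d →
    ∀ B : ℝ, 0 < B → B ≤ 1 → ∀ χ : Pl → ℝ, ContDiff ℝ 1 χ → (∀ p, 0 ≤ χ p ∧ χ p ≤ 1) →
    tsupport χ ⊆ {p | rho2 p < 0.64} → (∀ p ∈ tsupport χ, d < sg * P p → F p = 0) →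
    ∫ p, χ p * mu0 B (sg * P p - d) * ((YY P v p) ^ 2 + δ * (XX P v p) ^ 2) * dx P p
    ≤ C * ((1 / B ^ 4) * (∫ p in {p | d < sg * P p}, χ p * (v p) ^ 2 * dx P p)
        + (1 / B) * (∫ p in {p | d < sg * P p}, (|XX P χ p| + |YY P χ p|)
            * ((XX P v p) ^ 2 + (YY P v p) ^ 2 + (v p) ^ 2) * dx P p)
        + (1 / B) * Real.exp (-Real.sqrt (B / δ)) * ∫ p, χ p * (XX P v p) ^ 2 * dx P p) := by
  refine ⟨60 * 10 ^ 7, by norm_num, ?_⟩
  intro P v a α e1 e2 F δ h sg hsg d hd B hB hB1 χ hχ hχ0 sχ hF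
  have hP := h.frame
  have cχ : HasCompactSupport χ := hasCompactSupport_of_tsupport_subset_disc sχ
  have c1 : Continuous (XX P v) := (contDiff_XX (m := 1) hP h.v_smooth (by norm_num) (by norm_num)).continuous
  have c2 : Continuous (YY P v) := (contDiff_YY (m := 1) hP h.v_smooth (by norm_num) (by norm_num)).continuous
  have c3 : Continuous (XX P χ) := (contDiff_XX (m := 0) hP hχ (by norm_num) (by norm_num)).continuous
  have c4 : Continuous (YY P χ) := (contDiff_YY (m := 0) hP hχ (by norm_num) (by norm_num)).continuous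
  have cdx : Continuous (dx P) := (hP.contDiff_dx (m := 0) (by norm_num)).continuous
  have cv := h.v_smooth.continuous
  have cP := hP.smooth.continuous
  have cm : Continuous (fun p => mu0 B (sg * P p - d)) :=
    (contDiff_mu0 hB).continuous.comp ((continuous_const.mul cP).sub continuous_const)
  have cχ' := hχ.continuous
  set U : Set Pl := {p | d < sg * P p} with hU
  have mU : MeasurableSet U := (isOpen_lt continuous_const (continuous_const.mul cP)).measurableSet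
  -- the integrable pieces
  have i1 : Integrable (fun p => χ p * (v p) ^ 2 * dx P p) volume := by
    apply Continuous.integrable_of_hasCompactSupport (by fun_prop)
    exact HasCompactSupport.intro cχ fun p hp => by simp [image_eq_zero_of_notMem_tsupport hp]
  have i2 : Integrable (fun p => (|XX P χ p| + |YY P χ p|)
            * ((XX P v p) ^ 2 + (YY P v p) ^ 2 + (v p) ^ 2) * dx P p) volume := by
    apply Continuous.integrable_of_hasCompactSupport (by fun_prop)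
    exact HasCompactSupport.intro cχ fun p hp => by
      simp [XX_eq_zero_of_notMem_tsupport hp, YY_eq_zero_of_notMem_tsupport hp]
  have i3 : Integrable (fun p => χ p * (XX P v p) ^ 2 * dx P p) volume := by
    apply Continuous.integrable_of_hasCompactSupport (by fun_prop)
    exact HasCompactSupport.intro cχ fun p hp => by simp [image_eq_zero_of_notMem_tsupport hp]
  have i4 : Integrable (fun p => lrG P v a α e1 e2 χ δ sg d B p * dx P p) volume := by
    apply Continuous.integrable_of_hasCompactSupport ((continuous_lrG h hχ hB).mul cdx)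
    exact HasCompactSupport.intro cχ fun p hp => by
      rw [Pi.mul_apply, lrG_eq_zero hp, zero_mul]
  have i0 : Integrable (fun p => χ p * mu0 B (sg * P p - d) * ((YY P v p) ^ 2
      + δ * (XX P v p) ^ 2) * dx P p) volume := by
    apply Continuous.integrable_of_hasCompactSupport (by fun_prop)
    exact HasCompactSupport.intro cχ fun p hp => by simp [image_eq_zero_of_notMem_tsupport hp]
  set E := Real.exp (-Real.sqrt (B / δ)) with hEdef
  have hle : ∀ p, χ p * mu0 B (sg * P p - d) * ((YY P v p) ^ 2 + δ * (XX P v p) ^ 2) * dx P p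
      ≤ -60 * (lrG P v a α e1 e2 χ δ sg d B p * dx P p)
        + (60 * 10 ^ 7 / B ^ 4 * U.indicator (fun p => χ p * (v p) ^ 2 * dx P p) p
          + 3600 / B * U.indicator (fun p => (|XX P χ p| + |YY P χ p|)
            * ((XX P v p) ^ 2 + (YY P v p) ^ 2 + (v p) ^ 2) * dx P p) p
          + 60 / B * E * (χ p * (XX P v p) ^ 2 * dx P p)) := by
    intro p
    have hh := mul_le_mul_of_nonneg_right
      (lrG_lower h hsg hd hB hB1 hχ hχ0 sχ p) (hP.dx_pos p).le
    refine hh.trans (le_of_eq ?_)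
    by_cases hp : p ∈ U
    · rw [indicator_of_mem hp, indicator_of_mem hp, indicator_of_mem hp, indicator_of_mem hp]; ring
    · rw [indicator_of_notMem hp, indicator_of_notMem hp, indicator_of_notMem hp,
        indicator_of_notMem hp]; ring
  have j1 := i1.indicator mU
  have j2 := i2.indicator mU
  have I := integral_mono i0 ((i4.const_mul (-60)).add (((j1.const_mul (60 * 10 ^ 7 / B ^ 4)).add
    (j2.const_mul (3600 / B))).add (i3.const_mul (60 / B * E)))) hle
  have I' : ∫ p, χ p * mu0 B (sg * P p - d) * ((YY P v p) ^ 2 + δ * (XX P v p) ^ 2) * dx P p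
      ≤ -60 * (∫ p, lrG P v a α e1 e2 χ δ sg d B p * dx P p)
        + (60 * 10 ^ 7 / B ^ 4 * (∫ p in U, χ p * (v p) ^ 2 * dx P p)
          + 3600 / B * (∫ p in U, (|XX P χ p| + |YY P χ p|)
            * ((XX P v p) ^ 2 + (YY P v p) ^ 2 + (v p) ^ 2) * dx P p)
          + 60 / B * E * (∫ p, χ p * (XX P v p) ^ 2 * dx P p)) := by
    refine I.trans (le_of_eq ?_)
    rw [← integral_indicator mU, ← integral_indicator mU, ← integral_const_mul, ← integral_const_mul,
      ← integral_const_mul, ← integral_const_mul]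
    rw [← integral_add (j1.const_mul _) (j2.const_mul _)]
    have j12 : Integrable (fun p => 60 * 10 ^ 7 / B ^ 4 * U.indicator (fun p => χ p * (v p) ^ 2 * dx P p) p
      + 3600 / B * U.indicator (fun p => (|XX P χ p| + |YY P χ p|)
            * ((XX P v p) ^ 2 + (YY P v p) ^ 2 + (v p) ^ 2) * dx P p) p) volume :=
      (j1.const_mul _).add (j2.const_mul _)
    rw [← integral_add j12 (i3.const_mul _)]
    have j123 := j12.add (i3.const_mul (60 / B * E))
    exact integral_add (i4.const_mul (-60)) j123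
  rw [integral_lrG h hχ hB sχ hF, mul_zero, zero_add] at I'
  refine I'.trans ?_
  have n1 : 0 ≤ ∫ p in U, χ p * (v p) ^ 2 * dx P p := by
    apply integral_nonneg; intro p
    have := (hχ0 p).1; have := hP.dx_pos p; (clear sg hsg d hd B hB hB1 hχ sχ hF cχ c1 c2 c3 c4 cdx cv cP cm cχ' U hU mU i1 i2 i3 i4 i0 E hEdef hle j1 j2 I I'; positivity)
  have n2 : 0 ≤ ∫ p in U, (|XX P χ p| + |YY P χ p|)
            * ((XX P v p) ^ 2 + (YY P v p) ^ 2 + (v p) ^ 2) * dx P p := by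
    apply integral_nonneg; intro p
    have := hP.dx_pos p; (clear * - this; positivity)
  have n3 : 0 ≤ ∫ p, χ p * (XX P v p) ^ 2 * dx P p := by
    apply integral_nonneg; intro p
    have := (hχ0 p).1; have := hP.dx_pos p; (clear sg hsg d hd B hB hB1 hχ sχ hF cχ c1 c2 c3 c4 cdx cv cP cm cχ' U hU mU i1 i2 i3 i4 i0 E hEdef hle j1 j2 I I' n1 n2; positivity)
  have hE0 : 0 ≤ E := (Real.exp_pos _).le
  have g2 : 3600 / B * (∫ p in U, (|XX P χ p| + |YY P χ p|)
            * ((XX P v p) ^ 2 + (YY P v p) ^ 2 + (v p) ^ 2) * dx P p)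
      ≤ 60 * 10 ^ 7 * ((1 / B) * (∫ p in U, (|XX P χ p| + |YY P χ p|)
            * ((XX P v p) ^ 2 + (YY P v p) ^ 2 + (v p) ^ 2) * dx P p)) := by
    have : 0 ≤ (1 / B) * (∫ p in U, (|XX P χ p| + |YY P χ p|)
            * ((XX P v p) ^ 2 + (YY P v p) ^ 2 + (v p) ^ 2) * dx P p) := by (clear * - hB n2; positivity)
    have e : 3600 / B * (∫ p in U, (|XX P χ p| + |YY P χ p|)
            * ((XX P v p) ^ 2 + (YY P v p) ^ 2 + (v p) ^ 2) * dx P p)
        = 3600 * ((1 / B) * (∫ p in U, (|XX P χ p| + |YY P χ p|)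
            * ((XX P v p) ^ 2 + (YY P v p) ^ 2 + (v p) ^ 2) * dx P p)) := by ring
    rw [e]; gcongr; norm_num
  have g3 : 60 / B * E * (∫ p, χ p * (XX P v p) ^ 2 * dx P p)
      ≤ 60 * 10 ^ 7 * ((1 / B) * E * (∫ p, χ p * (XX P v p) ^ 2 * dx P p)) := by
    have : 0 ≤ (1 / B) * E * (∫ p, χ p * (XX P v p) ^ 2 * dx P p) := by (clear * - hB n3; positivity)
    have e : 60 / B * E * (∫ p, χ p * (XX P v p) ^ 2 * dx P p)
        = 60 * ((1 / B) * E * (∫ p, χ p * (XX P v p) ^ 2 * dx P p)) := by ring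
    rw [e]; gcongr; norm_num
  have g1 : 60 * 10 ^ 7 / B ^ 4 * (∫ p in U, χ p * (v p) ^ 2 * dx P p)
      = 60 * 10 ^ 7 * ((1 / B ^ 4) * (∫ p in U, χ p * (v p) ^ 2 * dx P p)) := by ring
  rw [g1]
  linarith only [g2, g3]

end Vale.Agent.P229.D
end
end

section

section

/-!
# P229, disproof, task T6: one stage, `H¹ ← L²` (`PROOF.md`, §8)
-/

open scoped ContDiff Topology
open MeasureTheory Set

namespace Vale.Agent.P229.D

/-! ### radial cutoffs -/

theorem st_tr_deriv_zero {x : ℝ} (hx : x ≤ 0) : deriv Real.smoothTransition x = 0 := by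
  apply IsLocalMin.deriv_eq_zero
  refine Filter.Eventually.of_forall fun y => ?_
  rw [Real.smoothTransition.zero_of_nonpos hx]
  exact Real.smoothTransition.nonneg y

theorem st_tr_deriv_one {x : ℝ} (hx : 1 ≤ x) : deriv Real.smoothTransition x = 0 := by
  apply IsLocalMax.deriv_eq_zero
  refine Filter.Eventually.of_forall fun y => ?_
  rw [Real.smoothTransition.one_of_one_le hx]
  exact Real.smoothTransition.le_one y

theorem st_tr_deriv_bd : ∃ K : ℝ, 1 ≤ K ∧ ∀ x, |deriv Real.smoothTransition x| ≤ K := by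
  have hc : Continuous (deriv Real.smoothTransition) :=
    (Real.smoothTransition.contDiff (n := 1)).continuous_deriv le_rfl
  obtain ⟨C, hC⟩ := (isCompact_Icc (a := (0 : ℝ)) (b := 1)).exists_bound_of_continuousOn
    hc.continuousOn
  refine ⟨max C 1, le_max_right _ _, fun x => ?_⟩
  rcases le_or_gt x 0 with h0 | h0
  · rw [st_tr_deriv_zero h0, abs_zero]
    exact le_trans zero_le_one (le_max_right _ _)
  · rcases le_or_gt 1 x with h1 | h1
    · rw [st_tr_deriv_one h1, abs_zero]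
      exact le_trans zero_le_one (le_max_right _ _)
    · exact (hC x ⟨h0.le, h1.le⟩).trans (le_max_left _ _)

/-- radial cutoff -/
noncomputable def stR (s c w : ℝ) (p : Pl) : ℝ := Real.smoothTransition ((s * rho2 p - c) / w)

theorem st_contDiff_rho2 : ContDiff ℝ ∞ rho2 :=
  (contDiff_fst.pow 2).add (contDiff_snd.pow 2)

theorem stR_contDiff (s c w : ℝ) : ContDiff ℝ 1 (stR s c w) := by
  have h1 : ContDiff ℝ 1 (fun p : Pl => (s * rho2 p - c) / w) :=
    ((contDiff_const.mul (st_contDiff_rho2.of_le (by norm_num))).sub contDiff_const).div_const w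
  exact (Real.smoothTransition.contDiff (n := 1)).comp h1

theorem stR_nonneg (s c w : ℝ) (p : Pl) : 0 ≤ stR s c w p := Real.smoothTransition.nonneg _

theorem stR_le_one (s c w : ℝ) (p : Pl) : stR s c w p ≤ 1 := Real.smoothTransition.le_one _

theorem stR_zero {s c w : ℝ} {p : Pl} (hw : 0 < w) (h : s * rho2 p ≤ c) : stR s c w p = 0 :=
  Real.smoothTransition.zero_of_nonpos (div_nonpos_of_nonpos_of_nonneg (by linarith) hw.le)

theorem stR_one {s c w : ℝ} {p : Pl} (hw : 0 < w) (h : c + w ≤ s * rho2 p) : stR s c w p = 1 :=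
  Real.smoothTransition.one_of_one_le (by rw [one_le_div hw]; linarith)

theorem st_hasFDerivAt_rho2 (p : Pl) : HasFDerivAt rho2
    ((2 * p.1) • ContinuousLinearMap.fst ℝ ℝ ℝ + (2 * p.2) • ContinuousLinearMap.snd ℝ ℝ ℝ) p := by
  have h1 : HasFDerivAt (fun q : Pl => q.1 ^ 2) ((2 * p.1) • ContinuousLinearMap.fst ℝ ℝ ℝ) p := by
    have := (hasFDerivAt_fst (𝕜 := ℝ) (p := p)).pow 2
    simpa only [Nat.add_one_sub_one, pow_one, nsmul_eq_mul, Nat.cast_ofNat] using this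
  have h2 : HasFDerivAt (fun q : Pl => q.2 ^ 2) ((2 * p.2) • ContinuousLinearMap.snd ℝ ℝ ℝ) p := by
    have := (hasFDerivAt_snd (𝕜 := ℝ) (p := p)).pow 2
    simpa only [Nat.add_one_sub_one, pow_one, nsmul_eq_mul, Nat.cast_ofNat] using this
  exact h1.add h2

theorem stR_hasFDerivAt (s c w : ℝ) (p : Pl) : HasFDerivAt (stR s c w)
    ((deriv Real.smoothTransition ((s * rho2 p - c) / w)) • ((s / w) •
      ((2 * p.1) • ContinuousLinearMap.fst ℝ ℝ ℝ +
        (2 * p.2) • ContinuousLinearMap.snd ℝ ℝ ℝ))) p := by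
  have h1 : HasFDerivAt (fun q : Pl => (s * rho2 q - c) / w) ((s / w) •
      ((2 * p.1) • ContinuousLinearMap.fst ℝ ℝ ℝ +
        (2 * p.2) • ContinuousLinearMap.snd ℝ ℝ ℝ)) p := by
    have h2 := (((st_hasFDerivAt_rho2 p).const_mul s).sub_const c).const_mul (w⁻¹)
    have e1 : (fun q : Pl => w⁻¹ * (s * rho2 q - c)) = fun q => (s * rho2 q - c) / w := by
      funext q; ring
    have e2 : w⁻¹ * s = s / w := by ring
    rw [e1, smul_smul, e2] at h2
    exact h2
  have h3 : HasDerivAt Real.smoothTransition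
      (deriv Real.smoothTransition ((s * rho2 p - c) / w)) ((s * rho2 p - c) / w) :=
    (((Real.smoothTransition.contDiff (n := 1)).differentiable one_ne_zero) _).hasDerivAt
  exact h3.comp_hasFDerivAt p h1

theorem stR_dx_bd {K s c w : ℝ} (hK : ∀ x, |deriv Real.smoothTransition x| ≤ K)
    (hs : |s| = 1) (hw : 0 < w) {p : Pl} (hp : rho2 p ≤ 1) :
    |dx (stR s c w) p| ≤ 2 * K / w ∧ |dt (stR s c w) p| ≤ 2 * K / w := by
  have hK0 : 0 ≤ K := (abs_nonneg _).trans (hK 0)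
  have h1 : |p.1| ≤ 1 := by
    unfold rho2 at hp
    exact abs_le_of_sq_le_sq' (by linarith only [hp, sq_nonneg p.2]) zero_le_one |> abs_le.2
  have h2 : |p.2| ≤ 1 := by
    unfold rho2 at hp
    exact abs_le_of_sq_le_sq' (by linarith only [hp, sq_nonneg p.1]) zero_le_one |> abs_le.2
  have key : ∀ y : ℝ, |y| ≤ 1 →
      |deriv Real.smoothTransition ((s * rho2 p - c) / w) * (s / w * (2 * y))| ≤ 2 * K / w := by
    intro y hy
    rw [abs_mul, abs_mul, abs_div, hs, abs_of_pos hw, abs_mul, abs_two]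
    have h3 : 1 / w * (2 * |y|) ≤ 2 / w := by
      rw [one_div_mul_eq_div]
      exact div_le_div_of_nonneg_right (by linarith) hw.le
    calc _ ≤ K * (2 / w) := mul_le_mul (hK _) h3 (by positivity) hK0
      _ = 2 * K / w := by ring
  constructor
  · unfold dx
    rw [(stR_hasFDerivAt s c w p).fderiv]
    simpa only [smul_add, add_apply, smul_apply, ContinuousLinearMap.coe_fst', smul_eq_mul, mul_one,     ContinuousLinearMap.coe_snd', mul_zero, add_zero, abs_mul, Nat.abs_ofNat] using key p.1 h1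
  · unfold dt
    rw [(stR_hasFDerivAt s c w p).fderiv]
    simpa only [smul_add, add_apply, smul_apply, ContinuousLinearMap.coe_fst', smul_eq_mul, mul_zero,     ContinuousLinearMap.coe_snd', mul_one, zero_add, abs_mul, Nat.abs_ofNat] using key p.2 h2

theorem st_deriv_of_min {f : Pl → ℝ} {p : Pl} (h : ∀ q, f p ≤ f q) :
    dx f p = 0 ∧ dt f p = 0 := by
  have h1 : fderiv ℝ f p = 0 := IsLocalMin.fderiv_eq_zero (Filter.Eventually.of_forall h)
  unfold dx dt
  rw [h1]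
  simp

theorem st_deriv_of_max {f : Pl → ℝ} {p : Pl} (h : ∀ q, f q ≤ f p) :
    dx f p = 0 ∧ dt f p = 0 := by
  have h1 : fderiv ℝ f p = 0 := IsLocalMax.fderiv_eq_zero (Filter.Eventually.of_forall h)
  unfold dx dt
  rw [h1]
  simp

/-! ### integration -/

theorem st_mem_ball {p : Pl} (hp : rho2 p ≤ 1) : p ∈ Metric.closedBall (0 : Pl) 1 := by
  have h1 : |p.1| ≤ 1 := by
    unfold rho2 at hp
    exact abs_le_of_sq_le_sq' (by linarith only [hp, sq_nonneg p.2]) zero_le_one |> abs_le.2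
  have h2 : |p.2| ≤ 1 := by
    unfold rho2 at hp
    exact abs_le_of_sq_le_sq' (by linarith only [hp, sq_nonneg p.1]) zero_le_one |> abs_le.2
  rw [mem_closedBall_zero_iff, Prod.norm_def]
  exact max_le h1 h2

theorem st_hasCompactSupport {f : Pl → ℝ} (h : ∀ p, 1 ≤ rho2 p → f p = 0) :
    HasCompactSupport f := by
  refine HasCompactSupport.of_support_subset_isCompact (isCompact_closedBall (0 : Pl) 1) ?_
  intro p hp
  by_contra hc
  apply hp
  apply h
  by_contra h1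
  exact hc (st_mem_ball (by linarith))

theorem st_integrable {f : Pl → ℝ} (hf : Continuous f) (h : ∀ p, 1 ≤ rho2 p → f p = 0) :
    Integrable f :=
  hf.integrable_of_hasCompactSupport (st_hasCompactSupport h)

theorem st_integrableOn {f : Pl → ℝ} (hf : Continuous f) {S : Set Pl}
    (hS : ∀ p ∈ S, rho2 p ≤ 1) : IntegrableOn f S :=
  (hf.continuousOn.integrableOn_compact (isCompact_closedBall (0 : Pl) 1)).mono_set
    fun p hp => st_mem_ball (hS p hp)

theorem st_int_le {f g : Pl → ℝ} {S : Set Pl} (hS : MeasurableSet S) (hf : Integrable f)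
    (hg : IntegrableOn g S) (h0 : ∀ p ∉ S, f p ≤ 0) (h1 : ∀ p ∈ S, f p ≤ g p) :
    ∫ p, f p ≤ ∫ p in S, g p := by
  rw [← integral_indicator hS]
  refine integral_mono hf (hg.integrable_indicator hS) fun p => ?_
  by_cases hp : p ∈ S
  · rw [indicator_of_mem hp]; exact h1 p hp
  · rw [indicator_of_notMem hp]; exact h0 p hp

theorem st_set_le {f g : Pl → ℝ} {S : Set Pl} (hS : MeasurableSet S) (hf : IntegrableOn f S)
    (hg : Integrable g) (h0 : ∀ p, 0 ≤ g p) (h1 : ∀ p ∈ S, f p ≤ g p) :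
    ∫ p in S, f p ≤ ∫ p, g p :=
  (setIntegral_mono_on hf hg.integrableOn hS h1).trans
    (setIntegral_le_integral hg (Filter.Eventually.of_forall h0))

theorem st_frame_cont {P : Pl → ℝ} (hP : Frame P) : Continuous (dx P) :=
  (contDiff_dx (m := 0) (hP.smooth.of_le (by norm_num) : ContDiff ℝ 1 P) (by norm_num)).continuous

theorem st_XX_cont {P f : Pl → ℝ} (hP : Frame P) (hf : ContDiff ℝ 1 f) : Continuous (XX P f) :=
  (contDiff_XX (m := 0) hP hf (by norm_num) (by norm_num)).continuous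

theorem st_YY_cont {P f : Pl → ℝ} (hP : Frame P) (hf : ContDiff ℝ 1 f) : Continuous (YY P f) :=
  (contDiff_YY (m := 0) hP hf (by norm_num) (by norm_num)).continuous

theorem st_XY_zero {P f : Pl → ℝ} {p : Pl} (h : dx f p = 0 ∧ dt f p = 0) :
    XX P f p = 0 ∧ YY P f p = 0 := by
  unfold XX YY
  rw [h.1, h.2]
  simp

/-- right-hand side of the ring estimate -/
theorem st_ring_rhs {P v ζ : Pl → ℝ} (hP : Frame P) (hv : Continuous v) (hζ : ContDiff ℝ 1 ζ)
    {S : Set Pl} (hS : MeasurableSet S) (hSb : ∀ p ∈ S, rho2 p < 1) (h1 : ∀ p, |ζ p| ≤ 1)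
    {G : ℝ} (hG : ∀ p ∈ S, dx ζ p ^ 2 + dt ζ p ^ 2 ≤ G)
    (h0 : ∀ p ∉ S, ζ p = 0 ∧ dx ζ p = 0 ∧ dt ζ p = 0) :
    ∫ p, (ζ p ^ 2 + XX P ζ p ^ 2 + YY P ζ p ^ 2) * v p ^ 2 * dx P p ≤
      2 * (1 + 2 * G) * ∫ p in S, v p ^ 2 := by
  have cX := st_XX_cont hP hζ
  have cY := st_YY_cont hP hζ
  have cJ := st_frame_cont hP
  have hG0 : ∀ p ∈ S, 0 ≤ G := fun p hp => le_trans (by (clear * -; positivity)) (hG p hp)
  have e1 : 2 * (1 + 2 * G) * ∫ p in S, v p ^ 2 = ∫ p in S, 2 * (1 + 2 * G) * v p ^ 2 := by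
    rw [integral_const_mul]
  rw [e1]
  have hz : ∀ p ∉ S, (ζ p ^ 2 + XX P ζ p ^ 2 + YY P ζ p ^ 2) * v p ^ 2 * dx P p = 0 := by
    intro p hp
    obtain ⟨h2, h3⟩ := h0 p hp
    obtain ⟨h4, h5⟩ := st_XY_zero (P := P) h3
    rw [h2, h4, h5]
    simp
  refine st_int_le hS (st_integrable (by (clear * - hζ cX cY hv cJ; fun_prop)) fun p hp => ?_) ?_ ?_ ?_
  · exact hz p fun h => absurd (hSb p h) (by linarith)
  · exact st_integrableOn (by fun_prop) fun p hp => (hSb p hp).le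
  · intro p hp
    exact (hz p hp).le
  · intro p hp
    have h2 := frame_le_grad hP ζ p
    have h3 := hG p hp
    have h4 := hP.dx_le p
    have h5 := hP.le_dx p
    have h6 : ζ p ^ 2 ≤ 1 := by
      rw [← sq_abs]
      exact pow_le_one₀ (abs_nonneg _) (h1 p)
    have h7 : ζ p ^ 2 + XX P ζ p ^ 2 + YY P ζ p ^ 2 ≤ 1 + 2 * G := by linarith only [h2, h3, h6]
    have h8 := hG0 p hp
    calc (ζ p ^ 2 + XX P ζ p ^ 2 + YY P ζ p ^ 2) * v p ^ 2 * dx P p ≤
        (1 + 2 * G) * v p ^ 2 * 2 := by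
          refine mul_le_mul ?_ (by linarith only [h4]) (by linarith only [h5]) (by (clear * - h8; positivity))
          exact mul_le_mul_of_nonneg_right h7 (sq_nonneg _)
      _ = 2 * (1 + 2 * G) * v p ^ 2 := by ring

theorem st_set_int_le {f g : Pl → ℝ} {A S : Set Pl} (hA : MeasurableSet A)
    (hS : MeasurableSet S) (hf : IntegrableOn f A) (hg : IntegrableOn g S)
    (h0 : ∀ p ∈ A, p ∉ S → f p ≤ 0) (hg0 : ∀ p ∈ S, 0 ≤ g p)
    (h1 : ∀ p ∈ A, p ∈ S → f p ≤ g p) : ∫ p in A, f p ≤ ∫ p in S, g p := by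
  rw [← integral_indicator hS, ← integral_indicator hA]
  refine integral_mono (hf.integrable_indicator hA) (hg.integrable_indicator hS) fun p => ?_
  by_cases hp : p ∈ S
  · rw [indicator_of_mem hp]
    by_cases hq : p ∈ A
    · rw [indicator_of_mem hq]; exact h1 p hq hp
    · rw [indicator_of_notMem hq]; exact hg0 p hp
  · rw [indicator_of_notMem hp]
    by_cases hq : p ∈ A
    · rw [indicator_of_mem hq]; exact h0 p hq hp
    · rw [indicator_of_notMem hq]

theorem st_half_meas {P : Pl → ℝ} (hP : Frame P) (sg d : ℝ) :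
    MeasurableSet {p : Pl | d < sg * P p} :=
  (isOpen_lt continuous_const (continuous_const.mul hP.smooth.continuous)).measurableSet

/-- first term of the left/right lemma -/
theorem st_T1 {P v χ : Pl → ℝ} (hP : Frame P) (hv : Continuous v) (hχ : Continuous χ)
    {S : Set Pl} (hS : MeasurableSet S) (hSb : ∀ p ∈ S, rho2 p < 1) (sg d : ℝ)
    (h0 : ∀ p, 0 ≤ χ p) (h1 : ∀ p, χ p ≤ 1) (hout : ∀ p, 1 ≤ rho2 p → χ p = 0)
    (hin : ∀ p, d < sg * P p → χ p ≠ 0 → p ∈ S) :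
    ∫ p in {p | d < sg * P p}, χ p * (v p) ^ 2 * dx P p ≤ 2 * ∫ p in S, v p ^ 2 := by
  have cJ := st_frame_cont hP
  have e1 : 2 * ∫ p in S, v p ^ 2 = ∫ p in S, 2 * v p ^ 2 := by
    rw [integral_const_mul]
  rw [e1]
  refine st_set_int_le (st_half_meas hP sg d) hS ?_ ?_ ?_ ?_ ?_
  · refine (st_integrable (by fun_prop) fun p hp => ?_).integrableOn
    rw [hout p hp]
    ring
  · exact st_integrableOn (by fun_prop) fun p hp => (hSb p hp).le
  · intro p hp hp2
    have : χ p = 0 := by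
      by_contra hc
      exact hp2 (hin p hp hc)
    rw [this]
    simp
  · intro p _
    (clear * -; positivity)
  · intro p _ _
    have h4 := hP.dx_le p
    have h5 := hP.le_dx p
    calc χ p * v p ^ 2 * dx P p ≤ 1 * v p ^ 2 * 2 := by
          refine mul_le_mul ?_ (by linarith only [h4]) (by linarith only [h5]) (by (clear * -; positivity))
          exact mul_le_mul_of_nonneg_right (h1 p) (sq_nonneg _)
      _ = 2 * v p ^ 2 := by ring

/-- second term of the left/right lemma -/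
theorem st_T2 {P v χ ζ : Pl → ℝ} (hP : Frame P) (hv : ContDiff ℝ 1 v) (hχ : ContDiff ℝ 1 χ)
    (hζ : Continuous ζ) {S : Set Pl} (hS : MeasurableSet S) (hSb : ∀ p ∈ S, rho2 p < 1)
    (sg d : ℝ) {δ H : ℝ} (hδ : 0 < δ) (hδ1 : δ ≤ 1) (hH : 0 ≤ H) (hζ1 : ∀ p, |ζ p| ≤ 1)
    (hζ0 : ∀ p ∉ S, ζ p = 0) (hb : ∀ p, |XX P χ p| + |YY P χ p| ≤ H * ζ p ^ 2) :
    ∫ p in {p | d < sg * P p}, (|XX P χ p| + |YY P χ p|)
            * ((XX P v p) ^ 2 + (YY P v p) ^ 2 + (v p) ^ 2) * dx P p ≤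
      H * ((1 / δ) * (∫ p, (ζ p) ^ 2 * ((YY P v p) ^ 2 + δ * (XX P v p) ^ 2) * dx P p) +
        2 * ∫ p in S, v p ^ 2) := by
  have cX := st_XX_cont hP hv
  have cY := st_YY_cont hP hv
  have cX' := st_XX_cont hP hχ
  have cY' := st_YY_cont hP hχ
  have cv := hv.continuous
  have cJ := st_frame_cont hP
  have hout : ∀ p, 1 ≤ rho2 p → ζ p = 0 := fun p hp =>
    hζ0 p fun h => absurd (hSb p h) (by linarith only [hp])
  have i1 : Integrable fun p => (ζ p) ^ 2 * ((YY P v p) ^ 2 + δ * (XX P v p) ^ 2) * dx P p :=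
    st_integrable (by (clear * - hζ cY cX cJ; fun_prop)) fun p hp => by rw [hout p hp]; ring
  have i2 : Integrable fun p => (ζ p) ^ 2 * (v p) ^ 2 * dx P p :=
    st_integrable (by fun_prop) fun p hp => by rw [hout p hp]; ring
  have e2 : ∫ p, (ζ p) ^ 2 * (v p) ^ 2 * dx P p ≤ 2 * ∫ p in S, v p ^ 2 := by
    have e1 : 2 * ∫ p in S, v p ^ 2 = ∫ p in S, 2 * v p ^ 2 := by
      rw [integral_const_mul]
    rw [e1]
    refine st_int_le hS i2 (st_integrableOn (by fun_prop) fun p hp => (hSb p hp).le) ?_ ?_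
    · intro p hp
      rw [hζ0 p hp]
      simp
    · intro p _
      have h4 := hP.dx_le p
      have h5 := hP.le_dx p
      have h6 : ζ p ^ 2 ≤ 1 := by
        rw [← sq_abs]
        exact pow_le_one₀ (abs_nonneg _) (hζ1 p)
      calc ζ p ^ 2 * v p ^ 2 * dx P p ≤ 1 * v p ^ 2 * 2 := by
            refine mul_le_mul ?_ (by linarith only [h4]) (by linarith only [h5]) (by (clear * -; positivity))
            exact mul_le_mul_of_nonneg_right h6 (sq_nonneg _)
        _ = 2 * v p ^ 2 := by ring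
  have e3 : ∫ p in {p | d < sg * P p}, (|XX P χ p| + |YY P χ p|)
            * ((XX P v p) ^ 2 + (YY P v p) ^ 2 + (v p) ^ 2) * dx P p ≤
      ∫ p, H * ((1 / δ) * ((ζ p) ^ 2 * ((YY P v p) ^ 2 + δ * (XX P v p) ^ 2) * dx P p) +
        (ζ p) ^ 2 * (v p) ^ 2 * dx P p) := by
    have hJ : ∀ p, 0 ≤ dx P p := fun p => (hP.dx_pos p).le
    have key : ∀ p, (|XX P χ p| + |YY P χ p|)
            * ((XX P v p) ^ 2 + (YY P v p) ^ 2 + (v p) ^ 2) * dx P p ≤
        H * ((1 / δ) * ((ζ p) ^ 2 * ((YY P v p) ^ 2 + δ * (XX P v p) ^ 2) * dx P p) +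
        (ζ p) ^ 2 * (v p) ^ 2 * dx P p) := by
      intro p
      have h1 : (XX P v p) ^ 2 + (YY P v p) ^ 2 + (v p) ^ 2 ≤
          (1 / δ) * ((YY P v p) ^ 2 + δ * (XX P v p) ^ 2) + (v p) ^ 2 := by
        have h2 : (1 / δ) * ((YY P v p) ^ 2 + δ * (XX P v p) ^ 2) =
            (1 / δ) * (YY P v p) ^ 2 + (XX P v p) ^ 2 := by
          (clear * - hδ; field_simp)
        have h3 : (1 : ℝ) ≤ 1 / δ := by rw [one_le_div hδ]; exact hδ1
        have h4 := mul_le_mul_of_nonneg_right h3 (sq_nonneg (YY P v p))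
        linarith only [h2, h4]
      calc _ ≤ (H * ζ p ^ 2) * ((1 / δ) * ((YY P v p) ^ 2 + δ * (XX P v p) ^ 2) + (v p) ^ 2) *
            dx P p := by
            refine mul_le_mul_of_nonneg_right ?_ (hJ p)
            refine mul_le_mul (hb p) h1 (by (clear * -; positivity)) (by (clear * - hH; positivity))
        _ = _ := by ring
    refine st_set_le (st_half_meas hP sg d) ?_ ?_ ?_ fun p _ => key p
    · refine (st_integrable (f := fun p => (|XX P χ p| + |YY P χ p|)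
            * ((XX P v p) ^ 2 + (YY P v p) ^ 2 + (v p) ^ 2) * dx P p) ?_ fun p hp => ?_).integrableOn
      · fun_prop
      · have h1 := hb p
        rw [hout p hp] at h1
        have h2 : |XX P χ p| + |YY P χ p| = 0 := by
          have h3 := abs_nonneg (XX P χ p)
          have h4 := abs_nonneg (YY P χ p)
          linarith only [h3, h4, h1]
        rw [h2]
        ring
    · exact ((i1.const_mul _).add i2).const_mul _
    · intro p
      have := hJ p
      (clear * - hH hδ this; positivity)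
  refine e3.trans ?_
  rw [integral_const_mul, integral_add (i1.const_mul _) i2, integral_const_mul]
  exact mul_le_mul_of_nonneg_left (by linarith only [e2]) hH

/-- third term of the left/right lemma -/
theorem st_T3 {P v χ : Pl → ℝ} (hP : Frame P) (hv : ContDiff ℝ 1 v) (hχ : Continuous χ)
    (h0 : ∀ p, 0 ≤ χ p) (h1 : ∀ p, χ p ≤ 1) (hout : ∀ p, 0.64 ≤ rho2 p → χ p = 0)
    (hX : ∀ p, rho2 p < 0.64 → |XX P v p| ≤ 1) :
    ∫ p, χ p * (XX P v p) ^ 2 * dx P p ≤
      2 * (volume (Metric.closedBall (0 : Pl) 1)).toReal := by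
  have cX := st_XX_cont hP hv
  have cJ := st_frame_cont hP
  have e1 : 2 * (volume (Metric.closedBall (0 : Pl) 1)).toReal =
      ∫ p in Metric.closedBall (0 : Pl) 1, (2 : ℝ) := by
    rw [setIntegral_const, smul_eq_mul, mul_comm]
    rfl
  rw [e1]
  refine st_int_le measurableSet_closedBall (st_integrable (by fun_prop) fun p hp => ?_) ?_ ?_ ?_
  · rw [hout p (by linarith)]; ring
  · exact continuousOn_const.integrableOn_compact (isCompact_closedBall _ _)
  · intro p hp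
    have : 0.64 ≤ rho2 p := by
      by_contra hc
      exact hp (st_mem_ball (by linarith only [hc]))
    rw [hout p this]
    simp
  · intro p _
    rcases lt_or_ge (rho2 p) 0.64 with h | h
    · have h4 := hP.dx_le p
      have h5 := hP.le_dx p
      have h6 : XX P v p ^ 2 ≤ 1 := by
        rw [← sq_abs]
        exact pow_le_one₀ (abs_nonneg _) (hX p h)
      calc χ p * XX P v p ^ 2 * dx P p ≤ 1 * 1 * 2 := by
            refine mul_le_mul ?_ (by linarith only [h4]) (by linarith only [h5]) (by norm_num)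
            exact mul_le_mul (h1 p) h6 (sq_nonneg _) zero_le_one
        _ = 2 := by norm_num
    · rw [hout p h]
      simp

/-! ### the cutoffs of the stage -/

theorem st_width {J κ κ' : ℝ} (hJ : 0 ≤ J) (hκ : 0 ≤ κ) (hκ' : κ' ≤ 1)
    (h : κ + 1 / (J + 1) ≤ κ') :
    1 / (45 * (J + 1)) ≤ (0.60 + 0.03 * κ') ^ 2 - (0.60 + 0.03 * κ) ^ 2 ∧
    1 / (45 * (J + 1)) ≤ (0.78 - 0.03 * κ) ^ 2 - (0.78 - 0.03 * ((κ + κ') / 2)) ^ 2 ∧
    1 / (45 * (J + 1)) ≤ (0.78 - 0.03 * ((κ + κ') / 2)) ^ 2 - (0.78 - 0.03 * κ') ^ 2 := by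
  have h1 : 1 / (45 * (J + 1)) = (1 / (J + 1)) / 45 := by
    field_simp
  have h2 : 0 < 1 / (J + 1) := by positivity
  rw [h1]
  refine ⟨?_, ?_, ?_⟩
  · nlinarith only [h, h2, hκ]
  · nlinarith only [h, h2, hκ']
  · nlinarith only [h, h2, hκ']

theorem st_inv {K W w : ℝ} (hK : 0 ≤ K) (hW : 0 < W) (h : 1 / W ≤ w) :
    2 * K / w ≤ 2 * K * W := by
  have h1 : 0 < w := lt_of_lt_of_le (by positivity) h
  rw [div_le_iff₀ h1]
  have h2 : 1 ≤ W * w := by
    rw [div_le_iff₀ hW] at h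
    linarith
  have h3 := mul_le_mul_of_nonneg_left h2 (show 0 ≤ 2 * K by linarith only [hK])
  linarith only [h3]

/-- the ring cutoff -/
noncomputable def stZ (a0 a1 b0 bm : ℝ) (p : Pl) : ℝ :=
  stR 1 a0 (a1 - a0) p * stR (-1) (-b0) (b0 - bm) p

section cut

variable {a0 a1 b0 bm K W : ℝ}

theorem stZ_contDiff (a0 a1 b0 bm : ℝ) : ContDiff ℝ 1 (stZ a0 a1 b0 bm) :=
  (stR_contDiff _ _ _).mul (stR_contDiff _ _ _)

theorem stZ_nonneg (a0 a1 b0 bm : ℝ) (p : Pl) : 0 ≤ stZ a0 a1 b0 bm p :=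
  mul_nonneg (stR_nonneg _ _ _ _) (stR_nonneg _ _ _ _)

theorem stZ_le_one (a0 a1 b0 bm : ℝ) (p : Pl) : stZ a0 a1 b0 bm p ≤ 1 :=
  mul_le_one₀ (stR_le_one _ _ _ _) (stR_nonneg _ _ _ _) (stR_le_one _ _ _ _)

theorem stZ_zero (h1 : 0 < a1 - a0) (h2 : 0 < b0 - bm) {p : Pl}
    (hp : rho2 p ≤ a0 ∨ b0 ≤ rho2 p) : stZ a0 a1 b0 bm p = 0 := by
  unfold stZ
  rcases hp with hp | hp
  · rw [stR_zero h1 (by linarith), zero_mul]
  · rw [stR_zero h2 (by linarith), mul_zero]

theorem stZ_one (h1 : 0 < a1 - a0) (h2 : 0 < b0 - bm) {p : Pl}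
    (hp : a1 ≤ rho2 p) (hq : rho2 p ≤ bm) : stZ a0 a1 b0 bm p = 1 := by
  unfold stZ
  rw [stR_one h1 (by linarith), stR_one h2 (by linarith), one_mul]

theorem stZ_tsupport (h1 : 0 < a1 - a0) (h2 : 0 < b0 - bm) :
    tsupport (stZ a0 a1 b0 bm) ⊆ {p | a0 ≤ rho2 p ∧ rho2 p ≤ b0} := by
  have crho : Continuous rho2 := st_contDiff_rho2.continuous
  refine closure_minimal (fun p hp => ?_) ?_
  · have hp' : stZ a0 a1 b0 bm p ≠ 0 := hp
    constructor
    · by_contra hc
      exact hp' (stZ_zero h1 h2 (Or.inl (by linarith)))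
    · by_contra hc
      exact hp' (stZ_zero h1 h2 (Or.inr (by linarith)))
  · exact (isClosed_le continuous_const crho).inter (isClosed_le crho continuous_const)

theorem stZ_key {x y f g L : ℝ} (hx : |x| ≤ L) (hy : |y| ≤ L) (hf0 : 0 ≤ f) (hf1 : f ≤ 1)
    (hg0 : 0 ≤ g) (hg1 : g ≤ 1) : (x * g + f * y) ^ 2 ≤ (2 * L) ^ 2 := by
  have hL : 0 ≤ L := (abs_nonneg _).trans hx
  rw [← sq_abs]
  refine pow_le_pow_left₀ (abs_nonneg _) ?_ 2
  calc |x * g + f * y| ≤ |x * g| + |f * y| := abs_add_le _ _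
    _ = |x| * g + f * |y| := by
        rw [abs_mul, abs_mul, abs_of_nonneg hf0, abs_of_nonneg hg0]
    _ ≤ L * 1 + 1 * L :=
        add_le_add (mul_le_mul hx hg1 hg0 hL) (mul_le_mul hf1 hy (abs_nonneg _) zero_le_one)
    _ = 2 * L := by ring

theorem stZ_grad (hK : ∀ x, |deriv Real.smoothTransition x| ≤ K) (hW : 0 < W)
    (w1 : 1 / W ≤ a1 - a0) (w2 : 1 / W ≤ b0 - bm) {p : Pl} (hp : rho2 p ≤ 1) :
    dx (stZ a0 a1 b0 bm) p ^ 2 + dt (stZ a0 a1 b0 bm) p ^ 2 ≤ 2 * (4 * K * W) ^ 2 := by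
  have hK0 : 0 ≤ K := (abs_nonneg _).trans (hK 0)
  have hε : 0 < 1 / W := by positivity
  have hw1 : 0 < a1 - a0 := by linarith only [w1, hε]
  have hw2 : 0 < b0 - bm := by linarith only [w2, hε]
  obtain ⟨g1, g2⟩ := stR_dx_bd (s := 1) (c := a0) (w := a1 - a0) hK abs_one hw1 hp
  obtain ⟨g3, g4⟩ := stR_dx_bd (s := -1) (c := -b0) (w := b0 - bm) hK (by simp) hw2 hp
  have g5 := st_inv hK0 hW w1
  have g6 := st_inv hK0 hW w2
  have d1 : DifferentiableAt ℝ (stR 1 a0 (a1 - a0)) p :=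
    (stR_contDiff _ _ _).differentiable one_ne_zero p
  have d2 : DifferentiableAt ℝ (stR (-1) (-b0) (b0 - bm)) p :=
    (stR_contDiff _ _ _).differentiable one_ne_zero p
  have e1 : dx (stZ a0 a1 b0 bm) p = _ := dx_mul d1 d2
  have e2 : dt (stZ a0 a1 b0 bm) p = _ := dt_mul d1 d2
  rw [e1, e2]
  have k1 := stZ_key (g1.trans g5) (g3.trans g6) (stR_nonneg 1 a0 (a1 - a0) p)
    (stR_le_one _ _ _ _) (stR_nonneg (-1) (-b0) (b0 - bm) p) (stR_le_one _ _ _ _)
  have k2 := stZ_key (g2.trans g5) (g4.trans g6) (stR_nonneg 1 a0 (a1 - a0) p)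
    (stR_le_one _ _ _ _) (stR_nonneg (-1) (-b0) (b0 - bm) p) (stR_le_one _ _ _ _)
  have e3 : 2 * (2 * K * W) = 4 * K * W := by ring
  rw [e3] at k1 k2
  linarith only [k1, k2]

/-- bound for the frame derivatives of the cutoff `χ` -/
theorem st_chi_grad {P : Pl → ℝ} (hP : Frame P) {b1 : ℝ}
    (hK : ∀ x, |deriv Real.smoothTransition x| ≤ K) (hW : 0 < W)
    (w3 : 1 / W ≤ bm - b1) {p : Pl} (hp : rho2 p ≤ 1) :
    |XX P (stR (-1) (-bm) (bm - b1)) p| + |YY P (stR (-1) (-bm) (bm - b1)) p| ≤ 6 * K * W := by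
  have hK0 : 0 ≤ K := (abs_nonneg _).trans (hK 0)
  have hε : 0 < 1 / W := by positivity
  have hw3 : 0 < bm - b1 := by linarith only [w3, hε]
  obtain ⟨g1, g2⟩ := stR_dx_bd (s := -1) (c := -bm) (w := bm - b1) (p := p) hK (by simp) hw3 hp
  have g5 := st_inv hK0 hW w3
  set χ : Pl → ℝ := stR (-1) (-bm) (bm - b1)
  have k1 : dx χ p ^ 2 ≤ (2 * K * W) ^ 2 := by
    rw [← sq_abs]
    exact pow_le_pow_left₀ (abs_nonneg _) (g1.trans g5) 2
  have k2 : dt χ p ^ 2 ≤ (2 * K * W) ^ 2 := by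
    rw [← sq_abs]
    exact pow_le_pow_left₀ (abs_nonneg _) (g2.trans g5) 2
  have k3 := frame_le_grad hP χ p
  refine (abs_le_of_sq_le_sq' ?_ (by (clear * - hK0 hW; positivity))).2
  have k4 : (|XX P χ p| + |YY P χ p|) ^ 2 ≤ 2 * (XX P χ p ^ 2 + YY P χ p ^ 2) := by
    have h1 := sq_nonneg (|XX P χ p| - |YY P χ p|)
    have h2 := sq_abs (XX P χ p)
    have h3 := sq_abs (YY P χ p)
    linarith only [h1, h2, h3]
  have k5 : 0 ≤ (K * W) ^ 2 := sq_nonneg _
  have k6 : (2 * K * W) ^ 2 = 4 * (K * W) ^ 2 := by ring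
  have k7 : (6 * K * W) ^ 2 = 36 * (K * W) ^ 2 := by ring
  rw [k6] at k1 k2
  rw [k7]
  linarith only [k1, k2, k3, k4, k5]

end cut

/-! ### one stage, with explicit constants -/

theorem st_Om_meas {P : Pl → ℝ} (hP : Frame P) (n : ℕ) (M κ : ℝ) :
    MeasurableSet (Om P n M κ) := by
  have crho : Continuous rho2 := st_contDiff_rho2.continuous
  have cP : Continuous P := hP.smooth.continuous
  have h1 : IsOpen {p : Pl | rho2 p < (0.78 - 0.03 * κ) ^ 2} := isOpen_lt crho continuous_const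
  have h2 : IsOpen {p : Pl | dK n M κ < |P p|} := isOpen_lt continuous_const cP.abs
  have h3 : IsOpen {p : Pl | (0.60 + 0.03 * κ) ^ 2 < rho2 p} := isOpen_lt continuous_const crho
  exact (h1.inter (h2.union h3)).measurableSet

theorem st_dK_mono {n : ℕ} (hn : 1 ≤ n) {M : ℝ} (hM : 1 ≤ M) {κ κ' : ℝ} (h : κ ≤ κ') :
    dK n M κ ≤ dK n M κ' := by
  have hn0 : (0 : ℝ) < n := by exact_mod_cast hn
  unfold dK
  exact div_le_div_of_nonneg_right (by linarith only [h]) (by positivity)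

theorem st_dK_gap {n : ℕ} (hn : 1 ≤ n) {M J : ℝ} (hM : 1 ≤ M) (hJ : 0 ≤ J)
    (hn2 : 200 * M * (J + 1) ≤ (n : ℝ) ^ 2) {κ κ' : ℝ} (h : κ + 1 / (J + 1) ≤ κ') :
    1 / (n : ℝ) ^ 10 ≤ dK n M κ' - dK n M κ := by
  have hn0 : (0 : ℝ) < n := by exact_mod_cast hn
  have e1 : dK n M κ' - dK n M κ = (κ' - κ) / (200 * M * (n : ℝ) ^ 8) := by
    unfold dK; ring
  have h1 : 1 / (J + 1) / (200 * M * (n : ℝ) ^ 8) ≤ (κ' - κ) / (200 * M * (n : ℝ) ^ 8) :=
    div_le_div_of_nonneg_right (by linarith only [h]) (by positivity)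
  rw [e1]
  refine le_trans ?_ h1
  rw [div_div]
  apply one_div_le_one_div_of_le (by positivity)
  have h2 : (0 : ℝ) < (n : ℝ) ^ 8 := by positivity
  calc (J + 1) * (200 * M * (n : ℝ) ^ 8) = (200 * M * (J + 1)) * (n : ℝ) ^ 8 := by ring
    _ ≤ (n : ℝ) ^ 2 * (n : ℝ) ^ 8 := mul_le_mul_of_nonneg_right hn2 h2.le
    _ = (n : ℝ) ^ 10 := by ring

theorem st_exp : (1 : ℝ) / 3 ≤ Real.exp (-1) := by
  have := Real.exp_neg_one_gt_d9
  linarith only [this]

/-- pointwise comparison on the smaller region -/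
theorem st_pointwise {X Y J δ z m g : ℝ} (hδ : 0 < δ) (hδ1 : δ ≤ 1) (hJ : 999 / 1000 ≤ J)
    (hg : g ≤ 2 * (X ^ 2 + Y ^ 2)) (hz : 1 ≤ z ^ 2 + 3 * m) :
    g ≤ (3 / δ) * (z ^ 2 * (Y ^ 2 + δ * X ^ 2) * J + 3 * (m * (Y ^ 2 + δ * X ^ 2) * J)) := by
  have h1 : δ * (X ^ 2 + Y ^ 2) ≤ Y ^ 2 + δ * X ^ 2 := by nlinarith only [hδ1]
  have h0 : 0 ≤ Y ^ 2 + δ * X ^ 2 := by positivity
  have h2 : (3 / δ) * (z ^ 2 * (Y ^ 2 + δ * X ^ 2) * J + 3 * (m * (Y ^ 2 + δ * X ^ 2) * J)) =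
      (3 / δ) * ((z ^ 2 + 3 * m) * ((Y ^ 2 + δ * X ^ 2) * J)) := by ring
  rw [h2]
  have h3 : 0 ≤ (Y ^ 2 + δ * X ^ 2) * J := mul_nonneg h0 (by linarith only [hJ])
  have h4 : (Y ^ 2 + δ * X ^ 2) * J ≤ (z ^ 2 + 3 * m) * ((Y ^ 2 + δ * X ^ 2) * J) := by
    have := mul_le_mul_of_nonneg_right hz h3
    linarith only [this]
  have h5 : (δ * (X ^ 2 + Y ^ 2)) * (999 / 1000) ≤ (Y ^ 2 + δ * X ^ 2) * J :=
    mul_le_mul h1 hJ (by norm_num) h0
  have h6 : (3 / δ) * ((δ * (X ^ 2 + Y ^ 2)) * (999 / 1000)) ≤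
      (3 / δ) * ((z ^ 2 + 3 * m) * ((Y ^ 2 + δ * X ^ 2) * J)) :=
    mul_le_mul_of_nonneg_left (h5.trans h4) (by positivity)
  have h7 : (3 / δ) * ((δ * (X ^ 2 + Y ^ 2)) * (999 / 1000)) =
      (2997 / 1000) * (X ^ 2 + Y ^ 2) := by
    field_simp
    ring
  rw [h7] at h6
  have h8 : 0 ≤ X ^ 2 + Y ^ 2 := by (clear * -; positivity)
  linarith only [hg, h6, h8]

/-- the left/right lemma applied on one side -/
theorem st_side {P v a α e1 e2 F : Pl → ℝ} {δ : ℝ} (hE : PairEq P v a α e1 e2 F δ)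
    {M : ℝ} (hM : 1 ≤ M) {Cl K W : ℝ} (hCl : 0 < Cl) (hW : 0 < W)
    (hK : ∀ x, |deriv Real.smoothTransition x| ≤ K) {n : ℕ} (hn : 1 ≤ n)
    {sg : ℝ} (hsg : sg = 1 ∨ sg = -1)
    (hlr : ∀ d : ℝ, 0 ≤ d → ∀ B : ℝ, 0 < B → B ≤ 1 → ∀ χ : Pl → ℝ, ContDiff ℝ 1 χ →
      (∀ p, 0 ≤ χ p ∧ χ p ≤ 1) → tsupport χ ⊆ {p | rho2 p < 0.64} →
      (∀ p ∈ tsupport χ, d < sg * P p → F p = 0) →
      ∫ p, χ p * mu0 B (sg * P p - d) * ((YY P v p) ^ 2 + δ * (XX P v p) ^ 2) * dx P p
      ≤ Cl * ((1 / B ^ 4) * (∫ p in {p | d < sg * P p}, χ p * (v p) ^ 2 * dx P p)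
        + (1 / B) * (∫ p in {p | d < sg * P p}, (|XX P χ p| + |YY P χ p|)
            * ((XX P v p) ^ 2 + (YY P v p) ^ 2 + (v p) ^ 2) * dx P p)
        + (1 / B) * Real.exp (-Real.sqrt (B / δ)) * ∫ p, χ p * (XX P v p) ^ 2 * dx P p))
    (hF : ∀ p, rho2 p < 0.64 → (dK n M 0 < |P p| ∨ 1 / 4 < rho2 p) → F p = 0)
    (hX : ∀ p, rho2 p < 0.64 → |XX P v p| ≤ 1)
    {κ a0 a1 b0 bm b1 : ℝ} (hκ : 0 ≤ κ) (hκ1 : κ ≤ 1) (hb0 : b0 = (0.78 - 0.03 * κ) ^ 2)
    (w1 : 1 / W ≤ a1 - a0) (w2 : 1 / W ≤ b0 - bm) (w3 : 1 / W ≤ bm - b1)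
    (q1 : (0.60 + 0.03 * κ) ^ 2 ≤ a0) (q2 : a1 ≤ 0.4) (q3 : 0.56 ≤ b1) (q4 : b0 ≤ 0.61) :
    ∫ p, stR (-1) (-bm) (bm - b1) p * mu0 (1 / (n : ℝ) ^ 10) (sg * P p - dK n M κ) *
        ((YY P v p) ^ 2 + δ * (XX P v p) ^ 2) * dx P p
      ≤ Cl * ((n : ℝ) ^ 40 * (2 * ∫ p in Om P n M κ, v p ^ 2)
        + (n : ℝ) ^ 10 * ((6 * K * W) * ((1 / δ) * (∫ p, (stZ a0 a1 b0 bm p) ^ 2 *
            ((YY P v p) ^ 2 + δ * (XX P v p) ^ 2) * dx P p) + 2 * ∫ p in Om P n M κ, v p ^ 2))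
        + (n : ℝ) ^ 10 * Real.exp (-Real.sqrt (1 / (n : ℝ) ^ 10 / δ)) *
          (2 * (volume (Metric.closedBall (0 : Pl) 1)).toReal)) := by
  have hP := hE.frame
  have hK0 : 0 ≤ K := (abs_nonneg _).trans (hK 0)
  have hn0 : (0 : ℝ) < n := by exact_mod_cast hn
  have hn1 : (1 : ℝ) ≤ n := by exact_mod_cast hn
  have hε : 0 < 1 / W := by positivity
  have hw1 : 0 < a1 - a0 := by linarith only [w1, hε]
  have hw2 : 0 < b0 - bm := by linarith only [w2, hε]
  have hw3 : 0 < bm - b1 := by linarith only [w3, hε]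
  have hv1 : ContDiff ℝ 1 v := hE.v_smooth.of_le (by norm_num)
  have hd0 : 0 ≤ dK n M κ := by
    unfold dK
    have : 0 ≤ M := by linarith only [hM]
    (clear * - hκ hM hn; positivity)
  have hsP : ∀ p, sg * P p ≤ |P p| := by
    intro p
    rcases hsg with h | h
    · rw [h, one_mul]; exact le_abs_self _
    · rw [h]; have := neg_abs_le (P p); linarith only [this]
  have hχn : ∀ p, 0 ≤ stR (-1) (-bm) (bm - b1) p ∧ stR (-1) (-bm) (bm - b1) p ≤ 1 :=
    fun p => ⟨stR_nonneg _ _ _ _, stR_le_one _ _ _ _⟩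
  have χz : ∀ p, bm ≤ rho2 p → stR (-1) (-bm) (bm - b1) p = 0 :=
    fun p hp => stR_zero hw3 (by linarith only [hp])
  have χo : ∀ p, rho2 p ≤ b1 → stR (-1) (-bm) (bm - b1) p = 1 :=
    fun p hp => stR_one hw3 (by linarith only [hp])
  have hχc : ContDiff ℝ 1 (stR (-1) (-bm) (bm - b1)) := stR_contDiff _ _ _
  have hts : tsupport (stR (-1) (-bm) (bm - b1)) ⊆ {p | rho2 p < 0.64} := by
    have h1 : tsupport (stR (-1) (-bm) (bm - b1)) ⊆ {p | rho2 p ≤ bm} := by
      refine closure_minimal (fun p hp => ?_)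
        (isClosed_le st_contDiff_rho2.continuous continuous_const)
      by_contra hc
      have hc' : ¬ rho2 p ≤ bm := hc
      exact hp (χz p (by linarith only [hc']))
    intro p hp
    have h2 : rho2 p ≤ bm := h1 hp
    show rho2 p < 0.64
    linarith only [w2, q4, hε, h2]
  have hSb : ∀ p ∈ Om P n M κ, rho2 p < 1 := by
    intro p hp
    have h1 : rho2 p < (0.78 - 0.03 * κ) ^ 2 := hp.1
    linarith only [hb0, q4, h1]
  have hSm := st_Om_meas hP n M κ
  have key := hlr (dK n M κ) hd0 (1 / (n : ℝ) ^ 10) (by positivity)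
    (by rw [div_le_one (by positivity)]; exact one_le_pow₀ hn1) _ hχc hχn hts
    (fun p hp h => by
      refine hF p (hts hp) (Or.inl ?_)
      exact lt_of_le_of_lt (st_dK_mono hn hM hκ) (h.trans_le (hsP p)))
  have t1 := st_T1 hP hv1.continuous hχc.continuous hSm hSb sg (dK n M κ) (fun p => (hχn p).1)
    (fun p => (hχn p).2) (fun p hp => χz p (by linarith only [w2, q4, hε, hp])) (fun p h1 h2 => by
      refine ⟨?_, Or.inl (h1.trans_le (hsP p))⟩
      rw [← hb0]
      by_contra hc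
      exact h2 (χz p (by linarith only [w2, hε, hc])))
  have hgr : ∀ p, |XX P (stR (-1) (-bm) (bm - b1)) p| + |YY P (stR (-1) (-bm) (bm - b1)) p| ≤
      (6 * K * W) * stZ a0 a1 b0 bm p ^ 2 := by
    intro p
    by_cases h1 : rho2 p ≤ b1
    · obtain ⟨k1, k2⟩ := st_XY_zero (P := P) (st_deriv_of_max
        (f := stR (-1) (-bm) (bm - b1)) (p := p) fun q => by
        rw [χo p h1]; exact (hχn q).2)
      rw [k1, k2]
      simp only [abs_zero, add_zero]
      (clear * - hK0 hW; positivity)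
    · by_cases h2 : bm ≤ rho2 p
      · obtain ⟨k1, k2⟩ := st_XY_zero (P := P) (st_deriv_of_min
          (f := stR (-1) (-bm) (bm - b1)) (p := p) fun q => by
          rw [χz p h2]; exact (hχn q).1)
        rw [k1, k2]
        simp only [abs_zero, add_zero]
        (clear * - hK0 hW; positivity)
      · rw [stZ_one hw1 hw2 (by linarith only [q2, q3, h1]) (by linarith only [h2]), one_pow, mul_one]
        exact st_chi_grad hP hK hW w3 (by linarith only [w2, q4, hε, h2])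
  have t2 := st_T2 hP hv1 hχc (stZ_contDiff a0 a1 b0 bm).continuous hSm hSb sg (dK n M κ)
    hE.δ_pos (by linarith only [hE.δ_small]) (by (clear * - hK0 hW; positivity))
    (fun p => by rw [abs_of_nonneg (stZ_nonneg _ _ _ _ _)]; exact stZ_le_one _ _ _ _ _)
    (fun p hp => by
      apply stZ_zero hw1 hw2
      by_contra hc
      push Not at hc
      exact hp ⟨by rw [← hb0]; exact hc.2, Or.inr (by linarith only [q1, hc])⟩) hgr
  have t3 := st_T3 hP hv1 hχc.continuous (fun p => (hχn p).1) (fun p => (hχn p).2)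
    (fun p hp => χz p (by linarith only [w2, q4, hε, hp])) hX
  have e1 : 1 / (1 / (n : ℝ) ^ 10) ^ 4 = (n : ℝ) ^ 40 := by
    field_simp
    try ring
  have e2 : 1 / (1 / (n : ℝ) ^ 10) = (n : ℝ) ^ 10 := by
    (clear * - hn; field_simp)
  rw [e1, e2] at key
  refine key.trans (mul_le_mul_of_nonneg_left ?_ hCl.le)
  refine add_le_add (add_le_add ?_ ?_) ?_
  · exact mul_le_mul_of_nonneg_left t1 (by positivity)
  · exact mul_le_mul_of_nonneg_left t2 (by positivity)
  · exact mul_le_mul_of_nonneg_left t3 (by positivity)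

theorem st_mu0_cont {B : ℝ} (hB : 0 < B) : Continuous (mu0 B) :=
  continuous_iff_continuousAt.2 fun s => (hasDerivAt_mu0 hB s).continuousAt

theorem st_int3 {f g h : Pl → ℝ} (hf : Integrable f) (hg : Integrable g) (hh : Integrable h)
    (c : ℝ) : Integrable (fun p => c * (f p + 3 * (g p + h p))) ∧
      ∫ p, c * (f p + 3 * (g p + h p)) =
      c * ((∫ p, f p) + 3 * ((∫ p, g p) + ∫ p, h p)) := by
  have ih : Integrable (fun p => 3 * (g p + h p)) := (hg.add hh).const_mul 3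
  refine ⟨(hf.add ih).const_mul c, ?_⟩
  rw [integral_const_mul, integral_add hf ih, integral_const_mul, integral_add hg hh]

/-- the gradient on the smaller region is controlled by the three energies -/
theorem st_total {P v : Pl → ℝ} {δ : ℝ} (hP : Frame P) (hv : ContDiff ℝ 2 v) (hδ : 0 < δ)
    (hδ1 : δ ≤ 1) {M J W : ℝ} (hM : 1 ≤ M) (hJ : 0 ≤ J) (hW : 0 < W) {n : ℕ} (hn : 1 ≤ n)
    (hn2 : 200 * M * (J + 1) ≤ (n : ℝ) ^ 2)
    {κ κ' a0 a1 b0 bm b1 : ℝ} (h : κ + 1 / (J + 1) ≤ κ')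
    (ha1 : a1 = (0.60 + 0.03 * κ') ^ 2) (hb1 : b1 = (0.78 - 0.03 * κ') ^ 2)
    (w1 : 1 / W ≤ a1 - a0) (w2 : 1 / W ≤ b0 - bm) (w3 : 1 / W ≤ bm - b1) (q4 : b0 ≤ 0.61) :
    ∫ p in Om P n M κ', (dx v p ^ 2 + dt v p ^ 2) ≤ (3 / δ) *
      ((∫ p, (stZ a0 a1 b0 bm p) ^ 2 * ((YY P v p) ^ 2 + δ * (XX P v p) ^ 2) * dx P p) +
       3 * ((∫ p, stR (-1) (-bm) (bm - b1) p * mu0 (1 / (n : ℝ) ^ 10) (1 * P p - dK n M κ) *
        ((YY P v p) ^ 2 + δ * (XX P v p) ^ 2) * dx P p) +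
        ∫ p, stR (-1) (-bm) (bm - b1) p * mu0 (1 / (n : ℝ) ^ 10) (-1 * P p - dK n M κ) *
        ((YY P v p) ^ 2 + δ * (XX P v p) ^ 2) * dx P p)) := by
  have hn0 : (0 : ℝ) < n := by exact_mod_cast hn
  have hε : 0 < 1 / W := by positivity
  have hw1 : 0 < a1 - a0 := by linarith only [w1, hε]
  have hw2 : 0 < b0 - bm := by linarith only [w2, hε]
  have hw3 : 0 < bm - b1 := by linarith only [w3, hε]
  have hv1 : ContDiff ℝ 1 v := hv.of_le (by norm_num)
  have hB : 0 < 1 / (n : ℝ) ^ 10 := by positivity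
  have cX := st_XX_cont hP hv1
  have cY := st_YY_cont hP hv1
  have cJ := st_frame_cont hP
  have cP : Continuous P := hP.smooth.continuous
  have cm := st_mu0_cont hB
  have cζ := (stZ_contDiff a0 a1 b0 bm).continuous
  have cχ := (stR_contDiff (-1) (-bm) (bm - b1)).continuous
  have cdx : Continuous (dx v) := (contDiff_dx (m := 1) hv (by norm_num)).continuous
  have cdt : Continuous (dt v) := (contDiff_dt (m := 1) hv (by norm_num)).continuous
  have χz : ∀ p, bm ≤ rho2 p → stR (-1) (-bm) (bm - b1) p = 0 :=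
    fun p hp => stR_zero hw3 (by linarith only [hp])
  have χo : ∀ p, rho2 p ≤ b1 → stR (-1) (-bm) (bm - b1) p = 1 :=
    fun p hp => stR_one hw3 (by linarith only [hp])
  have i1 : Integrable fun p => (stZ a0 a1 b0 bm p) ^ 2 *
      ((YY P v p) ^ 2 + δ * (XX P v p) ^ 2) * dx P p :=
    st_integrable (by fun_prop) fun p hp => by
      rw [stZ_zero hw1 hw2 (Or.inr (by linarith only [q4, hp]))]; ring
  have i2 : ∀ sg : ℝ, Integrable fun p => stR (-1) (-bm) (bm - b1) p *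
      mu0 (1 / (n : ℝ) ^ 10) (sg * P p - dK n M κ) *
        ((YY P v p) ^ 2 + δ * (XX P v p) ^ 2) * dx P p := fun sg =>
    st_integrable (by
      have : Continuous fun p => mu0 (1 / (n : ℝ) ^ 10) (sg * P p - dK n M κ) :=
        cm.comp (by fun_prop)
      fun_prop) fun p hp => by
      rw [χz p (by linarith only [w2, q4, hε, hp])]; ring
  have hgap := st_dK_gap hn hM hJ hn2 h
  have e0 : (3 / δ) *
      ((∫ p, (stZ a0 a1 b0 bm p) ^ 2 * ((YY P v p) ^ 2 + δ * (XX P v p) ^ 2) * dx P p) +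
       3 * ((∫ p, stR (-1) (-bm) (bm - b1) p * mu0 (1 / (n : ℝ) ^ 10) (1 * P p - dK n M κ) *
        ((YY P v p) ^ 2 + δ * (XX P v p) ^ 2) * dx P p) +
        ∫ p, stR (-1) (-bm) (bm - b1) p * mu0 (1 / (n : ℝ) ^ 10) (-1 * P p - dK n M κ) *
        ((YY P v p) ^ 2 + δ * (XX P v p) ^ 2) * dx P p)) =
      ∫ p, (3 / δ) * ((stZ a0 a1 b0 bm p) ^ 2 * ((YY P v p) ^ 2 + δ * (XX P v p) ^ 2) * dx P p +
       3 * ((stR (-1) (-bm) (bm - b1) p * mu0 (1 / (n : ℝ) ^ 10) (1 * P p - dK n M κ) *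
        ((YY P v p) ^ 2 + δ * (XX P v p) ^ 2) * dx P p) +
        stR (-1) (-bm) (bm - b1) p * mu0 (1 / (n : ℝ) ^ 10) (-1 * P p - dK n M κ) *
        ((YY P v p) ^ 2 + δ * (XX P v p) ^ 2) * dx P p)) := by
    exact (st_int3 i1 (i2 1) (i2 (-1)) (3 / δ)).2.symm
  rw [e0]
  refine st_set_le (st_Om_meas hP n M κ') ?_ ?_ ?_ ?_
  · refine st_integrableOn (by fun_prop) fun p hp => ?_
    have h1 : rho2 p < (0.78 - 0.03 * κ') ^ 2 := hp.1
    rw [← hb1] at h1
    linarith only [w2, w3, q4, hε, h1]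
  · exact (st_int3 i1 (i2 1) (i2 (-1)) (3 / δ)).1
  · intro p
    have h1 := (hP.dx_pos p).le
    have h2 := mu0_nonneg (1 / (n : ℝ) ^ 10) (1 * P p - dK n M κ)
    have h3 := mu0_nonneg (1 / (n : ℝ) ^ 10) (-1 * P p - dK n M κ)
    have h4 := stR_nonneg (-1) (-bm) (bm - b1) p
    (clear * - hδ h1 h4 h2 h3; positivity)
  · intro p hp
    have h1 : rho2 p < (0.78 - 0.03 * κ') ^ 2 := hp.1
    rw [← hb1] at h1
    have h2 := mu0_nonneg (1 / (n : ℝ) ^ 10) (1 * P p - dK n M κ)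
    have h3 := mu0_nonneg (1 / (n : ℝ) ^ 10) (-1 * P p - dK n M κ)
    have h4 : stR (-1) (-bm) (bm - b1) p = 1 := χo p h1.le
    have h5 := st_exp
    have hz : 1 ≤ stZ a0 a1 b0 bm p ^ 2 + 3 * (mu0 (1 / (n : ℝ) ^ 10) (1 * P p - dK n M κ) +
        mu0 (1 / (n : ℝ) ^ 10) (-1 * P p - dK n M κ)) := by
      rcases hp.2 with h6 | h6
      · have h7 := sq_nonneg (stZ a0 a1 b0 bm p)
        rcases abs_cases (P p) with ⟨h8, _⟩ | ⟨h8, _⟩
        · rw [h8] at h6
          have := exp_neg_one_le_mu0 hB (s := 1 * P p - dK n M κ) (by linarith only [hgap, h6])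
          linarith only [h3, h5, h7, this]
        · rw [h8] at h6
          have := exp_neg_one_le_mu0 hB (s := -1 * P p - dK n M κ) (by linarith only [hgap, h6])
          linarith only [h2, h5, h7, this]
      · rw [← ha1] at h6
        rw [stZ_one hw1 hw2 h6.le (by linarith only [w3, hε, h1])]
        linarith only [h2, h3]
    have h6 := st_pointwise hδ hδ1 (hP.le_dx p) (grad_le_frame hP v p) hz
    rw [h4]
    refine h6.trans (le_of_eq ?_)
    ring

/-- the ring estimate for the cutoff `stZ` -/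
theorem st_ring_app {P v a α e1 e2 F : Pl → ℝ} {δ : ℝ} (hE : PairEq P v a α e1 e2 F δ)
    {Cr K W : ℝ} (hCr : 0 < Cr) (hW : 0 < W)
    (hK : ∀ x, |deriv Real.smoothTransition x| ≤ K)
    (hring : ∀ ζ : Pl → ℝ, ContDiff ℝ 1 ζ → (∀ p, |ζ p| ≤ 1) →
      tsupport ζ ⊆ {p | 0.33 < rho2 p ∧ rho2 p < 0.64} → (∀ p ∈ tsupport ζ, F p = 0) →
      ∫ p, (ζ p) ^ 2 * ((YY P v p) ^ 2 + δ * (XX P v p) ^ 2) * dx P p
      ≤ Cr * ∫ p, ((ζ p) ^ 2 + (XX P ζ p) ^ 2 + (YY P ζ p) ^ 2) * (v p) ^ 2 * dx P p)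
    {n : ℕ} {M : ℝ} (hF : ∀ p, rho2 p < 0.64 → (dK n M 0 < |P p| ∨ 1 / 4 < rho2 p) → F p = 0)
    {κ a0 a1 b0 bm : ℝ} (ha0 : a0 = (0.60 + 0.03 * κ) ^ 2) (hb0 : b0 = (0.78 - 0.03 * κ) ^ 2)
    (w1 : 1 / W ≤ a1 - a0) (w2 : 1 / W ≤ b0 - bm) (q1 : 0.36 ≤ a0) (q4 : b0 ≤ 0.61) :
    ∫ p, (stZ a0 a1 b0 bm p) ^ 2 * ((YY P v p) ^ 2 + δ * (XX P v p) ^ 2) * dx P p ≤
      Cr * (2 * (1 + 2 * (2 * (4 * K * W) ^ 2))) * ∫ p in Om P n M κ, v p ^ 2 := by
  have hP := hE.frame
  have hε : 0 < 1 / W := by positivity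
  have hw1 : 0 < a1 - a0 := by linarith only [w1, hε]
  have hw2 : 0 < b0 - bm := by linarith only [w2, hε]
  have hv1 : ContDiff ℝ 1 v := hE.v_smooth.of_le (by norm_num)
  have hts : tsupport (stZ a0 a1 b0 bm) ⊆ {p | 0.33 < rho2 p ∧ rho2 p < 0.64} := by
    intro p hp
    obtain ⟨h1, h2⟩ := stZ_tsupport hw1 hw2 hp
    exact ⟨by linarith only [q1, h1], by linarith only [q4, h2]⟩
  have habs : ∀ p, |stZ a0 a1 b0 bm p| ≤ 1 := fun p => by
    rw [abs_of_nonneg (stZ_nonneg _ _ _ _ _)]; exact stZ_le_one _ _ _ _ _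
  have hSb : ∀ p ∈ Om P n M κ, rho2 p < 1 := by
    intro p hp
    have h1 : rho2 p < (0.78 - 0.03 * κ) ^ 2 := hp.1
    rw [← hb0] at h1
    linarith only [q4, h1]
  have k1 := hring _ (stZ_contDiff a0 a1 b0 bm) habs hts (fun p hp => by
    obtain ⟨h1, h2⟩ := hts hp
    exact hF p h2 (Or.inr (by linarith only [h1])))
  have k2 := st_ring_rhs hP hv1.continuous (stZ_contDiff a0 a1 b0 bm) (st_Om_meas hP n M κ) hSb
    habs (G := 2 * (4 * K * W) ^ 2) (fun p hp => stZ_grad hK hW w1 w2 (hSb p hp).le)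
    (fun p hp => by
      have h0 : stZ a0 a1 b0 bm p = 0 := by
        apply stZ_zero hw1 hw2
        by_contra hc
        push Not at hc
        exact hp ⟨by rw [← hb0]; exact hc.2, Or.inr (by rw [← ha0]; exact hc.1)⟩
      exact ⟨h0, st_deriv_of_min fun q => by rw [h0]; exact stZ_nonneg _ _ _ _ _⟩)
  refine k1.trans ((mul_le_mul_of_nonneg_left k2 hCr.le).trans (le_of_eq ?_))
  ring

/-! ### numerical estimates -/

theorem st_exp_bd {x M δ : ℝ} (hx : 1 ≤ x) (hM : 1 ≤ M) (hδ : 0 < δ)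
    (h2 : δ ≤ 4 * M ^ 2 / x ^ 16) :
    Real.exp (-Real.sqrt (1 / x ^ 10 / δ)) ≤ Real.exp (-(x ^ 3 / (2 * M))) := by
  apply Real.exp_le_exp.2
  apply neg_le_neg
  apply Real.le_sqrt_of_sq_le
  have hx0 : 0 < x := by linarith only [hx]
  have hM0 : 0 < M := by linarith only [hM]
  rw [div_pow, div_div, div_le_div_iff₀ (by positivity) (by positivity)]
  have h3 : δ * x ^ 16 ≤ 4 * M ^ 2 := by
    rwa [le_div_iff₀ (by positivity)] at h2
  calc (x ^ 3) ^ 2 * (x ^ 10 * δ) = δ * x ^ 16 := by ring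
    _ ≤ 4 * M ^ 2 := h3
    _ = 1 * (2 * M) ^ 2 := by ring

theorem st_exp_small {x M K2 : ℝ} (hx : 1 ≤ x) (hM : 1 ≤ M) (h2 : K2 ≤ x)
    (h3 : 56 * M ≤ x) : K2 * x ^ 26 * Real.exp (-(x ^ 3 / (2 * M))) ≤ Real.exp (-x) := by
  have hx0 : 0 < x := by linarith
  have hM0 : 0 < M := by linarith
  have e1 : x ≤ Real.exp x := by
    have := Real.add_one_le_exp x
    linarith
  have e2 : x ^ 26 ≤ Real.exp (26 * x) := by
    have : Real.exp (26 * x) = Real.exp x ^ 26 := by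
      rw [← Real.exp_nat_mul]
      norm_num
    rw [this]
    exact pow_le_pow_left₀ hx0.le e1 26
  have e3 : K2 * x ^ 26 ≤ Real.exp x * Real.exp (26 * x) :=
    mul_le_mul (h2.trans e1) e2 (by positivity) (Real.exp_pos _).le
  have e4 : 28 * x ≤ x ^ 3 / (2 * M) := by
    rw [le_div_iff₀ (by positivity)]
    have h4 : 56 * M ≤ x ^ 2 := by nlinarith only [hM, h3]
    calc 28 * x * (2 * M) = x * (56 * M) := by ring
      _ ≤ x * x ^ 2 := mul_le_mul_of_nonneg_left h4 hx0.le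
      _ = x ^ 3 := by ring
  calc K2 * x ^ 26 * Real.exp (-(x ^ 3 / (2 * M))) ≤
      Real.exp x * Real.exp (26 * x) * Real.exp (-(x ^ 3 / (2 * M))) :=
        mul_le_mul_of_nonneg_right e3 (Real.exp_pos _).le
    _ = Real.exp (x + 26 * x + -(x ^ 3 / (2 * M))) := by rw [Real.exp_add, Real.exp_add]
    _ ≤ Real.exp (-x) := Real.exp_le_exp.2 (by linarith only [e4])

theorem st_numeric {x M δ V Ca Cl H A0 R L1 L2 I ex : ℝ} (hx : 1 ≤ x) (hM : 1 ≤ M)
    (hδ : 0 < δ) (h1 : 1 / (4 * M ^ 2 * x ^ 16) ≤ δ)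
    (hV : 0 ≤ V) (hCa : 0 ≤ Ca) (hCl : 0 ≤ Cl) (hH : 0 ≤ H) (hA : 0 ≤ A0) (hex0 : 0 ≤ ex)
    (hR : R ≤ Ca * V)
    (hL1 : L1 ≤ Cl * (x ^ 40 * (2 * V) + x ^ 10 * (H * ((1 / δ) * R + 2 * V)) +
      x ^ 10 * ex * (2 * A0)))
    (hL2 : L2 ≤ Cl * (x ^ 40 * (2 * V) + x ^ 10 * (H * ((1 / δ) * R + 2 * V)) +
      x ^ 10 * ex * (2 * A0)))
    (hI : I ≤ (3 / δ) * (R + 3 * (L1 + L2))) :
    I ≤ (12 * M ^ 2 * (Ca + 12 * Cl + 6 * Cl * H * (4 * M ^ 2 * Ca + 2))) * x ^ 56 * V +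
      (144 * M ^ 2 * Cl * A0) * x ^ 26 * ex := by
  have hx0 : 0 < x := by linarith only [hx]
  have hM0 : 0 < M := by linarith only [hM]
  have hD : 1 / δ ≤ 4 * M ^ 2 * x ^ 16 := by
    rw [div_le_iff₀ hδ]
    rw [div_le_iff₀ (by positivity)] at h1
    linarith only [h1]
  have hD0 : 0 < 1 / δ := by positivity
  have q1 : (1 / δ) * R ≤ 4 * M ^ 2 * x ^ 16 * (Ca * V) :=
    (mul_le_mul_of_nonneg_left hR hD0.le).trans
      (mul_le_mul_of_nonneg_right hD (by positivity))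
  have q2 : Cl * (x ^ 40 * (2 * V) + x ^ 10 * (H * ((1 / δ) * R + 2 * V)) +
      x ^ 10 * ex * (2 * A0)) ≤ Cl * (x ^ 40 * (2 * V) + x ^ 10 * (H * (4 * M ^ 2 * x ^ 16 *
        (Ca * V) + 2 * V)) + x ^ 10 * ex * (2 * A0)) := by
    refine mul_le_mul_of_nonneg_left ?_ hCl
    refine add_le_add (add_le_add le_rfl ?_) le_rfl
    refine mul_le_mul_of_nonneg_left ?_ (by positivity)
    exact mul_le_mul_of_nonneg_left (by linarith only [q1]) hH
  have q3 : R + 3 * (L1 + L2) ≤ Ca * V + 6 * (Cl * (x ^ 40 * (2 * V) + x ^ 10 * (H *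
      (4 * M ^ 2 * x ^ 16 * (Ca * V) + 2 * V)) + x ^ 10 * ex * (2 * A0))) := by
    linarith only [hR, hL1, hL2, q2]
  have q4 : (3 / δ) * (R + 3 * (L1 + L2)) ≤ (3 * (4 * M ^ 2 * x ^ 16)) *
      (Ca * V + 6 * (Cl * (x ^ 40 * (2 * V) + x ^ 10 * (H *
      (4 * M ^ 2 * x ^ 16 * (Ca * V) + 2 * V)) + x ^ 10 * ex * (2 * A0)))) := by
    have e : 3 / δ = 3 * (1 / δ) := by ring
    rw [e]
    calc 3 * (1 / δ) * (R + 3 * (L1 + L2)) ≤ 3 * (1 / δ) * (Ca * V + 6 * (Cl * (x ^ 40 * (2 * V) +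
        x ^ 10 * (H * (4 * M ^ 2 * x ^ 16 * (Ca * V) + 2 * V)) + x ^ 10 * ex * (2 * A0)))) :=
          mul_le_mul_of_nonneg_left q3 (by positivity)
      _ ≤ _ := mul_le_mul_of_nonneg_right (by linarith only [hD]) (by (clear * - hCa hV hCl hx hH hM hex0 hA; positivity))
  refine hI.trans (q4.trans ?_)
  have p1 : x ^ 16 ≤ x ^ 56 := pow_le_pow_right₀ hx (by norm_num)
  have p2 : x ^ 42 ≤ x ^ 56 := pow_le_pow_right₀ hx (by norm_num)
  have p3 : x ^ 26 ≤ x ^ 56 := pow_le_pow_right₀ hx (by norm_num)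
  have t1 : 12 * M ^ 2 * Ca * V * x ^ 16 ≤ 12 * M ^ 2 * Ca * V * x ^ 56 :=
    mul_le_mul_of_nonneg_left p1 (by (clear * - hM hCa hV; positivity))
  have t2 : 12 * M ^ 2 * (6 * Cl * H * (4 * M ^ 2 * Ca)) * V * x ^ 42 ≤
      12 * M ^ 2 * (6 * Cl * H * (4 * M ^ 2 * Ca)) * V * x ^ 56 :=
    mul_le_mul_of_nonneg_left p2 (by (clear * - hM hCl hH hCa hV; positivity))
  have t3 : 12 * M ^ 2 * (6 * Cl * H * 2) * V * x ^ 26 ≤
      12 * M ^ 2 * (6 * Cl * H * 2) * V * x ^ 56 :=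
    mul_le_mul_of_nonneg_left p3 (by (clear * - hM hCl hH hV; positivity))
  calc _ = 12 * M ^ 2 * Ca * V * x ^ 16 + 12 * M ^ 2 * (12 * Cl) * V * x ^ 56 +
        12 * M ^ 2 * (6 * Cl * H * (4 * M ^ 2 * Ca)) * V * x ^ 42 +
        12 * M ^ 2 * (6 * Cl * H * 2) * V * x ^ 26 +
        144 * M ^ 2 * Cl * A0 * x ^ 26 * ex := by ring
    _ ≤ 12 * M ^ 2 * Ca * V * x ^ 56 + 12 * M ^ 2 * (12 * Cl) * V * x ^ 56 +
        12 * M ^ 2 * (6 * Cl * H * (4 * M ^ 2 * Ca)) * V * x ^ 56 +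
        12 * M ^ 2 * (6 * Cl * H * 2) * V * x ^ 56 +
        144 * M ^ 2 * Cl * A0 * x ^ 26 * ex := by linarith only [t1, t2, t3]
    _ = _ := by ring

theorem st_num {κ κ' : ℝ} (h0 : 0 ≤ κ) (h1 : κ ≤ κ') (h2 : κ' ≤ 1) :
    0.36 ≤ (0.60 + 0.03 * κ) ^ 2 ∧ (0.60 + 0.03 * κ') ^ 2 ≤ 0.4 ∧
    0.56 ≤ (0.78 - 0.03 * κ') ^ 2 ∧ (0.78 - 0.03 * κ) ^ 2 ≤ 0.61 := by
  refine ⟨?_, ?_, ?_, ?_⟩ <;> nlinarith only [h0, h2, h1]

theorem st_sq_le {a x : ℝ} (hx : 1 ≤ x) (h : a ≤ x) : a ≤ x ^ 2 := by nlinarith only [hx, h]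

/-- One stage: gain of one derivative from `Om κ` to `Om κ'`. -/
theorem stage (M : ℝ) (hM : 1 ≤ M) (J : ℕ) : ∃ n0 : ℕ, ∀ n : ℕ, n0 ≤ n →
    ∀ (P v a α e1 e2 F : Pl → ℝ) (δ : ℝ), PairEq P v a α e1 e2 F δ →
    1 / (4 * M ^ 2 * (n : ℝ) ^ 16) ≤ δ → δ ≤ 4 * M ^ 2 / (n : ℝ) ^ 16 →
    (∀ p, rho2 p < 0.64 → (dK n M 0 < |P p| ∨ 1 / 4 < rho2 p) → F p = 0) →
    (∀ p, rho2 p < 0.64 → |v p| ≤ 1 ∧ |XX P v p| ≤ 1 ∧ |YY P v p| ≤ 1) →
    ∀ κ κ' : ℝ, 0 ≤ κ → κ' ≤ 1 → κ + 1 / ((J : ℝ) + 1) ≤ κ' →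
    ∫ p in Om P n M κ', (dx v p ^ 2 + dt v p ^ 2)
      ≤ (n : ℝ) ^ 100 * (∫ p in Om P n M κ, (v p) ^ 2) + Real.exp (-(n : ℝ)) := by
  obtain ⟨Cr, hCr, hring⟩ := ring_est
  obtain ⟨Cl, hCl, hlr⟩ := left_right
  obtain ⟨K, hK1, hK⟩ := st_tr_deriv_bd
  set W : ℝ := 45 * ((J : ℝ) + 1) with hW
  have hJ0 : (0 : ℝ) ≤ J := Nat.cast_nonneg _
  have hWpos : 0 < W := by (clear * -; positivity)
  set Ca : ℝ := Cr * (2 * (1 + 2 * (2 * (4 * K * W) ^ 2))) with hCa
  set H : ℝ := 6 * K * W with hH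
  set A0 : ℝ := (volume (Metric.closedBall (0 : Pl) 1)).toReal with hA0
  have hCa0 : 0 ≤ Ca := by (clear * - hCr hK1; positivity)
  have hK0 : 0 ≤ K := zero_le_one.trans hK1
  have hH0 : 0 ≤ H := by (clear * - hK1; positivity)
  have hA00 : 0 ≤ A0 := ENNReal.toReal_nonneg
  set K1 : ℝ := 12 * M ^ 2 * (Ca + 12 * Cl + 6 * Cl * H * (4 * M ^ 2 * Ca + 2)) with hK1def
  set K2 : ℝ := 144 * M ^ 2 * Cl * A0 with hK2def
  obtain ⟨n0, hn0⟩ := exists_nat_ge (max (max K1 K2) (max (56 * M) (200 * M * ((J : ℝ) + 1))))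
  refine ⟨max n0 1, fun n hn P v a α e1 e2 F δ hE hδ1 hδ2 hF hv κ κ' hκ hκ' hκκ => ?_⟩
  have hn1 : 1 ≤ n := (le_max_right _ _).trans hn
  have hx : (1 : ℝ) ≤ n := by exact_mod_cast hn1
  have hnn : (n0 : ℝ) ≤ n := by exact_mod_cast (le_max_left _ _).trans hn
  have c1 : K1 ≤ n := ((le_max_left _ _).trans (le_max_left _ _)).trans (hn0.trans hnn)
  have c2 : K2 ≤ n := ((le_max_right _ _).trans (le_max_left _ _)).trans (hn0.trans hnn)
  have c3 : 56 * M ≤ n := ((le_max_left _ _).trans (le_max_right _ _)).trans (hn0.trans hnn)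
  have c4 : 200 * M * ((J : ℝ) + 1) ≤ n :=
    ((le_max_right _ _).trans (le_max_right _ _)).trans (hn0.trans hnn)
  have c5 : 200 * M * ((J : ℝ) + 1) ≤ (n : ℝ) ^ 2 := st_sq_le hx c4
  have hP := hE.frame
  have hδs : δ ≤ 1 := hE.δ_small.trans (by norm_num)
  obtain ⟨w1, w2, w3⟩ := st_width hJ0 hκ hκ' hκκ
  have hh : 0 < 1 / ((J : ℝ) + 1) := by (clear * -; positivity)
  have hκκ2 : κ ≤ κ' := le_trans (le_add_of_nonneg_right hh.le) hκκ
  have hκ1 : κ ≤ 1 := hκκ2.trans hκ'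
  obtain ⟨e1', e2', e3', e4'⟩ := st_num hκ hκκ2 hκ'
  have hring' := st_ring_app hE hCr hWpos hK (hring P v a α e1 e2 F δ hE) hF
    (κ := κ) rfl rfl w1 w2 e1' e4'
  have hs1 := st_side hE hM hCl hWpos hK hn1 (Or.inl rfl)
    (hlr P v a α e1 e2 F δ hE 1 (Or.inl rfl)) hF (fun p hp => (hv p hp).2.1)
    hκ hκ1 rfl w1 w2 w3 le_rfl e2' e3' e4'
  have hs2 := st_side hE hM hCl hWpos hK hn1 (Or.inr rfl)
    (hlr P v a α e1 e2 F δ hE (-1) (Or.inr rfl)) hF (fun p hp => (hv p hp).2.1)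
    hκ hκ1 rfl w1 w2 w3 le_rfl e2' e3' e4'
  have htot := st_total hP hE.v_smooth hE.δ_pos hδs hM hJ0 hWpos hn1 c5 hκκ rfl rfl w1 w2 w3 e4'
  have hV : 0 ≤ ∫ p in Om P n M κ, v p ^ 2 := integral_nonneg fun p => sq_nonneg _
  have hnum := st_numeric hx hM hE.δ_pos hδ1 hV hCa0 hCl.le hH0 hA00 (Real.exp_pos _).le
    hring' hs1 hs2 htot
  refine hnum.trans (add_le_add ?_ ?_)
  · refine mul_le_mul_of_nonneg_right ?_ hV
    calc K1 * (n : ℝ) ^ 56 ≤ n * (n : ℝ) ^ 56 := mul_le_mul_of_nonneg_right c1 (by positivity)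
      _ = (n : ℝ) ^ 57 := by ring
      _ ≤ (n : ℝ) ^ 100 := pow_le_pow_right₀ hx (by norm_num)
  · refine le_trans ?_ (st_exp_small hx hM c2 c3)
    exact mul_le_mul_of_nonneg_left (st_exp_bd hx hM hE.δ_pos hδ2) (by (clear * - hM hCl hn1; positivity))

end Vale.Agent.P229.D
end
end

section

section

/-!
# P229, disproof, task T8: iterated pigeonhole (`PROOF.md`, §8, ITERATION)
-/

open scoped ContDiff Topology
open MeasureTheory Set

namespace Vale.Agent.P229.D

theorem itr_P_lip {P : Pl → ℝ} (hP : Frame P) {h : ℝ} (p q : Pl) (h1 : |q.1 - p.1| ≤ h)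
    (h2 : |q.2 - p.2| ≤ h) : |P q - P p| ≤ 2 * h := by
  have dP : Differentiable ℝ P := hP.smooth.differentiable (by norm_num)
  have k1 : |P (q.1, p.2) - P (p.1, p.2)| ≤ 1001 / 1000 * |q.1 - p.1| := by
    have := Convex.norm_image_sub_le_of_norm_hasDerivWithin_le (s := (Set.univ : Set ℝ))
      (f := fun y => P (y, p.2)) (f' := fun y => dx P (y, p.2)) (x := p.1) (y := q.1)
      (C := 1001 / 1000)
      (fun y _ => (hasDerivAt_fst (p := (y, p.2)) (dP _)).hasDerivWithinAt)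
      (fun y _ => by
        rw [Real.norm_eq_abs, abs_of_pos (hP.dx_pos _)]
        exact hP.dx_le _) convex_univ (Set.mem_univ _) (Set.mem_univ _)
    simpa only [Prod.mk.eta, ge_iff_le, Real.norm_eq_abs] using this
  have k2 : |P (q.1, q.2) - P (q.1, p.2)| ≤ 1 / 1000 * |q.2 - p.2| := by
    have := Convex.norm_image_sub_le_of_norm_hasDerivWithin_le (s := (Set.univ : Set ℝ))
      (f := fun y => P (q.1, y)) (f' := fun y => dt P (q.1, y)) (x := p.2) (y := q.2)
      (C := 1 / 1000)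
      (fun y _ => (hasDerivAt_snd (p := (q.1, y)) (dP _)).hasDerivWithinAt)
      (fun y _ => by simpa only [Real.norm_eq_abs, one_div] using hP.dt_small (q.1, y)) convex_univ (Set.mem_univ _) (Set.mem_univ _)
    simpa only [Prod.mk.eta, one_div, ge_iff_le, Real.norm_eq_abs] using this
  have e : P q - P p = (P (q.1, q.2) - P (q.1, p.2)) + (P (q.1, p.2) - P (p.1, p.2)) := by
    simp
  rw [e]
  refine (abs_add_le _ _).trans ?_
  have hh : 0 ≤ h := (abs_nonneg _).trans h1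
  linarith

theorem itr_isOpen_Om {P : Pl → ℝ} (hP : Frame P) (n : ℕ) (M κ : ℝ) : IsOpen (Om P n M κ) := by
  have hc : Continuous P := hP.smooth.continuous
  have hr : Continuous rho2 := by unfold rho2; fun_prop
  unfold Om
  exact (isOpen_lt hr continuous_const).inter
    ((isOpen_lt continuous_const hc.abs).union (isOpen_lt continuous_const hr))

theorem itr_Om_sub {P : Pl → ℝ} {n : ℕ} {M κ : ℝ} (h0 : 0 ≤ κ) (h1 : κ ≤ 1) :
    Om P n M κ ⊆ {p | rho2 p < 0.64} := by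
  intro p hp
  have := hp.1
  show rho2 p < 0.64
  nlinarith only [h0, this, h1]

theorem itr_Om_box {P : Pl → ℝ} {n : ℕ} {M κ : ℝ} (h0 : 0 ≤ κ) (h1 : κ ≤ 1) :
    Om P n M κ ⊆ Icc (-1 : ℝ) 1 ×ˢ Icc (-1 : ℝ) 1 := by
  intro p hp
  have h : rho2 p < 0.64 := itr_Om_sub h0 h1 hp
  unfold rho2 at h
  constructor <;> constructor <;> nlinarith only [h]

theorem itr_intOn {P : Pl → ℝ} {n : ℕ} {M κ : ℝ} (h0 : 0 ≤ κ) (h1 : κ ≤ 1)
    {f : Pl → ℝ} (hf : Continuous f) : IntegrableOn f (Om P n M κ) := by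
  refine IntegrableOn.mono_set ?_ (itr_Om_box h0 h1)
  exact hf.continuousOn.integrableOn_compact (isCompact_Icc.prod isCompact_Icc)

/-- cells meeting `Om κ'` are inside `Om κ`. -/
theorem itr_cell_sub {P : Pl → ℝ} (hP : Frame P) {n : ℕ} (hn : 1 ≤ n) {M κ g h : ℝ} (hM : 1 ≤ M)
    (h0 : 0 ≤ κ) (hg : 0 < g) (h1 : κ + g ≤ 1) (hh : 0 < h) (hh1 : 600 * M * (n : ℝ) ^ 8 * h ≤ g)
    (c : ℤ × ℤ) (hc : (cell h c ∩ Om P n M (κ + g)).Nonempty) : cell h c ⊆ Om P n M κ := by
  obtain ⟨p, hpc, hpO⟩ := hc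
  intro q hqc
  have hn1 : (1 : ℝ) ≤ n := by exact_mod_cast hn
  have hn8 : (1 : ℝ) ≤ (n : ℝ) ^ 8 := one_le_pow₀ hn1
  have hMn : 1 ≤ M * (n : ℝ) ^ 8 := by nlinarith only [hM, hn8]
  have hhg : 600 * h ≤ g := by nlinarith only [hh1, hh, hMn]
  have hp1 := hpc.1
  have hp2 := hpc.2
  have hq1 := hqc.1
  have hq2 := hqc.2
  have d1 : |q.1 - p.1| ≤ h := by
    rw [abs_le]; constructor <;> nlinarith only [hp1.1, hq1.2, hp1.2, hq1.1]
  have d2 : |q.2 - p.2| ≤ h := by
    rw [abs_le]; constructor <;> nlinarith only [hp2.1, hq2.2, hp2.2, hq2.1]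
  have hPd := itr_P_lip hP p q d1 d2
  obtain ⟨ho1, ho2⟩ := hpO
  have hr : rho2 p < 0.64 := by nlinarith only [h0, h1, hh, hhg, ho1]
  have hpa : |p.1| ≤ 1 := by
    unfold rho2 at hr; rw [abs_le]; constructor <;> nlinarith only [hr]
  have hpb : |p.2| ≤ 1 := by
    unfold rho2 at hr; rw [abs_le]; constructor <;> nlinarith only [hr]
  have hh2 : h ≤ 1 := by linarith only [h0, h1, hhg]
  have hrd : |rho2 q - rho2 p| ≤ 6 * h := by
    have e : rho2 q - rho2 p = (q.1 - p.1) * (q.1 - p.1 + 2 * p.1)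
        + (q.2 - p.2) * (q.2 - p.2 + 2 * p.2) := by unfold rho2; ring
    rw [e]
    have b1 : |q.1 - p.1 + 2 * p.1| ≤ 3 := by
      refine (abs_add_le _ _).trans ?_
      rw [abs_mul]; norm_num; linarith only [h0, h1, hhg, d1, hpa]
    have b2 : |q.2 - p.2 + 2 * p.2| ≤ 3 := by
      refine (abs_add_le _ _).trans ?_
      rw [abs_mul]; norm_num; linarith only [h0, h1, hhg, d2, hpb]
    refine (abs_add_le _ _).trans ?_
    rw [abs_mul, abs_mul]
    have c1 : |q.1 - p.1| * |q.1 - p.1 + 2 * p.1| ≤ h * 3 :=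
      mul_le_mul d1 b1 (abs_nonneg _) hh.le
    have c2 : |q.2 - p.2| * |q.2 - p.2 + 2 * p.2| ≤ h * 3 :=
      mul_le_mul d2 b2 (abs_nonneg _) hh.le
    linarith only [c1, c2]
  rw [abs_le] at hrd
  refine ⟨?_, ?_⟩
  · have : rho2 q ≤ rho2 p + 6 * h := by linarith only [hrd]
    nlinarith only [hhg, ho1, hrd, h1]
  · rcases ho2 with ho2 | ho2
    · left
      have e : dK n M (κ + g) = dK n M κ + g / (200 * M * (n : ℝ) ^ 8) := by
        unfold dK; ring
      have hpos : 0 < 200 * M * (n : ℝ) ^ 8 := by positivity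
      have : 3 * h ≤ g / (200 * M * (n : ℝ) ^ 8) := by
        rw [le_div_iff₀ hpos]; linarith only [hh1]
      have k := abs_sub_abs_le_abs_sub (P p) (P q)
      rw [abs_sub_comm] at k
      rw [e] at ho2
      linarith only [hh, hPd, ho2, this, k]
    · right
      have : rho2 p - 6 * h ≤ rho2 q := by linarith only [hrd]
      nlinarith only [hhg, hrd, ho2, h0]


/-- the grid cells meeting `Om κ`. -/
noncomputable def itrCells (P : Pl → ℝ) (n : ℕ) (M κ : ℝ) (m : ℕ) : Finset (ℤ × ℤ) := by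
  classical
  exact ((Finset.Ico (-(m : ℤ)) m) ×ˢ (Finset.Ico (-(m : ℤ)) m)).filter
    (fun c => (cell (1 / (m : ℝ)) c ∩ Om P n M κ).Nonempty)

theorem itr_cells_card (P : Pl → ℝ) (n : ℕ) (M κ : ℝ) (m : ℕ) :
    (itrCells P n M κ m).card ≤ 4 * m ^ 2 := by
  classical
  unfold itrCells
  refine (Finset.card_filter_le _ _).trans ?_
  rw [Finset.card_product, Int.card_Ico]
  have : ((m : ℤ) - -(m : ℤ)).toNat = 2 * m := by omega
  rw [this]
  linarith only

theorem itr_mem_cells {P : Pl → ℝ} {n : ℕ} {M κ : ℝ} {m : ℕ} (h0 : 0 ≤ κ) (h1 : κ ≤ 1)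
    (hm : 0 < m) :
    Om P n M κ ⊆ ⋃ c ∈ itrCells P n M κ m, cell (1 / (m : ℝ)) c := by
  classical
  intro p hp
  have hm' : (0 : ℝ) < m := by exact_mod_cast hm
  have hr : rho2 p < 0.64 := itr_Om_sub h0 h1 hp
  have hr' : p.1 ^ 2 + p.2 ^ 2 < 0.64 := hr
  have b1 : -1 ≤ p.1 ∧ p.1 < 1 := by constructor <;> nlinarith only [hr']
  have b2 : -1 ≤ p.2 ∧ p.2 < 1 := by constructor <;> nlinarith only [hr']
  have key : ∀ x : ℝ, -1 ≤ x → x < 1 → ⌊x * m⌋ ∈ Finset.Ico (-(m : ℤ)) m ∧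
      x ∈ Set.Ico ((⌊x * m⌋ : ℝ) * (1 / (m : ℝ))) (((⌊x * m⌋ : ℝ) + 1) * (1 / (m : ℝ))) := by
    intro x hx1 hx2
    refine ⟨?_, ?_⟩
    · rw [Finset.mem_Ico]
      constructor
      · rw [Int.le_floor]; push_cast; nlinarith only [hx1]
      · rw [Int.floor_lt]; push_cast; nlinarith only [hm', hx2]
    · have f1 := Int.floor_le (x * m)
      have f2 := Int.lt_floor_add_one (x * m)
      constructor
      · rw [mul_one_div, div_le_iff₀ hm']; exact f1
      · rw [mul_one_div, lt_div_iff₀ hm']; exact f2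
  obtain ⟨k1, k2⟩ := key p.1 b1.1 b1.2
  obtain ⟨k3, k4⟩ := key p.2 b2.1 b2.2
  have hpc : p ∈ cell (1 / (m : ℝ)) (⌊p.1 * m⌋, ⌊p.2 * m⌋) := ⟨k2, k4⟩
  simp only [mem_iUnion]
  refine ⟨(⌊p.1 * m⌋, ⌊p.2 * m⌋), ?_, hpc⟩
  unfold itrCells
  rw [Finset.mem_filter, Finset.mem_product]
  exact ⟨⟨k1, k3⟩, ⟨p, hpc, hp⟩⟩

theorem itr_cells_sub {P : Pl → ℝ} (hP : Frame P) {n : ℕ} (hn : 1 ≤ n) {M κ g : ℝ} (hM : 1 ≤ M)
    (h0 : 0 ≤ κ) (hg : 0 < g) (h1 : κ + g ≤ 1) {m : ℕ} (hm : 0 < m)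
    (hh1 : 600 * M * (n : ℝ) ^ 8 * (1 / (m : ℝ)) ≤ g) :
    (⋃ c ∈ itrCells P n M (κ + g) m, cell (1 / (m : ℝ)) c) ⊆ Om P n M κ := by
  classical
  intro p hp
  simp only [mem_iUnion] at hp
  obtain ⟨c, hc, hpc⟩ := hp
  unfold itrCells at hc
  rw [Finset.mem_filter] at hc
  have hm' : (0 : ℝ) < m := by exact_mod_cast hm
  exact itr_cell_sub hP hn hM h0 hg h1 (by positivity) hh1 c hc.2 hpc

theorem itr_dx_sub {f g : Pl → ℝ} (hf : ContDiff ℝ 2 f) (hg : ContDiff ℝ 2 g) (p : Pl) :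
    dx (fun q => f q - g q) p = dx f p - dx g p :=
  dx_sub (hf.differentiable (by norm_num) p) (hg.differentiable (by norm_num) p)

theorem itr_dt_sub {f g : Pl → ℝ} (hf : ContDiff ℝ 2 f) (hg : ContDiff ℝ 2 g) (p : Pl) :
    dt (fun q => f q - g q) p = dt f p - dt g p :=
  dt_sub (hf.differentiable (by norm_num) p) (hg.differentiable (by norm_num) p)

/-- One pigeonhole step. -/
theorem itr_step {P : Pl → ℝ} (hP : Frame P) {n : ℕ} (hn : 1 ≤ n) {M κ g : ℝ} (hM : 1 ≤ M)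
    (h0 : 0 ≤ κ) (hg : 0 < g) (h1 : κ + g + g ≤ 1) {m : ℕ} (hm : 0 < m)
    (hh1 : 600 * M * (n : ℝ) ^ 8 * (1 / (m : ℝ)) ≤ g)
    {ι : Type} [DecidableEq ι] (T : Finset ι) (u : ι → Pl → ℝ)
    (hu : ∀ s ∈ T, ContDiff ℝ 2 (u s)) {D E : ℝ} (hD : 0 < E) (hDE : D ≤ E)
    (hv : ∀ s ∈ T, ∀ s' ∈ T, ∫ p in Om P n M κ, (u s p - u s' p) ^ 2 ≤ D)
    (hgr : ∀ s ∈ T, ∀ s' ∈ T, ∫ p in Om P n M (κ + g),
      (dx (fun q => u s q - u s' q) p ^ 2 + dt (fun q => u s q - u s' q) p ^ 2) ≤ E) :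
    ∃ T' ⊆ T, T.card ≤ T'.card * (⌈5 / (1 / (m : ℝ)) ^ 2⌉₊) ^ (4 * m ^ 2) ∧
      ∀ s ∈ T', ∀ s' ∈ T', ∫ p in Om P n M (κ + g + g), (u s p - u s' p) ^ 2
        ≤ 5 * (1 / (m : ℝ)) ^ 2 * E := by
  classical
  have hm' : (0 : ℝ) < m := by exact_mod_cast hm
  have hm1 : (1 : ℝ) ≤ m := by exact_mod_cast hm
  set h : ℝ := 1 / (m : ℝ) with hh
  have hhpos : 0 < h := by positivity
  have hhle : h ≤ 1 := by rw [hh, div_le_one hm']; exact hm1
  set cs := itrCells P n M (κ + g + g) m with hcs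
  set W : Set Pl := ⋃ c ∈ cs, cell h c with hW
  have hcc : (cs.card : ℝ) ≤ 4 * (m : ℝ) ^ 2 := by exact_mod_cast itr_cells_card P n M (κ + g + g) m
  have hcard : (cs.card : ℝ) * h ^ 2 ≤ 4 := by
    have : h ^ 2 = 1 / (m : ℝ) ^ 2 := by rw [hh]; field_simp
    rw [this, mul_one_div, div_le_iff₀ (by positivity)]
    exact hcc
  have hWsub : W ⊆ Om P n M (κ + g) :=
    itr_cells_sub hP hn hM (by linarith only [h0, hg]) hg h1 hm hh1
  have hOsub : Om P n M (κ + g + g) ⊆ W := itr_mem_cells (by linarith only [h0, hg]) h1 hm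
  have hOm : Om P n M (κ + g) ⊆ Om P n M κ := by
    intro p hp
    have h2 : p ∈ ⋃ c ∈ itrCells P n M (κ + g) m, cell (1 / (m : ℝ)) c :=
      itr_mem_cells (by linarith only [h0, hg]) (by linarith only [hg, h1]) hm hp
    exact itr_cells_sub hP hn hM h0 hg (by linarith only [hg, h1]) hm hh1 h2
  have hE : Real.sqrt E ^ 2 = E := Real.sq_sqrt hD.le
  have hmeasO : ∀ κ, MeasurableSet (Om P n M κ) := fun κ => (itr_isOpen_Om hP n M κ).measurableSet
  obtain ⟨T', hT', hc, hd⟩ := cell_pigeonhole hhpos hhle cs hcard T u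
    (fun i hi => (hu i hi).of_le (by norm_num)) (R := Real.sqrt E) (Real.sqrt_pos.2 hD)
    (by
      intro i hi j hj
      rw [hE]
      refine le_trans ?_ ((hv i hi j hj).trans hDE)
      have cont : Continuous (fun p => (u i p - u j p) ^ 2) :=
        ((hu i hi).continuous.sub (hu j hj).continuous).pow 2
      exact setIntegral_mono_set (itr_intOn h0 (by linarith only [hg, h1]) cont)
        (Filter.Eventually.of_forall fun p => sq_nonneg _)
        (Filter.Eventually.of_forall (hWsub.trans hOm)))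
    (by
      intro i hi j hj
      rw [hE]
      refine le_trans ?_ (hgr i hi j hj)
      have e : ∀ p, (dx (u i) p - dx (u j) p) ^ 2 + (dt (u i) p - dt (u j) p) ^ 2
          = dx (fun q => u i q - u j q) p ^ 2 + dt (fun q => u i q - u j q) p ^ 2 := by
        intro p; rw [itr_dx_sub (hu i hi) (hu j hj), itr_dt_sub (hu i hi) (hu j hj)]
      simp_rw [e]
      have cv : ContDiff ℝ 2 (fun q => u i q - u j q) := (hu i hi).sub (hu j hj)
      have cont : Continuous (fun p => dx (fun q => u i q - u j q) p ^ 2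
          + dt (fun q => u i q - u j q) p ^ 2) :=
        ((contDiff_dx (m := 0) cv (by norm_num)).continuous.pow 2).add
          ((contDiff_dt (m := 0) cv (by norm_num)).continuous.pow 2)
      exact setIntegral_mono_set (itr_intOn (by linarith only [h0, hg]) (by linarith only [hg, h1]) cont)
        (Filter.Eventually.of_forall fun p => by (clear * -; positivity))
        (Filter.Eventually.of_forall hWsub))
  refine ⟨T', hT', ?_, ?_⟩
  · refine hc.trans (Nat.mul_le_mul_left _ ?_)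
    refine Nat.pow_le_pow_right ?_ (itr_cells_card _ _ _ _ _)
    exact Nat.ceil_pos.2 (by positivity)
  · intro s hs s' hs'
    have h3 := hd s hs s' hs'
    rw [hE] at h3
    refine le_trans ?_ h3
    have cont : Continuous (fun p => (u s p - u s' p) ^ 2) :=
      ((hu s (hT' hs)).continuous.sub (hu s' (hT' hs')).continuous).pow 2
    exact setIntegral_mono_set ((itr_intOn (by linarith only [h0, hg]) (by linarith only [hg, h1]) cont).mono_set hWsub)
      (Filter.Eventually.of_forall fun p => sq_nonneg _)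
      (Filter.Eventually.of_forall hOsub)


theorem itr_ceil {n : ℕ} (hn : 1 ≤ n) :
    ⌈(5 : ℝ) / (1 / ((n ^ 51 : ℕ) : ℝ)) ^ 2⌉₊ = 5 * n ^ 102 := by
  have hn' : (n : ℝ) ≠ 0 := by positivity
  have : (5 : ℝ) / (1 / ((n ^ 51 : ℕ) : ℝ)) ^ 2 = ((5 * n ^ 102 : ℕ) : ℝ) := by
    push_cast; field_simp
  rw [this, Nat.ceil_natCast]

theorem itr_card {n L : ℕ} (hn : 5 ≤ n) (hL : 412 * L < n ^ 3) :
    ((5 * n ^ 102) ^ (4 * (n ^ 51) ^ 2)) ^ L < 2 ^ (n ^ 106) := by
  have h1 : 5 * n ^ 102 ≤ 2 ^ (103 * n) := by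
    calc 5 * n ^ 102 ≤ n * n ^ 102 := Nat.mul_le_mul_right _ hn
      _ = n ^ 103 := by ring
      _ ≤ (2 ^ n) ^ 103 := Nat.pow_le_pow_left (Nat.lt_two_pow_self).le _
      _ = 2 ^ (103 * n) := by rw [← pow_mul, mul_comm]
  calc ((5 * n ^ 102) ^ (4 * (n ^ 51) ^ 2)) ^ L
      ≤ ((2 ^ (103 * n)) ^ (4 * (n ^ 51) ^ 2)) ^ L :=
        Nat.pow_le_pow_left (Nat.pow_le_pow_left h1 _) _
    _ = 2 ^ (412 * L * n ^ 103) := by
        rw [← pow_mul, ← pow_mul]; congr 1; ring
    _ < 2 ^ (n ^ 106) := by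
        apply Nat.pow_lt_pow_right (by norm_num)
        calc 412 * L * n ^ 103 < n ^ 3 * n ^ 103 :=
              Nat.mul_lt_mul_of_pos_right hL (by positivity)
          _ = n ^ 106 := by ring

theorem itr_rec {n : ℕ} (hn : 5 ≤ n) (i : ℕ) {e : ℝ} (he : 0 ≤ e) :
    5 * (1 / ((n ^ 51 : ℕ) : ℝ)) ^ 2 * ((n : ℝ) ^ 100 * (4 / (n : ℝ) ^ i + 2 * e) + e)
      ≤ 4 / (n : ℝ) ^ (i + 1) + 2 * e := by
  have hn' : (5 : ℝ) ≤ n := by exact_mod_cast hn
  have hn0 : (0 : ℝ) < n := by linarith only [hn']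
  have e1 : 5 * (1 / ((n ^ 51 : ℕ) : ℝ)) ^ 2 * ((n : ℝ) ^ 100 * (4 / (n : ℝ) ^ i + 2 * e) + e)
      = 20 / ((n : ℝ) ^ (i + 1) * n) + (10 / (n : ℝ) ^ 2 + 5 / (n : ℝ) ^ 102) * e := by
    push_cast; field_simp; ring
  rw [e1]
  have k1 : 20 / ((n : ℝ) ^ (i + 1) * n) ≤ 4 / (n : ℝ) ^ (i + 1) := by
    rw [div_le_div_iff₀ (by positivity) (by positivity)]
    have : 0 < (n : ℝ) ^ (i + 1) := by positivity
    nlinarith only [hn', this]
  have k2 : 10 / (n : ℝ) ^ 2 ≤ 1 := by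
    rw [div_le_one (by positivity)]; nlinarith only [hn']
  have k3 : 5 / (n : ℝ) ^ 102 ≤ 1 := by
    rw [div_le_one (by positivity)]
    calc (5 : ℝ) ≤ n := hn'
      _ = (n : ℝ) ^ 1 := (pow_one _).symm
      _ ≤ (n : ℝ) ^ 102 := pow_le_pow_right₀ (by linarith only [hn']) (by norm_num)
  have k4 : (10 / (n : ℝ) ^ 2 + 5 / (n : ℝ) ^ 102) * e ≤ 2 * e :=
    mul_le_mul_of_nonneg_right (by linarith only [k2, k3]) he
  linarith only [k1, k4]

theorem itr_base {P : Pl → ℝ} (n : ℕ) (M : ℝ) {f : Pl → ℝ} (hf : Continuous f)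
    (h1 : ∀ p, rho2 p < 0.64 → |f p| ≤ 1) (hP : Frame P) :
    ∫ p in Om P n M 0, f p ^ 2 ≤ 4 := by
  have hm : MeasurableSet (Om P n M 0) := (itr_isOpen_Om hP n M 0).measurableSet
  have k1 : ∫ p in Om P n M 0, f p ^ 2 ≤ ∫ p in Om P n M 0, (1 : ℝ) := by
    refine setIntegral_mono_on (itr_intOn le_rfl (by norm_num) (by fun_prop))
      (itr_intOn le_rfl (by norm_num) continuous_const) hm ?_
    intro p hp
    have := h1 p (itr_Om_sub le_rfl (by norm_num) hp)
    have h2 : |f p| ^ 2 ≤ 1 := pow_le_one₀ (abs_nonneg _) this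
    rwa [sq_abs] at h2
  have k2 : ∫ p in Om P n M 0, (1 : ℝ) ≤ ∫ p in (Icc (-1 : ℝ) 1 ×ˢ Icc (-1 : ℝ) 1 : Set Pl), (1 : ℝ) :=
    setIntegral_mono_set (continuousOn_const.integrableOn_compact (isCompact_Icc.prod isCompact_Icc))
      (Filter.Eventually.of_forall fun _ => by simp)
      (Filter.Eventually.of_forall (itr_Om_box le_rfl (by norm_num)))
  have k3 : ∫ p in (Icc (-1 : ℝ) 1 ×ˢ Icc (-1 : ℝ) 1 : Set Pl), (1 : ℝ) = 4 := by
    rw [setIntegral_const, Measure.volume_eq_prod, measureReal_prod_prod]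
    simp only [Real.volume_real_Icc, sub_neg_eq_add, nonneg_add_self_iff, zero_le_one, sup_of_le_left, smul_eq_mul, mul_one]; norm_num
  linarith

/-- Iterated pigeonhole: two different strings with close solutions on `Om 1`. -/
theorem iterate (M : ℝ) (hM : 1 ≤ M) (A : ℕ) : ∃ n0 : ℕ, ∀ n : ℕ, n0 ≤ n →
    ∀ (P : Pl → ℝ) (δ : ℝ) (ι : Type) [DecidableEq ι] (S : Finset ι) (u : ι → Pl → ℝ),
    1 / (4 * M ^ 2 * (n : ℝ) ^ 16) ≤ δ → δ ≤ 4 * M ^ 2 / (n : ℝ) ^ 16 →
    (∀ s ∈ S, ContDiff ℝ 2 (u s)) →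
    (∀ s ∈ S, ∀ s' ∈ S, ∀ p, rho2 p < 0.64 → |u s p - u s' p| ≤ 1 ∧
      |XX P (fun q => u s q - u s' q) p| ≤ 1 ∧ |YY P (fun q => u s q - u s' q) p| ≤ 1) →
    (∀ s ∈ S, ∀ s' ∈ S, ∃ a α e1 e2 F : Pl → ℝ,
      PairEq P (fun q => u s q - u s' q) a α e1 e2 F δ ∧
      ∀ p, rho2 p < 0.64 → (dK n M 0 < |P p| ∨ 1 / 4 < rho2 p) → F p = 0) →
    2 ^ (n ^ 106) ≤ S.card →
    ∃ s ∈ S, ∃ s' ∈ S, s ≠ s' ∧
      ∫ p in Om P n M 1, (dx (fun q => u s q - u s' q) p ^ 2 + dt (fun q => u s q - u s' q) p ^ 2)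
        ≤ 1 / (n : ℝ) ^ A := by
  set L : ℕ := A + 103 with hL
  obtain ⟨ns, hns⟩ := stage M hM (2 * L)
  -- the exponential condition
  have hexp : ∀ᶠ n : ℕ in Filter.atTop,
      (2 * (n : ℝ) ^ 100 + 1) * Real.exp (-(n : ℝ)) ≤ 1 / (2 * (n : ℝ) ^ A) := by
    have t : Filter.Tendsto (fun x : ℝ => x ^ (A + 101) * Real.exp (-x)) Filter.atTop (nhds 0) :=
      Real.tendsto_pow_mul_exp_neg_atTop_nhds_zero (A + 101)
    have t2 := t.comp tendsto_natCast_atTop_atTop
    have t3 : ∀ᶠ n : ℕ in Filter.atTop, (n : ℝ) ^ (A + 101) * Real.exp (-(n : ℝ)) < 1 / 2 :=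
      t2.eventually (gt_mem_nhds (by norm_num))
    filter_upwards [t3, Filter.eventually_ge_atTop 3] with n h3 hn3
    have hn3' : (3 : ℝ) ≤ n := by exact_mod_cast hn3
    have hpos : 0 < (n : ℝ) ^ A := by positivity
    rw [le_div_iff₀ (by positivity)]
    have e1 : 2 * (n : ℝ) ^ 100 + 1 ≤ (n : ℝ) ^ 101 := by
      have : (1 : ℝ) ≤ (n : ℝ) ^ 100 := one_le_pow₀ (by linarith only [hn3'])
      calc 2 * (n : ℝ) ^ 100 + 1 ≤ 3 * (n : ℝ) ^ 100 := by linarith only [this]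
        _ ≤ n * (n : ℝ) ^ 100 := mul_le_mul_of_nonneg_right hn3' (by positivity)
        _ = (n : ℝ) ^ 101 := by ring
    have he : 0 < Real.exp (-(n : ℝ)) := Real.exp_pos _
    calc (2 * (n : ℝ) ^ 100 + 1) * Real.exp (-(n : ℝ)) * (2 * (n : ℝ) ^ A)
        ≤ (n : ℝ) ^ 101 * Real.exp (-(n : ℝ)) * (2 * (n : ℝ) ^ A) := by
          apply mul_le_mul_of_nonneg_right _ (by positivity)
          exact mul_le_mul_of_nonneg_right e1 he.le
      _ = 2 * ((n : ℝ) ^ (A + 101) * Real.exp (-(n : ℝ))) := by ring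
      _ ≤ 1 := by linarith only [h3]
  have hbig : ∀ᶠ n : ℕ in Filter.atTop, 600 * M * (2 * L + 1) ≤ (n : ℝ) :=
    (tendsto_natCast_atTop_atTop (R := ℝ)).eventually_ge_atTop _
  have hev := ((hexp.and hbig).and (Filter.eventually_ge_atTop ns)).and
    ((Filter.eventually_ge_atTop 5).and (Filter.eventually_ge_atTop (412 * L + 1)))
  obtain ⟨n0, hn0⟩ := Filter.eventually_atTop.1 hev
  refine ⟨n0, ?_⟩
  intro n hn P δ ι _ S u hδ1 hδ2 hu hbd hpair hcardS
  obtain ⟨⟨⟨hE, hB⟩, hnns⟩, hn5, hnL⟩ := hn0 n hn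
  have hn5' : (5 : ℝ) ≤ n := by exact_mod_cast hn5
  have hn1 : 1 ≤ n := by omega
  have hn0' : (0 : ℝ) < n := by linarith only [hn5']
  set g : ℝ := 1 / (2 * (L : ℝ) + 1) with hg
  have hgpos : 0 < g := by positivity
  have hgL : 2 * (L : ℝ) * g + g = 1 := by rw [hg]; (clear * -; field_simp)
  have hJ : 1 / (((2 * L : ℕ) : ℝ) + 1) = g := by rw [hg]; push_cast; ring
  have hmpos : 0 < n ^ 51 := by positivity
  have hstep : 600 * M * (n : ℝ) ^ 8 * (1 / ((n ^ 51 : ℕ) : ℝ)) ≤ g := by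
    push_cast
    rw [hg, mul_one_div, div_le_div_iff₀ (by positivity) (by positivity)]
    have : (n : ℝ) ≤ (n : ℝ) ^ 43 := by
      calc (n : ℝ) = (n : ℝ) ^ 1 := (pow_one _).symm
        _ ≤ (n : ℝ) ^ 43 := pow_le_pow_right₀ (by linarith only [hn5']) (by norm_num)
    calc 600 * M * (n : ℝ) ^ 8 * (2 * (L : ℝ) + 1)
        = (600 * M * (2 * L + 1)) * (n : ℝ) ^ 8 := by ring
      _ ≤ (n : ℝ) ^ 43 * (n : ℝ) ^ 8 := by
          apply mul_le_mul_of_nonneg_right (hB.trans this) (by positivity)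
      _ = 1 * (n : ℝ) ^ 51 := by ring
  have hpos2 : 0 < 2 ^ (n ^ 106) := by positivity
  obtain ⟨s0, hs0⟩ : S.Nonempty := Finset.card_pos.1 (lt_of_lt_of_le hpos2 hcardS)
  have hP : Frame P := by
    obtain ⟨a, α, e1, e2, F, h, -⟩ := hpair s0 hs0 s0 hs0
    exact h.frame
  -- the stage inequality
  have hst : ∀ s ∈ S, ∀ s' ∈ S, ∀ κ κ' : ℝ, 0 ≤ κ → κ' ≤ 1 → κ + g ≤ κ' →
      ∫ p in Om P n M κ', (dx (fun q => u s q - u s' q) p ^ 2 + dt (fun q => u s q - u s' q) p ^ 2)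
        ≤ (n : ℝ) ^ 100 * (∫ p in Om P n M κ, (u s p - u s' p) ^ 2) + Real.exp (-(n : ℝ)) := by
    intro s hs s' hs' κ κ' k1 k2 k3
    obtain ⟨a, α, e1, e2, F, h, hF⟩ := hpair s hs s' hs'
    exact hns n hnns P _ a α e1 e2 F δ h hδ1 hδ2 hF (fun p hp => hbd s hs s' hs' p hp) κ κ' k1 k2
      (by rw [hJ]; exact k3)
  set K : ℕ := (5 * n ^ 102) ^ (4 * (n ^ 51) ^ 2) with hK
  -- iteration
  have key : ∀ i : ℕ, i ≤ L → ∃ T ⊆ S, S.card ≤ T.card * K ^ i ∧ ∀ s ∈ T, ∀ s' ∈ T,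
      ∫ p in Om P n M (2 * (i : ℝ) * g), (u s p - u s' p) ^ 2
        ≤ 4 / (n : ℝ) ^ i + 2 * Real.exp (-(n : ℝ)) := by
    intro i
    induction i with
    | zero =>
      intro _
      refine ⟨S, Finset.Subset.refl _, by simp, ?_⟩
      intro s hs s' hs'
      have := itr_base (P := P) n M (f := fun p => u s p - u s' p)
        ((hu s hs).continuous.sub (hu s' hs').continuous) (fun p hp => (hbd s hs s' hs' p hp).1) hP
      have he : 0 < Real.exp (-(n : ℝ)) := Real.exp_pos _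
      simp only [Nat.cast_zero, mul_zero, zero_mul, pow_zero, div_one]
      linarith only [this, he]
    | succ i ih =>
      intro hi
      obtain ⟨T, hTS, hTc, hT⟩ := ih (by omega)
      have hiL : ((i : ℝ) + 1) ≤ L := by exact_mod_cast hi
      have hκ0 : 0 ≤ 2 * (i : ℝ) * g := by (clear * -; positivity)
      have hκ1 : 2 * (i : ℝ) * g + g + g ≤ 1 := by
        have : 2 * (i : ℝ) * g + g + g = 2 * ((i : ℝ) + 1) * g := by ring
        rw [this]
        have : 2 * ((i : ℝ) + 1) * g ≤ 2 * (L : ℝ) * g := by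
          apply mul_le_mul_of_nonneg_right _ hgpos.le
          linarith only [hiL]
        linarith only [hgpos, hgL, this]
      have he : 0 < Real.exp (-(n : ℝ)) := Real.exp_pos _
      have hn100 : (1 : ℝ) ≤ (n : ℝ) ^ 100 := one_le_pow₀ (by linarith only [hn5'])
      have hDpos : 0 < 4 / (n : ℝ) ^ i + 2 * Real.exp (-(n : ℝ)) := by positivity
      obtain ⟨T', hT'T, hT'c, hT'⟩ := itr_step hP hn1 hM hκ0 hgpos hκ1 hmpos hstep T u
        (fun s hs => hu s (hTS hs))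
        (D := 4 / (n : ℝ) ^ i + 2 * Real.exp (-(n : ℝ)))
        (E := (n : ℝ) ^ 100 * (4 / (n : ℝ) ^ i + 2 * Real.exp (-(n : ℝ))) + Real.exp (-(n : ℝ)))
        (by positivity) (by nlinarith only [he, hn100, hDpos]) hT
        (by
          intro s hs s' hs'
          refine (hst s (hTS hs) s' (hTS hs') _ _ hκ0 (by linarith only [hgpos, hκ1]) le_rfl).trans ?_
          have := mul_le_mul_of_nonneg_left (hT s hs s' hs') (by positivity : (0 : ℝ) ≤ (n : ℝ) ^ 100)
          linarith only [this])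
      refine ⟨T', hT'T.trans hTS, ?_, ?_⟩
      · rw [itr_ceil hn1, ← hK] at hT'c
        calc S.card ≤ T.card * K ^ i := hTc
          _ ≤ (T'.card * K) * K ^ i := Nat.mul_le_mul_right _ hT'c
          _ = T'.card * K ^ (i + 1) := by ring
      · intro s hs s' hs'
        have h1 := hT' s hs s' hs'
        have h2 := itr_rec hn5 i (e := Real.exp (-(n : ℝ))) he.le
        have e3 : 2 * (((i + 1 : ℕ) : ℝ)) * g = 2 * (i : ℝ) * g + g + g := by push_cast; ring
        rw [e3]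
        exact h1.trans h2
  obtain ⟨T, hTS, hTc, hT⟩ := key L le_rfl
  have hT2 : 1 < T.card := by
    by_contra hcon
    push Not at hcon
    have h1 : S.card ≤ K ^ L := hTc.trans (by
      calc T.card * K ^ L ≤ 1 * K ^ L := Nat.mul_le_mul_right _ hcon
        _ = K ^ L := one_mul _)
    have h2 : K ^ L < 2 ^ (n ^ 106) := by
      apply itr_card hn5
      calc 412 * L < n := by (clear * - hnL; omega)
        _ = n ^ 1 := (pow_one _).symm
        _ ≤ n ^ 3 := Nat.pow_le_pow_right (by omega) (by norm_num)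
    omega
  obtain ⟨s, hs, s', hs', hne⟩ := Finset.one_lt_card.1 hT2
  refine ⟨s, hTS hs, s', hTS hs', hne, ?_⟩
  have h1 := hst s (hTS hs) s' (hTS hs') (2 * (L : ℝ) * g) 1 (by (clear * -; positivity)) le_rfl hgL.le
  refine h1.trans ?_
  have h2 := mul_le_mul_of_nonneg_left (hT s hs s' hs') (by positivity : (0 : ℝ) ≤ (n : ℝ) ^ 100)
  have e4 : (n : ℝ) ^ 100 * (4 / (n : ℝ) ^ L + 2 * Real.exp (-(n : ℝ))) + Real.exp (-(n : ℝ))
      = 4 / ((n : ℝ) ^ A * (n : ℝ) ^ 3) + (2 * (n : ℝ) ^ 100 + 1) * Real.exp (-(n : ℝ)) := by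
    rw [hL, pow_add]; field_simp; ring
  have h3 : 4 / ((n : ℝ) ^ A * (n : ℝ) ^ 3) ≤ 1 / (2 * (n : ℝ) ^ A) := by
    rw [div_le_div_iff₀ (by positivity) (by positivity)]
    have : (8 : ℝ) ≤ (n : ℝ) ^ 3 := by
      calc (8 : ℝ) ≤ 5 ^ 3 := by norm_num
        _ ≤ (n : ℝ) ^ 3 := pow_le_pow_left₀ (by norm_num) hn5' 3
    have hA : 0 < (n : ℝ) ^ A := by positivity
    nlinarith only [this, hA]
  have e5 : 1 / (n : ℝ) ^ A = 1 / (2 * (n : ℝ) ^ A) + 1 / (2 * (n : ℝ) ^ A) := by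
    field_simp; ring
  rw [e5]
  linarith only [hE, h2, e4, h3]

end Vale.Agent.P229.D
end
end

section

section

/-!
# P229, disproof, task T10a: propagation from the initial zone to the edge of the bit
(`PROOF.md`, §9, STEP 1)
-/

open scoped ContDiff Topology
open MeasureTheory Set

namespace Vale.Agent.P229.D

namespace S1

open S2

/-! ## affine cut-offs -/

section cut

variable {P : Pl → ℝ} {α β γ : ℝ} {p : Pl}

/-- the affine function `α + β t + γ P`. -/
noncomputable def aff (α β γ : ℝ) (P : Pl → ℝ) (p : Pl) : ℝ := α + β * p.2 + γ * P p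

/-- the cut-off `Tr (α + β t + γ P)`. -/
noncomputable def cut (α β γ : ℝ) (P : Pl → ℝ) (p : Pl) : ℝ :=
  Real.smoothTransition (aff α β γ P p)

/-- its derivative. -/
noncomputable def cut' (α β γ : ℝ) (P : Pl → ℝ) (p : Pl) : ℝ :=
  deriv Real.smoothTransition (aff α β γ P p)

theorem aff_smooth (hP : Frame P) : ContDiff ℝ 3 (aff α β γ P) := by
  unfold aff
  have := hP.smooth
  fun_prop

theorem XX_aff (hP : Frame P) : XX P (aff α β γ P) p = γ := by
  have dP := hP.differentiableAt p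
  have e : aff α β γ P = fun q => (fun q => α + β * q.2) q + (fun q => γ * P q) q := rfl
  have e2 : (fun q : Pl => α + β * q.2) = fun q => (fun y => α + β * y) q.2 := rfl
  have e3 : XX P (fun q : Pl => (fun y => α + β * y) q.2) p = 0 :=
    XX_comp_snd (φ := fun y => α + β * y) (by fun_prop)
  rw [e, XX_add (by fun_prop) (by fun_prop), XX_const_mul γ dP, XX_self hP, e2, e3]
  ring

theorem YY_aff (hP : Frame P) : YY P (aff α β γ P) p = β := by
  have dP := hP.differentiableAt p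
  have e : aff α β γ P = fun q => (fun q => α + β * q.2) q + (fun q => γ * P q) q := rfl
  have e2 : (fun q : Pl => α + β * q.2) = fun q => (fun y => α + β * y) q.2 := rfl
  have e4 : HasDerivAt (fun y : ℝ => α + β * y) β p.2 := by
    simpa using ((hasDerivAt_id p.2).const_mul β).const_add α
  have e3 : YY P (fun q : Pl => (fun y => α + β * y) q.2) p = β :=
    (YY_comp_snd (φ := fun y => α + β * y) (by fun_prop)).trans e4.deriv
  rw [e, YY_add (by fun_prop) (by fun_prop), YY_const_mul γ dP, YY_self hP, e2, e3]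
  ring

theorem cut_nonneg : 0 ≤ cut α β γ P p := Real.smoothTransition.nonneg _
theorem cut_le : cut α β γ P p ≤ 1 := Real.smoothTransition.le_one _
theorem cut'_nonneg : 0 ≤ cut' α β γ P p := Tr'_nonneg _

theorem cut_smooth (hP : Frame P) : ContDiff ℝ 3 (cut α β γ P) :=
  Tr_contDiff3.comp (aff_smooth hP)

theorem cut'_cont (hP : Frame P) : Continuous (cut' α β γ P) :=
  Tr'_cont.comp (aff_smooth hP).continuous

theorem XX_cut (hP : Frame P) : XX P (cut α β γ P) p = γ * cut' α β γ P p := by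
  unfold cut cut'
  rw [XX_comp (Tr_diff _) ((aff_smooth hP).differentiable (by norm_num) p), XX_aff hP]
  ring

theorem YY_cut (hP : Frame P) : YY P (cut α β γ P) p = β * cut' α β γ P p := by
  unfold cut cut'
  rw [YY_comp (Tr_diff _) ((aff_smooth hP).differentiable (by norm_num) p), YY_aff hP]
  ring

theorem cut_ne (h : cut α β γ P p ≠ 0) : 0 < aff α β γ P p := by
  by_contra hcon
  exact h (Real.smoothTransition.zero_of_nonpos (not_lt.1 hcon))

theorem cut'_ne (h : cut' α β γ P p ≠ 0) : 0 < aff α β γ P p ∧ aff α β γ P p < 1 := by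
  constructor
  · by_contra hcon
    exact h (Tr'_zero_of_nonpos (not_lt.1 hcon))
  · by_contra hcon
    exact h (Tr'_zero_of_one_le (not_lt.1 hcon))

theorem cut_one (h : 1 ≤ aff α β γ P p) : cut α β γ P p = 1 :=
  Real.smoothTransition.one_of_one_le h

end cut

/-! ## the weight -/

section weight

variable (sg d h l c tj pj : ℝ)

/-- outer cut-off. -/
noncomputable def fA (sg d : ℝ) (P : Pl → ℝ) (p : Pl) : ℝ := cut 2 0 (-sg / d) P p

/-- derivative of the outer cut-off. -/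
noncomputable def fA' (sg d : ℝ) (P : Pl → ℝ) (p : Pl) : ℝ := cut' 2 0 (-sg / d) P p

/-- exponential. -/
noncomputable def fB (sg pj : ℝ) (P : Pl → ℝ) (p : Pl) : ℝ :=
  Real.exp (aff (-(100 * sg * pj)) 0 (100 * sg) P p)

/-- side cut-offs, `s = 1` or `s = -1`. -/
noncomputable def fC (sg l c tj pj s : ℝ) (P : Pl → ℝ) (p : Pl) : ℝ :=
  cut (5 + s * tj / l - c * sg * pj / l) (-s / l) (c * sg / l) P p

/-- derivative of the side cut-offs. -/
noncomputable def fC' (sg l c tj pj s : ℝ) (P : Pl → ℝ) (p : Pl) : ℝ :=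
  cut' (5 + s * tj / l - c * sg * pj / l) (-s / l) (c * sg / l) P p

/-- inner cut-off. -/
noncomputable def fE (sg h pj : ℝ) (P : Pl → ℝ) (p : Pl) : ℝ :=
  cut (-1 - sg * pj / h) 0 (sg / h) P p

/-- derivative of the inner cut-off. -/
noncomputable def fE' (sg h pj : ℝ) (P : Pl → ℝ) (p : Pl) : ℝ :=
  cut' (-1 - sg * pj / h) 0 (sg / h) P p

/-- the weight. -/
noncomputable def mu (P : Pl → ℝ) (p : Pl) : ℝ :=
  fA sg d P p * fB sg pj P p * fC sg l c tj pj 1 P p * fC sg l c tj pj (-1) P p * fE sg h pj P p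

/-- `k₂`. -/
noncomputable def k2 (P : Pl → ℝ) (p : Pl) : ℝ :=
  1 / d * (fA' sg d P p * fB sg pj P p * fC sg l c tj pj 1 P p * fC sg l c tj pj (-1) P p
    * fE sg h pj P p)

/-- the side part of `k₁`. -/
noncomputable def side (P : Pl → ℝ) (p : Pl) : ℝ :=
  fA sg d P p * fB sg pj P p * fE sg h pj P p *
      (fC' sg l c tj pj 1 P p * fC sg l c tj pj (-1) P p
        + fC sg l c tj pj 1 P p * fC' sg l c tj pj (-1) P p)

/-- the inner part of `k₁`. -/
noncomputable def inner' (P : Pl → ℝ) (p : Pl) : ℝ :=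
  fA sg d P p * fB sg pj P p * fC sg l c tj pj 1 P p * fC sg l c tj pj (-1) P p
    * fE' sg h pj P p

/-- `k₁`. -/
noncomputable def k1 (P : Pl → ℝ) (p : Pl) : ℝ :=
  100 * mu sg d h l c tj pj P p + c / l * side sg d h l c tj pj P p
    + 1 / h * inner' sg d h l c tj pj P p

end weight

section lemmas

variable {P : Pl → ℝ} {sg d h l c tj pj : ℝ} {p : Pl}

theorem fB_pos : 0 < fB sg pj P p := Real.exp_pos _

theorem fB_smooth (hP : Frame P) : ContDiff ℝ 3 (fB sg pj P) :=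
  Real.contDiff_exp.comp (aff_smooth hP)

theorem XX_fB (hP : Frame P) : XX P (fB sg pj P) p = 100 * sg * fB sg pj P p := by
  unfold fB
  rw [XX_comp (φ := Real.exp) Real.differentiable_exp.differentiableAt
    ((aff_smooth hP).differentiable (by norm_num) p), XX_aff hP, Real.deriv_exp]
  ring

theorem YY_fB (hP : Frame P) : YY P (fB sg pj P) p = 0 := by
  unfold fB
  rw [YY_comp (φ := Real.exp) Real.differentiable_exp.differentiableAt
    ((aff_smooth hP).differentiable (by norm_num) p), YY_aff hP]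
  ring

theorem mu_nonneg : 0 ≤ mu sg d h l c tj pj P p := by
  unfold mu fA fC fE
  have := (fB_pos (sg := sg) (pj := pj) (P := P) (p := p)).le
  refine mul_nonneg (mul_nonneg (mul_nonneg (mul_nonneg cut_nonneg this) cut_nonneg) cut_nonneg)
    cut_nonneg

theorem side_nonneg : 0 ≤ side sg d h l c tj pj P p := by
  unfold side fA fC fE fC'
  have := (fB_pos (sg := sg) (pj := pj) (P := P) (p := p)).le
  exact mul_nonneg (mul_nonneg (mul_nonneg cut_nonneg this) cut_nonneg)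
    (add_nonneg (mul_nonneg cut'_nonneg cut_nonneg) (mul_nonneg cut_nonneg cut'_nonneg))

theorem inner'_nonneg : 0 ≤ inner' sg d h l c tj pj P p := by
  unfold inner' fA fC fE'
  have := (fB_pos (sg := sg) (pj := pj) (P := P) (p := p)).le
  refine mul_nonneg (mul_nonneg (mul_nonneg (mul_nonneg cut_nonneg this) cut_nonneg) cut_nonneg)
    cut'_nonneg

theorem k2_nonneg (hd : 0 < d) : 0 ≤ k2 sg d h l c tj pj P p := by
  unfold k2 fA' fC fE
  have := (fB_pos (sg := sg) (pj := pj) (P := P) (p := p)).le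
  refine mul_nonneg (by positivity) (mul_nonneg (mul_nonneg (mul_nonneg (mul_nonneg cut'_nonneg this)
    cut_nonneg) cut_nonneg) cut_nonneg)

theorem mu_le_k1 (hh : 0 < h) (hl : 0 < l) (hc : 0 ≤ c) :
    100 * mu sg d h l c tj pj P p ≤ k1 sg d h l c tj pj P p := by
  unfold k1
  have h1 := side_nonneg (sg := sg) (d := d) (h := h) (l := l) (c := c) (tj := tj) (pj := pj)
    (P := P) (p := p)
  have h2 := inner'_nonneg (sg := sg) (d := d) (h := h) (l := l) (c := c) (tj := tj) (pj := pj)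
    (P := P) (p := p)
  have h3 : 0 ≤ c / l := div_nonneg hc hl.le
  have h4 : 0 ≤ 1 / h := by positivity
  have h5 := mul_nonneg h3 h1
  have h6 := mul_nonneg h4 h2
  linarith only [h5, h6]

theorem side_le_k1 (hh : 0 < h) :
    c / l * side sg d h l c tj pj P p ≤ k1 sg d h l c tj pj P p := by
  unfold k1
  have h1 := mu_nonneg (sg := sg) (d := d) (h := h) (l := l) (c := c) (tj := tj) (pj := pj)
    (P := P) (p := p)
  have h2 := inner'_nonneg (sg := sg) (d := d) (h := h) (l := l) (c := c) (tj := tj) (pj := pj)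
    (P := P) (p := p)
  have h4 : 0 ≤ 1 / h := by positivity
  have h6 := mul_nonneg h4 h2
  linarith only [h1, h6]

theorem k1_nonneg (hh : 0 < h) (hl : 0 < l) (hc : 0 ≤ c) : 0 ≤ k1 sg d h l c tj pj P p :=
  le_trans (mul_nonneg (by norm_num) mu_nonneg) (mu_le_k1 hh hl hc)

theorem mu_smooth (hP : Frame P) : ContDiff ℝ 3 (mu sg d h l c tj pj P) := by
  unfold mu fA fC fE
  exact ((((cut_smooth hP).mul (fB_smooth hP)).mul (cut_smooth hP)).mul (cut_smooth hP)).mul
    (cut_smooth hP)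

theorem side_cont (hP : Frame P) : Continuous (side sg d h l c tj pj P) := by
  unfold side fA fC fE fC'
  exact (((cut_smooth hP).continuous.mul (fB_smooth hP).continuous).mul
    (cut_smooth hP).continuous).mul
    (((cut'_cont hP).mul (cut_smooth hP).continuous).add
      ((cut_smooth hP).continuous.mul (cut'_cont hP)))

theorem inner'_cont (hP : Frame P) : Continuous (inner' sg d h l c tj pj P) := by
  unfold inner' fA fC fE'
  exact ((((cut_smooth hP).continuous.mul (fB_smooth hP).continuous).mul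
    (cut_smooth hP).continuous).mul (cut_smooth hP).continuous).mul (cut'_cont hP)

theorem k2_cont (hP : Frame P) : Continuous (k2 sg d h l c tj pj P) := by
  unfold k2 fA' fC fE
  exact continuous_const.mul (((((cut'_cont hP).mul (fB_smooth hP).continuous).mul
    (cut_smooth hP).continuous).mul (cut_smooth hP).continuous).mul (cut_smooth hP).continuous)

theorem k1_cont (hP : Frame P) : Continuous (k1 sg d h l c tj pj P) := by
  unfold k1
  exact ((continuous_const.mul (mu_smooth hP).continuous).add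
    (continuous_const.mul (side_cont hP))).add (continuous_const.mul (inner'_cont hP))

theorem XX_mu (hP : Frame P) (hsg : sg * sg = 1) : -sg * XX P (mu sg d h l c tj pj P) p
    = - k1 sg d h l c tj pj P p + k2 sg d h l c tj pj P p := by
  have one : (3 : WithTop ℕ∞) ≠ 0 := by norm_num
  have dA := (cut_smooth (α := 2) (β := 0) (γ := -sg / d) hP).differentiable one p
  have dB := (fB_smooth (sg := sg) (pj := pj) hP).differentiable one p
  have dC := (cut_smooth (α := 5 + 1 * tj / l - c * sg * pj / l) (β := -1 / l) (γ := c * sg / l)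
    hP).differentiable one p
  have dD := (cut_smooth (α := 5 + (-1) * tj / l - c * sg * pj / l) (β := -(-1) / l)
    (γ := c * sg / l) hP).differentiable one p
  have dE := (cut_smooth (α := -1 - sg * pj / h) (β := 0) (γ := sg / h) hP).differentiable one p
  have e : mu sg d h l c tj pj P = fun p => cut 2 0 (-sg / d) P p * fB sg pj P p
    * cut (5 + 1 * tj / l - c * sg * pj / l) (-1 / l) (c * sg / l) P p
    * cut (5 + (-1) * tj / l - c * sg * pj / l) (-(-1) / l) (c * sg / l) P p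
    * cut (-1 - sg * pj / h) 0 (sg / h) P p := rfl
  rw [e, XX_mul (((dA.fun_mul dB).fun_mul dC).fun_mul dD) dE, XX_mul ((dA.fun_mul dB).fun_mul dC) dD,
    XX_mul (dA.fun_mul dB) dC, XX_mul dA dB, XX_cut hP, XX_fB hP, XX_cut hP, XX_cut hP, XX_cut hP]
  unfold k1 k2 mu side inner' fA fA' fC fC' fE fE'
  set A := cut 2 0 (-sg / d) P p
  set A' := cut' 2 0 (-sg / d) P p
  set B := fB sg pj P p
  set C1 := cut (5 + 1 * tj / l - c * sg * pj / l) (-1 / l) (c * sg / l) P p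
  set C1' := cut' (5 + 1 * tj / l - c * sg * pj / l) (-1 / l) (c * sg / l) P p
  set C2 := cut (5 + (-1) * tj / l - c * sg * pj / l) (-(-1) / l) (c * sg / l) P p
  set C2' := cut' (5 + (-1) * tj / l - c * sg * pj / l) (-(-1) / l) (c * sg / l) P p
  set E := cut (-1 - sg * pj / h) 0 (sg / h) P p
  set E' := cut' (-1 - sg * pj / h) 0 (sg / h) P p
  linear_combination (A' * B * C1 * C2 * E / d - 100 * A * B * C1 * C2 * E
    - c / l * (A * B * E * (C1' * C2 + C1 * C2')) - 1 / h * (A * B * C1 * C2 * E')) * hsg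

theorem YY_mu (hP : Frame P) : YY P (mu sg d h l c tj pj P) p
    = 1 / l * (fA sg d P p * fB sg pj P p * fE sg h pj P p *
      (- (fC' sg l c tj pj 1 P p * fC sg l c tj pj (-1) P p)
        + fC sg l c tj pj 1 P p * fC' sg l c tj pj (-1) P p)) := by
  have one : (3 : WithTop ℕ∞) ≠ 0 := by norm_num
  have dA := (cut_smooth (α := 2) (β := 0) (γ := -sg / d) hP).differentiable one p
  have dB := (fB_smooth (sg := sg) (pj := pj) hP).differentiable one p
  have dC := (cut_smooth (α := 5 + 1 * tj / l - c * sg * pj / l) (β := -1 / l) (γ := c * sg / l)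
    hP).differentiable one p
  have dD := (cut_smooth (α := 5 + (-1) * tj / l - c * sg * pj / l) (β := -(-1) / l)
    (γ := c * sg / l) hP).differentiable one p
  have dE := (cut_smooth (α := -1 - sg * pj / h) (β := 0) (γ := sg / h) hP).differentiable one p
  have e : mu sg d h l c tj pj P = fun p => cut 2 0 (-sg / d) P p * fB sg pj P p
    * cut (5 + 1 * tj / l - c * sg * pj / l) (-1 / l) (c * sg / l) P p
    * cut (5 + (-1) * tj / l - c * sg * pj / l) (-(-1) / l) (c * sg / l) P p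
    * cut (-1 - sg * pj / h) 0 (sg / h) P p := rfl
  rw [e, YY_mul (((dA.fun_mul dB).fun_mul dC).fun_mul dD) dE, YY_mul ((dA.fun_mul dB).fun_mul dC) dD,
    YY_mul (dA.fun_mul dB) dC, YY_mul dA dB, YY_cut hP, YY_fB hP, YY_cut hP, YY_cut hP, YY_cut hP]
  unfold fA fC fC' fE
  ring

theorem abs_YY_mu (hP : Frame P) (hh : 0 < h) (hl : 0 < l) {r : ℝ} (hr : 0 < r) (hc : c = 4 / r) :
    |YY P (mu sg d h l c tj pj P) p| ≤ r / 4 * k1 sg d h l c tj pj P p := by
  have h1 := side_le_k1 (sg := sg) (d := d) (h := h) (l := l) (c := c) (tj := tj) (pj := pj)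
    (P := P) (p := p) hh
  have h2 : r / 4 * (c / l * side sg d h l c tj pj P p) = 1 / l * side sg d h l c tj pj P p := by
    rw [hc]; (clear * - hr hl; field_simp)
  refine le_trans ?_ (mul_le_mul_of_nonneg_left h1 (by positivity))
  rw [h2, YY_mu hP]
  unfold side
  have g1 : 0 ≤ fA sg d P p := cut_nonneg
  have g2 := (fB_pos (sg := sg) (pj := pj) (P := P) (p := p)).le
  have g3 : 0 ≤ fC sg l c tj pj 1 P p := cut_nonneg
  have g4 : 0 ≤ fC sg l c tj pj (-1) P p := cut_nonneg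
  have g5 : 0 ≤ fC' sg l c tj pj 1 P p := cut'_nonneg
  have g6 : 0 ≤ fC' sg l c tj pj (-1) P p := cut'_nonneg
  have g7 : 0 ≤ fE sg h pj P p := cut_nonneg
  have g8 : 0 ≤ 1 / l := by positivity
  rw [abs_mul, abs_mul, abs_of_nonneg g8, abs_of_nonneg (mul_nonneg (mul_nonneg g1 g2) g7)]
  refine mul_le_mul_of_nonneg_left (mul_le_mul_of_nonneg_left ?_ (mul_nonneg (mul_nonneg g1 g2) g7)) g8
  have m1 := mul_nonneg g5 g4
  have m2 := mul_nonneg g3 g6
  rw [abs_le]
  constructor <;> linarith only [m2, m1]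

/-! ### supports -/

theorem lt_of_fA (hd : 0 < d) (h1 : fA sg d P p ≠ 0) : sg * P p < 2 * d := by
  have k := cut_ne h1
  unfold aff at k
  have e : 2 + 0 * p.2 + -sg / d * P p = (2 * d - sg * P p) / d := by field_simp; ring
  rw [e] at k
  have := (div_pos_iff_of_pos_right hd).1 k
  linarith only [this]

theorem lt_of_fA' (hd : 0 < d) (h1 : fA' sg d P p ≠ 0) : d < sg * P p ∧ sg * P p < 2 * d := by
  have k := cut'_ne h1
  unfold aff at k
  have e : 2 + 0 * p.2 + -sg / d * P p = (2 * d - sg * P p) / d := by field_simp; ring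
  rw [e] at k
  have k1 := (div_pos_iff_of_pos_right hd).1 k.1
  have k2 := (div_lt_one hd).1 k.2
  constructor <;> linarith only [k2, k1]

theorem lt_of_fE (hh : 0 < h) (h1 : fE sg h pj P p ≠ 0) : h < sg * (P p - pj) := by
  have k := cut_ne h1
  unfold aff at k
  have e : -1 - sg * pj / h + 0 * p.2 + sg / h * P p = (sg * (P p - pj) - h) / h := by
    field_simp; ring
  rw [e] at k
  have := (div_pos_iff_of_pos_right hh).1 k
  linarith only [this]

theorem lt_of_fC (hl : 0 < l) (h1 : fC sg l c tj pj 1 P p ≠ 0)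
    (h2 : fC sg l c tj pj (-1) P p ≠ 0) :
    |p.2 - tj| < 5 * l + c * (sg * (P p - pj)) := by
  have k1 := cut_ne h1
  have k2 := cut_ne h2
  unfold aff at k1 k2
  have e1 : 5 + 1 * tj / l - c * sg * pj / l + -1 / l * p.2 + c * sg / l * P p
      = (5 * l + c * (sg * (P p - pj)) - (p.2 - tj)) / l := by field_simp; ring
  have e2 : 5 + -1 * tj / l - c * sg * pj / l + -(-1) / l * p.2 + c * sg / l * P p
      = (5 * l + c * (sg * (P p - pj)) + (p.2 - tj)) / l := by field_simp; ring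
  rw [e1] at k1
  rw [e2] at k2
  have l1 := (div_pos_iff_of_pos_right hl).1 k1
  have l2 := (div_pos_iff_of_pos_right hl).1 k2
  rw [abs_lt]
  constructor <;> linarith only [l2, l1]

theorem of_mu_ne (hd : 0 < d) (hh : 0 < h) (hl : 0 < l) (h1 : mu sg d h l c tj pj P p ≠ 0) :
    sg * P p < 2 * d ∧ h < sg * (P p - pj) ∧ |p.2 - tj| < 5 * l + c * (sg * (P p - pj)) := by
  unfold mu at h1
  simp only [ne_eq, mul_eq_zero, not_or] at h1
  obtain ⟨⟨⟨⟨a1, a2⟩, a3⟩, a4⟩, a5⟩ := h1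
  exact ⟨lt_of_fA hd a1, lt_of_fE hh a5, lt_of_fC hl a3 a4⟩

theorem of_k2_ne (hd : 0 < d) (hh : 0 < h) (hl : 0 < l) (h1 : k2 sg d h l c tj pj P p ≠ 0) :
    d < sg * P p ∧ sg * P p < 2 * d ∧ h < sg * (P p - pj) ∧
      |p.2 - tj| < 5 * l + c * (sg * (P p - pj)) := by
  unfold k2 at h1
  simp only [ne_eq, mul_eq_zero, not_or] at h1
  obtain ⟨_, ⟨⟨⟨a1, a2⟩, a3⟩, a4⟩, a5⟩ := h1
  exact ⟨(lt_of_fA' hd a1).1, (lt_of_fA' hd a1).2, lt_of_fE hh a5, lt_of_fC hl a3 a4⟩

/-! ### bounds -/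

theorem fB_eq : fB sg pj P p = Real.exp (100 * (sg * (P p - pj))) := by
  unfold fB aff
  congr 1
  ring

theorem k2_le (hd : 0 < d) (hh : 0 < h) (hl : 0 < l) {T : ℝ} (hT0 : 0 < T)
    (hT : ∀ y, deriv Real.smoothTransition y ≤ T)
    (hs : 2 * d + |pj| ≤ 1 / 20) (hsg : |sg| = 1) :
    k2 sg d h l c tj pj P p ≤ T / d * Real.exp 5 := by
  by_cases h0 : k2 sg d h l c tj pj P p = 0
  · rw [h0]; positivity
  have hm := of_k2_ne hd hh hl h0
  have g2 : fB sg pj P p ≤ Real.exp 5 := by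
    rw [fB_eq]
    refine Real.exp_le_exp.2 ?_
    have : |sg * pj| = |pj| := by rw [abs_mul, hsg, one_mul]
    have h3 := neg_abs_le (sg * pj)
    rw [this] at h3
    have h4 : sg * (P p - pj) = sg * P p - sg * pj := by ring
    rw [h4]
    linarith only [hs, hm, h3]
  have g2' := (fB_pos (sg := sg) (pj := pj) (P := P) (p := p)).le
  have g1 : 0 ≤ fA' sg d P p := cut'_nonneg
  have g3 : 0 ≤ fC sg l c tj pj 1 P p := cut_nonneg
  have g4 : 0 ≤ fC sg l c tj pj (-1) P p := cut_nonneg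
  have g5 : 0 ≤ fE sg h pj P p := cut_nonneg
  have g1' : fA' sg d P p ≤ T := hT _
  have g3' : fC sg l c tj pj 1 P p ≤ 1 := cut_le
  have g4' : fC sg l c tj pj (-1) P p ≤ 1 := cut_le
  have g5' : fE sg h pj P p ≤ 1 := cut_le
  unfold k2
  calc 1 / d * (fA' sg d P p * fB sg pj P p * fC sg l c tj pj 1 P p * fC sg l c tj pj (-1) P p
        * fE sg h pj P p)
      ≤ 1 / d * (T * Real.exp 5 * 1 * 1 * 1) := by (clear * - g1' g2 g2' hT0 g3' g3 g4' g4 g5' g5 hd; gcongr)
    _ = T / d * Real.exp 5 := by ring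

theorem le_k1 (hd : 0 < d) (hh : 0 < h) (hl : 0 < l) (hc : 0 ≤ c)
    (h1 : |p.2 - tj| < 4 * l) (h2 : 2 * h < sg * (P p - pj)) (h3 : sg * P p ≤ d) :
    100 ≤ k1 sg d h l c tj pj P p := by
  refine le_trans ?_ (mu_le_k1 hh hl hc)
  rw [abs_lt] at h1
  have hs0 : 0 ≤ sg * (P p - pj) := by linarith
  have hcs0 := mul_nonneg hc hs0
  have a1 : fA sg d P p = 1 := by
    refine cut_one ?_
    unfold aff
    have e : 2 + 0 * p.2 + -sg / d * P p = 1 + (d - sg * P p) / d := by field_simp; ring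
    rw [e]
    have : 0 ≤ (d - sg * P p) / d := div_nonneg (by linarith only [h3]) hd.le
    linarith only [this]
  have a5 : fE sg h pj P p = 1 := by
    refine cut_one ?_
    unfold aff
    have e : -1 - sg * pj / h + 0 * p.2 + sg / h * P p = 1 + (sg * (P p - pj) - 2 * h) / h := by
      field_simp; ring
    rw [e]
    have : 0 ≤ (sg * (P p - pj) - 2 * h) / h := div_nonneg (by linarith only [h2]) hh.le
    linarith only [this]
  have a3 : fC sg l c tj pj 1 P p = 1 := by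
    refine cut_one ?_
    unfold aff
    have e1 : 5 + 1 * tj / l - c * sg * pj / l + -1 / l * p.2 + c * sg / l * P p
      = 1 + (4 * l + c * (sg * (P p - pj)) - (p.2 - tj)) / l := by field_simp; ring
    rw [e1]
    have : 0 ≤ (4 * l + c * (sg * (P p - pj)) - (p.2 - tj)) / l := div_nonneg (by linarith only [h1, hcs0]) hl.le
    linarith only [this]
  have a4 : fC sg l c tj pj (-1) P p = 1 := by
    refine cut_one ?_
    unfold aff
    have e2 : 5 + -1 * tj / l - c * sg * pj / l + -(-1) / l * p.2 + c * sg / l * P p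
      = 1 + (4 * l + c * (sg * (P p - pj)) + (p.2 - tj)) / l := by field_simp; ring
    rw [e2]
    have : 0 ≤ (4 * l + c * (sg * (P p - pj)) + (p.2 - tj)) / l := div_nonneg (by linarith only [h1, hcs0]) hl.le
    linarith only [this]
  have a2 : 1 ≤ fB sg pj P p := by
    rw [fB_eq]
    exact Real.one_le_exp (by linarith only [hh, h2])
  unfold mu
  rw [a1, a3, a4, a5]
  linarith only [a2]

theorem isOpen_Om (hP : Frame P) (n : ℕ) (M κ : ℝ) : IsOpen (Om P n M κ) := by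
  have hPc := hP.smooth.continuous
  have hr : Continuous rho2 := by unfold rho2; fun_prop
  exact (isOpen_lt hr continuous_const).inter
    ((isOpen_lt continuous_const hPc.abs).union (isOpen_lt continuous_const hr))

theorem isCompact_disc' : IsCompact {p : Pl | rho2 p ≤ 1} := by
  refine (isCompact_closedBall (0 : Pl) 1).of_isClosed_subset ?_ ?_
  · have hr : Continuous rho2 := by unfold rho2; fun_prop
    exact isClosed_le hr continuous_const
  · intro p hp
    have hp' : p.1 ^ 2 + p.2 ^ 2 ≤ 1 := hp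
    rw [Metric.mem_closedBall, dist_zero_right, Prod.norm_def, Real.norm_eq_abs, Real.norm_eq_abs]
    have h1 : |p.1| ≤ 1 := abs_le_one_iff_mul_self_le_one.2 (by linarith only [hp', sq_nonneg p.2])
    have h2 : |p.2| ≤ 1 := abs_le_one_iff_mul_self_le_one.2 (by linarith only [hp', sq_nonneg p.1])
    exact max_le h1 h2

end lemmas

/-! ### sizes -/

section sizes

variable {M cs : ℝ} {n : ℕ}

theorem varpi_le_d (hM : 1 ≤ M) (hcs : 0 < cs) (hcs1 : cs ≤ 1 / (1000 * M)) (hn : (1 : ℝ) ≤ n) :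
    varpi cs n ≤ dK n M 1 / 10 := by
  have hM0 : 0 < M := by linarith only [hM]
  have hn0 : (0 : ℝ) < (n : ℝ) ^ 8 := by positivity
  have hcs3 : cs * (1000 * M) ≤ 1 := by rwa [le_div_iff₀ (by positivity)] at hcs1
  unfold varpi dK
  rw [div_div, div_le_div_iff₀ hn0 (by positivity)]
  have : cs * (200 * M * (n : ℝ) ^ 8 * 10) = 2 * (cs * (1000 * M)) * (n : ℝ) ^ 8 := by ring
  rw [this]
  have h2 : 2 * (cs * (1000 * M)) ≤ 1 + 1 := by linarith only [hcs3]
  exact mul_le_mul_of_nonneg_right h2 hn0.le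

theorem ell_le (hcs : 0 < cs) (hcs1 : cs ≤ 1 / 1000) (hn : (1 : ℝ) ≤ n) : ell cs n ≤ 1 / 1000 := by
  have hn115 : (1 : ℝ) ≤ (n : ℝ) ^ 115 := one_le_pow₀ hn
  unfold ell
  exact (div_le_self hcs.le (by linarith only [hn115])).trans hcs1

theorem dK_pos (hM : 1 ≤ M) (hn : (1 : ℝ) ≤ n) : 0 < dK n M 1 := by
  unfold dK; positivity

theorem dK_le (hM : 1 ≤ M) (hn : (1 : ℝ) ≤ n) : dK n M 1 ≤ 1 / 100 := by
  have hn8 : (1 : ℝ) ≤ (n : ℝ) ^ 8 := one_le_pow₀ hn
  unfold dK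
  rw [div_le_div_iff₀ (by positivity) (by norm_num)]
  have : 1 ≤ M * (n : ℝ) ^ 8 := one_le_mul_of_one_le_of_one_le hM hn8
  linarith

theorem pj_le {pj : ℝ} (hM : 1 ≤ M) (hn : 800 * M ≤ (n : ℝ)) (h : |pj| ≤ 1 / (n : ℝ) ^ 15) :
    |pj| ≤ dK n M 1 / 8 := by
  have hn1 : (1 : ℝ) ≤ n := by linarith only [hM, hn]
  have hn7 : (n : ℝ) ≤ (n : ℝ) ^ 7 := le_self_pow₀ hn1 (by norm_num)
  have hn8 : (0 : ℝ) < (n : ℝ) ^ 8 := by positivity
  refine h.trans ?_
  unfold dK
  rw [div_div, div_le_div_iff₀ (by positivity) (by positivity)]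
  have e15 : (n : ℝ) ^ 15 = (n : ℝ) ^ 7 * (n : ℝ) ^ 8 := by ring
  have h8 : 800 * M ≤ (n : ℝ) ^ 7 := hn.trans hn7
  have h9 := mul_le_mul_of_nonneg_right h8 hn8.le
  rw [e15]
  linarith only [h9]

theorem c_le {pj δ : ℝ} (hM : 1 ≤ M) (hn : 800 * M ≤ (n : ℝ)) (h : |pj| ≤ 1 / (n : ℝ) ^ 15)
    (hδ1 : 1 / (4 * M ^ 2 * (n : ℝ) ^ 16) ≤ δ) :
    4 / Real.sqrt δ * (2 * dK n M 1 + |pj|) ≤ 0.17 := by
  have hn1 : (1 : ℝ) ≤ n := by linarith only [hM, hn]
  have hM0 : 0 < M := by linarith only [hM]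
  have hn0 : (0 : ℝ) < n := by linarith only [hM, hn]
  have hr1 : 1 / (2 * M * (n : ℝ) ^ 8) ≤ Real.sqrt δ := by
    refine Real.le_sqrt_of_sq_le ?_
    refine le_trans (le_of_eq ?_) hδ1
    rw [div_pow, one_pow]
    congr 1
    ring
  have hr0 : 0 < Real.sqrt δ := lt_of_lt_of_le (by positivity) hr1
  have h1 : 4 / Real.sqrt δ ≤ 8 * M * (n : ℝ) ^ 8 := by
    rw [div_le_iff₀ hr0]
    have h2 : 8 * M * (n : ℝ) ^ 8 * (1 / (2 * M * (n : ℝ) ^ 8)) = 4 := by field_simp; norm_num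
    rw [← h2]
    (clear * - hr1 hM hn1; gcongr)
  have h3 := pj_le hM hn h
  have h4 := dK_pos hM hn1
  have h5 : dK n M 1 * (100 * M * (n : ℝ) ^ 8) = 1 := by
    unfold dK; field_simp; norm_num
  calc 4 / Real.sqrt δ * (2 * dK n M 1 + |pj|)
      ≤ 8 * M * (n : ℝ) ^ 8 * (2 * dK n M 1 + dK n M 1 / 8) := by (clear * - h1 h3 h4 hM hn1; gcongr)
    _ = 0.17 * (dK n M 1 * (100 * M * (n : ℝ) ^ 8)) := by ring
    _ = 0.17 := by rw [h5]; ring

theorem hs_le (hM : 1 ≤ M) (hcs : 0 < cs) (hcs1 : cs ≤ 1 / (1000 * M)) (hn : (1 : ℝ) ≤ n) :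
    4 * hs cs n ≤ dK n M 1 / 2 := by
  have h1 := varpi_le_d hM hcs hcs1 hn
  have hcs2 : cs ≤ 1 / 1000 := hcs1.trans (by
    rw [div_le_div_iff₀ (by positivity) (by norm_num)]; linarith only [hM])
  have h2 := ell_le hcs hcs2 hn
  have h3 := dK_pos hM hn
  have h4 : 0 < ell cs n := by unfold ell; positivity
  have h5 : 0 < varpi cs n := by unfold varpi; positivity
  unfold hs
  calc 4 * (5 / 2 * varpi cs n * ell cs n) ≤ 4 * (5 / 2 * (dK n M 1 / 10) * (1 / 1000)) := by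
        (clear * - h1 h2 h4 h3; gcongr)
    _ ≤ dK n M 1 / 2 := by linarith only [h1, h5]

theorem final_le {C0 T : ℝ} (hM : 1 ≤ M) (hn1 : (1 : ℝ) ≤ n)
    (hnT : 3 * C0 * T * Real.exp 5 * M ≤ (n : ℝ)) :
    C0 * (T / dK n M 1 * Real.exp 5 * 3) / 100 ≤ (n : ℝ) ^ 20 := by
  have hM0 : 0 < M := by linarith
  have hn0 : (0 : ℝ) < n := by linarith only [hn1]
  have e : C0 * (T / dK n M 1 * Real.exp 5 * 3) / 100 = (3 * C0 * T * Real.exp 5 * M) * (n : ℝ) ^ 8
      := by
    unfold dK; field_simp; ring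
  rw [e]
  calc (3 * C0 * T * Real.exp 5 * M) * (n : ℝ) ^ 8 ≤ (n : ℝ) * (n : ℝ) ^ 8 := by gcongr
    _ = (n : ℝ) ^ 9 := by ring
    _ ≤ (n : ℝ) ^ 20 := pow_le_pow_right₀ hn1 (by norm_num)

end sizes

/-- Step 1 with abstract sizes. -/
theorem main {C0 T : ℝ} (hC0 : 0 < C0) (hT0 : 0 < T)
    (hT : ∀ y, deriv Real.smoothTransition y ≤ T)
    (hce : ∀ (P v a α e1 e2 F : Pl → ℝ) (δ : ℝ),
      PairEq P v a α e1 e2 F δ → ∀ sg : ℝ, (sg = 1 ∨ sg = -1) →
      ∀ (K : ℝ) (μ k1 k2 : Pl → ℝ), 100 ≤ K → ContDiff ℝ 1 μ → Continuous k1 → Continuous k2 →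
      HasCompactSupport k1 → HasCompactSupport k2 →
      (∀ p, 0 ≤ μ p) → (∀ p, 0 ≤ k1 p) → (∀ p, 0 ≤ k2 p) →
      tsupport μ ⊆ {p | |p.2| < 0.21 ∧ |P p| < 0.05} →
      (∀ p, -sg * XX P μ p = -k1 p + k2 p) →
      (∀ p, |YY P μ p| ≤ Real.sqrt δ / 4 * k1 p) →
      (∀ p, K * μ p ≤ k1 p) →
      ∫ p, k1 p * ((YY P v p) ^ 2 + δ * (XX P v p) ^ 2) * dx P p
      ≤ C0 * (∫ p, k2 p * ((YY P v p) ^ 2 + δ * (XX P v p) ^ 2) * dx P p)
        + C0 / (K * δ) * ∫ p, μ p * (F p) ^ 2 * dx P p)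
    {P v a α e1 e2 F : Pl → ℝ} {δ : ℝ} (hPE : PairEq P v a α e1 e2 F δ)
    {tj pj sg d h l : ℝ} (hsg : sg = 1 ∨ sg = -1) (hd0 : 0 < d) (hh0 : 0 < h) (hl0 : 0 < l)
    (hd1 : d ≤ 1 / 100) (hl1 : l ≤ 1 / 1000) (htj0 : 0 ≤ tj) (htj1 : tj ≤ 1 / 1000)
    (hpj : |pj| ≤ d / 8) (hhd : 4 * h ≤ d / 2) (hc2 : 4 / Real.sqrt δ * (2 * d + |pj|) ≤ 0.17)
    (hF : ∀ p, rho2 p < 0.64 → |p.2 - tj| ≤ 5 * l + 4 * |P p - pj| / Real.sqrt δ →
      h ≤ sg * (P p - pj) → F p = 0)
    {O : Set Pl} (hO : IsOpen O) (hO1 : O ⊆ {p | rho2 p ≤ 1})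
    (hO2 : ∀ p, |p.2| ≤ 0.2 → |P p| ≤ 0.04 → d < |P p| → p ∈ O) :
    ∫ p in {p | |p.2 - tj| < 4 * l ∧ 2 * h < sg * (P p - pj) ∧ sg * (P p - pj) < 4 * h},
      ((YY P v p) ^ 2 + δ * (XX P v p) ^ 2) * dx P p
    ≤ (C0 * (T / d * Real.exp 5 * 3) / 100) * ∫ p in O, (dx v p ^ 2 + dt v p ^ 2) := by
  have hP := hPE.frame
  have hδ := hPE.δ_pos
  have hδ1 : δ ≤ 1 := hPE.δ_small.trans (by norm_num)
  have hPc : Continuous P := hP.smooth.continuous
  have hsg2 : sg * sg = 1 := by rcases hsg with h | h <;> rw [h] <;> norm_num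
  have hsgA : |sg| = 1 := by rcases hsg with h | h <;> rw [h] <;> norm_num
  have hr0 : 0 < Real.sqrt δ := Real.sqrt_pos.2 hδ
  set c := 4 / Real.sqrt δ with hc
  have hc0 : 0 ≤ c := by rw [hc]; positivity
  -- the energy density
  have hXc : Continuous (XX P v) := (contDiff_XX hP hPE.v_smooth (m := 1) (by norm_num)
    (by norm_num)).continuous
  have hYc : Continuous (YY P v) := (contDiff_YY hP hPE.v_smooth (m := 1) (by norm_num)
    (by norm_num)).continuous
  have hJc : Continuous (dx P) := (hP.contDiff_dx (m := 1) (by norm_num)).continuous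
  have hvx : Continuous (dx v) := (contDiff_dx (m := 1) hPE.v_smooth (by norm_num)).continuous
  have hvt : Continuous (dt v) := (contDiff_dt (m := 1) hPE.v_smooth (by norm_num)).continuous
  have hEc : Continuous fun p => ((YY P v p) ^ 2 + δ * (XX P v p) ^ 2) * dx P p := by fun_prop
  have hE0 : ∀ p, 0 ≤ ((YY P v p) ^ 2 + δ * (XX P v p) ^ 2) * dx P p := fun p =>
    mul_nonneg (by (clear * - hδ; positivity)) (hP.dx_pos p).le
  have hE1 : ∀ p, ((YY P v p) ^ 2 + δ * (XX P v p) ^ 2) * dx P p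
      ≤ 3 * (dx v p ^ 2 + dt v p ^ 2) := fun p => by
    have h1 := frame_le_grad hP v p
    have h2 := hP.dx_le p
    have h3 := (hP.dx_pos p).le
    have h4 : (YY P v p) ^ 2 + δ * (XX P v p) ^ 2 ≤ XX P v p ^ 2 + YY P v p ^ 2 := by
      have := mul_le_mul_of_nonneg_right hδ1 (sq_nonneg (XX P v p))
      linarith only [this]
    have h5 : 0 ≤ dx v p ^ 2 + dt v p ^ 2 := by (clear * -; positivity)
    calc ((YY P v p) ^ 2 + δ * (XX P v p) ^ 2) * dx P p
        ≤ (2 * (dx v p ^ 2 + dt v p ^ 2)) * (1001 / 1000) :=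
          mul_le_mul (h4.trans h1) h2 h3 (by (clear * -; positivity))
      _ ≤ 3 * (dx v p ^ 2 + dt v p ^ 2) := by linarith only [h5]
  -- the region
  have hreg : ∀ p, sg * P p < 2 * d → h < sg * (P p - pj) →
      |p.2 - tj| < 5 * l + c * (sg * (P p - pj)) → |p.2 - 0| ≤ 0.2 ∧ |P p - 0| ≤ 0.04 := by
    intro p h1 h2 h3
    have e1 : |sg * pj| = |pj| := by rw [abs_mul, hsgA, one_mul]
    have e2 : |sg * P p| = |P p| := by rw [abs_mul, hsgA, one_mul]
    have e3 := neg_abs_le (sg * pj)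
    have e4 := le_abs_self (sg * pj)
    rw [e1] at e3 e4
    have e5 : sg * (P p - pj) = sg * P p - sg * pj := by ring
    have h4 : sg * (P p - pj) ≤ 2 * d + |pj| := by linarith only [h1, e3]
    have h5 : c * (sg * (P p - pj)) ≤ 0.17 := (mul_le_mul_of_nonneg_left h4 hc0).trans hc2
    have h6 := abs_lt.1 h3
    rw [sub_zero, sub_zero, ← e2]
    constructor
    · rw [abs_le]; constructor <;> norm_num at h5 ⊢ <;> linarith only [hl0, hl1, htj0, h6, h5, htj1]
    · rw [abs_le]; constructor <;> norm_num <;> linarith only [hd1, h1, hh0, hpj, h2, e3]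
  have hK := isCompact_strip hP 0 0 0.2 0.04
  have hmuK : ∀ p, mu sg d h l c tj pj P p ≠ 0 → p ∈ {p : Pl | |p.2 - 0| ≤ 0.2 ∧ |P p - 0| ≤ 0.04}
      := fun p hp => by
    obtain ⟨h1, h2, h3⟩ := of_mu_ne hd0 hh0 hl0 hp
    exact hreg p h1 h2 h3
  have hmu_supp : tsupport (mu sg d h l c tj pj P) ⊆ {p : Pl | |p.2 - 0| ≤ 0.2 ∧ |P p - 0| ≤ 0.04} :=
    closure_minimal (fun p hp => hmuK p hp) hK.isClosed
  have hk2_zero : ∀ p, p ∉ {p : Pl | |p.2 - 0| ≤ 0.2 ∧ |P p - 0| ≤ 0.04} →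
      k2 sg d h l c tj pj P p = 0 := fun p hp => by
    by_contra hcon
    obtain ⟨_, h1, h2, h3⟩ := of_k2_ne hd0 hh0 hl0 hcon
    exact hp (hreg p h1 h2 h3)
  have hk1_zero : ∀ p, p ∉ {p : Pl | |p.2 - 0| ≤ 0.2 ∧ |P p - 0| ≤ 0.04} →
      k1 sg d h l c tj pj P p = 0 := fun p hp => by
    have h1 : p ∉ tsupport (mu sg d h l c tj pj P) := fun hcon => hp (hmu_supp hcon)
    have h2 := XX_eq_zero_of_notMem_tsupport (P := P) h1
    have h3 := XX_mu (d := d) (h := h) (l := l) (c := c) (tj := tj) (pj := pj) (p := p) hP hsg2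
    rw [h2, hk2_zero p hp] at h3
    linarith only [h3]
  have ck1 : HasCompactSupport (k1 sg d h l c tj pj P) := HasCompactSupport.intro hK hk1_zero
  have ck2 : HasCompactSupport (k2 sg d h l c tj pj P) := HasCompactSupport.intro hK hk2_zero
  have key := hce P v a α e1 e2 F δ hPE sg hsg 100 (mu sg d h l c tj pj P)
    (k1 sg d h l c tj pj P) (k2 sg d h l c tj pj P)
    le_rfl ((mu_smooth hP).of_le (by norm_num)) (k1_cont hP)
    (k2_cont hP) ck1 ck2 (fun _ => mu_nonneg) (fun _ => k1_nonneg hh0 hl0 hc0)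
    (fun _ => k2_nonneg hd0) (fun p hp => by
      obtain ⟨h1, h2⟩ := hmu_supp hp
      rw [sub_zero] at h1 h2
      exact ⟨lt_of_le_of_lt h1 (by norm_num), lt_of_le_of_lt h2 (by norm_num)⟩)
    (fun p => XX_mu hP hsg2)
    (fun p => abs_YY_mu hP hh0 hl0 hr0 hc) (fun p => mu_le_k1 hh0 hl0 hc0)
  -- no forcing
  have i3 : ∫ p, mu sg d h l c tj pj P p * (F p) ^ 2 * dx P p = 0 := by
    have : ∀ p, mu sg d h l c tj pj P p * (F p) ^ 2 * dx P p = 0 := fun p => by
      by_cases h0 : mu sg d h l c tj pj P p = 0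
      · rw [h0]; ring
      · obtain ⟨h1, h2, h3⟩ := of_mu_ne hd0 hh0 hl0 h0
        obtain ⟨h4, h5⟩ := hmuK p h0
        rw [sub_zero] at h4 h5
        have h6 := hP.abs_sub_fst_le p
        have h7 : |p.1| ≤ |P p| + |P p - p.1| := by
          have := abs_sub_abs_le_abs_sub p.1 (P p)
          rw [abs_sub_comm p.1] at this
          linarith only [this]
        have h8 : |p.1| ≤ 0.05 := by norm_num at h4 h5 ⊢; linarith only [h6, h7, h4, h5]
        have h9 := abs_le.1 h8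
        have h10 := abs_le.1 h4
        have h11 : rho2 p < 0.64 := by
          show p.1 ^ 2 + p.2 ^ 2 < 0.64
          norm_num at h9 h10 ⊢
          nlinarith only [h9, h10]
        have h12 : |P p - pj| = sg * (P p - pj) := by
          rw [← abs_of_pos (lt_trans hh0 h2), abs_mul, hsgA, one_mul]
        have h13 : F p = 0 := by
          refine hF p h11 (h3.le.trans (le_of_eq ?_)) h2.le
          rw [h12, hc]; ring
        rw [h13]; ring
    simp only [this, integral_zero]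
  rw [i3, mul_zero, add_zero] at key
  -- comparison on the window
  have i1 : Integrable fun p => k1 sg d h l c tj pj P p * ((YY P v p) ^ 2 + δ * (XX P v p) ^ 2)
      * dx P p := by
    refine Continuous.integrable_of_hasCompactSupport ?_ ?_
    · have := k1_cont (sg := sg) (d := d) (h := h) (l := l) (c := c) (tj := tj) (pj := pj) hP
      fun_prop
    · exact (ck1.mul_right).mul_right
  have i2 : Integrable fun p => k2 sg d h l c tj pj P p * ((YY P v p) ^ 2 + δ * (XX P v p) ^ 2)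
      * dx P p := by
    refine Continuous.integrable_of_hasCompactSupport ?_ ?_
    · have := k2_cont (sg := sg) (d := d) (h := h) (l := l) (c := c) (tj := tj) (pj := pj) hP
      fun_prop
    · exact (ck2.mul_right).mul_right
  have hZo : IsOpen {p : Pl | |p.2 - tj| < 4 * l ∧ 2 * h < sg * (P p - pj) ∧
      sg * (P p - pj) < 4 * h} := by
    have hc1 : Continuous fun p : Pl => sg * (P p - pj) := by fun_prop
    exact (isOpen_lt (continuous_snd.sub continuous_const).abs continuous_const).inter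
      ((isOpen_lt continuous_const hc1).inter (isOpen_lt hc1 continuous_const))
  have hK2 := isCompact_strip hP tj pj (4 * l) (4 * h)
  have s1 : ∫ p in {p | |p.2 - tj| < 4 * l ∧ 2 * h < sg * (P p - pj) ∧ sg * (P p - pj) < 4 * h},
        ((YY P v p) ^ 2 + δ * (XX P v p) ^ 2) * dx P p
      ≤ (1 / 100) * ∫ p, k1 sg d h l c tj pj P p * ((YY P v p) ^ 2 + δ * (XX P v p) ^ 2)
        * dx P p := by
    rw [← integral_const_mul]
    refine setInt_le hZo.measurableSet ?_ (i1.const_mul _) (fun p => ?_) (fun p hp => ?_)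
    · refine (hEc.continuousOn.integrableOn_compact hK2).mono_set ?_
      rintro p ⟨h1, h2, h3⟩
      refine ⟨h1.le, ?_⟩
      have h12 : |P p - pj| = sg * (P p - pj) := by
        have h0 : 0 < sg * (P p - pj) := by linarith only [hh0, h2]
        rw [← abs_of_pos h0, abs_mul, hsgA, one_mul]
      rw [h12]; exact h3.le
    · have h1 : 0 ≤ k1 sg d h l c tj pj P p := k1_nonneg hh0 hl0 hc0
      have h2 := hE0 p
      have h3 : k1 sg d h l c tj pj P p * ((YY P v p) ^ 2 + δ * (XX P v p) ^ 2) * dx P p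
        = k1 sg d h l c tj pj P p * (((YY P v p) ^ 2 + δ * (XX P v p) ^ 2) * dx P p) := by ring
      rw [h3]
      (clear * - h1 h2; positivity)
    · have h4 : sg * P p ≤ d := by
        have e1 : |sg * pj| = |pj| := by rw [abs_mul, hsgA, one_mul]
        have e4 := le_abs_self (sg * pj)
        rw [e1] at e4
        have e5 : sg * (P p - pj) = sg * P p - sg * pj := by ring
        have e6 := hp.2.2
        rw [e5] at e6
        linarith only [hd0, hpj, hhd, e4, e6]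
      have h1 := le_k1 (d := d) (c := c) hd0 hh0 hl0 hc0 hp.1 hp.2.1 h4
      have h2 := hE0 p
      have h3 : 1 / 100 * (k1 sg d h l c tj pj P p * ((YY P v p) ^ 2 + δ * (XX P v p) ^ 2)
          * dx P p) = (1 / 100 * k1 sg d h l c tj pj P p)
            * (((YY P v p) ^ 2 + δ * (XX P v p) ^ 2) * dx P p) := by ring
      rw [h3]
      exact le_mul_of_one_le_left h2 (by linarith only [h1])
  have s2 : ∫ p, k2 sg d h l c tj pj P p * ((YY P v p) ^ 2 + δ * (XX P v p) ^ 2) * dx P p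
      ≤ (T / d * Real.exp 5 * 3) * ∫ p in O, (dx v p ^ 2 + dt v p ^ 2) := by
    rw [← integral_const_mul]
    refine int_le_setInt hO.measurableSet ?_ i2 (fun p hp => ?_) (fun p _ => ?_)
    · refine Integrable.const_mul ?_ _
      have hg : Continuous fun p => dx v p ^ 2 + dt v p ^ 2 := by fun_prop
      exact (hg.continuousOn.integrableOn_compact isCompact_disc').mono_set hO1
    · have : k2 sg d h l c tj pj P p = 0 := by
        by_contra hcon
        obtain ⟨h0, h1, h2, h3⟩ := of_k2_ne hd0 hh0 hl0 hcon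
        obtain ⟨h4, h5⟩ := hreg p h1 h2 h3
        rw [sub_zero] at h4 h5
        refine hp (hO2 p h4 h5 (lt_of_lt_of_le h0 ?_))
        calc sg * P p ≤ |sg * P p| := le_abs_self _
          _ = |P p| := by rw [abs_mul, hsgA, one_mul]
      rw [this]; ring
    · have h1 : k2 sg d h l c tj pj P p ≤ T / d * Real.exp 5 :=
        k2_le hd0 hh0 hl0 hT0 hT (by linarith only [hd1, hpj]) hsgA
      have h2 := hE0 p
      have h3 := hE1 p
      calc k2 sg d h l c tj pj P p * ((YY P v p) ^ 2 + δ * (XX P v p) ^ 2) * dx P p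
          = k2 sg d h l c tj pj P p * (((YY P v p) ^ 2 + δ * (XX P v p) ^ 2) * dx P p) := by ring
        _ ≤ (T / d * Real.exp 5) * (3 * (dx v p ^ 2 + dt v p ^ 2)) :=
            mul_le_mul h1 h3 h2 (by positivity)
        _ = T / d * Real.exp 5 * 3 * (dx v p ^ 2 + dt v p ^ 2) := by ring
  calc _ ≤ (1 / 100) * ∫ p, k1 sg d h l c tj pj P p * ((YY P v p) ^ 2 + δ * (XX P v p) ^ 2)
        * dx P p := s1
    _ ≤ (1 / 100) * (C0 * ((T / d * Real.exp 5 * 3) * ∫ p in O, (dx v p ^ 2 + dt v p ^ 2))) := by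
        refine mul_le_mul_of_nonneg_left (key.trans ?_) (by norm_num)
        exact mul_le_mul_of_nonneg_left s2 hC0.le
    _ = _ := by ring

end S1

open S1 S2 in
/-- Step 1: from the initial zone to the edge of the bit. -/
theorem step1 (M : ℝ) (hM : 1 ≤ M) (cs : ℝ) (hcs : 0 < cs) (hcs1 : cs ≤ 1 / (1000 * M)) (A : ℕ) :
    ∃ n0 : ℕ, ∀ n : ℕ, n0 ≤ n →
    ∀ (P v a α e1 e2 F : Pl → ℝ) (δ : ℝ), PairEq P v a α e1 e2 F δ →
    1 / (4 * M ^ 2 * (n : ℝ) ^ 16) ≤ δ → δ ≤ 4 * M ^ 2 / (n : ℝ) ^ 16 →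
    ∀ tj : ℝ, 0 ≤ tj → tj ≤ cs / (n : ℝ) ^ 8 → |P (0, tj)| ≤ 1 / (n : ℝ) ^ 15 →
    ∀ sg : ℝ, (sg = 1 ∨ sg = -1) →
    -- no bit inside the cone
    (∀ p, rho2 p < 0.64 →
      |p.2 - tj| ≤ 5 * ell cs n + 4 * |P p - P (0, tj)| / Real.sqrt δ →
      hs cs n ≤ sg * (P p - P (0, tj)) → F p = 0) →
    ∫ p in Om P n M 1, (dx v p ^ 2 + dt v p ^ 2) ≤ 1 / (n : ℝ) ^ A →
    ∫ p in {p | |p.2 - tj| < 4 * ell cs n ∧ 2 * hs cs n < sg * (P p - P (0, tj)) ∧
        sg * (P p - P (0, tj)) < 4 * hs cs n},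
      ((YY P v p) ^ 2 + δ * (XX P v p) ^ 2) * dx P p ≤ (n : ℝ) ^ 20 / (n : ℝ) ^ A := by
  obtain ⟨C0, hC0, hce⟩ := core_energy
  obtain ⟨T, hT0, hT⟩ := Tr'_bdd
  obtain ⟨n0, hn0⟩ := exists_nat_ge (800 * M + 3 * C0 * T * Real.exp 5 * M + 2)
  refine ⟨n0, ?_⟩
  intro n hn P v a α e1 e2 F δ hPE hδ1 hδ2 tj htj0 htj1 hPj sg hsg hF hOm
  have hnn : 800 * M + 3 * C0 * T * Real.exp 5 * M + 2 ≤ (n : ℝ) :=
    hn0.trans (by exact_mod_cast hn)
  have hM0 : 0 < M := by linarith only [hM]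
  have hpos : 0 ≤ 3 * C0 * T * Real.exp 5 * M := by positivity
  have hn1 : (1 : ℝ) ≤ n := by linarith only [hM, hnn, hpos]
  have hn800 : 800 * M ≤ (n : ℝ) := by linarith only [hnn, hpos]
  have hnT : 3 * C0 * T * Real.exp 5 * M ≤ (n : ℝ) := by linarith only [hM, hnn]
  have hcs2 : cs ≤ 1 / 1000 := hcs1.trans (by
    rw [div_le_div_iff₀ (by positivity) (by norm_num)]; linarith only [hM])
  have hl0 : 0 < ell cs n := by unfold ell; (clear * - hcs hn1; positivity)
  have hh0 : 0 < hs cs n := by unfold hs varpi; (clear * - hcs hn1 hl0; positivity)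
  have hd0 := dK_pos (n := n) hM hn1
  have hd1 := dK_le (n := n) hM hn1
  have htj2 : tj ≤ 1 / 1000 :=
    htj1.trans ((div_le_self hcs.le (one_le_pow₀ hn1)).trans hcs2)
  have hO := isOpen_Om hPE.frame n M 1
  have hmain := S1.main hC0 hT0 hT hce hPE hsg hd0 hh0 hl0 hd1 (ell_le hcs hcs2 hn1) htj0 htj2
    (pj_le hM hn800 hPj) (hs_le hM hcs hcs1 hn1) (c_le hM hn800 hPj hδ1) hF hO
    (fun p hp => by
      have h1 : rho2 p < (0.78 - 0.03 * 1) ^ 2 := hp.1
      show rho2 p ≤ 1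
      norm_num at h1
      linarith only [h1])
    (fun p h1 h2 h3 => by
      refine ⟨?_, Or.inl h3⟩
      have h6 := hPE.frame.abs_sub_fst_le p
      have h7 : |p.1| ≤ |P p| + |P p - p.1| := by
        have := abs_sub_abs_le_abs_sub p.1 (P p)
        rw [abs_sub_comm p.1] at this
        linarith only [this]
      have h8 : |p.1| ≤ 0.05 := by norm_num at h1 h2 ⊢; linarith only [h6, h7, h1, h2]
      have h9 := abs_le.1 h8
      have h10 := abs_le.1 h1
      show p.1 ^ 2 + p.2 ^ 2 < (0.78 - 0.03 * 1) ^ 2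
      norm_num at h9 h10 ⊢
      nlinarith only [h9, h10])
  refine hmain.trans ?_
  have hfin := final_le hM hn1 hnT
  have hI : 0 ≤ ∫ p in Om P n M 1, (dx v p ^ 2 + dt v p ^ 2) :=
    integral_nonneg fun p => by (clear * -; positivity)
  calc _ ≤ (n : ℝ) ^ 20 * (1 / (n : ℝ) ^ A) := mul_le_mul hfin hOm hI (by (clear * - hn1; positivity))
    _ = _ := by ring

end Vale.Agent.P229.D
end
end

section

section

/-!
# P229, disproof: test functions for the final step
-/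

open scoped ContDiff Topology RealInnerProductSpace
open MeasureTheory Set

namespace Vale.Agent.P229.D

/-- `y²/2` on `[-1,1]`, `0` outside `(-3/2,3/2)`. -/
noncomputable def om (y : ℝ) : ℝ :=
  y ^ 2 / 2 * (Real.smoothTransition (3 - 2 * y) * Real.smoothTransition (3 + 2 * y))

/-- `y` on `[-2,2]`, `0` outside `(-3,3)`. -/
noncomputable def Th (y : ℝ) : ℝ :=
  y * (Real.smoothTransition (3 - y) * Real.smoothTransition (3 + y))

/-- `G = h_s ω((t-t_j)/ℓ) Θ((P-p_j)/h_s)`. -/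
noncomputable def Gt (P : Pl → ℝ) (cs : ℝ) (n : ℕ) (tj : ℝ) (p : Pl) : ℝ :=
  hs cs n * om ((p.2 - tj) / ell cs n) * Th ((P p - P (0, tj)) / hs cs n)

/-- `Q ψ = YYψ + X(a Xψ) + α XYψ + e₁ Yψ + e₂ Xψ`. -/
noncomputable def Qop (P a α e1 e2 ψ : Pl → ℝ) (p : Pl) : ℝ :=
  YY P (YY P ψ) p + XX P (fun q => a q * XX P ψ q) p + α p * XX P (YY P ψ) p
    + e1 p * YY P ψ p + e2 p * XX P ψ p

/-- window `|t - t_j| ≤ A ℓ`, `|P - p_j| ≤ B h_s`. -/
def Win (P : Pl → ℝ) (cs : ℝ) (n : ℕ) (tj A B : ℝ) : Set Pl :=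
  {p | |p.2 - tj| ≤ A * ell cs n ∧ |P p - P (0, tj)| ≤ B * hs cs n}

end Vale.Agent.P229.D
end
end

section

section

/-!
# P229, disproof, task T11a: the corrected difference and its forcing
-/

open scoped ContDiff Topology RealInnerProductSpace
open MeasureTheory Set

namespace Vale.Agent.P229.D

/-- slopes of the level sets of `P` near the cluster. -/
def SlopeHyp (P : Pl → ℝ) (cs : ℝ) (n : ℕ) : Prop :=
  ∀ p : Pl, |p.1| ≤ 2 * cs / (n : ℝ) ^ 8 → |p.2| ≤ 2 * cs / (n : ℝ) ^ 8 →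
    |dt P p| ≤ 1.1 * varpi cs n

/-! ## linearity -/

theorem t1_XX_lin {P f g : Pl → ℝ} (k : ℝ) (hf : ContDiff ℝ 1 f) (hg : ContDiff ℝ 1 g) :
    XX P (fun q => f q + k * g q) = fun q => XX P f q + k * XX P g q := by
  funext q
  have h1 : DifferentiableAt ℝ f q := hf.differentiable (by norm_num) q
  have h2 : DifferentiableAt ℝ g q := hg.differentiable (by norm_num) q
  rw [XX_add (g := fun q => k * g q) h1 (h2.const_mul k), XX_const_mul k h2]

theorem t1_YY_lin {P f g : Pl → ℝ} (k : ℝ) (hf : ContDiff ℝ 1 f) (hg : ContDiff ℝ 1 g) :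
    YY P (fun q => f q + k * g q) = fun q => YY P f q + k * YY P g q := by
  funext q
  have h1 : DifferentiableAt ℝ f q := hf.differentiable (by norm_num) q
  have h2 : DifferentiableAt ℝ g q := hg.differentiable (by norm_num) q
  rw [YY_add (g := fun q => k * g q) h1 (h2.const_mul k), YY_const_mul k h2]

theorem t1_Qop_lin {P v a α e1 e2 ψ : Pl → ℝ} (hP : Frame P) (hv : ContDiff ℝ 2 v)
    (ha : ContDiff ℝ 1 a) (k : ℝ) (hψ : ContDiff ℝ 2 ψ) (p : Pl) :
    Qop P a α e1 e2 (fun p => v p + k * ψ p) p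
      = Qop P a α e1 e2 v p + k * Qop P a α e1 e2 ψ p := by
  have hv1 : ContDiff ℝ 1 v := hv.of_le (by norm_num)
  have hψ1 : ContDiff ℝ 1 ψ := hψ.of_le (by norm_num)
  have hXv : ContDiff ℝ 1 (XX P v) := contDiff_XX hP hv (by norm_num) (by norm_num)
  have hYv : ContDiff ℝ 1 (YY P v) := contDiff_YY hP hv (by norm_num) (by norm_num)
  have hXψ : ContDiff ℝ 1 (XX P ψ) := contDiff_XX hP hψ (by norm_num) (by norm_num)
  have hYψ : ContDiff ℝ 1 (YY P ψ) := contDiff_YY hP hψ (by norm_num) (by norm_num)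
  unfold Qop
  rw [t1_YY_lin k hv1 hψ1, t1_YY_lin k hYv hYψ, t1_XX_lin k hYv hYψ, t1_XX_lin k hv1 hψ1]
  have e : (fun q => a q * (fun q => XX P v q + k * XX P ψ q) q)
      = fun q => a q * XX P v q + k * (a q * XX P ψ q) := by
    funext q; ring
  rw [e, t1_XX_lin k (ha.mul hXv) (ha.mul hXψ)]
  ring

theorem t1_Qop_cont {P a α e1 e2 ψ : Pl → ℝ} (hP : Frame P)
    (ha : ContDiff ℝ 1 a) (hα : Continuous α) (h1 : Continuous e1) (h2 : Continuous e2)
    (hψ : ContDiff ℝ 2 ψ) : Continuous (Qop P a α e1 e2 ψ) := by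
  have hXψ : ContDiff ℝ 1 (XX P ψ) := contDiff_XX hP hψ (by norm_num) (by norm_num)
  have hYψ : ContDiff ℝ 1 (YY P ψ) := contDiff_YY hP hψ (by norm_num) (by norm_num)
  have h3 : Continuous (YY P (YY P ψ)) :=
    (contDiff_YY (m := 0) hP hYψ (by norm_num) (by norm_num)).continuous
  have h4 : Continuous (XX P (YY P ψ)) :=
    (contDiff_XX (m := 0) hP hYψ (by norm_num) (by norm_num)).continuous
  have h5 : Continuous (XX P (fun q => a q * XX P ψ q)) :=
    (contDiff_XX (m := 0) hP (ha.mul hXψ) (by norm_num) (by norm_num)).continuous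
  unfold Qop
  exact (((h3.add h5).add (hα.mul h4)).add (h1.mul hYψ.continuous)).add (h2.mul hXψ.continuous)

/-- adding a multiple of `ψ` to the solution. -/
theorem PairEq.add_psi {P v a α e1 e2 F ψ : Pl → ℝ} {δ : ℝ} (h : PairEq P v a α e1 e2 F δ)
    (k : ℝ) (hψ : ContDiff ℝ ∞ ψ) :
    PairEq P (fun p => v p + k * ψ p) a α e1 e2 (fun p => F p + k * Qop P a α e1 e2 ψ p) δ := by
  have hψ2 : ContDiff ℝ 2 ψ := by exact_mod_cast contDiff_infty.1 hψ 2
  refine { h with v_smooth := ?_, F_cont := ?_, eq := ?_ }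
  · exact h.v_smooth.add (contDiff_const.mul hψ2)
  · exact h.F_cont.add (continuous_const.mul
      (t1_Qop_cont h.frame h.a_smooth h.α_smooth.continuous h.e1_cont h.e2_cont hψ2))
  · intro p hp
    have h1 := t1_Qop_lin (α := α) (e1 := e1) (e2 := e2) h.frame h.v_smooth h.a_smooth k hψ2 p
    have h2 := h.eq p hp
    unfold Qop at h1 ⊢
    rw [h1, h2]

/-! ## pointwise formulas -/

section formulas

variable {P ψ : Pl → ℝ}

theorem t1_dxm (hP : Frame P) (p : Pl) :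
    dx (fun q => dt P q / dx P q) p
      = (dx (dt P) p * dx P p - dt P p * dx (dx P) p) / dx P p ^ 2 :=
  fderiv_div_apply ((hP.contDiff_dt (m := 1) (by norm_num)).differentiable (by norm_num) p)
    ((hP.contDiff_dx (m := 1) (by norm_num)).differentiable (by norm_num) p) (hP.dx_ne p) _

theorem t1_dtm (hP : Frame P) (p : Pl) :
    dt (fun q => dt P q / dx P q) p
      = (dt (dt P) p * dx P p - dt P p * dt (dx P) p) / dx P p ^ 2 :=
  fderiv_div_apply ((hP.contDiff_dt (m := 1) (by norm_num)).differentiable (by norm_num) p)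
    ((hP.contDiff_dx (m := 1) (by norm_num)).differentiable (by norm_num) p) (hP.dx_ne p) _

theorem t1_m_diff (hP : Frame P) (p : Pl) : DifferentiableAt ℝ (fun q => dt P q / dx P q) p := by
  have h1 := (hP.contDiff_dt (m := 1) (by norm_num)).differentiable (by norm_num) p
  have h2 := (hP.contDiff_dx (m := 1) (by norm_num)).differentiable (by norm_num) p
  simp only [div_eq_mul_inv]; exact h1.mul (h2.inv (hP.dx_ne p))

theorem t1_dx_YY (hP : Frame P) (hψ : ContDiff ℝ 2 ψ) (p : Pl) :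
    dx (YY P ψ) p = dx (dt ψ) p - (dx (fun q => dt P q / dx P q) p * dx ψ p
      + dt P p / dx P p * dx (dx ψ) p) := by
  have h1 : DifferentiableAt ℝ (dt ψ) p :=
    (contDiff_dt (m := 1) hψ (by norm_num)).differentiable (by norm_num) p
  have h2 : DifferentiableAt ℝ (dx ψ) p :=
    (contDiff_dx (m := 1) hψ (by norm_num)).differentiable (by norm_num) p
  have e : YY P ψ = fun q => dt ψ q - (dt P q / dx P q) * dx ψ q := rfl
  rw [e, dx_sub h1 ((t1_m_diff hP p).fun_mul h2), dx_mul (t1_m_diff hP p) h2]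

theorem t1_dt_YY (hP : Frame P) (hψ : ContDiff ℝ 2 ψ) (p : Pl) :
    dt (YY P ψ) p = dt (dt ψ) p - (dt (fun q => dt P q / dx P q) p * dx ψ p
      + dt P p / dx P p * dt (dx ψ) p) := by
  have h1 : DifferentiableAt ℝ (dt ψ) p :=
    (contDiff_dt (m := 1) hψ (by norm_num)).differentiable (by norm_num) p
  have h2 : DifferentiableAt ℝ (dx ψ) p :=
    (contDiff_dx (m := 1) hψ (by norm_num)).differentiable (by norm_num) p
  have e : YY P ψ = fun q => dt ψ q - (dt P q / dx P q) * dx ψ q := rfl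
  rw [e, dt_sub h1 ((t1_m_diff hP p).fun_mul h2), dt_mul (t1_m_diff hP p) h2]

theorem t1_XX_XX (hP : Frame P) (hψ : ContDiff ℝ 2 ψ) (p : Pl) :
    XX P (XX P ψ) p = (dx (dx ψ) p * dx P p - dx ψ p * dx (dx P) p) / dx P p ^ 2 / dx P p := by
  have h1 : DifferentiableAt ℝ (dx ψ) p :=
    (contDiff_dx (m := 1) hψ (by norm_num)).differentiable (by norm_num) p
  have h2 := (hP.contDiff_dx (m := 1) (by norm_num)).differentiable (by norm_num) p
  have e : XX P ψ = fun q => dx ψ q / dx P q := rfl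
  rw [XX, e]
  congr 1
  exact fderiv_div_apply h1 h2 (hP.dx_ne p) _

theorem t1_XaX (hP : Frame P) {a : Pl → ℝ} (ha : ContDiff ℝ 1 a) (hψ : ContDiff ℝ 2 ψ) (p : Pl) :
    XX P (fun q => a q * XX P ψ q) p = XX P a p * (dx ψ p / dx P p)
      + a p * ((dx (dx ψ) p * dx P p - dx ψ p * dx (dx P) p) / dx P p ^ 2 / dx P p) := by
  have hX : ContDiff ℝ 1 (XX P ψ) := contDiff_XX hP hψ (by norm_num) (by norm_num)
  rw [XX_mul (ha.differentiable (by norm_num) p) (hX.differentiable (by norm_num) p),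
    t1_XX_XX hP hψ p]
  rfl

end formulas

/-! ## abstract numerical bounds -/

theorem t1_mul {x y X Y : ℝ} (hx : |x| ≤ X) (hy : |y| ≤ Y) : |x * y| ≤ X * Y := by
  rw [abs_mul]; exact mul_le_mul hx hy (abs_nonneg _) ((abs_nonneg _).trans hx)

/-- `|YYψ| ≤ 6 K / ℓ²`. -/
theorem t1_YY_num {m mx mt qx qxx qxt qtx qtt w l K : ℝ} (hw : 0 < w) (hw1 : w ≤ 1 / 1000)
    (hl : 0 < l) (hlw : l ≤ w) (hK : 0 ≤ K) (hm : |m| ≤ 1.2 * w) (hmx : |mx| ≤ 0.003)
    (hmt : |mt| ≤ 0.003) (h1 : |qx| ≤ K / (w * l)) (h3 : |qxx| ≤ K / (w * l) ^ 2)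
    (h4 : |qtx| ≤ K / (w * l ^ 2)) (h5 : |qxt| ≤ K / (w * l ^ 2)) (h6 : |qtt| ≤ K / l ^ 2) :
    |(qtt - (mt * qx + m * qtx)) - m * (qxt - (mx * qx + m * qxx))| ≤ 6 * (K / l ^ 2) := by
  have hKl : 0 ≤ K / l ^ 2 := by positivity
  have hx : K / (w * l) ≤ K / l ^ 2 := by
    apply div_le_div_of_nonneg_left hK (by positivity)
    nlinarith only [hl, hlw]
  have hqx : |qx| ≤ K / l ^ 2 := h1.trans hx
  -- products
  have e1 : |mt * qx| ≤ 0.003 * (K / l ^ 2) := by
    rw [abs_mul]; exact mul_le_mul hmt hqx (abs_nonneg _) (by norm_num)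
  have e2 : |m * qtx| ≤ 1.2 * (K / l ^ 2) := by
    rw [abs_mul]
    calc |m| * |qtx| ≤ (1.2 * w) * (K / (w * l ^ 2)) :=
          mul_le_mul hm h4 (abs_nonneg _) (by positivity)
      _ = _ := by field_simp
  have e3 : |m * qxt| ≤ 1.2 * (K / l ^ 2) := by
    rw [abs_mul]
    calc |m| * |qxt| ≤ (1.2 * w) * (K / (w * l ^ 2)) :=
          mul_le_mul hm h5 (abs_nonneg _) (by positivity)
      _ = _ := by field_simp
  have e4 : |m * (mx * qx)| ≤ 0.1 * (K / l ^ 2) := by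
    rw [abs_mul, abs_mul]
    have h7 : |m| ≤ 1 := by linarith only [hw1, hm]
    calc |m| * (|mx| * |qx|) ≤ 1 * (0.003 * (K / l ^ 2)) :=
          mul_le_mul h7 (mul_le_mul hmx hqx (abs_nonneg _) (by norm_num))
            (mul_nonneg (abs_nonneg _) (abs_nonneg _)) (by norm_num)
      _ ≤ _ := by linarith only [hKl]
  have e5 : |m * (m * qxx)| ≤ 1.44 * (K / l ^ 2) := by
    rw [abs_mul, abs_mul]
    calc |m| * (|m| * |qxx|) ≤ (1.2 * w) * ((1.2 * w) * (K / (w * l) ^ 2)) :=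
          mul_le_mul hm (mul_le_mul hm h3 (abs_nonneg _) (by positivity))
            (mul_nonneg (abs_nonneg _) (abs_nonneg _)) (by positivity)
      _ = _ := by field_simp; ring
  have e : (qtt - (mt * qx + m * qtx)) - m * (qxt - (mx * qx + m * qxx))
      = qtt - mt * qx - m * qtx - m * qxt + m * (mx * qx) + m * (m * qxx) := by ring
  rw [e, abs_le]
  rw [abs_le] at e1 e2 e3 e4 e5 h6
  constructor <;> linarith only [h6, e1, e2, e3, e4, e5]

/-- The forcing, abstractly. -/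
theorem t1_force_num {F k A Xa al e1 e2 g u m mx Pxx qx qt qxx qtx qtt w l K W C' D : ℝ}
    (hw : 0 < w) (hw1 : w ≤ 1 / 1000) (hl : 0 < l) (hlw : l ≤ w) (hK : 0 ≤ K)
    (hW : W = K / (w * l ^ 2))
    (hm : |m| ≤ 1.2 * w) (hmx : |mx| ≤ 0.003)
    (hu0 : 0 < u) (hu : u ≤ 1.01) (hPxx : |Pxx| ≤ 1 / 1000) (hg : |g| ≤ 1.1)
    (hD : D = k * A * u ^ 2 - g) (hDl : |D| ≤ 28 * l)
    (hkA : |k * A| ≤ 2) (hkXa : |k * Xa| ≤ 2) (hkal : |k * al| ≤ 0.01) (hke1 : |k * e1| ≤ 0.01)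
    (hke2 : |k * e2| ≤ 0.01)
    (hF : |F + g * (qxx + qtt)| ≤ C')
    (h1 : |qx| ≤ K / (w * l)) (h2 : |qt| ≤ K / l) (h3 : |qxx| ≤ K / (w * l) ^ 2)
    (h4 : |qtx| ≤ K / (w * l ^ 2)) (h6 : |qtt| ≤ K / l ^ 2) :
    |F + k * ((Xa * (qx * u) + A * ((qxx * u ^ 2 - qx * Pxx * u ^ 3)))
        + al * ((qtx - (mx * qx + m * qxx)) * u) + e1 * (qt - m * qx) + e2 * (qx * u))|
      ≤ C' + 40 * W := by
  have hl1 : l ≤ 1 := by linarith only [hw1, hlw]
  have hW0 : 0 ≤ W := by rw [hW]; (clear * - hK hw hl; positivity)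
  have hqx : |qx| ≤ W := by
    refine h1.trans ?_
    rw [hW]
    apply div_le_div_of_nonneg_left hK (by positivity)
    have : w * l * l ≤ w * l * 1 := mul_le_mul_of_nonneg_left hl1 (by positivity)
    linarith only [this]
  have hqt : |qt| ≤ W := by
    refine h2.trans ?_
    rw [hW]
    apply div_le_div_of_nonneg_left hK (by positivity)
    have : w * l ≤ 1 * 1 := mul_le_mul (by linarith only [hw1]) hl1 hl.le (by norm_num)
    nlinarith only [hw1, hl, hlw]
  have hqtt : |qtt| ≤ W := by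
    refine h6.trans ?_
    rw [hW]
    apply div_le_div_of_nonneg_left hK (by positivity)
    nlinarith only [hw1]
  have hqtx : |qtx| ≤ W := by rw [hW]; exact h4
  have hwq : w * |qxx| ≤ W := by
    calc w * |qxx| ≤ w * (K / (w * l) ^ 2) := mul_le_mul_of_nonneg_left h3 hw.le
      _ = W := by rw [hW]; (clear * - hl hw; field_simp)
  have hmq : |m * qxx| ≤ 1.2 * W := by
    rw [abs_mul]
    calc |m| * |qxx| ≤ (1.2 * w) * |qxx| := mul_le_mul_of_nonneg_right hm (abs_nonneg _)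
      _ = 1.2 * (w * |qxx|) := by ring
      _ ≤ _ := by linarith only [hwq]
  have hmx' : |mx * qx| ≤ 0.003 * W := by
    rw [abs_mul]; exact mul_le_mul hmx hqx (abs_nonneg _) (by norm_num)
  have hmqx : |m * qx| ≤ 0.1 * W := by
    rw [abs_mul]; exact mul_le_mul (by linarith only [hw1, hm]) hqx (abs_nonneg _) (by norm_num)
  -- the pieces
  have T2 : |g * qtt| ≤ 1.1 * W := by
    rw [abs_mul]; exact mul_le_mul hg hqtt (abs_nonneg _) (by norm_num)
  have T3 : |D * qxx| ≤ 28 * W := by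
    rw [abs_mul]
    calc |D| * |qxx| ≤ (28 * l) * |qxx| := mul_le_mul_of_nonneg_right hDl (abs_nonneg _)
      _ ≤ (28 * w) * |qxx| :=
          mul_le_mul_of_nonneg_right (by linarith only [hlw]) (abs_nonneg _)
      _ = 28 * (w * |qxx|) := by ring
      _ ≤ _ := by linarith only [hwq]
  have hu3 : |u ^ 3| ≤ 1.1 := by
    rw [abs_of_pos (by positivity)]
    calc u ^ 3 ≤ 1.01 ^ 3 := pow_le_pow_left₀ hu0.le hu 3
      _ ≤ _ := by norm_num
  have huu : |u| ≤ 1.01 := by rw [abs_of_pos hu0]; exact hu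
  have T4 : |(k * A) * (Pxx * (u ^ 3 * qx))| ≤ 0.01 * W :=
    (t1_mul hkA (t1_mul hPxx (t1_mul hu3 hqx))).trans (by linarith only [hW0])
  have T5 : |(k * Xa) * (u * qx)| ≤ 2.1 * W :=
    (t1_mul hkXa (t1_mul huu hqx)).trans (by linarith only [hW0])
  have T6a : |qtx - (mx * qx + m * qxx)| ≤ 2.3 * W := by
    rw [abs_le] at hqtx hmx' hmq ⊢
    constructor <;> linarith only [hqtx, hmq, hmx']
  have T6 : |(k * al) * (u * (qtx - (mx * qx + m * qxx)))| ≤ 0.1 * W :=
    (t1_mul hkal (t1_mul huu T6a)).trans (by linarith only [hW0])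
  have T7a : |qt - m * qx| ≤ 1.1 * W := by
    rw [abs_le] at hqt hmqx ⊢
    constructor <;> linarith only [hqt, hmqx]
  have T7 : |(k * e1) * (qt - m * qx)| ≤ 0.1 * W :=
    (t1_mul hke1 T7a).trans (by linarith only [hW0])
  have T8 : |(k * e2) * (u * qx)| ≤ 0.1 * W :=
    (t1_mul hke2 (t1_mul huu hqx)).trans (by linarith only [hW0])
  have e : F + k * ((Xa * (qx * u) + A * ((qxx * u ^ 2 - qx * Pxx * u ^ 3)))
        + al * ((qtx - (mx * qx + m * qxx)) * u) + e1 * (qt - m * qx) + e2 * (qx * u))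
      = (F + g * (qxx + qtt)) - g * qtt + D * qxx - (k * A) * (Pxx * (u ^ 3 * qx))
        + (k * Xa) * (u * qx) + (k * al) * (u * (qtx - (mx * qx + m * qxx)))
        + (k * e1) * (qt - m * qx) + (k * e2) * (u * qx) := by
    rw [hD]; ring
  rw [e, abs_le]
  rw [abs_le] at hF T2 T3 T4 T5 T6 T7 T8
  constructor <;>
    linarith only [hF, T2, T3, T4, T5, T6, T7, T8]

/-! ## geometry of the window -/

theorem t1_fderiv_le (f : Pl → ℝ) (z : Pl) : ‖fderiv ℝ f z‖ ≤ |dx f z| + |dt f z| := by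
  refine ContinuousLinearMap.opNorm_le_bound _ (by positivity) fun v => ?_
  rw [fderiv_eq, Real.norm_eq_abs]
  have h1 : |v.1| ≤ ‖v‖ := by rw [← Real.norm_eq_abs]; exact norm_fst_le v
  have h2 : |v.2| ≤ ‖v‖ := by rw [← Real.norm_eq_abs]; exact norm_snd_le v
  refine (abs_add_le _ _).trans ?_
  rw [abs_mul, abs_mul]
  have h3 := mul_le_mul_of_nonneg_right h1 (abs_nonneg (dx f z))
  have h4 := mul_le_mul_of_nonneg_right h2 (abs_nonneg (dt f z))
  linarith

/-- mean value inequality on the ball of radius `1/10`. -/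
theorem t1_lip {f : Pl → ℝ} (hf : ContDiff ℝ 1 f) {K : ℝ}
    (hK : ∀ z ∈ Metric.ball (0 : Pl) (1 / 10), |dx f z| + |dt f z| ≤ K)
    {p q : Pl} (hp : p ∈ Metric.ball (0 : Pl) (1 / 10)) (hq : q ∈ Metric.ball (0 : Pl) (1 / 10)) :
    |f p - f q| ≤ K * ‖p - q‖ := by
  have := (convex_ball (0 : Pl) (1 / 10)).norm_image_sub_le_of_norm_fderiv_le (𝕜 := ℝ) (f := f)
    (C := K) (fun z _ => hf.differentiable (by norm_num) z)
    (fun z hz => (t1_fderiv_le f z).trans (hK z hz)) hq hp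
  rwa [Real.norm_eq_abs] at this

theorem t1_ball {z : Pl} (hz : z ∈ Metric.ball (0 : Pl) (1 / 10)) :
    |z.1| < 1 / 10 ∧ |z.2| < 1 / 10 ∧ rho2 z < 0.64 := by
  rw [mem_ball_zero_iff, Prod.norm_def, Real.norm_eq_abs, Real.norm_eq_abs, max_lt_iff] at hz
  refine ⟨hz.1, hz.2, ?_⟩
  have h1 := abs_lt.1 hz.1
  have h2 := abs_lt.1 hz.2
  unfold rho2
  have h3 : z.1 ^ 2 < (1 / 10) ^ 2 := sq_lt_sq' h1.1 h1.2
  have h4 : z.2 ^ 2 < (1 / 10) ^ 2 := sq_lt_sq' h2.1 h2.2
  norm_num at h3 h4 ⊢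
  linarith only [h3, h4]

theorem t1_mem_ball {z : Pl} (h1 : |z.1| < 1 / 10) (h2 : |z.2| < 1 / 10) :
    z ∈ Metric.ball (0 : Pl) (1 / 10) := by
  rw [mem_ball_zero_iff, Prod.norm_def, Real.norm_eq_abs, Real.norm_eq_abs, max_lt_iff]
  exact ⟨h1, h2⟩

theorem t1_P_small {P : Pl → ℝ} (hP : Frame P) {z : Pl} (hz : z ∈ Metric.ball (0 : Pl) (1 / 10)) :
    |P z| ≤ 0.11 := by
  obtain ⟨h1, h2, -⟩ := t1_ball hz
  have h3 := abs_le.1 (hP.abs_sub_fst_le z)
  have h4 := abs_lt.1 h1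
  rw [abs_le]
  constructor <;> norm_num <;> linarith only [h1, h2, h3, h4]

/-- bounds for `a` on the ball of radius `1/10`. -/
theorem t1_a_bds {P v a α e1 e2 F : Pl → ℝ} {δ : ℝ} (h : PairEq P v a α e1 e2 F δ)
    {z : Pl} (hz : z ∈ Metric.ball (0 : Pl) (1 / 10)) :
    |a z| ≤ 0.3 * δ ∧ |XX P a z| ≤ 0.3 * δ ∧ |dx a z| + |dt a z| ≤ δ := by
  have hδ := h.δ_pos
  obtain ⟨h1, h2, h3⟩ := t1_ball hz
  have hP := abs_le.1 (t1_P_small h.frame hz)
  have h2' := abs_lt.1 h2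
  have hP2 : P z ^ 2 ≤ 0.11 ^ 2 := sq_le_sq' hP.1 hP.2
  have ht2 : z.2 ^ 2 ≤ (1 / 10) ^ 2 := sq_le_sq' h2'.1.le h2'.2.le
  have ha := abs_le.1 (h.a_bd z h3)
  have haX := abs_le.1 (h.aX_bd z h3)
  have haY := abs_le.1 (h.aY_bd z h3)
  have q1 : δ * (P z ^ 2 + z.2 ^ 2 - 1 / 4) ≤ δ * 0 :=
    mul_le_mul_of_nonneg_left (by norm_num at hP2 ht2 ⊢; linarith only [hP2, ht2]) hδ.le
  have q2 : δ * (-(1 / 4)) ≤ δ * (P z ^ 2 + z.2 ^ 2 - 1 / 4) :=
    mul_le_mul_of_nonneg_left (by linarith only [sq_nonneg (P z), sq_nonneg z.2]) hδ.le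
  have q3 : 2 * δ * P z ≤ 2 * δ * 0.11 := mul_le_mul_of_nonneg_left hP.2 (by linarith only [hδ])
  have q4 : 2 * δ * (-0.11) ≤ 2 * δ * P z := mul_le_mul_of_nonneg_left hP.1 (by linarith only [hδ])
  have q5 : 2 * δ * z.2 ≤ 2 * δ * (1 / 10) := mul_le_mul_of_nonneg_left h2'.2.le (by linarith only [hδ])
  have q6 : 2 * δ * (-(1 / 10)) ≤ 2 * δ * z.2 := mul_le_mul_of_nonneg_left h2'.1.le (by linarith only [hδ])
  have hX : |XX P a z| ≤ 0.3 * δ := by
    rw [abs_le]; constructor <;> linarith only [q3, haX.1, haX.2, q4]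
  have hY : |YY P a z| ≤ 0.3 * δ := by
    rw [abs_le]; constructor <;> linarith only [q5, haY.1, haY.2, q6]
  refine ⟨?_, hX, ?_⟩
  · rw [abs_le]; constructor <;> linarith only [q1, ha.1, ha.2, q2]
  · have hne := h.frame.dx_ne z
    have e1 : dx a z = dx P z * XX P a z := by rw [XX]; (clear * - hne; field_simp)
    have e2 : dt a z = YY P a z + dt P z * XX P a z := by rw [YY, XX]; field_simp; ring
    have b1 : |dx P z| ≤ 1.001 := by
      rw [abs_of_pos (h.frame.dx_pos z)]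
      have := h.frame.dx_le z
      norm_num at this ⊢; linarith only [this]
    have c1 : |dx a z| ≤ 1.001 * (0.3 * δ) := by rw [e1]; exact t1_mul b1 hX
    have c2 : |dt a z| ≤ 0.3 * δ + 1 / 1000 * (0.3 * δ) := by
      rw [e2]
      exact (abs_add_le _ _).trans (add_le_add hY (t1_mul (h.frame.dt_small z) hX))
    linarith only [hδ, c1, c2]

/-- Lipschitz bound for `g P_x²`. -/
theorem t1_G_bds {P g : Pl → ℝ} (hP : Frame P) (hg : ContDiff ℝ 1 g)
    (hgb : ∀ p, rho2 p < 0.64 → |g p - 1| ≤ 1 / 10 ∧ |dx g p| ≤ 1 ∧ |dt g p| ≤ 1)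
    {z : Pl} (hz : z ∈ Metric.ball (0 : Pl) (1 / 10)) :
    |dx (fun q => g q * dx P q ^ 2) z| + |dt (fun q => g q * dx P q ^ 2) z| ≤ 3 := by
  obtain ⟨-, -, h3⟩ := t1_ball hz
  obtain ⟨g1, g2, g3⟩ := hgb z h3
  have hg' : |g z| ≤ 1.1 := by
    rw [abs_le] at g1 ⊢; norm_num; constructor <;> linarith only [g1]
  have hPd : DifferentiableAt ℝ (dx P) z :=
    (hP.contDiff_dx (m := 1) (by norm_num)).differentiable (by norm_num) z
  have hgd : DifferentiableAt ℝ g z := hg.differentiable (by norm_num) z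
  have e0 : (fun q => g q * dx P q ^ 2) = fun q => g q * (dx P q * dx P q) := by
    funext q; ring
  have b1 : |dx P z| ≤ 1.001 := by
    rw [abs_of_pos (hP.dx_pos z)]
    have := hP.dx_le z
    norm_num at this ⊢; linarith only [this]
  have k1 : |dx g z * (dx P z * dx P z)| ≤ 1 * (1.001 * 1.001) := t1_mul g2 (t1_mul b1 b1)
  have k2 : |dt g z * (dx P z * dx P z)| ≤ 1 * (1.001 * 1.001) := t1_mul g3 (t1_mul b1 b1)
  have k3 : |g z * (dx (dx P) z * dx P z)| ≤ 1.1 * (1 / 1000 * 1.001) :=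
    t1_mul hg' (t1_mul (hP.dxx_small z) b1)
  have k4 : |g z * (dt (dx P) z * dx P z)| ≤ 1.1 * (1 / 1000 * 1.001) :=
    t1_mul hg' (t1_mul (hP.dxt_small z) b1)
  rw [e0, dx_mul hgd (hPd.fun_mul hPd), dt_mul hgd (hPd.fun_mul hPd), dx_mul hPd hPd,
    dt_mul hPd hPd]
  have f1 : |dx g z * (dx P z * dx P z) + g z * (dx (dx P) z * dx P z + dx P z * dx (dx P) z)|
      ≤ 1.4 := by
    have e : dx g z * (dx P z * dx P z) + g z * (dx (dx P) z * dx P z + dx P z * dx (dx P) z)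
        = dx g z * (dx P z * dx P z) + g z * (dx (dx P) z * dx P z)
          + g z * (dx (dx P) z * dx P z) := by ring
    rw [e, abs_le]
    rw [abs_le] at k1 k3
    constructor <;> norm_num at k1 k3 ⊢ <;> linarith only [k1, k3]
  have f2 : |dt g z * (dx P z * dx P z) + g z * (dt (dx P) z * dx P z + dx P z * dt (dx P) z)|
      ≤ 1.4 := by
    have e : dt g z * (dx P z * dx P z) + g z * (dt (dx P) z * dx P z + dx P z * dt (dx P) z)
        = dt g z * (dx P z * dx P z) + g z * (dt (dx P) z * dx P z)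
          + g z * (dt (dx P) z * dx P z) := by ring
    rw [e, abs_le]
    rw [abs_le] at k2 k4
    constructor <;> norm_num at k2 k4 ⊢ <;> linarith only [k2, k4]
  linarith only [f1, f2]

/-- points of the window are close to the `t`-axis. -/
theorem t1_x_small {P : Pl → ℝ} (hP : Frame P) {cs : ℝ} {n : ℕ} (hS : SlopeHyp P cs n)
    (hw : 0 < varpi cs n) (hl : 0 < ell cs n)
    (hlw : 8 * ell cs n ≤ varpi cs n) {tj : ℝ} (ht0 : 0 ≤ tj) (ht1 : tj ≤ varpi cs n)
    {p : Pl} (hp : p ∈ Win P cs n tj 3 4) :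
    |p.1| ≤ 14 * (varpi cs n * ell cs n) := by
  obtain ⟨hp1, hp2⟩ := hp
  have e2w : 2 * cs / (n : ℝ) ^ 8 = 2 * varpi cs n := by unfold varpi; ring
  have dP : Differentiable ℝ P := hP.smooth.differentiable (by norm_num)
  have h1 : |P (p.1, p.2) - p.1 - (P (0, p.2) - 0)| ≤ 1 / 1000 * |p.1 - 0| := by
    have := Convex.norm_image_sub_le_of_norm_hasDerivWithin_le (s := (Set.univ : Set ℝ))
      (f := fun y => P (y, p.2) - y) (f' := fun y => dx P (y, p.2) - 1) (x := 0) (y := p.1)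
      (C := 1 / 1000)
      (fun y _ => (((hasDerivAt_fst (p := (y, p.2)) (dP _)).sub (hasDerivAt_id y))).hasDerivWithinAt)
      (fun y _ => by simpa only [Real.norm_eq_abs, one_div] using hP.dx_near (y, p.2)) convex_univ (Set.mem_univ _) (Set.mem_univ _)
    simpa only [Prod.mk.eta, sub_zero, one_div, ge_iff_le, Real.norm_eq_abs] using this
  have hp1' := abs_le.1 hp1
  have h2 : |P (0, p.2) - P (0, tj)| ≤ 1.1 * varpi cs n * |p.2 - tj| := by
    have := Convex.norm_image_sub_le_of_norm_hasDerivWithin_le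
      (s := Set.Icc (-(2 * varpi cs n)) (2 * varpi cs n))
      (f := fun y => P (0, y)) (f' := fun y => dt P (0, y)) (x := tj) (y := p.2)
      (C := 1.1 * varpi cs n)
      (fun y _ => (hasDerivAt_snd (p := ((0 : ℝ), y)) (dP _)).hasDerivWithinAt)
      (fun y hy => by
        rw [Real.norm_eq_abs]
        refine hS _ ?_ ?_
        · rw [e2w]; simp only [abs_zero]; linarith only [hl, hlw]
        · rw [e2w, abs_le]; exact hy) (convex_Icc _ _)
      ⟨by linarith only [hl, hlw, ht0], by linarith only [hl, hlw, ht1]⟩ ⟨by linarith only [hlw, ht0, hp1'], by linarith only [hlw, ht1, hp1']⟩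
    simpa only [ge_iff_le, Real.norm_eq_abs] using this
  have h3 : |P (0, p.2) - P (0, tj)| ≤ 3.3 * (varpi cs n * ell cs n) := by
    refine h2.trans ?_
    have := mul_le_mul_of_nonneg_left hp1 (show 0 ≤ 1.1 * varpi cs n by positivity)
    refine this.trans (le_of_eq ?_)
    ring
  have h4 : |P p - P (0, tj)| ≤ 10 * (varpi cs n * ell cs n) := by
    refine hp2.trans (le_of_eq ?_)
    unfold hs; ring
  have e1 : P (p.1, p.2) = P p := rfl
  rw [e1] at h1
  simp only [sub_zero] at h1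
  rw [abs_le] at h1 h3 h4
  have hpos := mul_pos hw hl
  have hab := abs_nonneg p.1
  have key : |p.1| ≤ 1 / 1000 * |p.1| + 13.3 * (varpi cs n * ell cs n) := by
    refine abs_le.2 ⟨?_, ?_⟩ <;> linarith only [h3, h4, h1]
  linarith only [hpos, key]

/-- the constant `k`. -/
theorem t1_k_bds {G A δ : ℝ} (hδ : 0 < δ) (hG1 : 0.89 ≤ G) (hG2 : G ≤ 1.11)
    (hA1 : -0.252 * δ ≤ A) (hA2 : A ≤ -0.24 * δ) :
    G / A ≤ -(3 / δ) ∧ -(6 / δ) ≤ G / A := by
  have hA : A < 0 := by linarith only [hδ, hA2]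
  constructor
  · rw [div_le_iff_of_neg hA]
    have : -(3 / δ) * A = 3 * (-A) / δ := by ring
    rw [this, div_le_iff₀ hδ]
    nlinarith only [hA1, hA, hG1]
  · rw [le_div_iff_of_neg hA]
    have : -(6 / δ) * A = 6 * (-A) / δ := by ring
    rw [this, le_div_iff₀ hδ]
    nlinarith only [hA2, hδ, hG2]

/-- the quotient `P_t / P_x`. -/
theorem t1_m_bds {P : Pl → ℝ} (hP : Frame P) {w : ℝ} (hw0 : 0 < w) {p : Pl}
    (h : |dt P p| ≤ 1.1 * w) :
    |dt P p / dx P p| ≤ 1.2 * w ∧ |dx (fun q => dt P q / dx P q) p| ≤ 0.003 ∧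
      |dt (fun q => dt P q / dx P q) p| ≤ 0.003 := by
  have hpos := hP.dx_pos p
  have h1 := hP.le_dx p
  have h2 := hP.dx_le p
  have habs : |dx P p| ≤ 1.001 := by
    rw [abs_of_pos hpos]; norm_num at h2 ⊢; linarith only [h2]
  have hsq : (0.99 : ℝ) ≤ dx P p ^ 2 := by nlinarith only [h1]
  refine ⟨?_, ?_, ?_⟩
  · rw [abs_div, abs_of_pos hpos, div_le_iff₀ hpos]
    nlinarith only [h, hw0, h1]
  · rw [t1_dxm hP p, abs_div, abs_of_pos (pow_pos hpos 2), div_le_iff₀ (pow_pos hpos 2)]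
    have a1 : |dx (dt P) p * dx P p| ≤ 1 / 1000 * 1.001 := by
      rw [dx_dt_comm (hP.smooth.of_le (by norm_num)) p]
      exact t1_mul (hP.dxt_small p) habs
    have a2 : |dt P p * dx (dx P) p| ≤ 1 / 1000 * (1 / 1000) :=
      t1_mul (hP.dt_small p) (hP.dxx_small p)
    have := abs_sub (dx (dt P) p * dx P p) (dt P p * dx (dx P) p)
    linarith only [hsq, a1, a2, this]
  · rw [t1_dtm hP p, abs_div, abs_of_pos (pow_pos hpos 2), div_le_iff₀ (pow_pos hpos 2)]
    have a1 : |dt (dt P) p * dx P p| ≤ 1 / 1000 * 1.001 := t1_mul (hP.dtt_small p) habs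
    have a2 : |dt P p * dt (dx P) p| ≤ 1 / 1000 * (1 / 1000) :=
      t1_mul (hP.dt_small p) (hP.dxt_small p)
    have := abs_sub (dt (dt P) p * dx P p) (dt P p * dt (dx P) p)
    linarith only [hsq, a1, a2, this]

/-- pure numerics: choice of `n0`. -/
theorem t1_n0 {M cs Cw Cb : ℝ} (hM : 1 ≤ M) (hcs : 0 < cs) (hcs1 : cs ≤ 1 / (1000 * M))
    (hCb : 0 < Cb) : ∃ n0 : ℕ, ∀ n : ℕ, n0 ≤ n → 1 ≤ n ∧ 0 < varpi cs n ∧
      varpi cs n ≤ 1 / 1000 ∧ 0 < ell cs n ∧ 8 * ell cs n ≤ varpi cs n ∧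
      ∀ δ b' : ℝ, 0 < δ → δ ≤ 4 * M ^ 2 / (n : ℝ) ^ 16 → 0 < b' →
        (|Cw| + 40 * Cb) * (b' / (varpi cs n * ell cs n ^ 2))
          ≤ 1 / (n : ℝ) * (b' / (ell cs n ^ 2 * δ)) := by
  obtain ⟨n0, hn0⟩ := exists_nat_ge (1 + 4 * M ^ 2 * (|Cw| + 40 * Cb) / cs)
  have hC3 : 0 ≤ |Cw| + 40 * Cb := by positivity
  refine ⟨n0, fun n hn => ?_⟩
  have hq : 0 ≤ 4 * M ^ 2 * (|Cw| + 40 * Cb) / cs := by positivity
  have hnR : 1 + 4 * M ^ 2 * (|Cw| + 40 * Cb) / cs ≤ (n : ℝ) :=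
    hn0.trans (by exact_mod_cast hn)
  have hn1 : (1 : ℝ) ≤ n := by linarith only [hq, hnR]
  have hnpos : (0 : ℝ) < n := by linarith only [hq, hnR]
  have hcs2 : cs ≤ 1 / 1000 := by
    refine hcs1.trans ?_
    apply one_div_le_one_div_of_le (by norm_num)
    linarith only [hM]
  have hw : 0 < varpi cs n := by unfold varpi; positivity
  have hl : 0 < ell cs n := by unfold ell; positivity
  refine ⟨by exact_mod_cast hn1, hw, ?_, hl, ?_, ?_⟩
  · unfold varpi
    refine (div_le_self hcs.le (one_le_pow₀ hn1)).trans hcs2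
  · have e : 8 * ell cs n = cs / (n : ℝ) ^ 115 := by unfold ell; field_simp
    rw [e]; unfold varpi
    exact div_le_div_of_nonneg_left hcs.le (by positivity) (pow_le_pow_right₀ hn1 (by norm_num))
  · intro δ b' hδ hδ2 hb
    rw [mul_div_assoc', one_div, ← div_eq_inv_mul, div_div,
      div_le_div_iff₀ (by positivity) (by (clear * - hl hδ hn1; positivity))]
    have key : (|Cw| + 40 * Cb) * (δ * n) ≤ varpi cs n := by
      have h1 : δ * n ≤ 4 * M ^ 2 / (n : ℝ) ^ 15 := by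
        calc δ * n ≤ 4 * M ^ 2 / (n : ℝ) ^ 16 * n := mul_le_mul_of_nonneg_right hδ2 hnpos.le
          _ = _ := by (clear * - hn1 hM; field_simp)
      have h2 : (|Cw| + 40 * Cb) * (δ * n) ≤ (|Cw| + 40 * Cb) * (4 * M ^ 2 / (n : ℝ) ^ 15) :=
        mul_le_mul_of_nonneg_left h1 hC3
      refine h2.trans ?_
      unfold varpi
      rw [mul_div_assoc', div_le_div_iff₀ (by positivity) (by positivity)]
      have h3 : 4 * M ^ 2 * (|Cw| + 40 * Cb) ≤ cs * n := by
        have : 4 * M ^ 2 * (|Cw| + 40 * Cb) / cs ≤ n := by linarith only [hnR]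
        rw [div_le_iff₀ hcs] at this
        linarith only [this]
      have h4 : (n : ℝ) ^ 9 ≤ (n : ℝ) ^ 15 := pow_le_pow_right₀ hn1 (by norm_num)
      calc (|Cw| + 40 * Cb) * (4 * M ^ 2) * (n : ℝ) ^ 8
          = (4 * M ^ 2 * (|Cw| + 40 * Cb)) * (n : ℝ) ^ 8 := by ring
        _ ≤ (cs * n) * (n : ℝ) ^ 8 := mul_le_mul_of_nonneg_right h3 (by positivity)
        _ = cs * (n : ℝ) ^ 9 := by ring
        _ ≤ cs * (n : ℝ) ^ 15 := mul_le_mul_of_nonneg_left h4 hcs.le
    have hb2 : 0 ≤ b' * ell cs n ^ 2 := by positivity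
    have := mul_le_mul_of_nonneg_left key hb2
    calc (|Cw| + 40 * Cb) * b' * (ell cs n ^ 2 * δ * n)
        = b' * ell cs n ^ 2 * ((|Cw| + 40 * Cb) * (δ * n)) := by ring
      _ ≤ b' * ell cs n ^ 2 * varpi cs n := this
      _ = _ := by ring

/-- the forcing at one point, for a general `ψ`. -/
theorem t1_point {P a α e1 e2 ψ : Pl → ℝ} (hP : Frame P) (ha : ContDiff ℝ 1 a)
    (hψ : ContDiff ℝ 2 ψ) {p : Pl} {w l K C' Fp gp k : ℝ}
    (hw : 0 < w) (hw1 : w ≤ 1 / 1000) (hl : 0 < l) (hlw : l ≤ w) (hK : 0 ≤ K)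
    (hm : |dt P p / dx P p| ≤ 1.2 * w) (hmx : |dx (fun q => dt P q / dx P q) p| ≤ 0.003)
    (hmt : |dt (fun q => dt P q / dx P q) p| ≤ 0.003) (hg : |gp| ≤ 1.1)
    (hD : |k * a p - gp * dx P p ^ 2| ≤ 27 * l)
    (hkA : |k * a p| ≤ 2) (hkXa : |k * XX P a p| ≤ 2) (hkal : |k * α p| ≤ 0.01)
    (hke1 : |k * e1 p| ≤ 0.01) (hke2 : |k * e2 p| ≤ 0.01)
    (hF : |Fp + gp * (dx (dx ψ) p + dt (dt ψ) p)| ≤ C')
    (b1 : |dx ψ p| ≤ K / (w * l)) (b2 : |dt ψ p| ≤ K / l) (b3 : |dx (dx ψ) p| ≤ K / (w * l) ^ 2)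
    (b4 : |dt (dx ψ) p| ≤ K / (w * l ^ 2)) (b5 : |dx (dt ψ) p| ≤ K / (w * l ^ 2))
    (b6 : |dt (dt ψ) p| ≤ K / l ^ 2) :
    |(Fp + k * Qop P a α e1 e2 ψ p) - k * YY P (YY P ψ) p| ≤ C' + 40 * (K / (w * l ^ 2)) ∧
      |YY P (YY P ψ) p| ≤ 6 * (K / l ^ 2) := by
  have eYY : YY P (YY P ψ) p
      = (dt (dt ψ) p - (dt (fun q => dt P q / dx P q) p * dx ψ p
          + dt P p / dx P p * dt (dx ψ) p))
        - dt P p / dx P p * (dx (dt ψ) p
          - (dx (fun q => dt P q / dx P q) p * dx ψ p + dt P p / dx P p * dx (dx ψ) p)) := by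
    rw [← t1_dt_YY hP hψ, ← t1_dx_YY hP hψ]; rfl
  refine ⟨?_, ?_⟩
  · have hPx := hP.dx_pos p
    have hPne := hP.dx_ne p
    have hu0 : 0 < (dx P p)⁻¹ := inv_pos.2 hPx
    have hu1 : (dx P p)⁻¹ ≤ 1.01 := by
      rw [inv_le_comm₀ hPx (by norm_num)]
      have := hP.le_dx p
      norm_num at this ⊢; linarith only [this]
    have hu2 : (dx P p)⁻¹ ^ 2 ≤ 1.005 := by
      have h1 : (dx P p)⁻¹ ≤ 1.002 := by
        rw [inv_le_comm₀ hPx (by norm_num)]
        have := hP.le_dx p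
        norm_num at this ⊢; linarith only [this]
      calc (dx P p)⁻¹ ^ 2 ≤ 1.002 ^ 2 := pow_le_pow_left₀ hu0.le h1 2
        _ ≤ _ := by norm_num
    have hD' : |k * a p * (dx P p)⁻¹ ^ 2 - gp| ≤ 28 * l := by
      have e : k * a p * (dx P p)⁻¹ ^ 2 - gp
          = (dx P p)⁻¹ ^ 2 * (k * a p - gp * dx P p ^ 2) := by
        (clear * - hPne; field_simp)
      have h1 : |(dx P p)⁻¹ ^ 2| ≤ 1.005 := by
        rw [abs_of_pos (by (clear * - hPx; positivity))]; exact hu2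
      rw [e]
      refine (t1_mul h1 hD).trans ?_
      linarith only [hl]
    have hmain := t1_force_num (F := Fp) (k := k) (A := a p) (Xa := XX P a p) (al := α p)
      (e1 := e1 p) (e2 := e2 p) (g := gp) (u := (dx P p)⁻¹) (m := dt P p / dx P p)
      (mx := dx (fun q => dt P q / dx P q) p) (Pxx := dx (dx P) p)
      (qx := dx ψ p) (qt := dt ψ p) (qxx := dx (dx ψ) p) (qtx := dx (dt ψ) p)
      (qtt := dt (dt ψ) p) (w := w) (l := l) (K := K) (W := K / (w * l ^ 2))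
      (C' := C') (D := k * a p * (dx P p)⁻¹ ^ 2 - gp)
      hw hw1 hl hlw hK rfl hm hmx hu0 hu1 (hP.dxx_small p) hg
      rfl hD' hkA hkXa hkal hke1 hke2 hF b1 b2 b3 b5 b6
    have r1 := t1_XaX hP ha hψ p
    have r2 : XX P (YY P ψ) p = (dx (dt ψ) p
          - (dx (fun q => dt P q / dx P q) p * dx ψ p + dt P p / dx P p * dx (dx ψ) p))
            * (dx P p)⁻¹ := by
      rw [← t1_dx_YY hP hψ, ← div_eq_mul_inv]; rfl
    have r3 : XX P ψ p = dx ψ p * (dx P p)⁻¹ := by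
      rw [← div_eq_mul_inv]; rfl
    have r4 : (dx (dx ψ) p * dx P p - dx ψ p * dx (dx P) p) / dx P p ^ 2 / dx P p
        = dx (dx ψ) p * (dx P p)⁻¹ ^ 2 - dx ψ p * dx (dx P) p * (dx P p)⁻¹ ^ 3 := by
      (clear * - hPne; field_simp)
    have r6 : YY P ψ p = dt ψ p - dt P p / dx P p * dx ψ p := rfl
    have eQ : (Fp + k * Qop P a α e1 e2 ψ p) - k * YY P (YY P ψ) p
        = Fp + k * ((XX P a p * (dx ψ p * (dx P p)⁻¹)
            + a p * ((dx (dx ψ) p * (dx P p)⁻¹ ^ 2 - dx ψ p * dx (dx P) p * (dx P p)⁻¹ ^ 3)))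
          + α p * ((dx (dt ψ) p - (dx (fun q => dt P q / dx P q) p * dx ψ p
              + dt P p / dx P p * dx (dx ψ) p)) * (dx P p)⁻¹)
          + e1 p * (dt ψ p - dt P p / dx P p * dx ψ p)
          + e2 p * (dx ψ p * (dx P p)⁻¹)) := by
      unfold Qop
      rw [r1, r2, r3, r4, r6, div_eq_mul_inv (dx ψ p) (dx P p)]
      ring
    rw [eQ]
    exact hmain
  · rw [eYY]
    exact t1_YY_num hw hw1 hl hlw hK hm hmx hmt b1 b3 b4 b5 b6

/-- derivatives of `c * bit`. -/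
theorem t1_bit_bds {Cb cs b' c tj : ℝ} {n : ℕ} (hcabs : |c| ≤ b') {p : Pl}
    (q1 : |dx (bit cs n tj) p| ≤ Cb / (varpi cs n * ell cs n))
    (q2 : |dt (bit cs n tj) p| ≤ Cb / ell cs n)
    (q3 : |dx (dx (bit cs n tj)) p| ≤ Cb / (varpi cs n * ell cs n) ^ 2)
    (q4 : |dt (dx (bit cs n tj)) p| ≤ Cb / (varpi cs n * ell cs n ^ 2))
    (q5 : |dx (dt (bit cs n tj)) p| ≤ Cb / (varpi cs n * ell cs n ^ 2))
    (q6 : |dt (dt (bit cs n tj)) p| ≤ Cb / ell cs n ^ 2) :
    |dx (fun q => c * bit cs n tj q) p| ≤ Cb * b' / (varpi cs n * ell cs n) ∧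
    |dt (fun q => c * bit cs n tj q) p| ≤ Cb * b' / ell cs n ∧
    |dx (dx (fun q => c * bit cs n tj q)) p| ≤ Cb * b' / (varpi cs n * ell cs n) ^ 2 ∧
    |dt (dx (fun q => c * bit cs n tj q)) p| ≤ Cb * b' / (varpi cs n * ell cs n ^ 2) ∧
    |dx (dt (fun q => c * bit cs n tj q)) p| ≤ Cb * b' / (varpi cs n * ell cs n ^ 2) ∧
    |dt (dt (fun q => c * bit cs n tj q)) p| ≤ Cb * b' / ell cs n ^ 2 ∧
    dx (dx (fun q => c * bit cs n tj q)) p + dt (dt (fun q => c * bit cs n tj q)) p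
      = c * (dx (dx (bit cs n tj)) p + dt (dt (bit cs n tj)) p) := by
  have hbs : ContDiff ℝ ∞ (bit cs n tj) := bit_smooth cs n tj
  have hb2 : ContDiff ℝ 2 (bit cs n tj) := by exact_mod_cast contDiff_infty.1 hbs 2
  have hbd : Differentiable ℝ (bit cs n tj) := hb2.differentiable (by norm_num)
  have hbxd : Differentiable ℝ (dx (bit cs n tj)) :=
    (contDiff_dx (m := 1) hb2 (by norm_num)).differentiable (by norm_num)
  have hbtd : Differentiable ℝ (dt (bit cs n tj)) :=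
    (contDiff_dt (m := 1) hb2 (by norm_num)).differentiable (by norm_num)
  have ex : dx (fun q => c * bit cs n tj q) = fun q => c * dx (bit cs n tj) q := by
    funext q; exact dx_const_mul c (hbd q)
  have et : dt (fun q => c * bit cs n tj q) = fun q => c * dt (bit cs n tj) q := by
    funext q; exact dt_const_mul c (hbd q)
  have exx : dx (dx (fun q => c * bit cs n tj q)) p = c * dx (dx (bit cs n tj)) p := by
    rw [ex]; exact dx_const_mul c (hbxd p)
  have etx : dt (dx (fun q => c * bit cs n tj q)) p = c * dt (dx (bit cs n tj)) p := by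
    rw [ex]; exact dt_const_mul c (hbxd p)
  have ext : dx (dt (fun q => c * bit cs n tj q)) p = c * dx (dt (bit cs n tj)) p := by
    rw [et]; exact dx_const_mul c (hbtd p)
  have ett : dt (dt (fun q => c * bit cs n tj q)) p = c * dt (dt (bit cs n tj)) p := by
    rw [et]; exact dt_const_mul c (hbtd p)
  have hK : ∀ {x L : ℝ}, |x| ≤ Cb / L → |c * x| ≤ Cb * b' / L := by
    intro x L hx
    refine (t1_mul hcabs hx).trans (le_of_eq ?_)
    ring
  refine ⟨?_, ?_, ?_, ?_, ?_, ?_, ?_⟩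
  · rw [ex]; exact hK q1
  · rw [et]; exact hK q2
  · rw [exx]; exact hK q3
  · rw [etx]; exact hK q4
  · rw [ext]; exact hK q5
  · rw [ett]; exact hK q6
  · rw [exx, ett]; ring

theorem t1_W0 {Cw b' w l : ℝ} (hw : 0 < w) (hl : 0 < l) (hl1 : l ≤ 1) (hb : 0 < b') :
    Cw * b' / (w * l) ≤ |Cw| * (b' / (w * l ^ 2)) := by
  have h1 : Cw * b' / (w * l) ≤ |Cw| * (b' / (w * l)) := by
    rw [mul_div_assoc]
    exact mul_le_mul_of_nonneg_right (le_abs_self _) (by positivity)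
  refine h1.trans (mul_le_mul_of_nonneg_left ?_ (abs_nonneg _))
  apply div_le_div_of_nonneg_left hb.le (by positivity)
  have : w * l * l ≤ w * l * 1 := mul_le_mul_of_nonneg_left hl1 (by positivity)
  linarith only [this]

/-- the constant `k` at the base point. -/
theorem t1_base {P v a α e1 e2 F g : Pl → ℝ} {δ tj : ℝ} (hpe : PairEq P v a α e1 e2 F δ)
    (ht0 : 0 ≤ tj) (ht1 : tj ≤ 1 / 1000)
    (hgb : ∀ p, rho2 p < 0.64 → |g p - 1| ≤ 1 / 10 ∧ |dx g p| ≤ 1 ∧ |dt g p| ≤ 1)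
    {y : Pl} (hy : y = (0, tj)) :
    y ∈ Metric.ball (0 : Pl) (1 / 10) ∧ ∃ k : ℝ, k ≤ -(3 / δ) ∧ -(6 / δ) ≤ k ∧ |k| ≤ 6 / δ ∧
      k * a y = g y * dx P y ^ 2 := by
  have hP := hpe.frame
  have hδ := hpe.δ_pos
  have hyb : y ∈ Metric.ball (0 : Pl) (1 / 10) := by
    rw [hy]
    refine t1_mem_ball ?_ ?_
    · simp
    · change |tj| < 1 / 10
      rw [abs_of_nonneg ht0]; linarith
  obtain ⟨-, -, hy3⟩ := t1_ball hyb
  have hGy1 : 0.89 ≤ g y * dx P y ^ 2 ∧ g y * dx P y ^ 2 ≤ 1.11 := by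
    have h1 := abs_le.1 (hgb y hy3).1
    have h2 := hP.le_dx y
    have h3 := hP.dx_le y
    have h4 : (0.997 : ℝ) ≤ dx P y ^ 2 := by nlinarith only [h2]
    have h5 : dx P y ^ 2 ≤ (1.003 : ℝ) := by nlinarith only [h3, h2]
    have h6 : (0.9 : ℝ) ≤ g y := by norm_num; linarith only [h1]
    have h7 : g y ≤ (1.1 : ℝ) := by norm_num; linarith only [h1]
    constructor
    · nlinarith only [h4, h1]
    · nlinarith only [h5, h1]
  have hAy : -0.252 * δ ≤ a y ∧ a y ≤ -0.24 * δ := by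
    have h1 := abs_le.1 (hpe.a_bd y hy3)
    have h2 := abs_le.1 (hP.abs_sub_fst_le y)
    have e1 : y.1 = 0 := by rw [hy]
    have e2 : y.2 = tj := by rw [hy]
    rw [e1, e2, abs_zero, abs_of_nonneg ht0] at h2
    rw [e2] at h1
    have h3 : P y ^ 2 ≤ 0.001 ^ 2 := by
      refine sq_le_sq' ?_ ?_ <;> norm_num <;> linarith only [ht1, h2]
    have h4 : tj ^ 2 ≤ 0.001 ^ 2 := by
      refine sq_le_sq' ?_ ?_ <;> norm_num <;> linarith only [ht0, ht1]
    have h5 : δ * (P y ^ 2 + tj ^ 2 - 1 / 4) ≤ δ * (-0.249) :=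
      mul_le_mul_of_nonneg_left (by norm_num at h3 h4 ⊢; linarith only [h3, h4]) hδ.le
    have h6 : δ * (-(1 / 4)) ≤ δ * (P y ^ 2 + tj ^ 2 - 1 / 4) :=
      mul_le_mul_of_nonneg_left (by linarith only [sq_nonneg (P y), sq_nonneg tj]) hδ.le
    constructor <;> linarith only [h5, h1.1, h1.2, h6]
  have hay : a y ≠ 0 := by
    intro h0; rw [h0] at hAy; linarith only [hδ, hAy]
  obtain ⟨hk1, hk2⟩ := t1_k_bds hδ hGy1.1 hGy1.2 hAy.1 hAy.2
  refine ⟨hyb, g y * dx P y ^ 2 / a y, hk1, hk2, ?_, div_mul_cancel₀ _ hay⟩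
  rw [abs_le]; refine ⟨hk2, hk1.trans ?_⟩
  have : 0 < 3 / δ := by positivity
  have : 0 < 6 / δ := by positivity
  (clear tj ht0 ht1 hgb hy hP hyb hy3 hGy1 hAy hay this; linarith)

/-- geometry of a point of the window. -/
theorem t1_win {P v a α e1 e2 F g : Pl → ℝ} {δ tj cs k : ℝ} {n : ℕ}
    (hpe : PairEq P v a α e1 e2 F δ) (hS : SlopeHyp P cs n)
    (hw : 0 < varpi cs n) (hw1 : varpi cs n ≤ 1 / 1000) (hl : 0 < ell cs n)
    (hlw : 8 * ell cs n ≤ varpi cs n) (ht0 : 0 ≤ tj) (ht1 : tj ≤ varpi cs n)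
    (hg : ContDiff ℝ 1 g)
    (hgb : ∀ p, rho2 p < 0.64 → |g p - 1| ≤ 1 / 10 ∧ |dx g p| ≤ 1 ∧ |dt g p| ≤ 1)
    {y : Pl} (hy : y = (0, tj)) (hyb : y ∈ Metric.ball (0 : Pl) (1 / 10)) (hk : |k| ≤ 6 / δ)
    (hka : k * a y = g y * dx P y ^ 2) {p : Pl} (hp : p ∈ Win P cs n tj 3 4) :
    p ∈ Metric.ball (0 : Pl) (1 / 10) ∧ |dt P p| ≤ 1.1 * varpi cs n ∧
      |k * a p - g p * dx P p ^ 2| ≤ 27 * ell cs n := by
  have hP := hpe.frame
  have hδ := hpe.δ_pos
  have hx := t1_x_small hP hS hw hl hlw ht0 ht1 hp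
  have hp1 := abs_le.1 hp.1
  have hwl : varpi cs n * ell cs n ≤ 1 / 1000 * ell cs n :=
    mul_le_mul_of_nonneg_right hw1 hl.le
  have hx2 : |p.1| ≤ ell cs n := by linarith only [hl, hx, hwl]
  have hpt : |p.2| ≤ 2 * varpi cs n := by rw [abs_le]; constructor <;> linarith only [hl, hlw, ht0, hp1, ht1, hp1.1, hp1.2]
  have hpb : p ∈ Metric.ball (0 : Pl) (1 / 10) :=
    t1_mem_ball (by linarith only [hw1, hlw, hx, hwl]) (by linarith only [hw1, hpt])
  have hpy : ‖p - y‖ ≤ 3 * ell cs n := by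
    rw [hy, Prod.norm_def, Real.norm_eq_abs, Real.norm_eq_abs]
    refine max_le ?_ ?_
    · change |p.1 - 0| ≤ _
      rw [sub_zero]; linarith only [hl, hx, hwl]
    · exact hp.1
  refine ⟨hpb, ?_, ?_⟩
  · have e2w : 2 * cs / (n : ℝ) ^ 8 = 2 * varpi cs n := by unfold varpi; ring
    refine hS p ?_ ?_
    · rw [e2w]; linarith only [hl, hlw, hx, hwl]
    · rw [e2w]; exact hpt
  · have hLa : |a p - a y| ≤ δ * (3 * ell cs n) :=
      (t1_lip hpe.a_smooth (fun z hz => (t1_a_bds hpe hz).2.2) hpb hyb).trans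
        (mul_le_mul_of_nonneg_left hpy hδ.le)
    have hGs : ContDiff ℝ 1 (fun q => g q * dx P q ^ 2) :=
      hg.mul ((hP.contDiff_dx (m := 1) (by norm_num)).pow 2)
    have hLG : |g p * dx P p ^ 2 - g y * dx P y ^ 2| ≤ 3 * (3 * ell cs n) :=
      (t1_lip hGs (fun z hz => t1_G_bds hP hg hgb hz) hpb hyb).trans
        (mul_le_mul_of_nonneg_left hpy (by norm_num))
    have h1 : |k * (a p - a y)| ≤ 18 * ell cs n := by
      refine (t1_mul hk hLa).trans (le_of_eq ?_)
      field_simp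
      ring
    have e : k * a p - g p * dx P p ^ 2
        = k * (a p - a y) - (g p * dx P p ^ 2 - g y * dx P y ^ 2) := by
      rw [mul_sub, hka]; ring
    rw [e]
    rw [abs_le] at h1 hLG ⊢
    constructor <;> linarith only [hLG, h1]

/-- The choice of `k` and the size of the forcing of `v + k ψ`, `ψ = sgn b' bit`. -/
theorem forcing_bound : ∃ C : ℝ, 0 < C ∧ ∀ M : ℝ, 1 ≤ M → ∀ cs : ℝ, 0 < cs →
    cs ≤ 1 / (1000 * M) → ∀ Cw : ℝ, ∃ n0 : ℕ, ∀ n : ℕ, n0 ≤ n →
    ∀ (P v a α e1 e2 F g : Pl → ℝ) (δ b' tj sgn : ℝ), PairEq P v a α e1 e2 F δ →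
    1 / (4 * M ^ 2 * (n : ℝ) ^ 16) ≤ δ → δ ≤ 4 * M ^ 2 / (n : ℝ) ^ 16 →
    0 < b' → 0 ≤ tj → tj ≤ cs / (n : ℝ) ^ 8 → (sgn = 1 ∨ sgn = -1) → SlopeHyp P cs n →
    ContDiff ℝ 1 g → (∀ p, rho2 p < 0.64 → |g p - 1| ≤ 1 / 10 ∧ |dx g p| ≤ 1 ∧ |dt g p| ≤ 1) →
    (∀ p : Pl, |p.2 - tj| ≤ 3 * ell cs n → |P p - P (0, tj)| ≤ 5 * hs cs n →
      |F p + g p * (sgn * b') * (dx (dx (bit cs n tj)) p + dt (dt (bit cs n tj)) p)|
        ≤ Cw * b' / (varpi cs n * ell cs n)) →
    ∃ k : ℝ, k ≤ -(3 / δ) ∧ -(6 / δ) ≤ k ∧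
      ∀ p ∈ Win P cs n tj 3 4,
        |(F p + k * Qop P a α e1 e2 (fun q => sgn * b' * bit cs n tj q) p)
            - k * YY P (YY P (fun q => sgn * b' * bit cs n tj q)) p|
          ≤ 1 / (n : ℝ) * (b' / (ell cs n ^ 2 * δ)) ∧
        |YY P (YY P (fun q => sgn * b' * bit cs n tj q)) p| ≤ C * (b' / ell cs n ^ 2) := by
  obtain ⟨Cb, hCb, hbit⟩ := bit_aniso
  refine ⟨6 * Cb, by positivity, ?_⟩
  intro M hM cs hcs hcs1 Cw
  obtain ⟨n0, hn0⟩ := t1_n0 (Cw := Cw) hM hcs hcs1 hCb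
  refine ⟨n0, ?_⟩
  intro n hn P v a α e1 e2 F g δ b' tj sgn hpe _ hδ2 hb ht0 ht1 hsgn hS hg hgb hF
  obtain ⟨hn1, hw, hw1, hl, hlw, hfin⟩ := hn0 n hn
  have hcs3 : cs ≤ 1 := by
    refine hcs1.trans ?_
    rw [div_le_one (by positivity)]
    linarith only [hM]
  have hP := hpe.frame
  have hδ := hpe.δ_pos
  obtain ⟨hyb, k, hk1, hk2, hkabs, hka⟩ := t1_base (g := g) hpe ht0
    (le_trans (show tj ≤ varpi cs n from ht1) hw1) hgb (y := (0, tj)) rfl
  refine ⟨k, hk1, hk2, ?_⟩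
  intro p hp
  obtain ⟨hpb, hslope, hD0⟩ := t1_win hpe hS hw hw1 hl hlw ht0 ht1 hg hgb rfl hyb hkabs hka hp
  obtain ⟨-, -, hp3⟩ := t1_ball hpb
  obtain ⟨hm, hmx, hmt⟩ := t1_m_bds hP hw hslope
  obtain ⟨hA, hXa, -⟩ := t1_a_bds hpe hpb
  have hkk : ∀ {x c : ℝ}, |x| ≤ c * δ → |k * x| ≤ 6 * c := by
    intro x c hxc
    refine (t1_mul hkabs hxc).trans (le_of_eq ?_)
    (clear * - hδ; field_simp)
  have hgp : |g p| ≤ 1.1 := by
    have h1 := abs_le.1 (hgb p hp3).1
    rw [abs_le]; constructor <;> norm_num <;> linarith only [h1]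
  have hkA : |k * a p| ≤ 2 := (hkk hA).trans (by norm_num)
  have hkXa : |k * XX P a p| ≤ 2 := (hkk hXa).trans (by norm_num)
  have hkal : |k * α p| ≤ 0.01 :=
    (hkk (c := 1 / 1000) (by have := hpe.α_bd p hp3; linarith only [this])).trans (by norm_num)
  have hke1 : |k * e1 p| ≤ 0.01 :=
    (hkk (c := 1 / 1000) (by have := hpe.e1_bd p hp3; linarith only [this])).trans (by norm_num)
  have hke2 : |k * e2 p| ≤ 0.01 :=
    (hkk (c := 1 / 1000) (by have := hpe.e2_bd p hp3; linarith only [this])).trans (by norm_num)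
  obtain ⟨-, q1, q2, q3, q4, q5, q6⟩ := hbit cs hcs hcs3 n hn1 tj p
  have hcabs : |sgn * b'| ≤ b' := by
    rw [abs_mul, abs_of_pos hb]
    rcases hsgn with h | h <;> rw [h] <;> simp
  obtain ⟨b1, b2, b3, b4, b5, b6, b7⟩ := t1_bit_bds hcabs q1 q2 q3 q4 q5 q6
  have hψs : ContDiff ℝ ∞ (fun q => sgn * b' * bit cs n tj q) :=
    contDiff_const.mul (bit_smooth cs n tj)
  have hψ2 : ContDiff ℝ 2 (fun q => sgn * b' * bit cs n tj q) := by
    exact_mod_cast contDiff_infty.1 hψs 2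
  have hFp : |F p + g p * (dx (dx (fun q => sgn * b' * bit cs n tj q)) p
      + dt (dt (fun q => sgn * b' * bit cs n tj q)) p)|
      ≤ Cw * b' / (varpi cs n * ell cs n) := by
    rw [b7]
    have h5 : |P p - P (0, tj)| ≤ 5 * hs cs n := by
      refine hp.2.trans ?_
      have : 0 ≤ hs cs n := by unfold hs; (clear * - hw hl; positivity)
      linarith only [this]
    refine le_trans (le_of_eq ?_) (hF p hp.1 h5)
    congr 1
    ring
  obtain ⟨m1, m2⟩ := t1_point (α := α) (e1 := e1) (e2 := e2) (k := k) hP hpe.a_smooth hψ2 hw hw1 hl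
    (by linarith only [hl, hlw]) (show 0 ≤ Cb * b' by positivity) hm hmx hmt hgp hD0 hkA hkXa hkal hke1 hke2 hFp
    b1 b2 b3 b4 b5 b6
  refine ⟨m1.trans (le_trans ?_ (hfin δ b' hδ hδ2 hb)), m2.trans (le_of_eq (by ring))⟩
  have hW0 := t1_W0 (Cw := Cw) hw hl (by linarith only [hw1, hlw]) hb
  have e3 : 40 * (Cb * b' / (varpi cs n * ell cs n ^ 2))
      = 40 * Cb * (b' / (varpi cs n * ell cs n ^ 2)) := by ring
  rw [e3, add_mul]
  exact add_le_add hW0 le_rfl

end Vale.Agent.P229.D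
end
end

section

section

/-!
# P229, disproof, task T11b: testing the equation
-/

open scoped ContDiff Topology RealInnerProductSpace
open MeasureTheory Set

namespace Vale.Agent.P229.D

/-! ## the product test functions -/

/-- `f ((t - t_j)/l) g ((P - p_j)/h)`. -/
noncomputable def t2F (P : Pl → ℝ) (l h tj pj : ℝ) (f g : ℝ → ℝ) (p : Pl) : ℝ :=
  f ((p.2 - tj) / l) * g ((P p - pj) / h)

section prod

variable {P : Pl → ℝ} {l h tj pj : ℝ} {f g : ℝ → ℝ}

theorem t2_smooth (hP : Frame P) (hf : ContDiff ℝ ∞ f) (hg : ContDiff ℝ ∞ g) :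
    ContDiff ℝ 3 (t2F P l h tj pj f g) := by
  unfold t2F
  have h1 : ContDiff ℝ 3 (fun p : Pl => f ((p.2 - tj) / l)) :=
    (hf.of_le (by norm_cast)).comp (by fun_prop)
  have h2 : ContDiff ℝ 3 (fun p : Pl => g ((P p - pj) / h)) :=
    (hg.of_le (by norm_cast)).comp ((hP.smooth.sub contDiff_const).div_const _)
  exact h1.mul h2

theorem t2_diff1 (hf : ContDiff ℝ ∞ f) (p : Pl) :
    DifferentiableAt ℝ (fun p : Pl => f ((p.2 - tj) / l)) p :=
  ((hf.differentiable (by norm_num)).comp (by fun_prop : Differentiable ℝ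
    fun p : Pl => (p.2 - tj) / l)) p

theorem t2_diff2 (hP : Frame P) (hg : ContDiff ℝ ∞ g) (p : Pl) :
    DifferentiableAt ℝ (fun p : Pl => g ((P p - pj) / h)) p := by
  have h1 : ContDiff ℝ 3 (fun p : Pl => g ((P p - pj) / h)) :=
    (hg.of_le (by norm_cast)).comp ((hP.smooth.sub contDiff_const).div_const _)
  exact h1.differentiable (by norm_num) p

theorem t2_deriv_aff (hf : ContDiff ℝ ∞ f) (b m y : ℝ) :
    deriv (fun y => f ((y - b) / m)) y = 1 / m * deriv f ((y - b) / m) := by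
  have h1 : HasDerivAt (fun y : ℝ => (y - b) / m) (1 / m) y :=
    ((hasDerivAt_id y).sub_const b).div_const m
  have h2 := ((hf.differentiable (by norm_num)) ((y - b) / m)).hasDerivAt.comp y h1
  have h3 : deriv (fun y => f ((y - b) / m)) y = deriv f ((y - b) / m) * (1 / m) := h2.deriv
  rw [h3]; ring

theorem t2_diff_aff (hf : ContDiff ℝ ∞ f) (b m y : ℝ) :
    DifferentiableAt ℝ (fun y => f ((y - b) / m)) y :=
  ((hf.differentiable (by norm_num)).comp (by fun_prop : Differentiable ℝ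
    fun y : ℝ => (y - b) / m)) y

theorem t2_XX (hP : Frame P) (hf : ContDiff ℝ ∞ f) (hg : ContDiff ℝ ∞ g) (p : Pl) :
    XX P (t2F P l h tj pj f g) p = 1 / h * t2F P l h tj pj f (deriv g) p := by
  have e : t2F P l h tj pj f g = fun p : Pl => f ((p.2 - tj) / l) * g ((P p - pj) / h) := rfl
  rw [e, XX_mul (t2_diff1 hf p) (t2_diff2 hP hg p),
    XX_comp_snd (φ := fun y => f ((y - tj) / l)) (t2_diff_aff hf tj l _),
    XX_comp_P hP (φ := fun y => g ((y - pj) / h)) (t2_diff_aff hg pj h _), t2_deriv_aff hg]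
  unfold t2F
  ring

theorem t2_YY (hP : Frame P) (hf : ContDiff ℝ ∞ f) (hg : ContDiff ℝ ∞ g) (p : Pl) :
    YY P (t2F P l h tj pj f g) p = 1 / l * t2F P l h tj pj (deriv f) g p := by
  have e : t2F P l h tj pj f g = fun p : Pl => f ((p.2 - tj) / l) * g ((P p - pj) / h) := rfl
  rw [e, YY_mul (t2_diff1 hf p) (t2_diff2 hP hg p),
    YY_comp_snd (φ := fun y => f ((y - tj) / l)) (t2_diff_aff hf tj l _),
    YY_comp_P hP (φ := fun y => g ((y - pj) / h)) (t2_diff_aff hg pj h _), t2_deriv_aff hf]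
  unfold t2F
  ring

theorem t2_zero {r s A B : ℝ} (hl : 0 < l) (hh : 0 < h) (hr : r ≤ A) (hs : s ≤ B)
    (hf : ∀ y, r < |y| → f y = 0) (hg : ∀ y, s < |y| → g y = 0) {p : Pl}
    (hp : ¬ (|p.2 - tj| ≤ A * l ∧ |P p - pj| ≤ B * h)) : t2F P l h tj pj f g p = 0 := by
  unfold t2F
  rw [not_and_or, not_le, not_le] at hp
  rcases hp with hp | hp
  · rw [hf, zero_mul]
    rw [abs_div, abs_of_pos hl, lt_div_iff₀ hl]
    exact lt_of_le_of_lt (mul_le_mul_of_nonneg_right hr hl.le) hp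
  · rw [hg, mul_zero]
    rw [abs_div, abs_of_pos hh, lt_div_iff₀ hh]
    exact lt_of_le_of_lt (mul_le_mul_of_nonneg_right hs hh.le) hp

theorem t2_abs_le {B : ℝ} (hB : 0 ≤ B) (hf : ∀ y, |f y| ≤ B) (hg : ∀ y, |g y| ≤ B) (p : Pl) :
    |t2F P l h tj pj f g p| ≤ B ^ 2 := by
  unfold t2F
  rw [abs_mul, sq]
  exact mul_le_mul (hf _) (hg _) (abs_nonneg _) hB

end prod

/-! ## one-dimensional facts -/

theorem t2_deriv_zero {f : ℝ → ℝ} {r : ℝ} (hf : ∀ y, r < |y| → f y = 0) :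
    ∀ y, r < |y| → deriv f y = 0 := by
  intro y hy
  have : f =ᶠ[𝓝 y] fun _ => 0 := by
    filter_upwards [(isOpen_lt continuous_const continuous_abs).mem_nhds hy] with z hz
    exact hf z hz
  rw [this.deriv_eq]; simp

theorem t2_om_smooth : ContDiff ℝ ∞ om := by
  unfold om
  have h1 : ContDiff ℝ ∞ (fun y : ℝ => 3 - 2 * y) := by fun_prop
  have h2 : ContDiff ℝ ∞ (fun y : ℝ => 3 + 2 * y) := by fun_prop
  have h3 : ContDiff ℝ ∞ (fun y : ℝ => y ^ 2 / 2) := by fun_prop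
  exact h3.mul (((Real.smoothTransition.contDiff (n := ⊤)).comp h1).mul
    ((Real.smoothTransition.contDiff (n := ⊤)).comp h2))

theorem t2_Th_smooth : ContDiff ℝ ∞ Th := by
  unfold Th
  have h1 : ContDiff ℝ ∞ (fun y : ℝ => 3 - y) := by fun_prop
  have h2 : ContDiff ℝ ∞ (fun y : ℝ => 3 + y) := by fun_prop
  exact contDiff_id.mul (((Real.smoothTransition.contDiff (n := ⊤)).comp h1).mul
    ((Real.smoothTransition.contDiff (n := ⊤)).comp h2))

theorem t2_smooth_deriv {f : ℝ → ℝ} (hf : ContDiff ℝ ∞ f) : ContDiff ℝ ∞ (deriv f) :=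
  (contDiff_infty_iff_deriv.1 hf).2

theorem t2_om_zero : ∀ y, 3 / 2 < |y| → om y = 0 := by
  intro y hy
  unfold om
  rcases lt_abs.1 hy with h | h
  · rw [Real.smoothTransition.zero_of_nonpos (x := 3 - 2 * y) (by linarith only [h])]; ring
  · rw [Real.smoothTransition.zero_of_nonpos (x := 3 + 2 * y) (by linarith only [h])]; ring

theorem t2_Th_zero : ∀ y, 3 < |y| → Th y = 0 := by
  intro y hy
  unfold Th
  rcases lt_abs.1 hy with h | h
  · rw [Real.smoothTransition.zero_of_nonpos (x := 3 - y) (by linarith)]; ring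
  · rw [Real.smoothTransition.zero_of_nonpos (x := 3 + y) (by linarith)]; ring

theorem t2_Th_eq {y : ℝ} (hy : |y| ≤ 2) : Th y = y := by
  obtain ⟨h1, h2⟩ := abs_le.1 hy
  unfold Th
  rw [Real.smoothTransition.one_of_one_le (by linarith),
    Real.smoothTransition.one_of_one_le (by linarith)]
  ring

theorem t2_Th''_zero {y : ℝ} (hy : |y| ≤ 2) : deriv (deriv Th) y = 0 := by
  have h1 : ∀ y ∈ Ioo (-2 : ℝ) 2, deriv (deriv Th) y = 0 := by
    intro y hy
    have e1 : ∀ z ∈ Ioo (-2 : ℝ) 2, deriv Th z = 1 := by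
      intro z hz
      have : Th =ᶠ[𝓝 z] fun y => y := by
        filter_upwards [isOpen_Ioo.mem_nhds hz] with w hw
        exact t2_Th_eq (abs_le.2 ⟨hw.1.le, hw.2.le⟩)
      rw [this.deriv_eq]; simp
    have : deriv Th =ᶠ[𝓝 y] fun _ => 1 := by
      filter_upwards [isOpen_Ioo.mem_nhds hy] with w hw
      exact e1 w hw
    rw [this.deriv_eq]; simp
  have hcl : IsClosed {y : ℝ | deriv (deriv Th) y = 0} :=
    isClosed_eq (t2_smooth_deriv (t2_smooth_deriv t2_Th_smooth)).continuous continuous_const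
  have h2 : closure (Ioo (-2 : ℝ) 2) ⊆ {y : ℝ | deriv (deriv Th) y = 0} :=
    closure_minimal h1 hcl
  rw [closure_Ioo (by norm_num)] at h2
  exact h2 (abs_le.1 hy)

theorem t2_bdd_of {f : ℝ → ℝ} {r : ℝ} (hf : Continuous f) (h0 : ∀ y, r < |y| → f y = 0) :
    ∃ C : ℝ, ∀ y, |f y| ≤ C := by
  have hc : HasCompactSupport f := by
    refine HasCompactSupport.intro (isCompact_Icc (a := -r) (b := r)) fun y hy => h0 y ?_
    by_contra hcon
    exact hy (abs_le.1 (not_lt.1 hcon))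
  obtain ⟨C, hC⟩ := hc.exists_bound_of_continuous hf
  exact ⟨C, fun y => by simpa [Real.norm_eq_abs] using hC y⟩

/-- a common bound for `ω, ω', ω'', Θ, Θ', Θ''`. -/
theorem t2_bdd : ∃ B : ℝ, 1 ≤ B ∧ ∀ y, |om y| ≤ B ∧ |deriv om y| ≤ B ∧
    |deriv (deriv om) y| ≤ B ∧ |Th y| ≤ B ∧ |deriv Th y| ≤ B ∧ |deriv (deriv Th) y| ≤ B := by
  have s1 := t2_om_smooth
  have s2 := t2_smooth_deriv s1
  have s3 := t2_smooth_deriv s2
  have s4 := t2_Th_smooth
  have s5 := t2_smooth_deriv s4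
  have s6 := t2_smooth_deriv s5
  have z1 := t2_om_zero
  have z2 := t2_deriv_zero z1
  have z3 := t2_deriv_zero z2
  have z4 := t2_Th_zero
  have z5 := t2_deriv_zero z4
  have z6 := t2_deriv_zero z5
  obtain ⟨C1, h1⟩ := t2_bdd_of s1.continuous z1
  obtain ⟨C2, h2⟩ := t2_bdd_of s2.continuous z2
  obtain ⟨C3, h3⟩ := t2_bdd_of s3.continuous z3
  obtain ⟨C4, h4⟩ := t2_bdd_of s4.continuous z4
  obtain ⟨C5, h5⟩ := t2_bdd_of s5.continuous z5
  obtain ⟨C6, h6⟩ := t2_bdd_of s6.continuous z6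
  have n1 := (abs_nonneg _).trans (h1 0)
  have n2 := (abs_nonneg _).trans (h2 0)
  have n3 := (abs_nonneg _).trans (h3 0)
  have n4 := (abs_nonneg _).trans (h4 0)
  have n5 := (abs_nonneg _).trans (h5 0)
  have n6 := (abs_nonneg _).trans (h6 0)
  refine ⟨1 + C1 + C2 + C3 + C4 + C5 + C6, by linarith, fun y => ⟨?_, ?_, ?_, ?_, ?_, ?_⟩⟩
  · linarith only [n2, n3, n4, n5, n6, h1 y]
  · linarith [h2 y]
  · linarith [h3 y]
  · linarith [h4 y]
  · linarith [h5 y]
  · linarith [h6 y]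

/-! ## the test function -/

theorem t2_Gt (P : Pl → ℝ) (cs : ℝ) (n : ℕ) (tj : ℝ) :
    Gt P cs n tj = fun p => hs cs n * t2F P (ell cs n) (hs cs n) tj (P (0, tj)) om Th p := by
  funext p
  unfold Gt t2F
  ring

theorem t2_XXG {P : Pl → ℝ} (hP : Frame P) {cs : ℝ} {n : ℕ} (hh : 0 < hs cs n) (tj : ℝ) :
    XX P (Gt P cs n tj) = t2F P (ell cs n) (hs cs n) tj (P (0, tj)) om (deriv Th) := by
  funext p
  rw [t2_Gt, XX_const_mul _ ((t2_smooth hP t2_om_smooth t2_Th_smooth).differentiable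
    (by norm_num) p), t2_XX hP t2_om_smooth t2_Th_smooth]
  field_simp

/-! ## integration by parts -/

theorem t2_ibpY {P f g : Pl → ℝ} (hP : Frame P) (hf : ContDiff ℝ 1 f) (hg : ContDiff ℝ 1 g)
    (cf : HasCompactSupport f) :
    ∫ p, f p * YY P g p * dx P p = -∫ p, YY P f p * g p * dx P p := by
  have h := integral_YY_eq_zero hP (hf.mul hg) (cf.mul_right)
  have e : ∀ p, YY P (fun q => f q * g q) p * dx P p
      = f p * YY P g p * dx P p + YY P f p * g p * dx P p := by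
    intro p
    rw [YY_mul (hf.differentiable (by norm_num) p) (hg.differentiable (by norm_num) p)]
    ring
  have cJ : Continuous (dx P) := (hP.contDiff_dx (m := 1) (by norm_num)).continuous
  have cYg : Continuous (YY P g) := (contDiff_YY hP (m := 0) hg (by norm_num) (by norm_num)).continuous
  have cYf : Continuous (YY P f) := (contDiff_YY hP (m := 0) hf (by norm_num) (by norm_num)).continuous
  have i1 : Integrable (fun p => f p * YY P g p * dx P p) :=
    ((hf.continuous.mul cYg).mul cJ).integrable_of_hasCompactSupport (cf.mul_right.mul_right)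
  have i2 : Integrable (fun p => YY P f p * g p * dx P p) :=
    ((cYf.mul hg.continuous).mul cJ).integrable_of_hasCompactSupport
      ((hasCompactSupport_YY cf).mul_right.mul_right)
  have h2 : ∫ p, (f p * YY P g p * dx P p + YY P f p * g p * dx P p) = 0 := by
    rw [← h]
    exact integral_congr_ae (Filter.Eventually.of_forall fun p => (e p).symm)
  rw [integral_add i1 i2] at h2
  linarith only [h2]

theorem t2_ibpX {P f g : Pl → ℝ} (hP : Frame P) (hf : ContDiff ℝ 1 f) (hg : ContDiff ℝ 1 g)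
    (cf : HasCompactSupport f) :
    ∫ p, f p * XX P g p * dx P p = -∫ p, XX P f p * g p * dx P p := by
  have h := integral_XX_eq_zero hP (hf.mul hg) (cf.mul_right)
  have e : ∀ p, XX P (fun q => f q * g q) p * dx P p
      = f p * XX P g p * dx P p + XX P f p * g p * dx P p := by
    intro p
    rw [XX_mul (hf.differentiable (by norm_num) p) (hg.differentiable (by norm_num) p)]
    ring
  have cJ : Continuous (dx P) := (hP.contDiff_dx (m := 1) (by norm_num)).continuous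
  have cYg : Continuous (XX P g) := (contDiff_XX hP (m := 0) hg (by norm_num) (by norm_num)).continuous
  have cYf : Continuous (XX P f) := (contDiff_XX hP (m := 0) hf (by norm_num) (by norm_num)).continuous
  have i1 : Integrable (fun p => f p * XX P g p * dx P p) :=
    ((hf.continuous.mul cYg).mul cJ).integrable_of_hasCompactSupport (cf.mul_right.mul_right)
  have i2 : Integrable (fun p => XX P f p * g p * dx P p) :=
    ((cYf.mul hg.continuous).mul cJ).integrable_of_hasCompactSupport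
      ((hasCompactSupport_XX cf).mul_right.mul_right)
  have h2 : ∫ p, (f p * XX P g p * dx P p + XX P f p * g p * dx P p) = 0 := by
    rw [← h]
    exact integral_congr_ae (Filter.Eventually.of_forall fun p => (e p).symm)
  rw [integral_add i1 i2] at h2
  linarith only [h2]

/-! ## Cauchy-Schwarz -/

theorem t2_cs {J u : Pl → ℝ} {S : Set Pl} (hJ : IntegrableOn J S)
    (hu : IntegrableOn (fun p => |u p| * J p) S) (hu2 : IntegrableOn (fun p => u p ^ 2 * J p) S)
    (hJ0 : ∀ p, 0 ≤ J p) :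
    ∫ p in S, |u p| * J p ≤ Real.sqrt (∫ p in S, J p) * Real.sqrt (∫ p in S, u p ^ 2 * J p) := by
  set A := ∫ p in S, J p with hA
  set B := ∫ p in S, u p ^ 2 * J p with hB
  set I := ∫ p in S, |u p| * J p with hI
  have hA0 : 0 ≤ A := integral_nonneg hJ0
  have hB0 : 0 ≤ B := integral_nonneg fun p => mul_nonneg (sq_nonneg _) (hJ0 p)
  have hI0 : 0 ≤ I := integral_nonneg fun p => mul_nonneg (abs_nonneg _) (hJ0 p)
  have key : ∀ x : ℝ, 0 ≤ A * (x * x) + (-(2 * I)) * x + B := by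
    intro x
    have e : A * (x * x) + (-(2 * I)) * x + B = ∫ p in S, (x - |u p|) ^ 2 * J p := by
      have : ∀ p, (x - |u p|) ^ 2 * J p = (x * x) * J p + (-(2 * x)) * (|u p| * J p)
          + u p ^ 2 * J p := by
        intro p
        have := sq_abs (u p)
        linear_combination J p * this
      have i1 : Integrable (fun p => x * x * J p) (volume.restrict S) := hJ.const_mul _
      have i2 : Integrable (fun p => -(2 * x) * (|u p| * J p)) (volume.restrict S) :=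
        hu.const_mul _
      have i12 : Integrable (fun p => x * x * J p + -(2 * x) * (|u p| * J p))
        (volume.restrict S) := i1.add i2
      simp only [this]
      rw [integral_add i12 hu2, integral_add i1 i2, integral_const_mul, integral_const_mul]
      ring
    rw [e]
    exact integral_nonneg fun p => mul_nonneg (sq_nonneg _) (hJ0 p)
  have h := discrim_le_zero key
  rw [discrim] at h
  rw [← Real.sqrt_mul hA0]
  refine Real.le_sqrt_of_sq_le ?_
  linarith only [h]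

/-- bound of an integral with a weight supported in a window -/
theorem t2_bd {q u J : Pl → ℝ} {S : Set Pl} {K : ℝ} (hS : MeasurableSet S)
    (hq0 : ∀ p, p ∉ S → q p = 0) (hq : ∀ p ∈ S, |q p| ≤ K) (hJ0 : ∀ p, 0 ≤ J p)
    (hi : Integrable (fun p => q p * u p * J p))
    (hu : IntegrableOn (fun p => |u p| * J p) S) :
    |∫ p, q p * u p * J p| ≤ K * ∫ p in S, |u p| * J p := by
  have h0 : ∀ p, p ∉ S → q p * u p * J p = 0 := fun p hp => by rw [hq0 p hp]; ring
  rw [← setIntegral_eq_integral_of_forall_compl_eq_zero h0, ← integral_const_mul]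
  have h1 := norm_integral_le_integral_norm (μ := volume.restrict S)
    (f := fun p => q p * u p * J p)
  rw [Real.norm_eq_abs] at h1
  refine h1.trans ?_
  refine setIntegral_mono_on hi.integrableOn.norm (hu.const_mul K) hS fun p hp => ?_
  rw [Real.norm_eq_abs, abs_mul, abs_mul, abs_of_nonneg (hJ0 p), mul_assoc]
  exact mul_le_mul_of_nonneg_right (hq p hp) (mul_nonneg (abs_nonneg _) (hJ0 p))

/-! ## sizes -/

theorem t2_sizes {M cs : ℝ} (hM : 1 ≤ M) (hcs : 0 < cs) (hcs1 : cs ≤ 1 / (1000 * M)) {n : ℕ}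
    (hn : 2 ≤ n) : 0 < ell cs n ∧ ell cs n ≤ 1 / 8000 ∧ 0 < hs cs n ∧
      hs cs n ≤ 1 / 1000000 ∧ varpi cs n ≤ 1 / 1000 ∧ hs cs n = 5 / 2 * varpi cs n * ell cs n ∧
      1 / (n : ℝ) ^ 15 ≤ 1 / 1024 := by
  have hn2 : (2 : ℝ) ≤ n := by exact_mod_cast hn
  have hn8 : (1 : ℝ) ≤ (n : ℝ) ^ 8 := one_le_pow₀ (by linarith only [hn2])
  have hn115 : (1 : ℝ) ≤ (n : ℝ) ^ 115 := one_le_pow₀ (by linarith only [hn2])
  have hn15 : (1024 : ℝ) ≤ (n : ℝ) ^ 15 := by
    calc (1024 : ℝ) ≤ 2 ^ 15 := by norm_num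
      _ ≤ (n : ℝ) ^ 15 := by gcongr
  have hcs2 : cs ≤ 1 / 1000 := hcs1.trans (by
    rw [div_le_div_iff₀ (by positivity) (by norm_num)]; linarith only [hM])
  have hv0 : 0 < varpi cs n := by unfold varpi; positivity
  have hv1 : varpi cs n ≤ 1 / 1000 := by
    unfold varpi
    exact (div_le_self hcs.le hn8).trans hcs2
  have hl0 : 0 < ell cs n := by unfold ell; positivity
  have hl1 : ell cs n ≤ 1 / 8000 := by
    unfold ell
    rw [div_le_div_iff₀ (by positivity) (by norm_num)]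
    linarith only [hn115, hcs2]
  have hh0 : 0 < hs cs n := by unfold hs; positivity
  have hh1 : hs cs n ≤ 1 / 1000000 := by
    unfold hs
    calc 5 / 2 * varpi cs n * ell cs n ≤ 5 / 2 * (1 / 1000) * (1 / 8000) := by (clear * - hv1 hl1 hl0; gcongr)
      _ ≤ 1 / 1000000 := by norm_num
  exact ⟨hl0, hl1, hh0, hh1, hv1, rfl, one_div_le_one_div_of_le (by norm_num) hn15⟩

/-- the window is inside the small disc -/
theorem t2_win_sub {P : Pl → ℝ} (hP : Frame P) {l h tj : ℝ} (hl0 : 0 < l) (hl : l ≤ 1 / 8000)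
    (hh0 : 0 < h) (hh : h ≤ 1 / 1000000) (h0 : 0 ≤ tj) (h1 : tj ≤ 1 / 1000)
    (h2 : |P (0, tj)| ≤ 1 / 1024) {A B : ℝ} (hA : A ≤ 10) (hB : B ≤ 10) {p : Pl}
    (hp : |p.2 - tj| ≤ A * l ∧ |P p - P (0, tj)| ≤ B * h) :
    |p.2| ≤ 1 / 100 ∧ |P p| ≤ 1 / 100 ∧ |p.1| ≤ 1 / 50 := by
  obtain ⟨hp1, hp2⟩ := hp
  have a1 : A * l ≤ 10 * (1 / 8000) := by nlinarith only [hl, hl0, hA]
  have a2 : B * h ≤ 10 * (1 / 1000000) := by nlinarith only [hh, hh0, hB]
  have a3 : |p.2| ≤ 1 / 100 := by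
    rw [abs_le] at hp1 ⊢
    constructor <;> linarith only [h0, hp1, a1, h1]
  have a4 : |P p| ≤ 1 / 100 := by
    rw [abs_le] at hp2 h2 ⊢
    constructor <;> linarith only [h2, hp2, a2]
  refine ⟨a3, a4, ?_⟩
  have a5 := hP.abs_sub_fst_le p
  have a6 : |p.1| ≤ |P p| + |P p - p.1| := by
    have := abs_sub_abs_le_abs_sub p.1 (P p)
    rw [abs_sub_comm] at this
    linarith only [this]
  have := abs_nonneg p.1
  linarith only [a3, a4, a5, a6]

/-- slices of the window -/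
theorem t2_slice {P : Pl → ℝ} (hP : Frame P) (t x y : ℝ) :
    |x - y| ≤ 1000 / 999 * |P (x, t) - P (y, t)| := by
  have dP : Differentiable ℝ P := hP.smooth.differentiable (by norm_num)
  have h1 : |P (x, t) - x - (P (y, t) - y)| ≤ 1 / 1000 * |x - y| := by
    have := Convex.norm_image_sub_le_of_norm_hasDerivWithin_le (s := (Set.univ : Set ℝ))
      (f := fun y => P (y, t) - y) (f' := fun y => dx P (y, t) - 1) (x := y) (y := x)
      (C := 1 / 1000)
      (fun y _ => (((hasDerivAt_fst (p := (y, t)) (dP _)).sub (hasDerivAt_id y))).hasDerivWithinAt)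
      (fun y _ => by simpa only [Real.norm_eq_abs, one_div] using hP.dx_near (y, t)) convex_univ (Set.mem_univ _) (Set.mem_univ _)
    simpa only [one_div, ge_iff_le, Real.norm_eq_abs] using this
  have h2 : |x - y| ≤ |P (x, t) - P (y, t)| + |P (x, t) - x - (P (y, t) - y)| := by
    have e : x - y = (P (x, t) - P (y, t)) - (P (x, t) - x - (P (y, t) - y)) := by ring
    calc |x - y| = |(P (x, t) - P (y, t)) - (P (x, t) - x - (P (y, t) - y))| := by rw [← e]
      _ ≤ _ := abs_sub _ _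
  linarith only [h1, h2]

/-- volume of the window -/
theorem t2_vol {P : Pl → ℝ} (hP : Frame P) {l h tj pj A B : ℝ} (hl : 0 < l) (hh : 0 < h)
    (hA0 : 0 ≤ A) (hA : A ≤ 10) (hB0 : 0 ≤ B) (hB : B ≤ 10) :
    (volume {p : Pl | |p.2 - tj| ≤ A * l ∧ |P p - pj| ≤ B * h}).toReal ≤ 1000 * (l * h) := by
  set S : Set Pl := {p : Pl | |p.2 - tj| ≤ A * l ∧ |P p - pj| ≤ B * h} with hS
  have hSm : MeasurableSet S := (S2.isCompact_strip hP tj pj (A * l) (B * h)).measurableSet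
  set D : ℝ := 2000 / 999 * (B * h) with hD
  have hD0 : 0 ≤ D := by (clear * - hB0 hh; positivity)
  have hslice : ∀ t : ℝ, volume ((fun x : ℝ => (x, t)) ⁻¹' S) ≤
      (Icc (tj - A * l) (tj + A * l)).indicator (fun _ => ENNReal.ofReal (2 * D)) t := by
    intro t
    by_cases ht : t ∈ Icc (tj - A * l) (tj + A * l)
    · rw [indicator_of_mem ht]
      rcases Set.eq_empty_or_nonempty ((fun x : ℝ => (x, t)) ⁻¹' S) with he | ⟨y, hy⟩
      · rw [he]; simp only [measure_empty, Nat.ofNat_nonneg, ENNReal.ofReal_mul, ENNReal.ofReal_ofNat, zero_le]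
      · have hsub : (fun x : ℝ => (x, t)) ⁻¹' S ⊆ Icc (y - D) (y + D) := by
          intro x hx
          have h1 := t2_slice hP t x y
          have h2 : |P (x, t) - P (y, t)| ≤ 2 * (B * h) := by
            have e : P (x, t) - P (y, t) = (P (x, t) - pj) - (P (y, t) - pj) := by ring
            rw [e]
            refine (abs_sub _ _).trans ?_
            have h3 : |P (x, t) - pj| ≤ B * h := hx.2
            have h4 : |P (y, t) - pj| ≤ B * h := hy.2
            linarith only [h3, h4]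
          have h3 : |x - y| ≤ D := by rw [hD]; linarith only [h1, h2]
          rw [abs_le] at h3
          exact ⟨by linarith only [h3], by linarith only [h3]⟩
        refine (measure_mono hsub).trans ?_
        rw [Real.volume_Icc]
        exact ENNReal.ofReal_le_ofReal (by linarith only [])
    · have : (fun x : ℝ => (x, t)) ⁻¹' S = ∅ := by
        refine Set.eq_empty_iff_forall_notMem.2 fun x hx => ht ?_
        have h1 : |t - tj| ≤ A * l := hx.1
        rw [abs_le] at h1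
        exact ⟨by linarith only [h1], by linarith only [h1]⟩
      rw [this]; simp only [measure_empty, Nat.ofNat_nonneg, ENNReal.ofReal_mul, ENNReal.ofReal_ofNat, zero_le]
  have hvol : volume S ≤ ENNReal.ofReal (2 * D) * ENNReal.ofReal (2 * (A * l)) := by
    rw [Measure.volume_eq_prod, Measure.prod_apply_symm hSm]
    refine (lintegral_mono hslice).trans ?_
    rw [lintegral_indicator measurableSet_Icc, setLIntegral_const, Real.volume_Icc]
    refine le_of_eq ?_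
    congr 2
    ring
  rw [← ENNReal.ofReal_mul (by (clear * - hB0 hh; positivity))] at hvol
  have h1 := ENNReal.toReal_mono ENNReal.ofReal_ne_top hvol
  rw [ENNReal.toReal_ofReal (by (clear * - hB0 hh hA0 hl; positivity))] at h1
  refine h1.trans ?_
  rw [hD]
  have hlh : 0 < l * h := by positivity
  have hAB : A * B ≤ 100 := by nlinarith only [hA, hA0, hB]
  calc 2 * (2000 / 999 * (B * h)) * (2 * (A * l)) = 8000 / 999 * (A * B) * (l * h) := by ring
    _ ≤ 8000 / 999 * 100 * (l * h) := by (clear * - hAB hl hh; gcongr)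
    _ ≤ 1000 * (l * h) := by linarith only [hlh]

/-- size of the test function and of the window. -/
theorem test_size : ∃ C : ℝ, 0 < C ∧ ∀ M : ℝ, 1 ≤ M → ∀ cs : ℝ, 0 < cs →
    cs ≤ 1 / (1000 * M) → ∃ n0 : ℕ, ∀ n : ℕ, n0 ≤ n → ∀ (P : Pl → ℝ) (tj : ℝ), Frame P →
    0 ≤ tj → tj ≤ cs / (n : ℝ) ^ 8 → |P (0, tj)| ≤ 1 / (n : ℝ) ^ 15 →
    (∀ p, |XX P (Gt P cs n tj) p| ≤ C) ∧
    (∀ p, p ∉ Win P cs n tj (3 / 2) 3 → XX P (Gt P cs n tj) p = 0) ∧
    (∀ A B : ℝ, 0 ≤ A → A ≤ 10 → 0 ≤ B → B ≤ 10 → MeasurableSet (Win P cs n tj A B) ∧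
      Win P cs n tj A B ⊆ {p | rho2 p < 0.01} ∧
      (volume (Win P cs n tj A B)).toReal ≤ 1000 * (ell cs n * hs cs n)) := by
  obtain ⟨B, hB1, hB⟩ := t2_bdd
  refine ⟨B ^ 2, by positivity, fun M hM cs hcs hcs1 => ⟨2, fun n hn P tj hP ht0 ht1 hPj => ?_⟩⟩
  obtain ⟨hl0, hl1, hh0, hh1, hv1, -, h15⟩ := t2_sizes hM hcs hcs1 hn
  refine ⟨fun p => ?_, fun p hp => ?_, fun A B hA0 hA hB0 hB => ⟨?_, ?_, ?_⟩⟩
  · rw [t2_XXG hP hh0]
    exact t2_abs_le (by linarith only [hB1]) (fun y => (hB y).1) (fun y => (hB y).2.2.2.2.1) p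
  · rw [t2_XXG hP hh0]
    exact t2_zero hl0 hh0 le_rfl le_rfl t2_om_zero (t2_deriv_zero t2_Th_zero) hp
  · exact (S2.isCompact_strip hP tj (P (0, tj)) (A * ell cs n) (B * hs cs n)).measurableSet
  · intro p hp
    obtain ⟨h1, h2, h3⟩ := t2_win_sub hP hl0 hl1 hh0 hh1 ht0 (ht1.trans hv1) (hPj.trans h15)
      hA hB hp
    change p.1 ^ 2 + p.2 ^ 2 < 0.01
    rw [abs_le] at h1 h3
    nlinarith only [h1, h3]
  · exact t2_vol hP hl0 hh0 hA0 hA hB0 hB

/-- Cauchy-Schwarz on a part of the window -/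
theorem t2_cs_win {P u : Pl → ℝ} (hP : Frame P) (hu : Continuous u) {W S : Set Pl}
    (hW : IsCompact W) (hSW : S ⊆ W) {V : ℝ} (hV0 : 0 ≤ V) (hV : (volume W).toReal ≤ 1000 * V) :
    ∫ p in S, |u p| * dx P p ≤ 50 * Real.sqrt V * Real.sqrt (∫ p in S, u p ^ 2 * dx P p) := by
  have cJ : Continuous (dx P) := (hP.contDiff_dx (m := 1) (by norm_num)).continuous
  have hJ0 : ∀ p, 0 ≤ dx P p := fun p => (hP.dx_pos p).le
  have hfin : volume W ≠ ⊤ := hW.measure_lt_top.ne
  have hSfin : volume S ≠ ⊤ := ((measure_mono hSW).trans_lt hW.measure_lt_top).ne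
  have i1 : IntegrableOn (dx P) S := (cJ.continuousOn.integrableOn_compact hW).mono_set hSW
  have i2 : IntegrableOn (fun p => |u p| * dx P p) S :=
    ((hu.abs.mul cJ).continuousOn.integrableOn_compact hW).mono_set hSW
  have i3 : IntegrableOn (fun p => u p ^ 2 * dx P p) S :=
    (((hu.pow 2).mul cJ).continuousOn.integrableOn_compact hW).mono_set hSW
  have h1 := t2_cs i1 i2 i3 hJ0
  have h2 : ∫ p in S, dx P p ≤ 2000 * V := by
    have h3 : ∫ p in S, dx P p ≤ ∫ p in S, (2 : ℝ) :=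
      integral_mono i1 (integrableOn_const hSfin) fun p => (hP.dx_le p).trans (by norm_num)
    rw [setIntegral_const, smul_eq_mul, Measure.real] at h3
    have h4 : (volume S).toReal ≤ (volume W).toReal := ENNReal.toReal_mono hfin (measure_mono hSW)
    linarith only [hV, h3, h4]
  have h3 : Real.sqrt (∫ p in S, dx P p) ≤ 50 * Real.sqrt V := by
    rw [show (50 : ℝ) = Real.sqrt (50 ^ 2) from (Real.sqrt_sq (by norm_num)).symm,
      ← Real.sqrt_mul (by positivity)]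
    exact Real.sqrt_le_sqrt (by linarith only [hV0, h2])
  exact h1.trans (mul_le_mul_of_nonneg_right h3 (Real.sqrt_nonneg _))

/-- the identity behind the test: integration by parts -/
theorem t2_identity {P w a α e1 e2 F G : Pl → ℝ} {δ : ℝ} (h : PairEq P w a α e1 e2 F δ)
    (hG : ContDiff ℝ 3 G) (cG : HasCompactSupport G)
    (hs0 : ∀ p, ¬ rho2 p < 0.64 → XX P G p = 0) :
    ∫ p, XX P G p * F p * dx P p
      = -(∫ p, YY P (YY P G) p * XX P w p * dx P p)
        - (∫ p, (XX P (XX P G) p * a p) * XX P w p * dx P p)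
        - (∫ p, YY P (fun q => α q * XX P G q) p * XX P w p * dx P p)
        + (∫ p, (e1 p * XX P G p) * YY P w p * dx P p)
        + (∫ p, (e2 p * XX P G p) * XX P w p * dx P p) := by
  have hP := h.frame
  have hw := h.v_smooth
  have hXG : ContDiff ℝ 2 (XX P G) := contDiff_XX hP hG (by norm_num) le_rfl
  have hYG : ContDiff ℝ 2 (YY P G) := contDiff_YY hP hG (by norm_num) le_rfl
  have hXG1 : ContDiff ℝ 1 (XX P G) := hXG.of_le (by norm_num)
  have hYG1 : ContDiff ℝ 1 (YY P G) := hYG.of_le (by norm_num)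
  have cXG : HasCompactSupport (XX P G) := hasCompactSupport_XX cG
  have cYG : HasCompactSupport (YY P G) := hasCompactSupport_YY cG
  have hXw : ContDiff ℝ 1 (XX P w) := contDiff_XX hP hw (by norm_num) (by norm_num)
  have hYw : ContDiff ℝ 1 (YY P w) := contDiff_YY hP hw (by norm_num) (by norm_num)
  have haXw : ContDiff ℝ 1 (fun q => a q * XX P w q) := h.a_smooth.mul hXw
  have haG : ContDiff ℝ 1 (fun q => α q * XX P G q) := h.α_smooth.mul hXG1
  have caG : HasCompactSupport (fun q => α q * XX P G q) := cXG.mul_left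
  have cJ : Continuous (dx P) := (hP.contDiff_dx (m := 1) (by norm_num)).continuous
  have c1 : Continuous (YY P (YY P w)) :=
    (contDiff_YY (m := 0) hP hYw (by norm_num) (by norm_num)).continuous
  have c2 : Continuous (XX P (fun q => a q * XX P w q)) :=
    (contDiff_XX (m := 0) hP haXw (by norm_num) (by norm_num)).continuous
  have c3 : Continuous (YY P (XX P w)) :=
    (contDiff_YY (m := 0) hP hXw (by norm_num) (by norm_num)).continuous
  -- the five terms
  have T1 : ∫ p, XX P G p * YY P (YY P w) p * dx P p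
      = -∫ p, YY P (YY P G) p * XX P w p * dx P p := by
    have k1 := t2_ibpY hP hXG1 hYw cXG
    have k2 : ∫ p, YY P (XX P G) p * YY P w p * dx P p
        = ∫ p, XX P (YY P G) p * YY P w p * dx P p :=
      integral_congr_ae (Filter.Eventually.of_forall fun p => by
        change YY P (XX P G) p * YY P w p * dx P p = XX P (YY P G) p * YY P w p * dx P p
        rw [XX_YY_comm hP (hG.of_le (by norm_num)) p])
    have k3 := t2_ibpX hP hYG1 hYw cYG
    have k4 : ∫ p, YY P G p * XX P (YY P w) p * dx P p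
        = ∫ p, YY P G p * YY P (XX P w) p * dx P p :=
      integral_congr_ae (Filter.Eventually.of_forall fun p => by
        change YY P G p * XX P (YY P w) p * dx P p = YY P G p * YY P (XX P w) p * dx P p
        rw [XX_YY_comm hP hw p])
    have k5 := t2_ibpY hP hYG1 hXw cYG
    linarith
  have T2 : ∫ p, XX P G p * XX P (fun q => a q * XX P w q) p * dx P p
      = -∫ p, (XX P (XX P G) p * a p) * XX P w p * dx P p := by
    rw [t2_ibpX hP hXG1 haXw cXG]
    congr 1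
    exact integral_congr_ae (Filter.Eventually.of_forall fun p => by
      change XX P (XX P G) p * (a p * XX P w p) * dx P p
        = (XX P (XX P G) p * a p) * XX P w p * dx P p
      ring)
  have T3 := t2_ibpY hP haG hXw caG
  -- integrability
  have i1 : Integrable (fun p => XX P G p * YY P (YY P w) p * dx P p) :=
    ((hXG.continuous.mul c1).mul cJ).integrable_of_hasCompactSupport (cXG.mul_right.mul_right)
  have i2 : Integrable (fun p => XX P G p * XX P (fun q => a q * XX P w q) p * dx P p) :=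
    ((hXG.continuous.mul c2).mul cJ).integrable_of_hasCompactSupport (cXG.mul_right.mul_right)
  have i3 : Integrable (fun p => (α p * XX P G p) * YY P (XX P w) p * dx P p) :=
    ((haG.continuous.mul c3).mul cJ).integrable_of_hasCompactSupport (caG.mul_right.mul_right)
  have i4 : Integrable (fun p => (e1 p * XX P G p) * YY P w p * dx P p) :=
    (((h.e1_cont.mul hXG.continuous).mul hYw.continuous).mul cJ).integrable_of_hasCompactSupport
      (cXG.mul_left.mul_right.mul_right)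
  have i5 : Integrable (fun p => (e2 p * XX P G p) * XX P w p * dx P p) :=
    (((h.e2_cont.mul hXG.continuous).mul hXw.continuous).mul cJ).integrable_of_hasCompactSupport
      (cXG.mul_left.mul_right.mul_right)
  have e : ∀ p, XX P G p * F p * dx P p
      = XX P G p * YY P (YY P w) p * dx P p
        + XX P G p * XX P (fun q => a q * XX P w q) p * dx P p
        + (α p * XX P G p) * YY P (XX P w) p * dx P p
        + (e1 p * XX P G p) * YY P w p * dx P p
        + (e2 p * XX P G p) * XX P w p * dx P p := by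
    intro p
    by_cases hp : rho2 p < 0.64
    · rw [← h.eq p hp, XX_YY_comm hP hw p]
      ring
    · rw [hs0 p hp]; ring
  have i12 := i1.add i2
  have i123 := i12.add i3
  have i1234 := i123.add i4
  calc ∫ p, XX P G p * F p * dx P p
      = ∫ p, (XX P G p * YY P (YY P w) p * dx P p
        + XX P G p * XX P (fun q => a q * XX P w q) p * dx P p
        + (α p * XX P G p) * YY P (XX P w) p * dx P p
        + (e1 p * XX P G p) * YY P w p * dx P p
        + (e2 p * XX P G p) * XX P w p * dx P p) :=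
        integral_congr_ae (Filter.Eventually.of_forall e)
    _ = (∫ p, XX P G p * YY P (YY P w) p * dx P p)
        + (∫ p, XX P G p * XX P (fun q => a q * XX P w q) p * dx P p)
        + (∫ p, (α p * XX P G p) * YY P (XX P w) p * dx P p)
        + (∫ p, (e1 p * XX P G p) * YY P w p * dx P p)
        + (∫ p, (e2 p * XX P G p) * XX P w p * dx P p) := by
        refine (integral_add i1234 i5).trans ?_
        congr 1
        refine (integral_add i123 i4).trans ?_
        congr 1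
        refine (integral_add i12 i3).trans ?_
        congr 1
        exact integral_add i1 i2
    _ = _ := by
        rw [T1, T2, T3]
        ring

/-! ## the bounds of the five terms -/

/-- bundled hypotheses for the five bounds -/
structure T2D (P w a α e1 e2 F : Pl → ℝ) (δ tj l h B : ℝ) : Prop where
  pe : PairEq P w a α e1 e2 F δ
  l0 : 0 < l
  l1 : l ≤ 1 / 8000
  h0 : 0 < h
  h1 : h ≤ 1 / 1000000
  t0 : 0 ≤ tj
  t1 : tj ≤ 1 / 1000
  pj : |P (0, tj)| ≤ 1 / 1024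
  dh : δ ≤ h / l
  B1 : 1 ≤ B
  bd : ∀ y, |om y| ≤ B ∧ |deriv om y| ≤ B ∧
    |deriv (deriv om) y| ≤ B ∧ |Th y| ≤ B ∧ |deriv Th y| ≤ B ∧ |deriv (deriv Th) y| ≤ B

/-- the window with half-width `b h` -/
def t2W (P : Pl → ℝ) (l h tj b : ℝ) : Set Pl :=
  {p | |p.2 - tj| ≤ 3 / 2 * l ∧ |P p - P (0, tj)| ≤ b * h}

/-- the test function -/
noncomputable def t2G (P : Pl → ℝ) (l h tj : ℝ) (p : Pl) : ℝ :=
  h * t2F P l h tj (P (0, tj)) om Th p

section terms

variable {P w a α e1 e2 F : Pl → ℝ} {δ tj l h B : ℝ}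

theorem t2G_smooth (hP : Frame P) : ContDiff ℝ 3 (t2G P l h tj) :=
  contDiff_const.mul (t2_smooth hP t2_om_smooth t2_Th_smooth)

theorem t2W_compact (hP : Frame P) (b : ℝ) : IsCompact (t2W P l h tj b) :=
  S2.isCompact_strip hP tj (P (0, tj)) (3 / 2 * l) (b * h)

theorem t2G_XX (hP : Frame P) (hh : 0 < h) :
    XX P (t2G P l h tj) = t2F P l h tj (P (0, tj)) om (deriv Th) := by
  funext p
  unfold t2G
  rw [XX_const_mul _ ((t2_smooth hP t2_om_smooth t2_Th_smooth).differentiable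
    (by norm_num) p), t2_XX hP t2_om_smooth t2_Th_smooth]
  field_simp

theorem t2G_YY (hP : Frame P) :
    YY P (t2G P l h tj) = fun p => h / l * t2F P l h tj (P (0, tj)) (deriv om) Th p := by
  funext p
  unfold t2G
  rw [YY_const_mul _ ((t2_smooth hP t2_om_smooth t2_Th_smooth).differentiable
    (by norm_num) p), t2_YY hP t2_om_smooth t2_Th_smooth]
  ring

theorem t2G_YYYY (hP : Frame P) (p : Pl) : YY P (YY P (t2G P l h tj)) p = h / l ^ 2 *
      t2F P l h tj (P (0, tj)) (deriv (deriv om)) Th p := by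
  rw [t2G_YY hP, YY_const_mul _ ((t2_smooth hP (t2_smooth_deriv t2_om_smooth)
    t2_Th_smooth).differentiable (by norm_num) p),
    t2_YY hP (t2_smooth_deriv t2_om_smooth) t2_Th_smooth]
  (clear * -; field_simp)

theorem t2G_XXXX (hP : Frame P) (hh : 0 < h) (p : Pl) :
    XX P (XX P (t2G P l h tj)) p = 1 / h *
      t2F P l h tj (P (0, tj)) om (deriv (deriv Th)) p := by
  rw [t2G_XX hP hh, t2_XX hP t2_om_smooth (t2_smooth_deriv t2_Th_smooth)]

theorem t2G_YYXX (hP : Frame P) (hh : 0 < h) (p : Pl) :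
    YY P (XX P (t2G P l h tj)) p = 1 / l *
      t2F P l h tj (P (0, tj)) (deriv om) (deriv Th) p := by
  rw [t2G_XX hP hh, t2_YY hP t2_om_smooth (t2_smooth_deriv t2_Th_smooth)]

theorem T2D.sub (H : T2D P w a α e1 e2 F δ tj l h B) {p : Pl} (hp : p ∈ t2W P l h tj 3) :
    |p.2| ≤ 1 / 100 ∧ |P p| ≤ 1 / 100 ∧ |p.1| ≤ 1 / 50 :=
  t2_win_sub H.pe.frame H.l0 H.l1 H.h0 H.h1 H.t0 H.t1 H.pj (by norm_num) (by norm_num) hp

theorem T2D.rho (H : T2D P w a α e1 e2 F δ tj l h B) {p : Pl} (hp : p ∈ t2W P l h tj 3) :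
    rho2 p < 0.64 := by
  obtain ⟨h1, h2, h3⟩ := H.sub hp
  change p.1 ^ 2 + p.2 ^ 2 < 0.64
  rw [abs_le] at h1 h3
  nlinarith only [h1, h3]

theorem T2D.B0 (H : T2D P w a α e1 e2 F δ tj l h B) : 0 ≤ B := by linarith only [H.B1]

theorem T2D.XG0 (H : T2D P w a α e1 e2 F δ tj l h B) {p : Pl} (hp : p ∉ t2W P l h tj 3) :
    XX P (t2G P l h tj) p = 0 := by
  rw [t2G_XX H.pe.frame H.h0]
  exact t2_zero H.l0 H.h0 le_rfl le_rfl t2_om_zero (t2_deriv_zero t2_Th_zero) hp

theorem T2D.XG1 (H : T2D P w a α e1 e2 F δ tj l h B) (p : Pl) :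
    |XX P (t2G P l h tj) p| ≤ B ^ 2 := by
  rw [t2G_XX H.pe.frame H.h0]
  exact t2_abs_le H.B0 (fun y => (H.bd y).1) (fun y => (H.bd y).2.2.2.2.1) p

theorem T2D.cG (H : T2D P w a α e1 e2 F δ tj l h B) : HasCompactSupport (t2G P l h tj) := by
  refine HasCompactSupport.intro (t2W_compact (l := l) (h := h) (tj := tj) H.pe.frame 3)
    fun p hp => ?_
  unfold t2G
  rw [t2_zero H.l0 H.h0 le_rfl le_rfl t2_om_zero t2_Th_zero hp, mul_zero]

theorem T2D.dl (H : T2D P w a α e1 e2 F δ tj l h B) : δ ≤ δ / l ∧ δ / l ≤ h / l ^ 2 := by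
  have hδ := H.pe.δ_pos
  have hl0 := H.l0
  have hδh := H.dh
  constructor
  · rw [le_div_iff₀ hl0]
    nlinarith only [hδ, H.l1]
  · rw [div_le_div_iff₀ hl0 (by positivity)]
    rw [le_div_iff₀ hl0] at hδh
    nlinarith only [hl0, hδh]

theorem T2D.cJ (H : T2D P w a α e1 e2 F δ tj l h B) : Continuous (dx P) :=
  (H.pe.frame.contDiff_dx (m := 1) (by norm_num)).continuous

theorem T2D.J0 (H : T2D P w a α e1 e2 F δ tj l h B) (p : Pl) : 0 ≤ dx P p :=
  (H.pe.frame.dx_pos p).le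

theorem T2D.sXw (H : T2D P w a α e1 e2 F δ tj l h B) : Continuous (XX P w) :=
  (contDiff_XX (m := 1) H.pe.frame H.pe.v_smooth (by norm_num) (by norm_num)).continuous

theorem T2D.sYw (H : T2D P w a α e1 e2 F δ tj l h B) : Continuous (YY P w) :=
  (contDiff_YY (m := 1) H.pe.frame H.pe.v_smooth (by norm_num) (by norm_num)).continuous

theorem T2D.iX (H : T2D P w a α e1 e2 F δ tj l h B) :
    IntegrableOn (fun p => |XX P w p| * dx P p) (t2W P l h tj 3) :=
  (H.sXw.abs.mul H.cJ).continuousOn.integrableOn_compact (t2W_compact H.pe.frame 3)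

theorem T2D.iY (H : T2D P w a α e1 e2 F δ tj l h B) :
    IntegrableOn (fun p => |YY P w p| * dx P p) (t2W P l h tj 3) :=
  (H.sYw.abs.mul H.cJ).continuousOn.integrableOn_compact (t2W_compact H.pe.frame 3)

theorem T2D.sXG (H : T2D P w a α e1 e2 F δ tj l h B) : ContDiff ℝ 2 (XX P (t2G P l h tj)) :=
  contDiff_XX H.pe.frame (t2G_smooth H.pe.frame) (by norm_num) le_rfl

theorem T2D.sYG (H : T2D P w a α e1 e2 F δ tj l h B) : ContDiff ℝ 2 (YY P (t2G P l h tj)) :=
  contDiff_YY H.pe.frame (t2G_smooth H.pe.frame) (by norm_num) le_rfl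

theorem T2D.b1 (H : T2D P w a α e1 e2 F δ tj l h B) :
    |∫ p, YY P (YY P (t2G P l h tj)) p * XX P w p * dx P p|
      ≤ (B ^ 2 * (h / l ^ 2)) * ∫ p in t2W P l h tj 3, |XX P w p| * dx P p := by
  have hP := H.pe.frame
  have hl0 := H.l0
  have hh0 := H.h0
  refine t2_bd (t2W_compact hP 3).measurableSet (fun p hp => ?_) (fun p _ => ?_) H.J0 ?_ H.iX
  · rw [t2G_YYYY hP, t2_zero hl0 hh0 le_rfl le_rfl (t2_deriv_zero (t2_deriv_zero t2_om_zero))
      t2_Th_zero hp, mul_zero]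
  · rw [t2G_YYYY hP, abs_mul, abs_of_pos (by positivity), mul_comm]
    exact mul_le_mul_of_nonneg_right
      (t2_abs_le H.B0 (fun y => (H.bd y).2.2.1) (fun y => (H.bd y).2.2.2.1) p) (by positivity)
  · have c : Continuous (YY P (YY P (t2G P l h tj))) :=
      (contDiff_YY (m := 0) hP H.sYG (by norm_num) (by norm_num)).continuous
    exact ((c.mul H.sXw).mul H.cJ).integrable_of_hasCompactSupport
      ((hasCompactSupport_YY (hasCompactSupport_YY H.cG)).mul_right.mul_right)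

theorem T2D.a_le (H : T2D P w a α e1 e2 F δ tj l h B) {p : Pl} (hp : p ∈ t2W P l h tj 3) :
    |a p| ≤ δ := by
  have hδ := H.pe.δ_pos
  have h5 := H.pe.a_bd p (H.rho hp)
  obtain ⟨h6, h7, -⟩ := H.sub hp
  have h8 : P p ^ 2 ≤ 1 / 10000 := by
    rw [← sq_abs]; nlinarith only [h7, abs_nonneg (P p)]
  have h9 : p.2 ^ 2 ≤ 1 / 10000 := by
    rw [← sq_abs]; nlinarith only [h6, abs_nonneg p.2]
  have h10 := sq_nonneg (P p)
  have h11 := sq_nonneg p.2
  rw [abs_le] at h5 ⊢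
  constructor <;> nlinarith only [hδ, h5, h8, h9]

theorem T2D.b2 (H : T2D P w a α e1 e2 F δ tj l h B) :
    |∫ p, (XX P (XX P (t2G P l h tj)) p * a p) * XX P w p * dx P p|
      ≤ (B ^ 2 * (δ / h)) * ∫ p in t2W P l h tj 3 \ t2W P l h tj 2, |XX P w p| * dx P p := by
  have hP := H.pe.frame
  have hl0 := H.l0
  have hh0 := H.h0
  refine t2_bd ((t2W_compact hP 3).measurableSet.diff (t2W_compact hP 2).measurableSet)
    (fun p hp => ?_) (fun p hp => ?_) H.J0 ?_ (H.iX.mono_set Set.sdiff_subset)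
  · rw [t2G_XXXX hP hh0]
    by_cases hpW : p ∈ t2W P l h tj 3
    · have hp2 : p ∈ t2W P l h tj 2 := by
        by_contra hcon
        exact hp ⟨hpW, hcon⟩
      have h3 : |P p - P (0, tj)| ≤ 2 * h := hp2.2
      have h4 : deriv (deriv Th) ((P p - P (0, tj)) / h) = 0 := by
        refine t2_Th''_zero ?_
        rw [abs_div, abs_of_pos hh0, div_le_iff₀ hh0]
        exact h3
      unfold t2F
      rw [h4]; ring
    · rw [t2_zero hl0 hh0 le_rfl le_rfl t2_om_zero (t2_deriv_zero (t2_deriv_zero t2_Th_zero))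
        hpW]
      ring
  · rw [t2G_XXXX hP hh0, abs_mul, abs_mul, abs_of_pos (by positivity : 0 < 1 / h)]
    have h3 := t2_abs_le (P := P) (l := l) (h := h) (tj := tj) (pj := P (0, tj)) H.B0
      (fun y => (H.bd y).1) (fun y => (H.bd y).2.2.2.2.2) p
    have h4 := H.a_le hp.1
    calc 1 / h * |t2F P l h tj (P (0, tj)) om (deriv (deriv Th)) p| * |a p|
        ≤ 1 / h * B ^ 2 * δ := by (clear * - h3 hh0 h4; gcongr)
      _ = B ^ 2 * (δ / h) := by ring
  · have c : Continuous (XX P (XX P (t2G P l h tj))) :=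
      (contDiff_XX (m := 0) hP H.sXG (by norm_num) (by norm_num)).continuous
    exact (((c.mul H.pe.a_smooth.continuous).mul H.sXw).mul
      H.cJ).integrable_of_hasCompactSupport
      ((hasCompactSupport_XX (hasCompactSupport_XX H.cG)).mul_right.mul_right.mul_right)

theorem T2D.b3 (H : T2D P w a α e1 e2 F δ tj l h B) :
    |∫ p, YY P (fun q => α q * XX P (t2G P l h tj) q) p * XX P w p * dx P p|
      ≤ (B ^ 2 * (h / l ^ 2)) * ∫ p in t2W P l h tj 3, |XX P w p| * dx P p := by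
  have hP := H.pe.frame
  have hl0 := H.l0
  have hh0 := H.h0
  have hδ := H.pe.δ_pos
  have e : ∀ p, YY P (fun q => α q * XX P (t2G P l h tj) q) p
      = YY P α p * XX P (t2G P l h tj) p + α p * YY P (XX P (t2G P l h tj)) p := fun p =>
    YY_mul (H.pe.α_smooth.differentiable (by norm_num) p) (H.sXG.differentiable (by norm_num) p)
  refine t2_bd (t2W_compact hP 3).measurableSet (fun p hp => ?_) (fun p hp => ?_) H.J0 ?_ H.iX
  · rw [e, H.XG0 hp, t2G_YYXX hP hh0, t2_zero hl0 hh0 le_rfl le_rfl (t2_deriv_zero t2_om_zero)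
      (t2_deriv_zero t2_Th_zero) hp]
    ring
  · rw [e]
    refine (abs_add_le _ _).trans ?_
    rw [abs_mul, abs_mul, t2G_YYXX hP hh0, abs_mul, abs_of_pos (by positivity : 0 < 1 / l)]
    have h3 := t2_abs_le (P := P) (l := l) (h := h) (tj := tj) (pj := P (0, tj)) H.B0
      (fun y => (H.bd y).2.1) (fun y => (H.bd y).2.2.2.2.1) p
    have h4 := H.pe.αY_bd p (H.rho hp)
    have h5 := H.pe.α_bd p (H.rho hp)
    have h6 := H.XG1 p
    obtain ⟨h7, h8⟩ := H.dl
    calc |YY P α p| * |XX P (t2G P l h tj) p| + |α p| * (1 / l *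
          |t2F P l h tj (P (0, tj)) (deriv om) (deriv Th) p|)
        ≤ δ / 1000 * B ^ 2 + δ / 1000 * (1 / l * B ^ 2) := by (clear * - h4 h6 hδ h5 h3 hl0; gcongr)
      _ = B ^ 2 * (δ / 1000 + δ / l / 1000) := by ring
      _ ≤ B ^ 2 * (h / l ^ 2) := by
          refine mul_le_mul_of_nonneg_left ?_ (by positivity)
          have : 0 ≤ δ / l := by positivity
          linarith only [hδ, h7, h8]
  · have saG : ContDiff ℝ 1 (fun q => α q * XX P (t2G P l h tj) q) :=
      H.pe.α_smooth.mul (H.sXG.of_le (by norm_num))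
    have c : Continuous (YY P (fun q => α q * XX P (t2G P l h tj) q)) :=
      (contDiff_YY (m := 0) hP saG (by norm_num) (by norm_num)).continuous
    have caG : HasCompactSupport (fun q => α q * XX P (t2G P l h tj) q) :=
      (hasCompactSupport_XX H.cG).mul_left
    exact ((c.mul H.sXw).mul H.cJ).integrable_of_hasCompactSupport
      ((hasCompactSupport_YY caG).mul_right.mul_right)

theorem T2D.b4 (H : T2D P w a α e1 e2 F δ tj l h B) :
    |∫ p, (e1 p * XX P (t2G P l h tj) p) * YY P w p * dx P p|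
      ≤ (B ^ 2 * δ) * ∫ p in t2W P l h tj 3, |YY P w p| * dx P p := by
  have hP := H.pe.frame
  have hδ := H.pe.δ_pos
  refine t2_bd (t2W_compact hP 3).measurableSet (fun p hp => ?_) (fun p hp => ?_) H.J0 ?_ H.iY
  · rw [H.XG0 hp, mul_zero]
  · rw [abs_mul]
    have h4 := H.pe.e1_bd p (H.rho hp)
    have h6 := H.XG1 p
    calc |e1 p| * |XX P (t2G P l h tj) p| ≤ δ / 1000 * B ^ 2 := by (clear * - h4 h6 hδ; gcongr)
      _ ≤ B ^ 2 * δ := by linarith only [mul_nonneg (sq_nonneg B) hδ.le]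
  · exact (((H.pe.e1_cont.mul H.sXG.continuous).mul H.sYw).mul
      H.cJ).integrable_of_hasCompactSupport
      ((hasCompactSupport_XX H.cG).mul_left.mul_right.mul_right)

theorem T2D.b5 (H : T2D P w a α e1 e2 F δ tj l h B) :
    |∫ p, (e2 p * XX P (t2G P l h tj) p) * XX P w p * dx P p|
      ≤ (B ^ 2 * (h / l ^ 2)) * ∫ p in t2W P l h tj 3, |XX P w p| * dx P p := by
  have hP := H.pe.frame
  have hδ := H.pe.δ_pos
  refine t2_bd (t2W_compact hP 3).measurableSet (fun p hp => ?_) (fun p hp => ?_) H.J0 ?_ H.iX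
  · rw [H.XG0 hp, mul_zero]
  · rw [abs_mul]
    have h4 := H.pe.e2_bd p (H.rho hp)
    have h6 := H.XG1 p
    obtain ⟨h7, h8⟩ := H.dl
    calc |e2 p| * |XX P (t2G P l h tj) p| ≤ δ / 1000 * B ^ 2 := by (clear * - h4 h6 hδ; gcongr)
      _ ≤ B ^ 2 * (h / l ^ 2) := by
          rw [mul_comm]
          refine mul_le_mul_of_nonneg_left ?_ (by positivity)
          linarith only [hδ, h7, h8]
  · exact (((H.pe.e2_cont.mul H.sXG.continuous).mul H.sXw).mul
      H.cJ).integrable_of_hasCompactSupport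
      ((hasCompactSupport_XX H.cG).mul_left.mul_right.mul_right)

/-- the test inequality in terms of `l, h` -/
theorem T2D.main (H : T2D P w a α e1 e2 F δ tj l h B) :
    |∫ p, XX P (t2G P l h tj) p * F p * dx P p|
    ≤ 150 * B ^ 2 * (h / l ^ 2) * Real.sqrt (h * l)
        * Real.sqrt (∫ p in t2W P l h tj 3, (XX P w p) ^ 2 * dx P p)
      + 150 * B ^ 2 * (δ / h) * Real.sqrt (h * l)
        * Real.sqrt (∫ p in t2W P l h tj 3 \ t2W P l h tj 2, (XX P w p) ^ 2 * dx P p)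
      + 150 * B ^ 2 * δ * Real.sqrt (h * l)
        * Real.sqrt (∫ p in t2W P l h tj 3, (YY P w p) ^ 2 * dx P p) := by
  have hP := H.pe.frame
  have hl0 := H.l0
  have hh0 := H.h0
  have hδ := H.pe.δ_pos
  have ident := t2_identity H.pe (t2G_smooth hP) H.cG fun p hp =>
    H.XG0 fun hcon => hp (H.rho hcon)
  have hWc := t2W_compact (l := l) (h := h) (tj := tj) hP 3
  have hlh : 0 ≤ h * l := by positivity
  have hvol : (volume (t2W P l h tj 3)).toReal ≤ 1000 * (h * l) := by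
    rw [mul_comm h l]
    exact t2_vol hP hl0 hh0 (by norm_num) (by norm_num) (by norm_num) (by norm_num)
  have csX := t2_cs_win hP H.sXw hWc (le_refl _) hlh hvol
  have csX0 := t2_cs_win hP H.sXw hWc (S := t2W P l h tj 3 \ t2W P l h tj 2)
    Set.sdiff_subset hlh hvol
  have csY := t2_cs_win hP H.sYw hWc (le_refl _) hlh hvol
  have b1 := H.b1
  have b2 := H.b2
  have b3 := H.b3
  have b4 := H.b4
  have b5 := H.b5
  rw [ident]
  generalize (∫ p, YY P (YY P (t2G P l h tj)) p * XX P w p * dx P p) = I1 at b1 ⊢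
  generalize (∫ p, (XX P (XX P (t2G P l h tj)) p * a p) * XX P w p * dx P p) = I2 at b2 ⊢
  generalize (∫ p, YY P (fun q => α q * XX P (t2G P l h tj) q) p * XX P w p * dx P p) = I3
    at b3 ⊢
  generalize (∫ p, (e1 p * XX P (t2G P l h tj) p) * YY P w p * dx P p) = I4 at b4 ⊢
  generalize (∫ p, (e2 p * XX P (t2G P l h tj) p) * XX P w p * dx P p) = I5 at b5 ⊢
  generalize (∫ p in t2W P l h tj 3, |XX P w p| * dx P p) = KX at b1 b3 b5 csX
  generalize (∫ p in t2W P l h tj 3 \ t2W P l h tj 2, |XX P w p| * dx P p) = KX0 at b2 csX0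
  generalize (∫ p in t2W P l h tj 3, |YY P w p| * dx P p) = KY at b4 csY
  generalize Real.sqrt (∫ p in t2W P l h tj 3, XX P w p ^ 2 * dx P p) = RX at csX ⊢
  generalize Real.sqrt (∫ p in t2W P l h tj 3 \ t2W P l h tj 2, XX P w p ^ 2 * dx P p) = RX0
    at csX0 ⊢
  generalize Real.sqrt (∫ p in t2W P l h tj 3, YY P w p ^ 2 * dx P p) = RY at csY ⊢
  generalize Real.sqrt (h * l) = S at csX csX0 csY ⊢
  have hA1 : 0 ≤ B ^ 2 * (h / l ^ 2) := by (clear * - hh0 hl0; positivity)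
  have hA2 : 0 ≤ B ^ 2 * (δ / h) := by (clear * - hδ hh0; positivity)
  have hA3 : 0 ≤ B ^ 2 * δ := by (clear * - hδ; positivity)
  have m1 := mul_le_mul_of_nonneg_left csX hA1
  have m2 := mul_le_mul_of_nonneg_left csX0 hA2
  have m3 := mul_le_mul_of_nonneg_left csY hA3
  have tri : |-I1 - I2 - I3 + I4 + I5| ≤ |I1| + |I2| + |I3| + |I4| + |I5| := by
    have t1 := neg_abs_le I1
    have t2 := le_abs_self I1
    have t3 := neg_abs_le I2
    have t4 := le_abs_self I2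
    have t5 := neg_abs_le I3
    have t6 := le_abs_self I3
    have t7 := neg_abs_le I4
    have t8 := le_abs_self I4
    have t9 := neg_abs_le I5
    have t10 := le_abs_self I5
    rw [abs_le]
    constructor <;> linarith only [t1, t3, t5, t8, t10, t2, t4, t6, t7, t9]
  refine tri.trans ?_
  have n1 : 0 ≤ B ^ 2 * (δ / h) * (50 * S * RX0) := (abs_nonneg _).trans (b2.trans m2)
  have n2 : 0 ≤ B ^ 2 * δ * (50 * S * RY) := (abs_nonneg _).trans (b4.trans m3)
  calc |I1| + |I2| + |I3| + |I4| + |I5|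
      ≤ 3 * (B ^ 2 * (h / l ^ 2) * (50 * S * RX)) + B ^ 2 * (δ / h) * (50 * S * RX0)
        + B ^ 2 * δ * (50 * S * RY) := by linarith only [b1, b3, b5, b2, b4, m1, m2, m3]
    _ ≤ 3 * (B ^ 2 * (h / l ^ 2) * (50 * S * RX)) + 3 * (B ^ 2 * (δ / h) * (50 * S * RX0))
        + 3 * (B ^ 2 * δ * (50 * S * RY)) := by linarith only [n1, n2]
    _ = _ := by ring

end terms

/-- Testing the pair equation with `X G`. -/
theorem test_ineq : ∃ C : ℝ, 0 < C ∧ ∀ M : ℝ, 1 ≤ M → ∀ cs : ℝ, 0 < cs →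
    cs ≤ 1 / (1000 * M) → ∃ n0 : ℕ, ∀ n : ℕ, n0 ≤ n →
    ∀ (P w a α e1 e2 F : Pl → ℝ) (δ tj : ℝ), PairEq P w a α e1 e2 F δ →
    1 / (4 * M ^ 2 * (n : ℝ) ^ 16) ≤ δ → δ ≤ 4 * M ^ 2 / (n : ℝ) ^ 16 →
    0 ≤ tj → tj ≤ cs / (n : ℝ) ^ 8 → |P (0, tj)| ≤ 1 / (n : ℝ) ^ 15 →
    |∫ p, XX P (Gt P cs n tj) p * F p * dx P p|
    ≤ C * (hs cs n / ell cs n ^ 2) * Real.sqrt (hs cs n * ell cs n)
        * Real.sqrt (∫ p in Win P cs n tj (3 / 2) 3, (XX P w p) ^ 2 * dx P p)
      + C * (δ / hs cs n) * Real.sqrt (hs cs n * ell cs n)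
        * Real.sqrt (∫ p in Win P cs n tj (3 / 2) 3 \ Win P cs n tj (3 / 2) 2,
            (XX P w p) ^ 2 * dx P p)
      + C * δ * Real.sqrt (hs cs n * ell cs n)
        * Real.sqrt (∫ p in Win P cs n tj (3 / 2) 3, (YY P w p) ^ 2 * dx P p) := by
  obtain ⟨B, hB1, hB⟩ := t2_bdd
  refine ⟨150 * B ^ 2, by positivity, fun M hM cs hcs hcs1 => ?_⟩
  obtain ⟨n1, hn1⟩ := exists_nat_ge (4 * M ^ 2 / cs)
  refine ⟨max 2 n1, fun n hn P w a α e1 e2 F δ tj hPE hδ1 hδ2 ht0 ht1 hPj => ?_⟩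
  have hn2 : 2 ≤ n := (le_max_left _ _).trans hn
  have hnn1 : (n1 : ℝ) ≤ n := by exact_mod_cast (le_max_right _ _).trans hn
  have hn2' : (2 : ℝ) ≤ n := by exact_mod_cast hn2
  obtain ⟨hl0, hl1, hh0, hh1, hv1, hhv, h15⟩ := t2_sizes hM hcs hcs1 hn2
  -- `δ ≤ h / l`
  have hδv : δ ≤ varpi cs n := by
    refine hδ2.trans ?_
    unfold varpi
    have h1 : 4 * M ^ 2 ≤ cs * (n : ℝ) ^ 8 := by
      have h2 : 4 * M ^ 2 / cs ≤ (n : ℝ) ^ 8 := by
        calc 4 * M ^ 2 / cs ≤ (n : ℝ) := hn1.trans hnn1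
          _ = (n : ℝ) ^ 1 := (pow_one _).symm
          _ ≤ (n : ℝ) ^ 8 := pow_le_pow_right₀ (by linarith only [hn2']) (by norm_num)
      rw [div_le_iff₀ hcs] at h2
      linarith only [h2]
    rw [div_le_div_iff₀ (by positivity) (by positivity)]
    calc 4 * M ^ 2 * (n : ℝ) ^ 8 ≤ cs * (n : ℝ) ^ 8 * (n : ℝ) ^ 8 := by (clear * - h1 hn2; gcongr)
      _ = cs * (n : ℝ) ^ 16 := by ring
  have hδh : δ ≤ hs cs n / ell cs n := by
    have hv0 : 0 < varpi cs n := lt_of_lt_of_le hPE.δ_pos hδv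
    rw [hhv, mul_div_assoc, div_self hl0.ne', mul_one]
    linarith only [hδv, hv0]
  have htj : tj ≤ 1 / 1000 := ht1.trans hv1
  have key := T2D.main (P := P) (w := w) (a := a) (α := α) (e1 := e1) (e2 := e2) (F := F)
    (δ := δ) (tj := tj) (l := ell cs n) (h := hs cs n) (B := B)
    ⟨hPE, hl0, hl1, hh0, hh1, ht0, htj, hPj.trans h15, hδh, hB1, hB⟩
  have e : Gt P cs n tj = t2G P (ell cs n) (hs cs n) tj := t2_Gt P cs n tj
  rw [e]
  exact key

end Vale.Agent.P229.D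
end
end

section

section

/-!
# P229, disproof, task T11c: the main term
-/

open scoped ContDiff Topology RealInnerProductSpace
open MeasureTheory Set

namespace Vale.Agent.P229.D

theorem t3_YY_congr {P f g : Pl → ℝ} {p : Pl} (h : f =ᶠ[𝓝 p] g) : YY P f p = YY P g p := by
  unfold YY dt dx
  rw [h.fderiv_eq]

theorem t3_XX_congr {P f g : Pl → ℝ} {p : Pl} (h : f =ᶠ[𝓝 p] g) : XX P f p = XX P g p := by
  unfold XX dx
  rw [h.fderiv_eq]

theorem t3_ibp {P f g : Pl → ℝ} (hP : Frame P) (hf : ContDiff ℝ 1 f) (hg : ContDiff ℝ 1 g)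
    (cg : HasCompactSupport g) :
    ∫ p, f p * YY P g p * dx P p = -∫ p, YY P f p * g p * dx P p := by
  have h := integral_YY_eq_zero hP (hf.mul hg) (cg.mul_left)
  have e : ∀ p, YY P (fun q => f q * g q) p * dx P p
      = f p * YY P g p * dx P p + YY P f p * g p * dx P p := by
    intro p
    rw [YY_mul (hf.differentiable (by norm_num) p) (hg.differentiable (by norm_num) p)]
    ring
  have cJ : Continuous (dx P) := (hP.contDiff_dx (m := 1) (by norm_num)).continuous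
  have cYg : Continuous (YY P g) := (contDiff_YY hP (m := 0) hg (by norm_num) (by norm_num)).continuous
  have cYf : Continuous (YY P f) := (contDiff_YY hP (m := 0) hf (by norm_num) (by norm_num)).continuous
  have i1 : Integrable (fun p => f p * YY P g p * dx P p) :=
    ((hf.continuous.mul cYg).mul cJ).integrable_of_hasCompactSupport
      ((hasCompactSupport_YY cg).mul_left.mul_right)
  have i2 : Integrable (fun p => YY P f p * g p * dx P p) :=
    ((cYf.mul hg.continuous).mul cJ).integrable_of_hasCompactSupport (cg.mul_left.mul_right)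
  have h2 : ∫ p, (f p * YY P g p * dx P p + YY P f p * g p * dx P p) = 0 := by
    rw [← h]
    exact integral_congr_ae (Filter.Eventually.of_forall fun p => (e p).symm)
  rw [integral_add i1 i2] at h2
  linarith only [h2]

theorem t3_om_smooth : ContDiff ℝ ∞ om := by
  unfold om
  have h1 : ContDiff ℝ ∞ (fun y : ℝ => 3 - 2 * y) := by fun_prop
  have h2 : ContDiff ℝ ∞ (fun y : ℝ => 3 + 2 * y) := by fun_prop
  have h3 : ContDiff ℝ ∞ (fun y : ℝ => y ^ 2 / 2) := by fun_prop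
  exact h3.mul (((Real.smoothTransition.contDiff (n := ⊤)).comp h1).mul
    ((Real.smoothTransition.contDiff (n := ⊤)).comp h2))

theorem t3_Th_smooth : ContDiff ℝ ∞ Th := by
  unfold Th
  have h1 : ContDiff ℝ ∞ (fun y : ℝ => 3 - y) := by fun_prop
  have h2 : ContDiff ℝ ∞ (fun y : ℝ => 3 + y) := by fun_prop
  exact contDiff_id.mul (((Real.smoothTransition.contDiff (n := ⊤)).comp h1).mul
    ((Real.smoothTransition.contDiff (n := ⊤)).comp h2))

theorem t3_om_eq {y : ℝ} (hy : |y| ≤ 1) : om y = y ^ 2 / 2 := by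
  obtain ⟨h1, h2⟩ := abs_le.1 hy
  unfold om
  rw [Real.smoothTransition.one_of_one_le (by linarith),
    Real.smoothTransition.one_of_one_le (by linarith only [h1])]
  ring

theorem t3_Th_eq {y : ℝ} (hy : |y| ≤ 2) : Th y = y := by
  obtain ⟨h1, h2⟩ := abs_le.1 hy
  unfold Th
  rw [Real.smoothTransition.one_of_one_le (by linarith),
    Real.smoothTransition.one_of_one_le (by linarith)]
  ring

theorem t3_Gt_smooth {P : Pl → ℝ} (hP : Frame P) (cs : ℝ) (n : ℕ) (tj : ℝ) :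
    ContDiff ℝ 3 (Gt P cs n tj) := by
  unfold Gt
  have h1 : ContDiff ℝ 3 (fun p : Pl => om ((p.2 - tj) / ell cs n)) :=
    (t3_om_smooth.of_le (by norm_cast)).comp (by fun_prop)
  have h2 : ContDiff ℝ 3 (fun p : Pl => Th ((P p - P (0, tj)) / hs cs n)) :=
    (t3_Th_smooth.of_le (by norm_cast)).comp
      ((hP.smooth.sub contDiff_const).div_const _)
  exact (contDiff_const.mul h1).mul h2

/-- `YY (YY (XX G)) = 1/ℓ²` near the bit -/
theorem t3_YYXX {P : Pl → ℝ} (hP : Frame P) {cs : ℝ} {n : ℕ} {tj : ℝ} (hl : 0 < ell cs n)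
    (hh : 0 < hs cs n) {p : Pl} (h1 : |p.2 - tj| < ell cs n)
    (h2 : |P p - P (0, tj)| < 2 * hs cs n) :
    YY P (YY P (XX P (Gt P cs n tj))) p = 1 / ell cs n ^ 2 := by
  have hopen : IsOpen {q : Pl | |q.2 - tj| < ell cs n ∧ |P q - P (0, tj)| < 2 * hs cs n} := by
    have hPc := hP.smooth.continuous
    have c1 : Continuous (fun q : Pl => |q.2 - tj|) := by fun_prop
    have c2 : Continuous (fun q : Pl => |P q - P (0, tj)|) := by fun_prop
    exact (isOpen_lt c1 continuous_const).inter (isOpen_lt c2 continuous_const)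
  have a1 : ∀ q ∈ {q : Pl | |q.2 - tj| < ell cs n ∧ |P q - P (0, tj)| < 2 * hs cs n},
      Gt P cs n tj q = ((q.2 - tj) / ell cs n) ^ 2 / 2 * (P q - P (0, tj)) := by
    rintro q ⟨hq1, hq2⟩
    unfold Gt
    rw [t3_om_eq, t3_Th_eq]
    · (clear * - hh hl; field_simp)
    · rw [abs_div, abs_of_pos hh, div_le_iff₀ hh]; exact hq2.le
    · rw [abs_div, abs_of_pos hl, div_le_one hl]; exact hq1.le
  have a2 : ∀ q ∈ {q : Pl | |q.2 - tj| < ell cs n ∧ |P q - P (0, tj)| < 2 * hs cs n},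
      XX P (Gt P cs n tj) q = ((q.2 - tj) / ell cs n) ^ 2 / 2 := by
    intro q hq
    rw [t3_XX_congr (Filter.eventuallyEq_of_mem (hopen.mem_nhds hq) a1),
      XX_mul (f := fun q : Pl => ((q.2 - tj) / ell cs n) ^ 2 / 2)
        (g := fun q : Pl => P q - P (0, tj)) (by fun_prop)
        ((hP.differentiableAt q).sub_const _),
      XX_comp_snd (φ := fun y => ((y - tj) / ell cs n) ^ 2 / 2) (by fun_prop),
      XX_sub (hP.differentiableAt q) (differentiableAt_const _), XX_self hP, XX_const]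
    ring
  have a3 : ∀ q ∈ {q : Pl | |q.2 - tj| < ell cs n ∧ |P q - P (0, tj)| < 2 * hs cs n},
      YY P (XX P (Gt P cs n tj)) q = (q.2 - tj) / ell cs n ^ 2 := by
    intro q hq
    rw [t3_YY_congr (Filter.eventuallyEq_of_mem (hopen.mem_nhds hq) a2),
      YY_comp_snd (φ := fun y => ((y - tj) / ell cs n) ^ 2 / 2) (by fun_prop)]
    have : HasDerivAt (fun y => ((y - tj) / ell cs n) ^ 2 / 2)
        ((2 * ((q.2 - tj) / ell cs n) ^ (2 - 1) * (1 / ell cs n)) / 2) q.2 :=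
      ((((hasDerivAt_id q.2).sub_const tj).div_const (ell cs n)).pow 2).div_const 2
    rw [this.deriv, show 2 - 1 = 1 from rfl, pow_one]
    (clear * - hl; field_simp)
  rw [t3_YY_congr (Filter.eventuallyEq_of_mem (hopen.mem_nhds ⟨h1, h2⟩) a3),
    YY_comp_snd (φ := fun y => (y - tj) / ell cs n ^ 2) (by fun_prop)]
  have : HasDerivAt (fun y => (y - tj) / ell cs n ^ 2) (1 / ell cs n ^ 2) p.2 :=
    ((hasDerivAt_id p.2).sub_const tj).div_const (ell cs n ^ 2)
  exact this.deriv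

/-- support of a bit in terms of `P` -/
theorem t3_supp {P : Pl → ℝ} (hP : Frame P) {cs : ℝ} (hcs : 0 < cs) {n : ℕ} (hn : 1 ≤ n) {tj : ℝ}
    (h0 : 0 ≤ tj) (htj : tj ≤ cs / (n : ℝ) ^ 8) (hS : SlopeHyp P cs n) {p : Pl}
    (hp1 : |p.1| < varpi cs n * ell cs n) (hp2 : |p.2 - tj| < ell cs n) :
    |P p - P (0, tj)| < 2 * hs cs n := by
  have hn1 : (1 : ℝ) ≤ n := by exact_mod_cast hn
  have hvp : 0 < varpi cs n := by unfold varpi; positivity
  have hl : 0 < ell cs n := by unfold ell; positivity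
  have hle : ell cs n ≤ cs / (n : ℝ) ^ 8 := by
    unfold ell
    apply div_le_div_of_nonneg_left hcs.le (by positivity)
    calc (n : ℝ) ^ 8 ≤ (n : ℝ) ^ 115 := pow_le_pow_right₀ hn1 (by norm_num)
      _ ≤ 8 * (n : ℝ) ^ 115 := by
        have : 0 ≤ (n : ℝ) ^ 115 := by positivity
        linarith only [this]
  have dP : Differentiable ℝ P := hP.smooth.differentiable (by norm_num)
  have h1 : |P (p.1, p.2) - P (0, p.2)| ≤ 1001 / 1000 * |p.1 - 0| := by
    have := Convex.norm_image_sub_le_of_norm_hasDerivWithin_le (s := (Set.univ : Set ℝ))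
      (f := fun y => P (y, p.2)) (f' := fun y => dx P (y, p.2)) (x := 0) (y := p.1)
      (C := 1001 / 1000)
      (fun y _ => (hasDerivAt_fst (p := (y, p.2)) (dP _)).hasDerivWithinAt)
      (fun y _ => by
        rw [Real.norm_eq_abs, abs_of_pos (hP.dx_pos _)]
        exact hP.dx_le _) convex_univ (Set.mem_univ _) (Set.mem_univ _)
    simpa only [Prod.mk.eta, sub_zero, ge_iff_le, Real.norm_eq_abs] using this
  have hp2' := abs_lt.1 hp2
  have h2 : |P (0, p.2) - P (0, tj)| ≤ 1.1 * varpi cs n * |p.2 - tj| := by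
    have := Convex.norm_image_sub_le_of_norm_hasDerivWithin_le
      (s := Set.Icc (-(2 * cs / (n : ℝ) ^ 8)) (2 * cs / (n : ℝ) ^ 8))
      (f := fun y => P (0, y)) (f' := fun y => dt P (0, y)) (x := tj) (y := p.2)
      (C := 1.1 * varpi cs n)
      (fun y _ => (hasDerivAt_snd (p := (0, y)) (dP _)).hasDerivWithinAt)
      (fun y hy => by
        rw [Real.norm_eq_abs]
        refine hS (0, y) ?_ (abs_le.2 ⟨hy.1, hy.2⟩)
        change |(0 : ℝ)| ≤ _
        rw [abs_zero]; positivity) (convex_Icc _ _)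
      (by
        have : 2 * cs / (n : ℝ) ^ 8 = cs / (n : ℝ) ^ 8 + cs / (n : ℝ) ^ 8 := by ring
        have h3 : 0 < cs / (n : ℝ) ^ 8 := by positivity
        constructor <;> linarith only [h0, hl, hle, this, htj])
      (by
        have : 2 * cs / (n : ℝ) ^ 8 = cs / (n : ℝ) ^ 8 + cs / (n : ℝ) ^ 8 := by ring
        constructor <;> linarith only [h0, hl, hle, hp2', this, htj])
    simpa only [ge_iff_le, Real.norm_eq_abs] using this
  have e : P p - P (0, tj) = (P (p.1, p.2) - P (0, p.2)) + (P (0, p.2) - P (0, tj)) := by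
    simp
  rw [e]
  have h3 : 1.1 * varpi cs n * |p.2 - tj| ≤ 1.1 * varpi cs n * ell cs n := by
    apply mul_le_mul_of_nonneg_left hp2.le (by positivity)
  have h4 : 0 < varpi cs n * ell cs n := by positivity
  rw [sub_zero] at h1
  calc |P (p.1, p.2) - P (0, p.2) + (P (0, p.2) - P (0, tj))|
      ≤ |P (p.1, p.2) - P (0, p.2)| + |P (0, p.2) - P (0, tj)| := abs_add_le _ _
    _ < 2 * hs cs n := by
      unfold hs
      linarith only [hp1, h1, h2, h3, h4]

theorem t3_bit_nonneg (cs : ℝ) (n : ℕ) (tj : ℝ) (p : Pl) : 0 ≤ bit cs n tj p := by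
  unfold bit bmp
  exact mul_nonneg (mul_nonneg (Real.smoothTransition.nonneg _) (Real.smoothTransition.nonneg _))
    (mul_nonneg (Real.smoothTransition.nonneg _) (Real.smoothTransition.nonneg _))

theorem t3_bmp_one {y : ℝ} (hy : |y| ≤ 1 / 2) : bmp y = 1 := by
  obtain ⟨h1, h2⟩ := abs_le.1 hy
  unfold bmp
  rw [Real.smoothTransition.one_of_one_le (by linarith only [h2]),
    Real.smoothTransition.one_of_one_le (by linarith only [h1]), one_mul]

theorem t3_bit_ne_zero {cs : ℝ} {n : ℕ} {tj : ℝ} (hl : 0 < ell cs n)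
    (hvl : 0 < varpi cs n * ell cs n) {p : Pl} (h : bit cs n tj p ≠ 0) :
    |p.1| < varpi cs n * ell cs n ∧ |p.2 - tj| < ell cs n := by
  unfold bit at h
  constructor
  · by_contra h1
    rw [not_lt] at h1
    apply h
    rw [bmp_zero_of_one_le_abs (y := p.1 / (varpi cs n * ell cs n)), mul_zero]
    rw [abs_div, abs_of_pos hvl, le_div_iff₀ hvl, one_mul]
    exact h1
  · by_contra h1
    rw [not_lt] at h1
    apply h
    rw [bmp_zero_of_one_le_abs (y := (p.2 - tj) / ell cs n), zero_mul]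
    rw [abs_div, abs_of_pos hl, le_div_iff₀ hl, one_mul]
    exact h1

theorem t3_bit_supp {cs : ℝ} {n : ℕ} {tj : ℝ} (hl : 0 < ell cs n)
    (hvl : 0 < varpi cs n * ell cs n) : HasCompactSupport (bit cs n tj) := by
  refine HasCompactSupport.intro
    ((isCompact_Icc (a := -(varpi cs n * ell cs n)) (b := varpi cs n * ell cs n)).prod
      (isCompact_Icc (a := tj - ell cs n) (b := tj + ell cs n))) fun p hp => ?_
  by_contra h
  obtain ⟨h1, h2⟩ := t3_bit_ne_zero hl hvl h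
  rw [abs_lt] at h1 h2
  apply hp
  refine ⟨⟨h1.1.le, h1.2.le⟩, ⟨?_, ?_⟩⟩ <;> linarith [h2.1, h2.2]

/-- lower bound for the integral of a bit -/
theorem t3_lower {P : Pl → ℝ} (hP : Frame P) {cs : ℝ} {n : ℕ} {tj : ℝ} (hl : 0 < ell cs n)
    (hv : 0 < varpi cs n) :
    1 / 2 * (varpi cs n * ell cs n ^ 2) ≤ ∫ p, bit cs n tj p * dx P p := by
  have hvl : 0 < varpi cs n * ell cs n := by positivity
  set w := varpi cs n * ell cs n with hw
  set l := ell cs n with hl'
  have cJ : Continuous (dx P) := (hP.contDiff_dx (m := 1) (by norm_num)).continuous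
  have hint : Integrable (fun p => bit cs n tj p * dx P p) :=
    (((bit_smooth cs n tj).continuous).mul cJ).integrable_of_hasCompactSupport
      ((t3_bit_supp hl hvl).mul_right)
  have hnn : ∀ p, 0 ≤ bit cs n tj p * dx P p := fun p =>
    mul_nonneg (t3_bit_nonneg _ _ _ _) (hP.dx_pos p).le
  set R : Set Pl := Set.Icc (-(w / 2)) (w / 2) ×ˢ Set.Icc (tj - l / 2) (tj + l / 2) with hR
  have hvol : (volume R).toReal = w * l := by
    rw [hR, Measure.volume_eq_prod, Measure.prod_prod, Real.volume_Icc, Real.volume_Icc,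
      ENNReal.toReal_mul, ENNReal.toReal_ofReal (by linarith only [hvl]), ENNReal.toReal_ofReal (by linarith only [hl])]
    ring
  have hvolfin : volume R ≠ ⊤ := by
    rw [hR, Measure.volume_eq_prod, Measure.prod_prod, Real.volume_Icc, Real.volume_Icc]
    exact ENNReal.mul_ne_top ENNReal.ofReal_ne_top ENNReal.ofReal_ne_top
  have hRm : MeasurableSet R := measurableSet_Icc.prod measurableSet_Icc
  have h1 : ∫ p in R, bit cs n tj p * dx P p ≤ ∫ p, bit cs n tj p * dx P p :=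
    setIntegral_le_integral hint (Filter.Eventually.of_forall hnn)
  have h2 : ∫ p in R, (999 / 1000 : ℝ) ≤ ∫ p in R, bit cs n tj p * dx P p := by
    refine setIntegral_mono_on (integrableOn_const hvolfin) hint.integrableOn hRm ?_
    rintro p ⟨hp1, hp2⟩
    have hb : bit cs n tj p = 1 := by
      unfold bit
      rw [t3_bmp_one, t3_bmp_one, one_mul]
      · rw [abs_div, abs_of_pos hvl, div_le_iff₀ hvl, abs_le]
        constructor <;> linarith only [hp1.1, hp1.2]
      · rw [abs_div, abs_of_pos hl, div_le_iff₀ hl, abs_le]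
        constructor <;> linarith only [hp2.1, hp2.2]
    rw [hb, one_mul]
    exact hP.le_dx p
  rw [setIntegral_const, smul_eq_mul, Measure.real, hvol] at h2
  have h3 : 0 < w * l := by positivity
  have h4 : varpi cs n * l ^ 2 = w * l := by rw [hw]; ring
  rw [h4]
  linarith

/-- The main term of the test. -/
theorem main_term : ∀ M : ℝ, 1 ≤ M → ∀ cs : ℝ, 0 < cs →
    cs ≤ 1 / (1000 * M) → ∃ n0 : ℕ, ∀ n : ℕ, n0 ≤ n → ∀ (P : Pl → ℝ) (tj : ℝ), Frame P →
    0 ≤ tj → tj ≤ cs / (n : ℝ) ^ 8 → SlopeHyp P cs n →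
    ∫ p, XX P (Gt P cs n tj) p * YY P (YY P (bit cs n tj)) p * dx P p
      = (1 / ell cs n ^ 2) * ∫ p, bit cs n tj p * dx P p ∧
    1 / 2 * (varpi cs n * ell cs n ^ 2) ≤ ∫ p, bit cs n tj p * dx P p := by
  intro M _ cs hcs _
  refine ⟨1, fun n hn P tj hP h0 htj hS => ?_⟩
  have hn1 : (1 : ℝ) ≤ n := by exact_mod_cast hn
  have hv : 0 < varpi cs n := by unfold varpi; positivity
  have hl : 0 < ell cs n := by unfold ell; positivity
  have hvl : 0 < varpi cs n * ell cs n := by positivity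
  have hh : 0 < hs cs n := by unfold hs; positivity
  refine ⟨?_, t3_lower hP hl hv⟩
  have sG := t3_Gt_smooth hP cs n tj
  have sw : ContDiff ℝ 2 (XX P (Gt P cs n tj)) := contDiff_XX hP sG (by norm_num) le_rfl
  have sb : ContDiff ℝ ∞ (bit cs n tj) := bit_smooth cs n tj
  have sYb : ContDiff ℝ 2 (YY P (bit cs n tj)) := contDiff_YY hP sb (by norm_cast) le_rfl
  have sYw : ContDiff ℝ 1 (YY P (XX P (Gt P cs n tj))) := contDiff_YY hP sw (by norm_num) (by norm_num)
  have cb := t3_bit_supp (tj := tj) hl hvl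
  rw [t3_ibp hP (sw.of_le (by norm_num)) (sYb.of_le (by norm_num)) (hasCompactSupport_YY cb),
    t3_ibp hP sYw (sb.of_le (by norm_cast)) cb, neg_neg, ← integral_const_mul]
  refine integral_congr_ae (Filter.Eventually.of_forall fun p => ?_)
  by_cases hb : bit cs n tj p = 0
  · simp [hb]
  · obtain ⟨h1, h2⟩ := t3_bit_ne_zero hl hvl hb
    have h3 := t3_YYXX hP hl hh h2 (t3_supp hP hcs hn h0 htj hS h1 h2)
    change YY P (YY P (XX P (Gt P cs n tj))) p * bit cs n tj p * dx P p = _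
    rw [h3]
    ring

end Vale.Agent.P229.D
end
end

section

section

/-!
# P229, disproof, task T11: integrals of the final test
-/

open scoped ContDiff Topology
open MeasureTheory Set

namespace Vale.Agent.P229.D

namespace PF

variable {P : Pl → ℝ} {cs : ℝ} {n : ℕ} {tj δ : ℝ}

theorem pj_small (hP : Frame P) (hcs : 0 < cs) (hcs1 : cs ≤ 1 / 2) (hn : 1 ≤ n)
    (h0 : 0 ≤ tj) (htj : tj ≤ cs / (n : ℝ) ^ 8) (hS : SlopeHyp P cs n) :
    |P (0, tj)| ≤ 1 / (n : ℝ) ^ 15 := by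
  have hn1 : (1 : ℝ) ≤ n := by exact_mod_cast hn
  have hvp : 0 < varpi cs n := by unfold varpi; positivity
  have dP : Differentiable ℝ P := hP.smooth.differentiable (by norm_num)
  have h3 : 0 < cs / (n : ℝ) ^ 8 := by positivity
  have h4 : 2 * cs / (n : ℝ) ^ 8 = cs / (n : ℝ) ^ 8 + cs / (n : ℝ) ^ 8 := by ring
  have h2 : |P (0, tj) - P (0, 0)| ≤ 1.1 * varpi cs n * |tj - 0| := by
    have := Convex.norm_image_sub_le_of_norm_hasDerivWithin_le
      (s := Set.Icc (-(2 * cs / (n : ℝ) ^ 8)) (2 * cs / (n : ℝ) ^ 8))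
      (f := fun y => P (0, y)) (f' := fun y => dt P (0, y)) (x := 0) (y := tj)
      (C := 1.1 * varpi cs n)
      (fun y _ => (hasDerivAt_snd (p := (0, y)) (dP _)).hasDerivWithinAt)
      (fun y hy => by
        rw [Real.norm_eq_abs]
        refine hS (0, y) ?_ (abs_le.2 ⟨hy.1, hy.2⟩)
        change |(0 : ℝ)| ≤ _
        rw [abs_zero]; positivity) (convex_Icc _ _)
      (by constructor <;> linarith only [h3, h4])
      (by constructor <;> linarith only [h0, h3, h4, htj])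
    simpa only [sub_zero, ge_iff_le, Real.norm_eq_abs] using this
  have hz : P (0, 0) = 0 := hP.zero
  rw [hz, sub_zero, sub_zero, abs_of_nonneg h0] at h2
  refine h2.trans ?_
  calc 1.1 * varpi cs n * tj ≤ 1.1 * (cs / (n : ℝ) ^ 8) * (cs / (n : ℝ) ^ 8) := by
        unfold varpi
        gcongr
    _ = 1.1 * cs ^ 2 / (n : ℝ) ^ 16 := by ring
    _ ≤ 1 / (n : ℝ) ^ 15 := by
        rw [div_le_div_iff₀ (by positivity) (by positivity)]
        have e : (n : ℝ) ^ 16 = (n : ℝ) ^ 15 * n := by ring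
        rw [e]
        have h5 : 1.1 * cs ^ 2 ≤ 1 := by nlinarith only [hcs, hcs1]
        have h6 : (0 : ℝ) < (n : ℝ) ^ 15 := by positivity
        nlinarith only [hn1, h6, h5]

/-- far from the bit the correction vanishes. -/
theorem far (hP : Frame P) (hcs : 0 < cs) (hn : 1 ≤ n) (h0 : 0 ≤ tj)
    (htj : tj ≤ cs / (n : ℝ) ^ 8) (hS : SlopeHyp P cs n) (v : Pl → ℝ) (k c : ℝ) {p : Pl}
    (hp : 2 * hs cs n < |P p - P (0, tj)|) :
    (fun q => v q + k * (c * bit cs n tj q)) =ᶠ[𝓝 p] v := by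
  have hn1 : (1 : ℝ) ≤ n := by exact_mod_cast hn
  have hv : 0 < varpi cs n := by unfold varpi; positivity
  have hl : 0 < ell cs n := by unfold ell; positivity
  have hvl : 0 < varpi cs n * ell cs n := by positivity
  have hPc : Continuous P := hP.smooth.continuous
  have hopen : IsOpen {q : Pl | 2 * hs cs n < |P q - P (0, tj)|} :=
    isOpen_lt continuous_const (hPc.sub continuous_const).abs
  refine Filter.eventuallyEq_of_mem (hopen.mem_nhds hp) fun q hq => ?_
  have hb : bit cs n tj q = 0 := by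
    by_contra hb
    obtain ⟨h1, h2⟩ := t3_bit_ne_zero hl hvl hb
    exact absurd (t3_supp hP hcs hn h0 htj hS h1 h2) (not_lt.2 (le_of_lt hq))
  simp [hb]

/-- energy density. -/
noncomputable def en (P : Pl → ℝ) (δ : ℝ) (w : Pl → ℝ) (p : Pl) : ℝ :=
  ((YY P w p) ^ 2 + δ * (XX P w p) ^ 2) * dx P p

theorem en_nonneg (hP : Frame P) (hδ : 0 < δ) (w : Pl → ℝ) (p : Pl) : 0 ≤ en P δ w p := by
  have := hP.dx_pos p
  unfold en
  positivity

theorem en_cont (hP : Frame P) {w : Pl → ℝ} (hw : ContDiff ℝ 2 w) : Continuous (en P δ w) := by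
  have cJ : Continuous (dx P) := (hP.contDiff_dx (m := 1) (by norm_num)).continuous
  have cY : Continuous (YY P w) := (contDiff_YY hP (m := 0) hw (by norm_num) (by norm_num)).continuous
  have cX : Continuous (XX P w) := (contDiff_XX hP (m := 0) hw (by norm_num) (by norm_num)).continuous
  unfold en
  fun_prop

theorem win_compact (hP : Frame P) (A B : ℝ) : IsCompact (Win P cs n tj A B) :=
  S2.isCompact_strip hP tj (P (0, tj)) (A * ell cs n) (B * hs cs n)

/-- side strip. -/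
def St (P : Pl → ℝ) (cs : ℝ) (n : ℕ) (tj sg : ℝ) : Set Pl :=
  {p | |p.2 - tj| < 4 * ell cs n ∧ 2 * hs cs n < sg * (P p - P (0, tj)) ∧
        sg * (P p - P (0, tj)) < 4 * hs cs n}

theorem St_open (hP : Frame P) (sg : ℝ) : IsOpen (St P cs n tj sg) := by
  have hPc : Continuous P := hP.smooth.continuous
  have c1 : Continuous fun p : Pl => |p.2 - tj| := by fun_prop
  have c2 : Continuous fun p : Pl => sg * (P p - P (0, tj)) := by fun_prop
  exact (isOpen_lt c1 continuous_const).inter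
    ((isOpen_lt continuous_const c2).inter (isOpen_lt c2 continuous_const))

theorem St_sub {sg : ℝ} (hsg : sg = 1 ∨ sg = -1) (hh : 0 < hs cs n) :
    St P cs n tj sg ⊆ Win P cs n tj 4 4 := by
  rintro p ⟨h1, h2, h3⟩
  refine ⟨h1.le, ?_⟩
  rw [abs_le]
  rcases hsg with h | h <;> rw [h] at h2 h3 <;> constructor <;> linarith only [hh, h2, h3]

theorem St_far {sg : ℝ} (hsg : sg = 1 ∨ sg = -1) {p : Pl} (hp : p ∈ St P cs n tj sg) :
    2 * hs cs n < |P p - P (0, tj)| := by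
  obtain ⟨-, h2, -⟩ := hp
  refine lt_of_lt_of_le h2 ?_
  rcases hsg with h | h <;> rw [h]
  · rw [one_mul]; exact le_abs_self _
  · rw [neg_one_mul]; exact neg_le_abs _

/-- the ring of the window is covered by the two strips. -/
theorem ring_le (hP : Frame P) (hδ : 0 < δ) (hcs : 0 < cs) (hn : 1 ≤ n) (h0 : 0 ≤ tj)
    (htj : tj ≤ cs / (n : ℝ) ^ 8) (hS : SlopeHyp P cs n) {v : Pl → ℝ} (hv : ContDiff ℝ 2 v)
    (k c : ℝ) :
    ∫ p in Win P cs n tj (3 / 2) 3 \ Win P cs n tj (3 / 2) 2,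
      en P δ (fun q => v q + k * (c * bit cs n tj q)) p
    ≤ (∫ p in St P cs n tj 1, en P δ v p) + ∫ p in St P cs n tj (-1), en P δ v p := by
  have hn1 : (1 : ℝ) ≤ n := by exact_mod_cast hn
  have hl : 0 < ell cs n := by unfold ell; positivity
  have hh : 0 < hs cs n := by unfold hs varpi; (clear * - hcs hn hl; positivity)
  have hm1 := (win_compact (cs := cs) (n := n) (tj := tj) hP (3 / 2) 3).measurableSet
  have hm2 := (win_compact (cs := cs) (n := n) (tj := tj) hP (3 / 2) 2).measurableSet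
  have hfar : ∀ p ∈ Win P cs n tj (3 / 2) 3 \ Win P cs n tj (3 / 2) 2,
      2 * hs cs n < |P p - P (0, tj)| := by
    rintro p ⟨h1, h2⟩
    by_contra h3
    exact h2 ⟨h1.1, not_lt.1 h3⟩
  have e1 : ∫ p in Win P cs n tj (3 / 2) 3 \ Win P cs n tj (3 / 2) 2,
      en P δ (fun q => v q + k * (c * bit cs n tj q)) p
      = ∫ p in Win P cs n tj (3 / 2) 3 \ Win P cs n tj (3 / 2) 2, en P δ v p := by
    refine setIntegral_congr_fun (hm1.diff hm2) fun p hp => ?_
    have h1 := far hP hcs hn h0 htj hS v k c (hfar p hp)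
    simp only [en, t3_XX_congr h1, t3_YY_congr h1]
  have hi : ∀ sg : ℝ, (sg = 1 ∨ sg = -1) → IntegrableOn (en P δ v) (St P cs n tj sg) := by
    intro sg hsg
    exact ((en_cont hP hv).continuousOn.integrableOn_compact (win_compact hP 4 4)).mono_set
      (St_sub hsg hh)
  rw [e1, ← setIntegral_union ?_ (St_open hP (-1)).measurableSet (hi 1 (Or.inl rfl))
    (hi (-1) (Or.inr rfl))]
  · refine setIntegral_mono_set ((hi 1 (Or.inl rfl)).union (hi (-1) (Or.inr rfl)))
      (Filter.Eventually.of_forall fun p => en_nonneg hP hδ v p)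
      (Filter.Eventually.of_forall ?_)
    intro p hp
    have h1 := hfar p hp
    obtain ⟨⟨h2, h3⟩, -⟩ := hp
    have h4 : |p.2 - tj| < 4 * ell cs n := by linarith only [hl, h2]
    rcases lt_abs.1 h1 with h5 | h5
    · refine Or.inl ⟨h4, by linarith only [h5], ?_⟩
      have := (abs_le.1 h3).2
      linarith only [hh, this]
    · refine Or.inr ⟨h4, by linarith only [h5], ?_⟩
      have := (abs_le.1 h3).1
      linarith only [hh, this]
  · rw [Set.disjoint_left]
    rintro p ⟨-, h1, -⟩ ⟨-, h2, -⟩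
    linarith only [hh, h1, h2]

theorem sq_int_le (hP : Frame P) (hδ : 0 < δ) {w : Pl → ℝ} (hw : ContDiff ℝ 2 w) {S K : Set Pl}
    (hS : MeasurableSet S) (hK : IsCompact K) (hSK : S ⊆ K) :
    ∫ p in S, (XX P w p) ^ 2 * dx P p ≤ (∫ p in S, en P δ w p) / δ ∧
    ∫ p in S, (YY P w p) ^ 2 * dx P p ≤ ∫ p in S, en P δ w p := by
  have cJ : Continuous (dx P) := (hP.contDiff_dx (m := 1) (by norm_num)).continuous
  have cY : Continuous (YY P w) := (contDiff_YY hP (m := 0) hw (by norm_num) (by norm_num)).continuous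
  have cX : Continuous (XX P w) := (contDiff_XX hP (m := 0) hw (by norm_num) (by norm_num)).continuous
  have hi : ∀ {f : Pl → ℝ}, Continuous f → IntegrableOn f S := fun hf =>
    (hf.continuousOn.integrableOn_compact hK).mono_set hSK
  constructor
  · rw [← integral_div]
    refine setIntegral_mono_on (hi (by fun_prop)) (hi ((en_cont hP hw).div_const δ)) hS
      fun p _ => ?_
    have := hP.dx_pos p
    rw [le_div_iff₀ hδ]
    unfold en
    linarith only [mul_nonneg (sq_nonneg (YY P w p)) this.le]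
  · refine setIntegral_mono_on (hi (by fun_prop)) (hi (en_cont hP hw)) hS fun p _ => ?_
    have := hP.dx_pos p
    unfold en
    linarith only [mul_nonneg (mul_nonneg hδ.le (sq_nonneg (XX P w p))) this.le]

theorem win_split (hP : Frame P) {w : Pl → ℝ} (hw : ContDiff ℝ 2 w) (hh : 0 < hs cs n) :
    ∫ p in Win P cs n tj (3 / 2) 3, en P δ w p = (∫ p in Win P cs n tj (3 / 2) 2, en P δ w p)
      + ∫ p in Win P cs n tj (3 / 2) 3 \ Win P cs n tj (3 / 2) 2, en P δ w p := by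
  have hm2 := (win_compact (cs := cs) (n := n) (tj := tj) hP (3 / 2) 2).measurableSet
  have h1 := integral_inter_add_sdiff (f := en P δ w) (μ := volume)
    (s := Win P cs n tj (3 / 2) 3) hm2
    ((en_cont hP hw).continuousOn.integrableOn_compact (win_compact hP (3 / 2) 3))
  have e : Win P cs n tj (3 / 2) 3 ∩ Win P cs n tj (3 / 2) 2 = Win P cs n tj (3 / 2) 2 := by
    refine Set.inter_eq_right.2 fun p hp => ⟨hp.1, hp.2.trans ?_⟩
    linarith only [hh]
  rw [e] at h1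
  exact h1.symm

/-- square of the forcing. -/
theorem F_int (hP : Frame P) {Ft : Pl → ℝ} {K V : ℝ} {S : Set Pl}
    (hSf : volume S < ⊤) (hV : (volume S).toReal ≤ V) (hF : ∀ p ∈ S, |Ft p| ≤ K) :
    ∫ p in S, (Ft p) ^ 2 * dx P p ≤ K ^ 2 * 1.001 * V := by
  have h1 := norm_setIntegral_le_of_norm_le_const (μ := volume) (s := S)
    (f := fun p => (Ft p) ^ 2 * dx P p) (C := K ^ 2 * 1.001) hSf (fun p hp => by
      have h2 := hP.dx_pos p
      have h3 := hP.dx_le p
      rw [Real.norm_eq_abs, abs_mul, abs_of_pos h2, abs_pow]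
      have h4 := hF p hp
      have h5 : |Ft p| ^ 2 ≤ K ^ 2 := by (clear * - h4; gcongr)
      have h6 : dx P p ≤ 1.001 := by norm_num at h3 ⊢; linarith
      (clear * - h5 h6 h2; gcongr))
  refine (le_abs_self _).trans (h1.trans ?_)
  unfold Measure.real
  (clear * - hV; gcongr)

/-- integral of a product supported in a window. -/
theorem G_int (hP : Frame P) {G Ft : Pl → ℝ} {C K V : ℝ} (hC : 0 ≤ C) (hK : 0 ≤ K) {S : Set Pl}
    (hSf : volume S < ⊤) (hV : (volume S).toReal ≤ V) (hG : ∀ p, |G p| ≤ C)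
    (hG0 : ∀ p, p ∉ S → G p = 0) (hF : ∀ p ∈ S, |Ft p| ≤ K) :
    |∫ p, G p * Ft p * dx P p| ≤ C * K * 1.001 * V := by
  have e : ∫ p, G p * Ft p * dx P p = ∫ p in S, G p * Ft p * dx P p := by
    symm
    refine setIntegral_eq_integral_of_forall_compl_eq_zero fun p hp => ?_
    rw [hG0 p hp]; ring
  rw [e]
  have h1 := norm_setIntegral_le_of_norm_le_const (μ := volume) (s := S)
    (f := fun p => G p * Ft p * dx P p) (C := C * K * 1.001) hSf (fun p hp => by
      have h2 := hP.dx_pos p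
      have h3 := hP.dx_le p
      rw [Real.norm_eq_abs, abs_mul, abs_of_pos h2, abs_mul]
      have h4 := hF p hp
      have h5 := hG p
      have h6 : dx P p ≤ 1.001 := by norm_num at h3 ⊢; linarith only [h3]
      (clear * - h5 h4 hC h6 h2 hK; gcongr))
  refine h1.trans ?_
  unfold Measure.real
  (clear * - hV hC hK; gcongr)

end PF

end Vale.Agent.P229.D
end
end

section

section

/-!
# P229, disproof, task T11: the final test (`PROOF.md`, §9, STEP 2 and TEST)
-/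

open scoped ContDiff Topology
open MeasureTheory Set

namespace Vale.Agent.P229.D

namespace PF

variable {P v a α e1 e2 F : Pl → ℝ} {cs : ℝ} {n : ℕ} {tj δ : ℝ}

theorem YY2_const (hP : Frame P) (c : ℝ) (p : Pl) :
    YY P (YY P (fun q => c * bit cs n tj q)) p = c * YY P (YY P (bit cs n tj)) p := by
  have sb : ContDiff ℝ ∞ (bit cs n tj) := bit_smooth cs n tj
  have sYb : ContDiff ℝ 2 (YY P (bit cs n tj)) := contDiff_YY hP sb (by norm_cast) le_rfl
  have e : YY P (fun q => c * bit cs n tj q) = fun q => c * YY P (bit cs n tj) q := by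
    ext q
    exact YY_const_mul c (sb.differentiable (by norm_cast) q)
  rw [e]
  exact YY_const_mul c (sYb.differentiable (by norm_num) p)

/-- the two sides of the test: lower bound. -/
theorem lower {Cs k b' sgn : ℝ} {Ft : Pl → ℝ} (hP : Frame P) (hcs : 0 < cs) (hn : 1 ≤ n)
    (hδ : 0 < δ) (hb : 0 < b') (hCs : 0 < Cs) (hCn : 10010 * Cs ≤ (n : ℝ))
    (hsgn : sgn = 1 ∨ sgn = -1) (hk : k ≤ -(3 / δ)) (hFt : Continuous Ft)
    (hG : ∀ p, |XX P (Gt P cs n tj) p| ≤ Cs)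
    (hG0 : ∀ p, p ∉ Win P cs n tj (3 / 2) 3 → XX P (Gt P cs n tj) p = 0)
    (hvol : (volume (Win P cs n tj (3 / 2) 3)).toReal ≤ 1000 * (ell cs n * hs cs n))
    (hF : ∀ p ∈ Win P cs n tj (3 / 2) 3,
      |Ft p - k * YY P (YY P (fun q => sgn * b' * bit cs n tj q)) p|
        ≤ 1 / (n : ℝ) * (b' / (ell cs n ^ 2 * δ)))
    (hm1 : ∫ p, XX P (Gt P cs n tj) p * YY P (YY P (bit cs n tj)) p * dx P p
      = (1 / ell cs n ^ 2) * ∫ p, bit cs n tj p * dx P p)
    (hm2 : 1 / 2 * (varpi cs n * ell cs n ^ 2) ≤ ∫ p, bit cs n tj p * dx P p) :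
    5 / 4 * (b' * varpi cs n / δ) ≤ |∫ p, XX P (Gt P cs n tj) p * Ft p * dx P p| := by
  have hn1 : (1 : ℝ) ≤ n := by exact_mod_cast hn
  have hn0 : (0 : ℝ) < n := by linarith only [hCs, hCn]
  have hl : 0 < ell cs n := by unfold ell; positivity
  have hv : 0 < varpi cs n := by unfold varpi; positivity
  have cJ : Continuous (dx P) := (hP.contDiff_dx (m := 1) (by norm_num)).continuous
  have sb : ContDiff ℝ ∞ (bit cs n tj) := bit_smooth cs n tj
  have sYb : ContDiff ℝ 2 (YY P (bit cs n tj)) := contDiff_YY hP sb (by norm_cast) le_rfl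
  have cYY : Continuous (YY P (YY P (bit cs n tj))) :=
    (contDiff_YY hP (m := 1) sYb (by norm_num) (by norm_num)).continuous
  have cG : Continuous (XX P (Gt P cs n tj)) :=
    (contDiff_XX hP (m := 1) (t3_Gt_smooth hP cs n tj) (by norm_num) (by norm_num)).continuous
  have hGc : HasCompactSupport (XX P (Gt P cs n tj)) :=
    HasCompactSupport.intro (win_compact hP (3 / 2) 3) hG0
  simp only [YY2_const hP] at hF
  generalize YY P (YY P (bit cs n tj)) = Y2 at *
  generalize XX P (Gt P cs n tj) = G at *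
  have i1 : Integrable (fun p => G p * (Ft p - k * (sgn * b' * Y2 p)) * dx P p) := by
    refine Continuous.integrable_of_hasCompactSupport (by fun_prop) ?_
    exact (hGc.mul_right).mul_right
  have i2 : Integrable (fun p => G p * Y2 p * dx P p) := by
    refine Continuous.integrable_of_hasCompactSupport (by fun_prop) ?_
    exact (hGc.mul_right).mul_right
  have e : ∫ p, G p * Ft p * dx P p = (∫ p, G p * (Ft p - k * (sgn * b' * Y2 p)) * dx P p)
      + (k * (sgn * b')) * ∫ p, G p * Y2 p * dx P p := by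
    rw [← integral_const_mul, ← integral_add i1 (i2.const_mul _)]
    refine integral_congr_ae (Filter.Eventually.of_forall fun p => ?_)
    change G p * Ft p * dx P p = G p * (Ft p - k * (sgn * b' * Y2 p)) * dx P p
      + k * (sgn * b') * (G p * Y2 p * dx P p)
    ring
  have herr := G_int (G := G) (Ft := fun p => Ft p - k * (sgn * b' * Y2 p)) hP hCs.le
    (show 0 ≤ 1 / (n : ℝ) * (b' / (ell cs n ^ 2 * δ)) by (clear * - hn hb hl hδ; positivity))
    (win_compact (cs := cs) (n := n) (tj := tj) hP (3 / 2) 3).measure_lt_top hvol hG hG0 hF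
  have herr2 : |∫ p, G p * (Ft p - k * (sgn * b' * Y2 p)) * dx P p|
      ≤ 1 / 4 * (b' * varpi cs n / δ) := by
    refine herr.trans ?_
    have e2 : Cs * (1 / (n : ℝ) * (b' / (ell cs n ^ 2 * δ))) * 1.001 * (1000 * (ell cs n * hs cs n))
        = (10010 * Cs) * (1 / (4 * (n : ℝ))) * (b' * varpi cs n / δ) := by
      unfold hs
      field_simp
      norm_num
    rw [e2]
    have h3 : (10010 * Cs) * (1 / (4 * (n : ℝ))) ≤ 1 / 4 := by
      calc (10010 * Cs) * (1 / (4 * (n : ℝ))) ≤ (n : ℝ) * (1 / (4 * (n : ℝ))) := by (clear * - hCn hn; gcongr)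
        _ = 1 / 4 := by field_simp
    (clear * - h3 hb hv hδ; gcongr)
  have hmain : 3 / 2 * (b' * varpi cs n / δ) ≤ |(k * (sgn * b')) * ∫ p, G p * Y2 p * dx P p| := by
    rw [hm1, abs_mul, abs_mul, abs_mul sgn]
    have h4 : |sgn| = 1 := by rcases hsgn with h | h <;> rw [h] <;> simp
    have h5 : 3 / δ ≤ |k| := by
      rw [abs_of_nonpos (by have : 0 < 3 / δ := by positivity
                            linarith only [hk, this])]
      linarith only [hk]
    have h6 : 1 / 2 * varpi cs n ≤ |1 / ell cs n ^ 2 * ∫ p, bit cs n tj p * dx P p| := by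
      refine le_trans ?_ (le_abs_self _)
      calc 1 / 2 * varpi cs n = 1 / ell cs n ^ 2 * (1 / 2 * (varpi cs n * ell cs n ^ 2)) := by
            (clear * - hl hv; field_simp)
        _ ≤ _ := by (clear * - hm2 hl; gcongr)
    rw [h4, one_mul, abs_of_pos hb]
    calc 3 / 2 * (b' * varpi cs n / δ) = 3 / δ * b' * (1 / 2 * varpi cs n) := by ring
      _ ≤ |k| * b' * |1 / ell cs n ^ 2 * ∫ p, bit cs n tj p * dx P p| := by (clear * - h5 hb h6 hv; gcongr)
  rw [e]
  have h7 := abs_sub_abs_le_abs_sub ((k * (sgn * b')) * ∫ p, G p * Y2 p * dx P p)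
    (-(∫ p, G p * (Ft p - k * (sgn * b' * Y2 p)) * dx P p))
  rw [abs_neg, sub_neg_eq_add] at h7
  rw [add_comm]
  linarith only [herr2, hmain, h7]

/-- the energy of the corrected difference in the window. -/
theorem window {C2 Cf k b' sgn E : ℝ} {Ft : Pl → ℝ} (hP : Frame P) (hcs : 0 < cs) (hn : 1 ≤ n)
    (hδ : 0 < δ) (hb : 0 < b') (hC2 : 0 < C2) (hCf : 0 < Cf)
    (h0 : 0 ≤ tj) (htj : tj ≤ cs / (n : ℝ) ^ 8) (hS : SlopeHyp P cs n)
    (hsgn : sgn = 1 ∨ sgn = -1) (hk : k ≤ -(3 / δ)) (hk2 : -(6 / δ) ≤ k)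
    (hv : ContDiff ℝ 2 v)
    (hvol : (volume (Win P cs n tj 3 4)).toReal ≤ 1000 * (ell cs n * hs cs n))
    (hF : ∀ p ∈ Win P cs n tj 3 4,
        |Ft p - k * YY P (YY P (fun q => sgn * b' * bit cs n tj q)) p|
          ≤ 1 / (n : ℝ) * (b' / (ell cs n ^ 2 * δ)) ∧
        |YY P (YY P (fun q => sgn * b' * bit cs n tj q)) p| ≤ Cf * (b' / ell cs n ^ 2))
    (hS1 : ∫ p in St P cs n tj 1, en P δ v p ≤ E)
    (hS2 : ∫ p in St P cs n tj (-1), en P δ v p ≤ E)
    (hst : ∫ p in {p | |p.2 - tj| ≤ 3 / 2 * ell cs n ∧ |P p - P (0, tj)| ≤ 2 * hs cs n},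
      ((YY P (fun q => v q + k * (sgn * b' * bit cs n tj q)) p) ^ 2
        + δ * (XX P (fun q => v q + k * (sgn * b' * bit cs n tj q)) p) ^ 2) * dx P p
    ≤ C2 * (∫ p in {p | |p.2 - tj| < 4 * ell cs n ∧ 2 * hs cs n < -(P p - P (0, tj)) ∧
        -(P p - P (0, tj)) < 4 * hs cs n},
        ((YY P (fun q => v q + k * (sgn * b' * bit cs n tj q)) p) ^ 2
        + δ * (XX P (fun q => v q + k * (sgn * b' * bit cs n tj q)) p) ^ 2) * dx P p)
      + C2 * (hs cs n ^ 2 / δ) * ∫ p in {p | |p.2 - tj| ≤ 3 * ell cs n ∧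
          |P p - P (0, tj)| ≤ 4 * hs cs n}, (Ft p) ^ 2 * dx P p) :
    (∫ p in Win P cs n tj (3 / 2) 3, en P δ (fun q => v q + k * (sgn * b' * bit cs n tj q)) p)
      ≤ (C2 + 2) * E + (C2 * (1001 * (1 + 6 * Cf) ^ 2) * (5 / 2) ^ 3)
          * (varpi cs n ^ 3 * b' ^ 2 / δ ^ 3) ∧
    (∫ p in Win P cs n tj (3 / 2) 3 \ Win P cs n tj (3 / 2) 2,
      en P δ (fun q => v q + k * (sgn * b' * bit cs n tj q)) p) ≤ 2 * E := by
  have hn1 : (1 : ℝ) ≤ n := by exact_mod_cast hn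
  have hn0 : (0 : ℝ) < n := by linarith only [hn1]
  have hl : 0 < ell cs n := by unfold ell; positivity
  have hv0 : 0 < varpi cs n := by unfold varpi; positivity
  have hh : 0 < hs cs n := by unfold hs; (clear * - hv0 hl; positivity)
  have hring := ring_le hP hδ hcs hn h0 htj hS hv k (sgn * b')
  have hring2 : (∫ p in Win P cs n tj (3 / 2) 3 \ Win P cs n tj (3 / 2) 2,
      en P δ (fun q => v q + k * (sgn * b' * bit cs n tj q)) p) ≤ 2 * E := by linarith only [hS1, hS2, hring]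
  refine ⟨?_, hring2⟩
  have sb : ContDiff ℝ 2 (fun q => v q + k * (sgn * b' * bit cs n tj q)) := by
    have sb : ContDiff ℝ ∞ (bit cs n tj) := bit_smooth cs n tj
    have sb2 : ContDiff ℝ 2 (bit cs n tj) := by exact_mod_cast contDiff_infty.1 sb 2
    exact hv.add (contDiff_const.mul (contDiff_const.mul sb2))
  rw [win_split hP sb hh]
  have e1 : {p : Pl | |p.2 - tj| < 4 * ell cs n ∧ 2 * hs cs n < -(P p - P (0, tj)) ∧
        -(P p - P (0, tj)) < 4 * hs cs n} = St P cs n tj (-1) := by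
    ext p
    simp only [St, Set.mem_ofPred_eq, neg_one_mul]
  have e2 : ∫ p in St P cs n tj (-1),
        ((YY P (fun q => v q + k * (sgn * b' * bit cs n tj q)) p) ^ 2
        + δ * (XX P (fun q => v q + k * (sgn * b' * bit cs n tj q)) p) ^ 2) * dx P p
      = ∫ p in St P cs n tj (-1), en P δ v p := by
    refine setIntegral_congr_fun (St_open hP (-1)).measurableSet fun p hp => ?_
    have h1 := far hP hcs hn h0 htj hS v k (sgn * b') (St_far (Or.inr rfl) hp)
    simp only [en, t3_XX_congr h1, t3_YY_congr h1]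
  rw [e1, e2] at hst
  have hK : ∀ p ∈ Win P cs n tj 3 4, |Ft p| ≤ (1 + 6 * Cf) * (b' / (ell cs n ^ 2 * δ)) := by
    intro p hp
    obtain ⟨h1, h2⟩ := hF p hp
    have h3 : |k| ≤ 6 / δ := by
      have : 0 < 3 / δ := by positivity
      rw [abs_of_nonpos (by linarith only [hk, this])]
      linarith only [hk2]
    have h4 : |k * YY P (YY P (fun q => sgn * b' * bit cs n tj q)) p|
        ≤ 6 / δ * (Cf * (b' / ell cs n ^ 2)) := by
      rw [abs_mul]
      (clear * - h3 h2 hδ; gcongr)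
    have h5 : |Ft p| ≤ |Ft p - k * YY P (YY P (fun q => sgn * b' * bit cs n tj q)) p|
        + |k * YY P (YY P (fun q => sgn * b' * bit cs n tj q)) p| := by
      have := abs_add_le (Ft p - k * YY P (YY P (fun q => sgn * b' * bit cs n tj q)) p)
        (k * YY P (YY P (fun q => sgn * b' * bit cs n tj q)) p)
      rwa [sub_add_cancel] at this
    have h6 : 1 / (n : ℝ) * (b' / (ell cs n ^ 2 * δ)) ≤ 1 * (b' / (ell cs n ^ 2 * δ)) := by
      gcongr
      rw [div_le_one hn0]; exact hn1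
    have h7 : 6 / δ * (Cf * (b' / ell cs n ^ 2)) = 6 * Cf * (b' / (ell cs n ^ 2 * δ)) := by
      (clear * - hl hb hCf hδ; field_simp)
    rw [h7] at h4
    linarith only [h1, h4, h5, h6]
  have hFi := F_int (Ft := Ft) hP
    (win_compact (cs := cs) (n := n) (tj := tj) hP 3 4).measure_lt_top hvol hK
  have hst2 : (∫ p in Win P cs n tj (3 / 2) 2,
      en P δ (fun q => v q + k * (sgn * b' * bit cs n tj q)) p)
      ≤ C2 * E + C2 * (hs cs n ^ 2 / δ) * (((1 + 6 * Cf) * (b' / (ell cs n ^ 2 * δ))) ^ 2 * 1.001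
        * (1000 * (ell cs n * hs cs n))) := by
    refine le_trans hst ?_
    have g1 : C2 * ∫ p in St P cs n tj (-1), en P δ v p ≤ C2 * E := by (clear * - hS2 hC2; gcongr)
    have g2 : C2 * (hs cs n ^ 2 / δ) * ∫ p in {p | |p.2 - tj| ≤ 3 * ell cs n ∧
          |P p - P (0, tj)| ≤ 4 * hs cs n}, (Ft p) ^ 2 * dx P p
        ≤ C2 * (hs cs n ^ 2 / δ) * (((1 + 6 * Cf) * (b' / (ell cs n ^ 2 * δ))) ^ 2 * 1.001
        * (1000 * (ell cs n * hs cs n))) :=
      mul_le_mul_of_nonneg_left hFi (by (clear * - hC2 hh hδ; positivity))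
    exact add_le_add g1 g2
  have e3 : C2 * (hs cs n ^ 2 / δ) * (((1 + 6 * Cf) * (b' / (ell cs n ^ 2 * δ))) ^ 2 * 1.001
        * (1000 * (ell cs n * hs cs n)))
      = (C2 * (1001 * (1 + 6 * Cf) ^ 2) * (5 / 2) ^ 3) * (varpi cs n ^ 3 * b' ^ 2 / δ ^ 3) := by
    unfold hs
    field_simp
    norm_num
  rw [e3] at hst2
  linarith only [hS1, hS2, hring, hst2]

end PF

/-- The contradiction at a differing bit. -/
theorem pair_false : ∃ c0 : ℝ, 0 < c0 ∧ ∀ M : ℝ, 1 ≤ M → ∀ cs : ℝ, 0 < cs → cs ≤ c0 / M →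
    ∀ (Cw : ℝ) (qb : ℕ), 1000 ≤ qb → ∃ n0 : ℕ, ∀ n : ℕ, n0 ≤ n →
    ∀ (P v a α e1 e2 F g : Pl → ℝ) (δ b' tj sgn : ℝ), PairEq P v a α e1 e2 F δ →
    1 / (4 * M ^ 2 * (n : ℝ) ^ 16) ≤ δ → δ ≤ 4 * M ^ 2 / (n : ℝ) ^ 16 →
    1 / (4 * M ^ 2 * (n : ℝ) ^ qb) ≤ b' → b' ≤ 1 →
    0 ≤ tj → tj ≤ cs / (n : ℝ) ^ 8 → (sgn = 1 ∨ sgn = -1) →
    -- slope of the level sets of `P` near the cluster of bits
    (∀ p : Pl, |p.1| ≤ 2 * cs / (n : ℝ) ^ 8 → |p.2| ≤ 2 * cs / (n : ℝ) ^ 8 →
      |dt P p| ≤ 1.1 * varpi cs n) →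
    -- no other bit inside the cones
    (∀ p, rho2 p < 0.64 →
      |p.2 - tj| ≤ 5 * ell cs n + 4 * |P p - P (0, tj)| / Real.sqrt δ →
      hs cs n ≤ |P p - P (0, tj)| → F p = 0) →
    -- the forcing in the window around the bit
    ContDiff ℝ 1 g → (∀ p, rho2 p < 0.64 → |g p - 1| ≤ 1 / 10 ∧ |dx g p| ≤ 1 ∧ |dt g p| ≤ 1) →
    (∀ p : Pl, |p.2 - tj| ≤ 3 * ell cs n → |P p - P (0, tj)| ≤ 5 * hs cs n →
      |F p + g p * (sgn * b') * (dx (dx (bit cs n tj)) p + dt (dt (bit cs n tj)) p)|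
        ≤ Cw * b' / (varpi cs n * ell cs n)) →
    -- smallness on the left and on the right
    ∫ p in Om P n M 1, (dx v p ^ 2 + dt v p ^ 2) ≤ 1 / (n : ℝ) ^ (4 * qb + 5000) →
    False := by
  obtain ⟨C2, hC2, hstep2⟩ := step2
  obtain ⟨Cf, hCf, hfb⟩ := forcing_bound
  obtain ⟨Ct, hCt, hti⟩ := test_ineq
  obtain ⟨Cs, hCs, hts⟩ := test_size
  have hR : 0 ≤ C2 * (1001 * (1 + 6 * Cf) ^ 2) * (5 / 2) ^ 3 := by positivity
  obtain ⟨r, hr, hr2⟩ : ∃ r : ℝ, 0 ≤ r ∧ r ^ 2 = C2 * (1001 * (1 + 6 * Cf) ^ 2) * (5 / 2) ^ 3 :=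
    ⟨_, Real.sqrt_nonneg _, Real.sq_sqrt hR⟩
  have hden : 0 < 1000 + 80 * Ct * r := by (clear * - hCt hr; positivity)
  refine ⟨1 / (1000 + 80 * Ct * r), by (clear * - hCt hr; positivity), ?_⟩
  intro M hM cs hcs hcs0 Cw qb hqb
  have hM0 : 0 < M := by linarith only [hM]
  have hcM : cs * M ≤ 1 / (1000 + 80 * Ct * r) := by rwa [le_div_iff₀ hM0] at hcs0
  have hc1000 : 1 / (1000 + 80 * Ct * r) ≤ 1 / 1000 := by
    apply one_div_le_one_div_of_le (by norm_num)
    have : 0 ≤ 80 * Ct * r := by (clear * - hCt hr; positivity)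
    linarith only [this]
  have hcs1 : cs ≤ 1 / (1000 * M) := by
    rw [← div_div]
    refine hcs0.trans ?_
    (clear * - hc1000 hM; gcongr)
  have hcs3 : cs ≤ 1 / 1000 := hcs1.trans (by
    rw [div_le_div_iff₀ (by positivity) (by norm_num)]; linarith only [hM])
  have hc0 : 20 * Ct * r * (cs * M) ^ 2 ≤ 1 / 4 := by
    have h1 : (cs * M) ^ 2 ≤ 1 / (1000 + 80 * Ct * r) := by
      have h2 : 0 ≤ cs * M := by (clear * - hcs hM; positivity)
      have h3 : cs * M ≤ 1 := by linarith only [hcM, hc1000]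
      nlinarith only [hcM, h2, hc1000]
    calc 20 * Ct * r * (cs * M) ^ 2 ≤ 20 * Ct * r * (1 / (1000 + 80 * Ct * r)) := by (clear * - h1 hCt hr; gcongr)
      _ ≤ 1 / 4 := by
        rw [mul_one_div, div_le_div_iff₀ hden (by norm_num)]
        linarith only []
  obtain ⟨nA, hA⟩ := step1 M hM cs hcs hcs1 (4 * qb + 5000)
  obtain ⟨nB, hB⟩ := hstep2 M hM cs hcs hcs1
  obtain ⟨nC, hC⟩ := hfb M hM cs hcs hcs1 Cw
  obtain ⟨nD, hD⟩ := hti M hM cs hcs hcs1
  obtain ⟨nE, hE⟩ := hts M hM cs hcs hcs1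
  obtain ⟨nF, hFm⟩ := main_term M hM cs hcs hcs1
  obtain ⟨nG, hGn⟩ := PF.num hCt hC2 hr hM hcs (by linarith only [hcs3]) hc0 qb
  obtain ⟨nH, hH2, hHn⟩ := PF.exists_N (10010 * Cs)
  refine ⟨nA + nB + nC + nD + nE + nF + nG + nH, fun n hn => ?_⟩
  replace hA := hA n (by omega)
  replace hB := hB n (by omega)
  replace hC := hC n (by omega)
  replace hD := hD n (by omega)
  replace hE := hE n (by omega)
  replace hFm := hFm n (by omega)
  replace hGn := hGn n (by omega)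
  replace hHn := hHn n (by omega)
  have hn1 : 1 ≤ n := by omega
  intro P v a α e1 e2 F g δ b' tj sgn hPE hδ1 hδ2 hb1 hb2 h0 htj hsgn hS hcone hg hgb hwin hOm
  have hP := hPE.frame
  have hδ := hPE.δ_pos
  have hδ3 : δ ≤ 1 := by linarith only [hPE.δ_small]
  have hnpos : (0 : ℝ) < n := by exact_mod_cast (by omega : 0 < n)
  have hb0 : 0 < b' := lt_of_lt_of_le (by (clear * - hM hn1; positivity)) hb1
  have hPj := PF.pj_small hP hcs (by linarith only [hcs3]) hn1 h0 htj hS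
  obtain ⟨k, hk1, hk2, hkF⟩ := hC P v a α e1 e2 F g δ b' tj sgn hPE hδ1 hδ2 hb0 h0 htj hsgn hS hg
    hgb hwin
  have hψs : ContDiff ℝ ∞ (fun q => sgn * b' * bit cs n tj q) :=
    contDiff_const.mul (bit_smooth cs n tj)
  have hPE' := hPE.add_psi k hψs
  obtain ⟨hG1, hG2, hG3⟩ := hE P tj hP h0 htj hPj
  obtain ⟨-, -, hvol1⟩ := hG3 (3 / 2) 3 (by norm_num) (by norm_num) (by norm_num) (by norm_num)
  obtain ⟨-, -, hvol2⟩ := hG3 3 4 (by norm_num) (by norm_num) (by norm_num) (by norm_num)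
  obtain ⟨hm1, hm2⟩ := hFm P tj hP h0 htj hS
  -- the side strips
  have hstrip : ∀ sg : ℝ, (sg = 1 ∨ sg = -1) →
      ∫ p in PF.St P cs n tj sg, PF.en P δ v p ≤ (n : ℝ) ^ 20 / (n : ℝ) ^ (4 * qb + 5000) := by
    intro sg hsg
    refine hA P v a α e1 e2 F δ hPE hδ1 hδ2 tj h0 htj hPj sg hsg (fun p hp h1 h2 => ?_) hOm
    refine hcone p hp h1 (h2.trans ?_)
    rcases hsg with h | h <;> rw [h]
    · rw [one_mul]; exact le_abs_self _
    · rw [neg_one_mul]; exact neg_le_abs _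
  have hst := hB P _ a α e1 e2 _ δ hPE' hδ1 hδ2 tj h0 htj hPj
  obtain ⟨hw1, hw2⟩ := PF.window (Ft := fun p => F p + k * Qop P a α e1 e2
      (fun q => sgn * b' * bit cs n tj q) p) hP hcs hn1 hδ hb0 hC2 hCf h0 htj hS hsgn hk1 hk2
    hPE.v_smooth hvol2 hkF (hstrip 1 (Or.inl rfl)) (hstrip (-1) (Or.inr rfl)) hst
  have hlow := PF.lower (Ft := fun p => F p + k * Qop P a α e1 e2
      (fun q => sgn * b' * bit cs n tj q) p) hP hcs hn1 hδ hb0 hCs hHn hsgn hk1 hPE'.F_cont hG1 hG2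
    hvol1 (fun p hp => (hkF p ⟨hp.1.trans ?_, hp.2.trans ?_⟩).1) hm1 hm2
  · have hup := hD P _ a α e1 e2 _ δ tj hPE' hδ1 hδ2 h0 htj hPj
    have hm3 := (PF.win_compact (cs := cs) (n := n) (tj := tj) hP (3 / 2) 3).measurableSet
    have hm4 := (PF.win_compact (cs := cs) (n := n) (tj := tj) hP (3 / 2) 2).measurableSet
    obtain ⟨q1, q3⟩ := PF.sq_int_le hP hδ hPE'.v_smooth hm3
      (PF.win_compact (cs := cs) (n := n) (tj := tj) hP (3 / 2) 3) le_rfl
    obtain ⟨q2, -⟩ := PF.sq_int_le hP hδ hPE'.v_smooth (hm3.diff hm4)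
      (PF.win_compact (cs := cs) (n := n) (tj := tj) hP (3 / 2) 3) Set.sdiff_subset
    rw [← hr2] at hw1
    have hE0 : 0 ≤ (n : ℝ) ^ 20 / (n : ℝ) ^ (4 * qb + 5000) := by positivity
    have hfin := hGn δ b' _ _ _ hδ1 hδ2 hδ3 hb1
      (q1.trans (div_le_div_of_nonneg_right hw1 hδ.le))
      (q2.trans (div_le_div_of_nonneg_right (hw2.trans
        (mul_le_mul_of_nonneg_right (by linarith only [hC2]) hE0)) hδ.le)) (q3.trans hw1)
    have hpos : 0 < b' * varpi cs n / δ := by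
      have : 0 < varpi cs n := by unfold varpi; positivity
      (clear * - hb0 this hδ; positivity)
    have := hlow.trans (hup.trans hfin)
    linarith only [hlow, hup, hfin, hpos]
  · have : 0 < ell cs n := by unfold ell; positivity
    linarith only [this]
  · have : 0 < hs cs n := by unfold hs varpi ell; positivity
    linarith only [this]

end Vale.Agent.P229.D
end
end

section

section

/-!
# P229, disproof, task T14a: geometry of the bits in the frame, part 1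
-/

open scoped ContDiff Topology RealInnerProductSpace
open MeasureTheory Set

namespace Vale.Agent.P229.D

theorem t14a_norm_fderiv_le (g : Pl → ℝ) (q : Pl) : ‖fderiv ℝ g q‖ ≤ |dx g q| + |dt g q| := by
  refine ContinuousLinearMap.opNorm_le_bound _ (by positivity) fun v => ?_
  rw [fderiv_eq, Real.norm_eq_abs]
  have h1 : |v.1| ≤ ‖v‖ := by
    rw [← Real.norm_eq_abs]
    exact norm_fst_le v
  have h2 : |v.2| ≤ ‖v‖ := by
    rw [← Real.norm_eq_abs]
    exact norm_snd_le v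
  calc |v.1 * dx g q + v.2 * dt g q| ≤ |v.1 * dx g q| + |v.2 * dt g q| := abs_add_le _ _
    _ = |v.1| * |dx g q| + |v.2| * |dt g q| := by rw [abs_mul, abs_mul]
    _ ≤ ‖v‖ * |dx g q| + ‖v‖ * |dt g q| := by gcongr
    _ = (|dx g q| + |dt g q|) * ‖v‖ := by ring

/-- The mixed second derivative of the reference solution. -/
theorem t14a_dtdx_ref {f u : Pl → ℝ} (hu : ContDiff ℝ 4 u) (hf : f = fun q => u q - q.1 ^ 2 / 2) :
    dt (dx f) = dt (dx u) := by
  have h1 : dx f = fun q => dx u q - q.1 := by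
    funext q
    rw [hf]
    have hd : DifferentiableAt ℝ (fun q : Pl => q.1 ^ 2 / 2) q := by fun_prop
    rw [dx_sub ((hu.differentiable (by norm_num)).differentiableAt) hd]
    congr 1
    have e : HasFDerivAt (fun q : Pl => q.1 ^ 2 / 2)
        ((q.1) • ContinuousLinearMap.fst ℝ ℝ ℝ) q := by
      have := ((hasFDerivAt_fst (𝕜 := ℝ) (p := q) (E := ℝ) (F := ℝ)).pow 2).mul_const (1 / 2 : ℝ)
      refine (this.congr_fderiv ?_).congr_of_eventuallyEq ?_
      · ext <;> simp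
      · filter_upwards with z
        simp
        ring
    unfold dx
    rw [e.fderiv]
    simp
  funext q
  have hdu : ContDiff ℝ 3 (dx u) := contDiff_dx hu (by norm_num)
  rw [h1, dt_sub ((hdu.differentiable (by norm_num)).differentiableAt) (by fun_prop), dt_fst]
  ring

/-- the slope hypothesis for a normalised family. -/
theorem NormFam.slopeHyp {n : ℕ} {M cs δ ι b' ε : ℝ} {G : Pl → ℝ}
    {S : Finset (Fin (n ^ 107) → Bool)} {s0 : Fin (n ^ 107) → Bool}
    {u : (Fin (n ^ 107) → Bool) → Pl → ℝ} (h : NormFam n M cs δ ι b' ε G S s0 u)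
    (hε : 0 ≤ ε) (hε1 : ε ≤ 1 / 1000) (hcs : 0 < cs) (hn : 1 ≤ n) :
    SlopeHyp (dx (u s0)) cs n := by
  intro p hp1 hp2
  have hn0 : (0 : ℝ) < n := by exact_mod_cast hn
  have hw : 0 < varpi cs n := by unfold varpi; positivity
  have hu := h.smooth s0 h.s0_mem
  have hg : ContDiff ℝ 2 (dt (dx (u s0))) :=
    contDiff_dt (n := 3) (contDiff_dx hu (by norm_num)) (by norm_num)
  have hb : ∀ q, ‖fderiv ℝ (dt (dx (u s0))) q‖ ≤ 2 * ε := by
    intro q
    have hr := h.ref q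
    have hr2 : Dle 1 (dt (dx (fun q => u s0 q - q.1 ^ 2 / 2))) ε q := hr.2.1.2.2
    rw [t14a_dtdx_ref hu rfl] at hr2
    have h1 : |dx (dt (dx (u s0))) q| ≤ ε := hr2.2.1
    have h2 : |dt (dt (dx (u s0))) q| ≤ ε := hr2.2.2
    have := t14a_norm_fderiv_le (dt (dx (u s0))) q
    linarith only [h1, h2, this]
  have hmv := Convex.norm_image_sub_le_of_norm_fderiv_le (𝕜 := ℝ) (s := (Set.univ : Set Pl))
    (f := dt (dx (u s0))) (x := 0) (y := p) (C := 2 * ε)
    (fun q _ => (hg.differentiable (by norm_num)).differentiableAt) (fun q _ => hb q)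
    convex_univ (Set.mem_univ _) (Set.mem_univ _)
  rw [Real.norm_eq_abs, sub_zero] at hmv
  have hnp : ‖p‖ ≤ 2 * varpi cs n := by
    rw [Prod.norm_def]
    refine max_le ?_ ?_
    · rw [Real.norm_eq_abs]
      refine hp1.trans (le_of_eq ?_)
      unfold varpi
      ring
    · rw [Real.norm_eq_abs]
      refine hp2.trans (le_of_eq ?_)
      unfold varpi
      ring
  have hsl := h.slope
  have h3 : |dt (dx (u s0)) p| ≤ |dt (dx (u s0)) p - dt (dx (u s0)) 0| + |dt (dx (u s0)) 0| := by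
    have := abs_add_le (dt (dx (u s0)) p - dt (dx (u s0)) 0) (dt (dx (u s0)) 0)
    simpa only [ge_iff_le, sub_add_cancel] using this
  have h4 : 2 * ε * ‖p‖ ≤ 2 * (1 / 1000) * (2 * varpi cs n) := by (clear * - hε1 hnp; gcongr)
  linarith only [hw, hmv, hsl, h3, h4]

/-- Points where a bit can be seen. -/
theorem t14a_bits_near {cs : ℝ} (hcs : 0 < cs) {n : ℕ} (hn : 1 ≤ n) (s : Fin (n ^ 107) → Bool)
    {p : Pl} (h : varpi cs n * ell cs n < |p.1| ∨ p.2 < -ell cs n ∨ cs / (n : ℝ) ^ 8 < p.2) :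
    ∀ᶠ q in 𝓝 p, bits cs n s q = 0 := by
  have hc1 : Continuous fun q : Pl => |q.1| := by fun_prop
  have hc2 : Continuous fun q : Pl => q.2 := by fun_prop
  rcases h with h | h | h
  · filter_upwards [(hc1.tendsto p).eventually_const_lt h] with q hq
    exact bits_eq_zero hcs hn s (Or.inl hq.le)
  · filter_upwards [(hc2.tendsto p).eventually_lt_const h] with q hq
    exact bits_eq_zero hcs hn s (Or.inr (Or.inl hq.le))
  · filter_upwards [(hc2.tendsto p).eventually_const_lt h] with q hq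
    exact bits_eq_zero hcs hn s (Or.inr (Or.inr hq.le))

theorem t14a_psi_near {cs : ℝ} (hcs : 0 < cs) {n : ℕ} (hn : 1 ≤ n) (b' : ℝ)
    (s s' : Fin (n ^ 107) → Bool)
    {p : Pl} (h : varpi cs n * ell cs n < |p.1| ∨ p.2 < -ell cs n ∨ cs / (n : ℝ) ^ 8 < p.2) :
    ∀ᶠ q in 𝓝 p, psi cs b' n s s' q = 0 := by
  filter_upwards [t14a_bits_near hcs hn s h, t14a_bits_near hcs hn s' h] with q h1 h2
  unfold psi
  rw [h1, h2]
  ring

/-- `psi` vanishes near `p` if `|P p|` is large or `ρ² > 1/4`. -/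
theorem psi_far (M : ℝ) (hM : 1 ≤ M) : ∃ n0 : ℕ, ∀ n : ℕ, n0 ≤ n → ∀ (P : Pl → ℝ) (cs : ℝ),
    Frame P → 0 < cs → cs ≤ 1 / (1000 * M) → SlopeHyp P cs n →
    ∀ (b' : ℝ) (s s' : Fin (n ^ 107) → Bool) (p : Pl),
    (dK n M 0 < |P p| ∨ 1 / 4 < rho2 p) → ∀ᶠ q in 𝓝 p, psi cs b' n s s' q = 0 := by
  refine ⟨1, fun n hn P cs hP hcs hcs1 _ b' s s' p hp => ?_⟩
  refine t14a_psi_near hcs hn b' s s' ?_
  by_contra hcon
  push Not at hcon
  obtain ⟨h1, h2, h3⟩ := hcon
  have hn1 : (1 : ℝ) ≤ n := by exact_mod_cast hn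
  have hn0 : (0 : ℝ) < n := by linarith only [hn1]
  have hM0 : 0 < M := by linarith only [hM]
  have h8 : (1 : ℝ) ≤ (n : ℝ) ^ 8 := one_le_pow₀ hn1
  have h815 : (n : ℝ) ^ 8 ≤ (n : ℝ) ^ 115 := pow_le_pow_right₀ hn1 (by norm_num)
  have hcs2 : cs ≤ 1 / 1000 := by
    refine hcs1.trans (div_le_div_of_nonneg_left (by norm_num) (by norm_num) ?_)
    linarith only [hM]
  have hw : 0 < varpi cs n := by unfold varpi; positivity
  have hw1 : varpi cs n ≤ 1 / 1000 := by
    unfold varpi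
    exact (div_le_self hcs.le h8).trans hcs2
  have hl : 0 < ell cs n := by unfold ell; positivity
  have hlw : ell cs n ≤ varpi cs n := by
    unfold ell varpi
    apply div_le_div_of_nonneg_left hcs.le (by positivity)
    linarith only [h8, h815]
  have hx : |p.1| ≤ varpi cs n / 1000 := by
    refine h1.trans ?_
    calc varpi cs n * ell cs n ≤ varpi cs n * (1 / 1000) := by gcongr; linarith only [hw1, hlw]
      _ = varpi cs n / 1000 := by ring
  have ht : |p.2| ≤ varpi cs n := by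
    rw [abs_le]
    refine ⟨by linarith only [h2, hlw], ?_⟩
    unfold varpi
    exact h3
  have hPp : |P p| ≤ varpi cs n / 100 := by
    have a1 := hP.abs_sub_fst_le p
    have a2 : |P p| ≤ |P p - p.1| + |p.1| := by
      have := abs_add_le (P p - p.1) p.1
      simpa only [ge_iff_le, sub_add_cancel] using this
    linarith only [hw, hx, ht, a1, a2]
  rcases hp with hp | hp
  · have hd : varpi cs n ≤ dK n M 0 := by
      unfold varpi dK
      calc cs / (n : ℝ) ^ 8 ≤ 1 / (1000 * M) / (n : ℝ) ^ 8 := by (clear * - hcs1 hn; gcongr)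
        _ = 1 / (1000 * M * (n : ℝ) ^ 8) := by rw [div_div]
        _ ≤ (1 + 0) / (200 * M * (n : ℝ) ^ 8) := by
          rw [add_zero]
          apply div_le_div_of_nonneg_left (by norm_num) (by positivity)
          gcongr
          norm_num
    linarith only [hw, hPp, hp, hd]
  · have b1 : p.1 ^ 2 ≤ (1 / 100) ^ 2 := by
      rw [← sq_abs p.1]
      exact pow_le_pow_left₀ (abs_nonneg _) (by linarith only [hw1, hx]) 2
    have b2 : p.2 ^ 2 ≤ (1 / 100) ^ 2 := by
      rw [← sq_abs p.2]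
      exact pow_le_pow_left₀ (abs_nonneg _) (by linarith only [hw1, ht]) 2
    unfold rho2 at hp
    norm_num at b1 b2 hp
    linarith only [b1, b2, hp]

end Vale.Agent.P229.D
end
end

section

section

/-!
# P229, disproof, task T14a: geometry of the bits in the frame
-/

open scoped ContDiff Topology RealInnerProductSpace
open MeasureTheory Set

namespace Vale.Agent.P229.D

/-- Variation of `P` between a point near the cluster and a centre. -/
theorem t14a_P_var {P : Pl → ℝ} (hP : Frame P) {cs : ℝ} {n : ℕ}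
    (hs : SlopeHyp P cs n) {tj : ℝ} (h0 : |tj| ≤ 2 * cs / (n : ℝ) ^ 8) {p : Pl}
    (h1 : |p.2| ≤ 2 * cs / (n : ℝ) ^ 8) :
    |P p - P (0, tj)| ≤ 1.001 * |p.1| + 1.1 * varpi cs n * |p.2 - tj| := by
  have dP : Differentiable ℝ P := hP.smooth.differentiable (by norm_num)
  have k1 : |P (p.1, p.2) - P (0, p.2)| ≤ 1.001 * |p.1 - 0| := by
    have := Convex.norm_image_sub_le_of_norm_hasDerivWithin_le (s := (Set.univ : Set ℝ))
      (f := fun y => P (y, p.2)) (f' := fun y => dx P (y, p.2)) (x := 0) (y := p.1)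
      (C := 1.001)
      (fun y _ => (hasDerivAt_fst (p := (y, p.2)) (dP _)).hasDerivWithinAt)
      (fun y _ => by
        rw [Real.norm_eq_abs, abs_of_pos (hP.dx_pos _)]
        have := hP.dx_le (y, p.2)
        norm_num at this ⊢
        exact this) convex_univ (Set.mem_univ _) (Set.mem_univ _)
    simpa only [Prod.mk.eta, sub_zero, ge_iff_le, Real.norm_eq_abs] using this
  have k2 : |P (0, p.2) - P (0, tj)| ≤ 1.1 * varpi cs n * |p.2 - tj| := by
    have := Convex.norm_image_sub_le_of_norm_hasDerivWithin_le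
      (s := Set.Icc (-(2 * cs / (n : ℝ) ^ 8)) (2 * cs / (n : ℝ) ^ 8))
      (f := fun y => P (0, y)) (f' := fun y => dt P (0, y)) (x := tj) (y := p.2)
      (C := 1.1 * varpi cs n)
      (fun y _ => (hasDerivAt_snd (p := (0, y)) (dP _)).hasDerivWithinAt)
      (fun y hy => by
        rw [Real.norm_eq_abs]
        refine hs (0, y) ?_ (abs_le.2 hy)
        simp only [abs_zero]
        exact (abs_nonneg _).trans h0)
      (convex_Icc _ _) (abs_le.1 h0) (abs_le.1 h1)
    simpa only [ge_iff_le, Real.norm_eq_abs] using this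
  have e : P p - P (0, tj) = (P (p.1, p.2) - P (0, p.2)) + (P (0, p.2) - P (0, tj)) := by
    simp
  rw [e]
  rw [sub_zero] at k1
  exact (abs_add_le _ _).trans (add_le_add k1 k2)

/-- `√δ` against `ϖ`. -/
theorem t14a_varpi_sqrt {M cs δ : ℝ} (hM : 1 ≤ M) (hcs1 : cs ≤ 1 / (1000 * M)) {n : ℕ}
    (hn : 1 ≤ n) (hδ : 1 / (4 * M ^ 2 * (n : ℝ) ^ 16) ≤ δ) :
    0 < Real.sqrt δ ∧ varpi cs n ≤ Real.sqrt δ / 500 := by
  have hn0 : (0 : ℝ) < n := by exact_mod_cast hn
  have hM0 : 0 < M := by linarith only [hM]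
  have h1 : 1 / (2 * M * (n : ℝ) ^ 8) ≤ Real.sqrt δ := by
    apply Real.le_sqrt_of_sq_le
    refine le_trans (le_of_eq ?_) hδ
    rw [div_pow, one_pow]
    congr 1
    ring
  refine ⟨lt_of_lt_of_le (by positivity) h1, ?_⟩
  have h2 : varpi cs n ≤ 1 / (1000 * M) / (n : ℝ) ^ 8 := by
    unfold varpi
    gcongr
  refine h2.trans ?_
  have e : 1 / (1000 * M) / (n : ℝ) ^ 8 = 1 / (2 * M * (n : ℝ) ^ 8) / 500 := by
    field_simp
    norm_num
  rw [e]
  (clear * - h1; gcongr)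

theorem t14a_cone_bits {M cs δ : ℝ} (hM : 1 ≤ M) {P : Pl → ℝ} (hP : Frame P) (hcs : 0 < cs)
    (hcs1 : cs ≤ 1 / (1000 * M)) {n : ℕ} (hn : 1 ≤ n) (hslope : SlopeHyp P cs n)
    (hδ : 1 / (4 * M ^ 2 * (n : ℝ) ^ 16) ≤ δ) (s : Fin (n ^ 107) → Bool) (j : Fin (n ^ 107))
    (htj : 0 ≤ tJ cs n j ∧ tJ cs n j ≤ cs / (n : ℝ) ^ 8)
    (ht : ∀ i : Fin (n ^ 107), 0 ≤ tJ cs n i ∧ tJ cs n i ≤ cs / (n : ℝ) ^ 8) {p : Pl}
    (h1 : |p.2 - tJ cs n j| ≤ 5 * ell cs n + 4 * |P p - P (0, tJ cs n j)| / Real.sqrt δ)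
    (h2 : hs cs n ≤ |P p - P (0, tJ cs n j)|) : ∀ᶠ q in 𝓝 p, bits cs n s q = 0 := by
  have hn1 : (1 : ℝ) ≤ n := by exact_mod_cast hn
  have hn0 : (0 : ℝ) < n := by linarith only [hn1]
  have hw := bits2_varpi_pos hcs hn
  have hl := bits2_ell_pos hcs hn
  obtain ⟨hsq, hwsq⟩ := t14a_varpi_sqrt hM hcs1 hn hδ
  rcases bits_local hcs hn s p with h | ⟨i, -, h⟩
  · exact h
  · have key : ell cs n < |p.2 - tJ cs n i| ∨ varpi cs n * ell cs n < |p.1| := by
      by_contra hcon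
      push Not at hcon
      obtain ⟨c1, c2⟩ := hcon
      obtain ⟨ti0, ti1⟩ := ht i
      have hlw : ell cs n ≤ cs / (n : ℝ) ^ 8 := by
        unfold ell
        apply div_le_div_of_nonneg_left hcs.le (by positivity)
        have h815 : (n : ℝ) ^ 8 ≤ (n : ℝ) ^ 115 := pow_le_pow_right₀ hn1 (by norm_num)
        have h115 : 0 < (n : ℝ) ^ 115 := by positivity
        linarith only [h815, h115]
      have e8 : 2 * cs / (n : ℝ) ^ 8 = 2 * (cs / (n : ℝ) ^ 8) := by ring
      have hp2 : |p.2| ≤ 2 * cs / (n : ℝ) ^ 8 := by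
        rw [e8, abs_le]
        have := abs_le.1 c1
        constructor <;> linarith only [hl, ti0, hlw, this, ti1]
      have htj' : |tJ cs n j| ≤ 2 * cs / (n : ℝ) ^ 8 := by
        rw [e8, abs_of_nonneg htj.1]
        linarith only [htj]
      have hvar := t14a_P_var hP hslope htj' hp2
      obtain ⟨D, hD⟩ : ∃ D, D = |p.2 - tJ cs n j| := ⟨_, rfl⟩
      obtain ⟨T, hT⟩ : ∃ T, T = |P p - P (0, tJ cs n j)| := ⟨_, rfl⟩
      rw [← hD, ← hT] at hvar h1
      rw [← hT] at h2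
      have hD0 : 0 ≤ D := by rw [hD]; exact abs_nonneg _
      have hT1 : T ≤ varpi cs n * (1.001 * ell cs n + 1.1 * D) := by
        have : 1.001 * |p.1| ≤ 1.001 * (varpi cs n * ell cs n) := by (clear * - c2; gcongr)
        linarith only [c2, hvar]
      have hT2 : 4 * T / Real.sqrt δ ≤ 4 * (1.001 * ell cs n + 1.1 * D) / 500 := by
        rw [div_le_iff₀ hsq]
        have h3 : varpi cs n * (1.001 * ell cs n + 1.1 * D)
            ≤ Real.sqrt δ / 500 * (1.001 * ell cs n + 1.1 * D) := by (clear * - hwsq hl hD0; gcongr)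
        have e4 : 4 * (1.001 * ell cs n + 1.1 * D) / 500 * Real.sqrt δ
            = 4 * (Real.sqrt δ / 500 * (1.001 * ell cs n + 1.1 * D)) := by ring
        rw [e4]
        linarith only [c2, hvar, h3]
      have hD1 : D ≤ 5.1 * ell cs n := by
        norm_num at hT2 h1 ⊢
        linarith only [hl, h1, hT2]
      by_cases hij : i = j
      · rw [hij, ← hD] at c1
        have h5 : varpi cs n * (1.001 * ell cs n + 1.1 * D)
            ≤ varpi cs n * (1.001 * ell cs n + 1.1 * ell cs n) := by (clear * - c1 hw; gcongr)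
        have h6 : 0 < varpi cs n * ell cs n := mul_pos hw hl
        unfold hs at h2
        have e5 : varpi cs n * (1.001 * ell cs n + 1.1 * ell cs n)
            = 2.101 * (varpi cs n * ell cs n) := by ring
        rw [e5] at h5
        norm_num at h5 h2 hT1
        linarith only [c2, hvar, h6, h5, h2]
      · have hsep := bits2_tJ_sep hcs hn (i := (i : ℕ)) (j := (j : ℕ))
          (fun h => hij (Fin.ext h))
        have h6 : |tJ cs n i - tJ cs n j| ≤ |p.2 - tJ cs n i| + D := by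
          have e6 : tJ cs n i - tJ cs n j = (p.2 - tJ cs n j) - (p.2 - tJ cs n i) := by ring
          rw [e6, hD]
          refine (abs_sub _ _).trans ?_
          linarith only
        norm_num at hD1
        linarith only [hl, c1, h1, hT2, hsep, h6]
    have hc1 : Continuous fun q : Pl => |q.2 - tJ cs n i| := by fun_prop
    have hc2 : Continuous fun q : Pl => |q.1| := by fun_prop
    rcases key with k | k
    · filter_upwards [h, (hc1.tendsto p).eventually_const_lt k] with q hq1 hq2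
      rw [hq1]
      exact bit_eq_zero hcs hn (Or.inl hq2.le)
    · filter_upwards [h, (hc2.tendsto p).eventually_const_lt k] with q hq1 hq2
      rw [hq1]
      exact bit_eq_zero hcs hn (Or.inr hq2.le)

theorem t14a_tJ {cs : ℝ} (hcs : 0 < cs) {n : ℕ} (hn : 1 ≤ n) (j : Fin (n ^ 107)) :
    0 ≤ tJ cs n j ∧ tJ cs n j ≤ cs / (n : ℝ) ^ 8 := by
  have hn' : (1 : ℝ) ≤ n := by exact_mod_cast hn
  have hn0 : (0 : ℝ) < n := by linarith only [hn']
  have hj : ((j : ℕ) : ℝ) ≤ (n : ℝ) ^ 107 := by exact_mod_cast j.2.le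
  unfold tJ ell
  refine ⟨by (clear * - hcs hn; positivity), ?_⟩
  have e : 8 * (cs / (8 * (n : ℝ) ^ 115)) * ((j : ℕ) : ℝ) = cs / (n : ℝ) ^ 115 * ((j : ℕ) : ℝ) := by
    field_simp
  have e2 : cs / (n : ℝ) ^ 8 = cs / (n : ℝ) ^ 115 * (n : ℝ) ^ 107 := by
    have : (n : ℝ) ^ 115 = (n : ℝ) ^ 8 * (n : ℝ) ^ 107 := by rw [← pow_add]
    rw [this]
    (clear * - hn hcs; field_simp)
  rw [e, e2]
  exact mul_le_mul_of_nonneg_left hj (by positivity)

/-- `psi` vanishes in the cones of the bit `j`. -/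
theorem psi_cone (M : ℝ) (hM : 1 ≤ M) : ∃ n0 : ℕ, ∀ n : ℕ, n0 ≤ n → ∀ (P : Pl → ℝ) (cs δ : ℝ),
    Frame P → 0 < cs → cs ≤ 1 / (1000 * M) → SlopeHyp P cs n →
    1 / (4 * M ^ 2 * (n : ℝ) ^ 16) ≤ δ →
    ∀ (b' : ℝ) (s s' : Fin (n ^ 107) → Bool) (j : Fin (n ^ 107)) (p : Pl),
    |p.2 - tJ cs n j| ≤ 5 * ell cs n + 4 * |P p - P (0, tJ cs n j)| / Real.sqrt δ →
    hs cs n ≤ |P p - P (0, tJ cs n j)| → ∀ᶠ q in 𝓝 p, psi cs b' n s s' q = 0 := by
  refine ⟨1, fun n hn P cs δ hP hcs hcs1 hslope hδ b' s s' j p h1 h2 => ?_⟩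
  have ht := t14a_tJ hcs hn
  filter_upwards [t14a_cone_bits hM hP hcs hcs1 hn hslope hδ s j (ht j) ht h1 h2,
    t14a_cone_bits hM hP hcs hcs1 hn hslope hδ s' j (ht j) ht h1 h2] with q hq1 hq2
  unfold psi
  rw [hq1, hq2]
  ring

end Vale.Agent.P229.D
end
end

section

section

/-!
# P229, disproof, task T14: no normalised family with many members
-/

open scoped ContDiff Topology
open MeasureTheory Set

namespace Vale.Agent.P229.D

theorem t14b_dx_congr {f g : Pl → ℝ} {p : Pl} (h : ∀ᶠ q in 𝓝 p, f q = g q) :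
    ∀ᶠ q in 𝓝 p, dx f q = dx g q := by
  have h' : f =ᶠ[𝓝 p] g := h
  filter_upwards [Filter.EventuallyEq.fderiv (𝕜 := ℝ) h'] with q hq
  unfold dx
  rw [hq]

theorem t14b_dt_congr {f g : Pl → ℝ} {p : Pl} (h : ∀ᶠ q in 𝓝 p, f q = g q) :
    ∀ᶠ q in 𝓝 p, dt f q = dt g q := by
  have h' : f =ᶠ[𝓝 p] g := h
  filter_upwards [Filter.EventuallyEq.fderiv (𝕜 := ℝ) h'] with q hq
  unfold dt
  rw [hq]

/-- All derivatives of `psi` that occur in the bound of the forcing. -/
theorem t14b_jet_congr {f g : Pl → ℝ} {p : Pl} (h : ∀ᶠ q in 𝓝 p, f q = g q) :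
    f p = g p ∧ dx f p = dx g p ∧ dt f p = dt g p ∧ dx (dx f) p = dx (dx g) p ∧
      dt (dt f) p = dt (dt g) p := by
  have h1 := t14b_dx_congr h
  have h2 := t14b_dt_congr h
  exact ⟨h.self_of_nhds, h1.self_of_nhds, h2.self_of_nhds, (t14b_dx_congr h1).self_of_nhds,
    (t14b_dt_congr h2).self_of_nhds⟩

theorem t14b_zero_jet {f : Pl → ℝ} {p : Pl} (h : ∀ᶠ q in 𝓝 p, f q = 0) :
    f p = 0 ∧ dx f p = 0 ∧ dt f p = 0 ∧ dx (dx f) p = 0 ∧ dt (dt f) p = 0 := by
  have h1 : ∀ᶠ q in 𝓝 p, f q = (fun _ => (0 : ℝ)) q := h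
  obtain ⟨a, b, c, d, e⟩ := t14b_jet_congr h1
  have dx0 : dx (fun _ => (0 : ℝ)) = fun _ => 0 := funext fun q => dx_const 0
  have dt0 : dt (fun _ => (0 : ℝ)) = fun _ => 0 := funext fun q => dt_const 0
  rw [dx0] at b d
  rw [dt0] at c e
  rw [dx0] at d
  rw [dt0] at e
  exact ⟨a, b, c, d, e⟩

/-- The forcing vanishes where `psi` vanishes near the point. -/
theorem t14b_F_zero {f F g : Pl → ℝ} {p : Pl} (h : ∀ᶠ q in 𝓝 p, f q = 0)
    (hF : |F p + g p * (dx (dx f) p + dt (dt f) p)| ≤ |f p| + |dx f p| + |dt f p|) : F p = 0 := by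
  obtain ⟨a, b, c, d, e⟩ := t14b_zero_jet h
  rw [a, b, c, d, e] at hF
  simp only [abs_zero, add_zero, mul_zero] at hF
  exact abs_nonpos_iff.1 hF

/-- The jet of a multiple of a bit. -/
theorem t14b_bit_jet (c cs : ℝ) (n : ℕ) (tj : ℝ) (p : Pl) :
    dx (fun q => c * bit cs n tj q) p = c * dx (bit cs n tj) p ∧
    dt (fun q => c * bit cs n tj q) p = c * dt (bit cs n tj) p ∧
    dx (dx (fun q => c * bit cs n tj q)) p = c * dx (dx (bit cs n tj)) p ∧
    dt (dt (fun q => c * bit cs n tj q)) p = c * dt (dt (bit cs n tj)) p := by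
  have hs := bit_smooth cs n tj
  have d0 : ∀ q, DifferentiableAt ℝ (bit cs n tj) q := fun q =>
    (hs.differentiable (by norm_num)).differentiableAt
  have dxs : ContDiff ℝ 1 (dx (bit cs n tj)) := contDiff_dx (n := 2) (hs.of_le ENat.LEInfty.out) (by norm_num)
  have dts : ContDiff ℝ 1 (dt (bit cs n tj)) := contDiff_dt (n := 2) (hs.of_le ENat.LEInfty.out) (by norm_num)
  have e1 : dx (fun q => c * bit cs n tj q) = fun q => c * dx (bit cs n tj) q :=
    funext fun q => dx_const_mul c (d0 q)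
  have e2 : dt (fun q => c * bit cs n tj q) = fun q => c * dt (bit cs n tj) q :=
    funext fun q => dt_const_mul c (d0 q)
  refine ⟨dx_const_mul c (d0 p), dt_const_mul c (d0 p), ?_, ?_⟩
  · rw [e1]
    exact dx_const_mul c (dxs.differentiable (by norm_num)).differentiableAt
  · rw [e2]
    exact dt_const_mul c (dts.differentiable (by norm_num)).differentiableAt

theorem t14b_scales {cs : ℝ} (hcs : 0 < cs) {n : ℕ} (hn : 1 ≤ n) :
    0 < varpi cs n ∧ varpi cs n ≤ cs ∧ 0 < ell cs n ∧ ell cs n ≤ cs / 8 := by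
  have hn' : (1 : ℝ) ≤ n := by exact_mod_cast hn
  have h8 : (1 : ℝ) ≤ (n : ℝ) ^ 8 := one_le_pow₀ hn'
  have h115 : (1 : ℝ) ≤ (n : ℝ) ^ 115 := one_le_pow₀ hn'
  refine ⟨by unfold varpi; positivity, ?_, by unfold ell; positivity, ?_⟩
  · unfold varpi
    exact div_le_self hcs.le h8
  · unfold ell
    exact div_le_div_of_nonneg_left hcs.le (by norm_num) (by linarith only [h115])

theorem t14b_tJ {cs : ℝ} (hcs : 0 < cs) {n : ℕ} (hn : 1 ≤ n) (j : Fin (n ^ 107)) :
    0 ≤ tJ cs n j ∧ tJ cs n j ≤ cs / (n : ℝ) ^ 8 := by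
  have hn' : (1 : ℝ) ≤ n := by exact_mod_cast hn
  have hn0 : (0 : ℝ) < n := by linarith only [hn']
  have hj : ((j : ℕ) : ℝ) ≤ (n : ℝ) ^ 107 := by exact_mod_cast j.2.le
  unfold tJ ell
  refine ⟨by positivity, ?_⟩
  have e : 8 * (cs / (8 * (n : ℝ) ^ 115)) * ((j : ℕ) : ℝ) = cs / (n : ℝ) ^ 115 * ((j : ℕ) : ℝ) := by
    field_simp
  have e2 : cs / (n : ℝ) ^ 8 = cs / (n : ℝ) ^ 115 * (n : ℝ) ^ 107 := by
    have : (n : ℝ) ^ 115 = (n : ℝ) ^ 8 * (n : ℝ) ^ 107 := by rw [← pow_add]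
    rw [this]
    field_simp
  rw [e, e2]
  exact mul_le_mul_of_nonneg_left hj (by positivity)

/-- In the window of the bit `j`, the difference of two strings is `± b'` times one bit. -/
theorem t14b_psi_window {cs b' : ℝ} (hcs : 0 < cs) {n : ℕ} (hn : 1 ≤ n)
    (s s' : Fin (n ^ 107) → Bool) (j : Fin (n ^ 107)) {p : Pl}
    (hp : |p.2 - tJ cs n j| ≤ 3 * ell cs n) {sgn : ℝ}
    (hsgn : sgn = (if s j then 1 else 0) - (if s' j then 1 else 0)) :
    ∀ᶠ q in 𝓝 p, psi cs b' n s s' q = sgn * b' * bit cs n (tJ cs n j) q := by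
  filter_upwards [bits_window hcs hn s j hp, bits_window hcs hn s' j hp] with q h1 h2
  unfold psi
  rw [h1, h2, hsgn]
  ring

/-- Points of the window lie in the disc. -/
theorem t14b_window_rho {P : Pl → ℝ} (hP : Frame P) {cs : ℝ} (hcs : 0 < cs) (hcs1 : cs ≤ 1 / 1000)
    {n : ℕ} (hn : 1 ≤ n) {tj : ℝ} (h0 : 0 ≤ tj) (h1 : tj ≤ cs / (n : ℝ) ^ 8) {p : Pl}
    (hp : |p.2 - tj| ≤ 3 * ell cs n) (hp' : |P p - P (0, tj)| ≤ 5 * hs cs n) :
    rho2 p < 0.64 := by
  obtain ⟨w0, w1, l0, l1⟩ := t14b_scales hcs hn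
  have htj : tj ≤ 1 / 1000 := h1.trans (by
    have := w1
    unfold varpi at this
    linarith only [hcs1, this])
  have hhs : hs cs n ≤ 1 / 1000 := by
    unfold hs
    have : varpi cs n * ell cs n ≤ (1 / 1000) * (1 / 1000) :=
      mul_le_mul (by linarith only [hcs1, w1]) (by linarith only [hcs1, l1]) l0.le (by norm_num)
    linarith only [this]
  have a1 := hP.abs_sub_fst_le p
  have a2 := hP.abs_sub_fst_le (0, tj)
  simp only [abs_zero, zero_add, sub_zero, abs_of_nonneg h0] at a2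
  have b1 := abs_le.1 hp
  have b2 := abs_le.1 hp'
  have b3 := abs_le.1 a2
  have hp2 : |p.2| ≤ 1 / 100 := by
    rw [abs_le]
    constructor <;> linarith only [hcs1, h0, l0, l1, b1, htj]
  have b4 := abs_le.1 a1
  have hp1 : |p.1| ≤ 1 / 100 := by
    have h3 : |p.1| ≤ |P p| + |P p - p.1| := by
      have := abs_sub_abs_le_abs_sub (p.1) (P p)
      rw [abs_sub_comm] at this
      linarith only [this]
    have h4 : |P p| ≤ 7 / 1000 := by
      rw [abs_le]
      constructor <;> linarith only [htj, hhs, b2, b3]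
    linarith only [a1, hp2, h3, h4]
  have c1 : p.1 ^ 2 ≤ (1 / 100) ^ 2 := by
    rw [← sq_abs p.1]
    exact pow_le_pow_left₀ (abs_nonneg _) hp1 2
  have c2 : p.2 ^ 2 ≤ (1 / 100) ^ 2 := by
    rw [← sq_abs p.2]
    exact pow_le_pow_left₀ (abs_nonneg _) hp2 2
  unfold rho2
  norm_num at c1 c2 ⊢
  linarith only [c1, c2]

/-- The forcing in the window. -/
theorem t14b_window {C : ℝ} (hC : 0 < C)
    (hani : ∀ (cs : ℝ), 0 < cs → cs ≤ 1 → ∀ n : ℕ, 1 ≤ n →
    ∀ (tj : ℝ) (p : Pl), |bit cs n tj p| ≤ 1 ∧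
      |dx (bit cs n tj) p| ≤ C / (varpi cs n * ell cs n) ∧
      |dt (bit cs n tj) p| ≤ C / ell cs n ∧
      |dx (dx (bit cs n tj)) p| ≤ C / (varpi cs n * ell cs n) ^ 2 ∧
      |dt (dx (bit cs n tj)) p| ≤ C / (varpi cs n * ell cs n ^ 2) ∧
      |dx (dt (bit cs n tj)) p| ≤ C / (varpi cs n * ell cs n ^ 2) ∧
      |dt (dt (bit cs n tj)) p| ≤ C / ell cs n ^ 2)
    {cs b' : ℝ} (hcs : 0 < cs) (hcs1 : cs ≤ 1) (hb : 0 < b') {n : ℕ} (hn : 1 ≤ n)
    (s s' : Fin (n ^ 107) → Bool) (j : Fin (n ^ 107)) {p : Pl}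
    (hp : |p.2 - tJ cs n j| ≤ 3 * ell cs n) {sgn : ℝ}
    (hsgn : sgn = (if s j then 1 else 0) - (if s' j then 1 else 0)) (hs1 : |sgn| = 1)
    {F g : Pl → ℝ}
    (hF : |F p + g p * (dx (dx (psi cs b' n s s')) p + dt (dt (psi cs b' n s s')) p)|
          ≤ |psi cs b' n s s' p| + |dx (psi cs b' n s s') p| + |dt (psi cs b' n s s') p|) :
    |F p + g p * (sgn * b') * (dx (dx (bit cs n (tJ cs n j))) p
        + dt (dt (bit cs n (tJ cs n j))) p)|
      ≤ (1 + 2 * C) * b' / (varpi cs n * ell cs n) := by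
  obtain ⟨w0, w1, l0, l1⟩ := t14b_scales hcs hn
  obtain ⟨e0, e1, e2, e3, e4⟩ := t14b_jet_congr (t14b_psi_window (b' := b') hcs hn s s' j hp hsgn)
  obtain ⟨f1, f2, f3, f4⟩ := t14b_bit_jet (sgn * b') cs n (tJ cs n j) p
  rw [e0, e1, e2, e3, e4, f1, f2, f3, f4] at hF
  obtain ⟨g0, g1, g2, -, -, -, -⟩ := hani cs hcs hcs1 n hn (tJ cs n j) p
  have q0 : |sgn * b'| = b' := by rw [abs_mul, hs1, one_mul, abs_of_pos hb]
  rw [abs_mul (sgn * b') (bit cs n (tJ cs n j) p), abs_mul (sgn * b') (dx (bit cs n (tJ cs n j)) p),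
    abs_mul (sgn * b') (dt (bit cs n (tJ cs n j)) p), q0] at hF
  have wl : 0 < varpi cs n * ell cs n := mul_pos w0 l0
  have wl1 : varpi cs n * ell cs n ≤ 1 := by
    calc varpi cs n * ell cs n ≤ 1 * 1 := mul_le_mul (by linarith only [hcs1, w1]) (by linarith only [hcs1, l1]) l0.le (by norm_num)
      _ = 1 := by norm_num
  have k0 : (1 : ℝ) ≤ 1 / (varpi cs n * ell cs n) := by
    rw [le_div_iff₀ wl]
    linarith only [wl1]
  have k1 : C / ell cs n ≤ C / (varpi cs n * ell cs n) := by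
    apply div_le_div_of_nonneg_left hC.le wl
    calc varpi cs n * ell cs n ≤ 1 * ell cs n := mul_le_mul_of_nonneg_right (by linarith only [hcs1, w1]) l0.le
      _ = ell cs n := one_mul _
  have e : g p * (sgn * b') * (dx (dx (bit cs n (tJ cs n j))) p
        + dt (dt (bit cs n (tJ cs n j))) p)
      = g p * (sgn * b' * dx (dx (bit cs n (tJ cs n j))) p
        + sgn * b' * dt (dt (bit cs n (tJ cs n j))) p) := by ring
  rw [e]
  refine hF.trans ?_
  have m0 : b' * |bit cs n (tJ cs n j) p| ≤ b' * (1 / (varpi cs n * ell cs n)) :=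
    mul_le_mul_of_nonneg_left (g0.trans k0) hb.le
  have m1 : b' * |dx (bit cs n (tJ cs n j)) p| ≤ b' * (C / (varpi cs n * ell cs n)) :=
    mul_le_mul_of_nonneg_left g1 hb.le
  have m2 : b' * |dt (bit cs n (tJ cs n j)) p| ≤ b' * (C / (varpi cs n * ell cs n)) :=
    mul_le_mul_of_nonneg_left (g2.trans k1) hb.le
  have m3 : (1 + 2 * C) * b' / (varpi cs n * ell cs n) = b' * (1 / (varpi cs n * ell cs n))
      + b' * (C / (varpi cs n * ell cs n)) + b' * (C / (varpi cs n * ell cs n)) := by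
    ring
  rw [m3]
  linarith only [m0, m1, m2]

/-- Closeness of two members of the family. -/
theorem t14b_close {n : ℕ} {M cs δ ι b' ε : ℝ} {G : Pl → ℝ}
    {S : Finset (Fin (n ^ 107) → Bool)} {s0 : Fin (n ^ 107) → Bool}
    {u : (Fin (n ^ 107) → Bool) → Pl → ℝ} (hN : NormFam n M cs δ ι b' ε G S s0 u)
    (hFr : Frame (dx (u s0))) (hε1 : ε ≤ 1 / 1000) (hδ : 0 ≤ δ) (hδ1 : δ ≤ 1 / 1000)
    {s s' : Fin (n ^ 107) → Bool} (hs : s ∈ S) (hs' : s' ∈ S) (p : Pl) :
    |u s p - u s' p| ≤ 1 ∧ |XX (dx (u s0)) (fun q => u s q - u s' q) p| ≤ 1 ∧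
      |YY (dx (u s0)) (fun q => u s q - u s' q) p| ≤ 1 := by
  have hd : ∀ r ∈ S, DifferentiableAt ℝ (u r) p := fun r hr =>
    ((hN.smooth r hr).differentiable (by norm_num)).differentiableAt
  have hεδ : ε * δ ≤ 1 / 1000 := by
    calc ε * δ ≤ 1 * (1 / 1000) := mul_le_mul (by linarith only [hε1]) hδ1 hδ (by norm_num)
      _ = 1 / 1000 := by norm_num
  have key : ∀ r ∈ S, |u r p - u s0 p| ≤ 1 / 1000 ∧ |dx (u r) p - dx (u s0) p| ≤ 1 / 1000 ∧
      |dt (u r) p - dt (u s0) p| ≤ 1 / 1000 := by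
    intro r hr
    have h := hN.close r hr p
    obtain ⟨h1, h2, h3⟩ := h
    have h2' : |dx (fun q => u r q - u s0 q) p| ≤ ε * δ := h2.1
    have h3' : |dt (fun q => u r q - u s0 q) p| ≤ ε * δ := h3.1
    rw [dx_sub (hd r hr) (hd s0 hN.s0_mem)] at h2'
    rw [dt_sub (hd r hr) (hd s0 hN.s0_mem)] at h3'
    exact ⟨h1.trans hεδ, h2'.trans hεδ, h3'.trans hεδ⟩
  obtain ⟨a1, a2, a3⟩ := key s hs
  obtain ⟨b1, b2, b3⟩ := key s' hs'
  have c1 : |u s p - u s' p| ≤ 2 / 1000 := by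
    have e : u s p - u s' p = (u s p - u s0 p) - (u s' p - u s0 p) := by ring
    rw [e]
    refine (abs_sub _ _).trans ?_
    linarith only [a1, b1]
  have c2 : |dx (fun q => u s q - u s' q) p| ≤ 2 / 1000 := by
    rw [dx_sub (hd s hs) (hd s' hs')]
    have e : dx (u s) p - dx (u s') p = (dx (u s) p - dx (u s0) p) - (dx (u s') p - dx (u s0) p) := by
      ring
    rw [e]
    refine (abs_sub _ _).trans ?_
    linarith only [a2, b2]
  have c3 : |dt (fun q => u s q - u s' q) p| ≤ 2 / 1000 := by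
    rw [dt_sub (hd s hs) (hd s' hs')]
    have e : dt (u s) p - dt (u s') p = (dt (u s) p - dt (u s0) p) - (dt (u s') p - dt (u s0) p) := by
      ring
    rw [e]
    refine (abs_sub _ _).trans ?_
    linarith only [a3, b3]
  have hge := hFr.le_dx p
  have hpos := hFr.dx_pos p
  have d2 : |XX (dx (u s0)) (fun q => u s q - u s' q) p| ≤ 1 / 100 := by
    unfold XX
    rw [abs_div, abs_of_pos hpos, div_le_iff₀ hpos]
    linarith only [c2, hge]
  refine ⟨by linarith only [c1], by linarith only [d2], ?_⟩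
  unfold YY
  have hts := hFr.dt_small p
  have d3 : |dt (dx (u s0)) p / dx (dx (u s0)) p * dx (fun q => u s q - u s' q) p| ≤ 1 / 100 := by
    have e : dt (dx (u s0)) p / dx (dx (u s0)) p * dx (fun q => u s q - u s' q) p
        = dt (dx (u s0)) p * XX (dx (u s0)) (fun q => u s q - u s' q) p := by
      unfold XX
      ring
    rw [e, abs_mul]
    calc |dt (dx (u s0)) p| * |XX (dx (u s0)) (fun q => u s q - u s' q) p| ≤ 1 * (1 / 100) :=
          mul_le_mul (by linarith only [hts]) d2 (abs_nonneg _) (by norm_num)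
      _ = 1 / 100 := by norm_num
  refine (abs_sub _ _).trans ?_
  linarith only [c3, d3]

/-- A large normalised family does not exist. -/
theorem normfam_false : ∃ ε c0 : ℝ, 0 < ε ∧ ε ≤ 1 / 1000 ∧ 0 < c0 ∧ c0 ≤ 1 / 1000 ∧
    ∀ M : ℝ, 1 ≤ M → ∀ cs : ℝ, 0 < cs →
    cs ≤ c0 / M → ∀ qb : ℕ, 1000 ≤ qb → ∃ n0 : ℕ, ∀ n : ℕ, n0 ≤ n →
    ∀ (δ ι b' : ℝ) (G : Pl → ℝ) (S : Finset (Fin (n ^ 107) → Bool)) (s0 : Fin (n ^ 107) → Bool)
      (u : (Fin (n ^ 107) → Bool) → Pl → ℝ),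
    1 / (4 * M ^ 2 * (n : ℝ) ^ qb) ≤ b' → b' ≤ 4 * M ^ 2 / (n : ℝ) ^ qb →
    NormFam n M cs δ ι b' ε G S s0 u →
    2 ^ (n ^ 106) ≤ S.card → False := by
  obtain ⟨ε, hε, hε1, hpair⟩ := normfam_pair
  obtain ⟨c1, hc1, hpf⟩ := pair_false
  obtain ⟨C, hC, hani⟩ := bit_aniso
  refine ⟨ε, min c1 (1 / 1000), hε, hε1, lt_min hc1 (by norm_num), min_le_right _ _,
    fun M hM cs hcs hcsM qb hqb => ?_⟩
  have hM0 : 0 < M := by linarith only [hM]
  have hcs1 : cs ≤ c1 / M := hcsM.trans (by gcongr; exact min_le_left _ _)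
  have hcs2 : cs ≤ 1 / (1000 * M) := by
    refine hcsM.trans ?_
    rw [← div_div]
    gcongr
    exact min_le_right _ _
  have hcs3 : cs ≤ 1 / 1000 := by
    refine hcs2.trans ?_
    apply div_le_div_of_nonneg_left (by norm_num) (by norm_num)
    linarith only [hM]
  obtain ⟨n1, hn1⟩ := hpair M hM cs hcs (by linarith only [hcs3])
  obtain ⟨n2, hn2⟩ := iterate M hM (4 * qb + 5000)
  obtain ⟨n3, hn3⟩ := hpf M hM cs hcs hcs1 (1 + 2 * C) qb hqb
  obtain ⟨n4, hn4⟩ := psi_far M hM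
  obtain ⟨n5, hn5⟩ := psi_cone M hM
  obtain ⟨n6, hn6⟩ := exists_nat_ge (4 * M ^ 2)
  refine ⟨n1 + n2 + n3 + n4 + n5 + n6 + 2, fun n hn δ ι b' G S s0 u hb1 hb2 hN hcard => ?_⟩
  have hnR : (1 : ℝ) ≤ n := by exact_mod_cast (show 1 ≤ n by omega)
  have hn0 : (0 : ℝ) < n := by linarith only [hnR]
  have hb0 : 0 < b' := lt_of_lt_of_le (by (clear * - hM hnR; positivity)) hb1
  have hb1000 : b' ≤ 4 * M ^ 2 / (n : ℝ) ^ 1000 := by
    refine hb2.trans (div_le_div_of_nonneg_left (by positivity) (by (clear * - hnR; positivity)) ?_)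
    exact pow_le_pow_right₀ hnR hqb
  have hbone : b' ≤ 1 := by
    refine hb2.trans ?_
    rw [div_le_one (by (clear * - hnR; positivity))]
    have h6 : (n6 : ℝ) ≤ n := by exact_mod_cast (show n6 ≤ n by omega)
    have h7 : (n : ℝ) ≤ (n : ℝ) ^ qb := le_self_pow₀ hnR (by omega)
    linarith only [hn6, h6, h7]
  obtain ⟨hFr, hP⟩ := hn1 n (by omega) δ ι b' G S s0 u hb0.le hb1000 hN
  have hslope := hN.slopeHyp hε.le hε1 hcs (by omega)
  have hfar : ∀ (s s' : Fin (n ^ 107) → Bool) (F g : Pl → ℝ),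
      (∀ p, rho2 p < 0.64 →
        |F p + g p * (dx (dx (psi cs b' n s s')) p + dt (dt (psi cs b' n s s')) p)|
          ≤ |psi cs b' n s s' p| + |dx (psi cs b' n s s') p| + |dt (psi cs b' n s s') p|) →
      ∀ p, rho2 p < 0.64 → (dK n M 0 < |dx (u s0) p| ∨ 1 / 4 < rho2 p) → F p = 0 := by
    intro s s' F g hFb p hp hp'
    exact t14b_F_zero (hn4 n (by omega) _ cs hFr hcs hcs2 hslope b' s s' p hp') (hFb p hp)
  -- iteration
  have hδb : 0 < δ ∧ δ ≤ 1 / 1000 := by
    obtain ⟨a, α, e1, e2, F, g, hPE, -⟩ := hP s0 hN.s0_mem s0 hN.s0_mem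
    exact ⟨hPE.δ_pos, hPE.δ_small⟩
  obtain ⟨s, hs, s', hs', hne, hint⟩ := hn2 n (by omega) (dx (u s0)) δ (Fin (n ^ 107) → Bool) S u
    hN.δ_lower hN.δ_upper (fun s hs => (hN.smooth s hs).of_le (by norm_num))
    (fun s hs s' hs' p _ => t14b_close hN hFr hε1 hδb.1.le hδb.2 hs hs' p)
    (fun s hs s' hs' => by
      obtain ⟨a, α, e1, e2, F, g, hPE, -, -, hFb⟩ := hP s hs s' hs'
      exact ⟨a, α, e1, e2, F, hPE, hfar s s' F g hFb⟩) hcard
  obtain ⟨j, hj⟩ := Function.ne_iff.1 hne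
  obtain ⟨sgn, hsgn⟩ : ∃ sgn : ℝ, sgn = (if s j then 1 else 0) - (if s' j then 1 else 0) :=
    ⟨_, rfl⟩
  have hsgn2 : sgn = 1 ∨ sgn = -1 := by
    rw [hsgn]
    cases h1 : s j <;> cases h2 : s' j <;> simp [h1, h2] at hj ⊢
  have hsgn1 : |sgn| = 1 := by
    rcases hsgn2 with h | h <;> rw [h] <;> norm_num
  obtain ⟨a, α, e1, e2, F, g, hPE, hg, hgb, hFb⟩ := hP s hs s' hs'
  obtain ⟨t0, t1⟩ := t14b_tJ hcs (show 1 ≤ n by omega) j
  refine hn3 n (by omega) (dx (u s0)) (fun q => u s q - u s' q) a α e1 e2 F g δ b' (tJ cs n j) sgn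
    hPE hN.δ_lower hN.δ_upper hb1 hbone t0 t1 hsgn2 hslope ?_ hg hgb ?_ hint
  · intro p hp hp1 hp2
    exact t14b_F_zero (hn5 n (by omega) _ cs δ hFr hcs hcs2 hslope hN.δ_lower b' s s' j p hp1 hp2)
      (hFb p hp)
  · intro p hp1 hp2
    have hrho := t14b_window_rho hFr hcs hcs3 (show 1 ≤ n by omega) t0 t1 hp1 hp2
    exact t14b_window hC hani hcs (by linarith only [hcs3]) hb0 (by omega) s s' j hp1 hsgn hsgn1 (hFb p hrho)

end Vale.Agent.P229.D
end
end

section

section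

/-!
# P229, disproof: Proposition U and the disc lemma (`PROOF.md`, §1, §3)
-/

open scoped ContDiff Topology RealInnerProductSpace
open MeasureTheory Set Metric

namespace Vale.Agent.P229.D

theorem norm_iteratedFDeriv_const_mul_le {φ : Pl → ℝ} (hφ : ContDiff ℝ ∞ φ) {c : ℝ} (hc : 0 ≤ c)
    (j : ℕ) (p : Pl) :
    ‖iteratedFDeriv ℝ j (fun p => c * φ p) p‖ = c * ‖iteratedFDeriv ℝ j φ p‖ := by
  have h : iteratedFDeriv ℝ j (fun p => c * φ p) p = c • iteratedFDeriv ℝ j φ p := by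
    exact iteratedFDeriv_const_smul_apply (𝕜 := ℝ) (i := j) (a := c) (f := φ) (x := p)
      ((hφ.of_le (by exact_mod_cast le_top)).contDiffAt)
  rw [h, norm_smul, Real.norm_of_nonneg hc]

/-- Proposition U. -/
theorem propU (M : ℝ) (hM : 1 ≤ M) : ∃ r0 : ℝ, 0 < r0 ∧ ∀ r : ℝ, 0 < r → r ≤ r0 →
    ∀ (m : ℕ) (e : ℝ), 0 < e → ∃ φ : Pl → ℝ, ContDiff ℝ ∞ φ ∧
      tsupport φ ⊆ Metric.ball (0 : Pl) 1 ∧ (∀ p, φ p ≤ 0) ∧ φ 0 < 0 ∧
      (∀ j ≤ m, ∀ p, ‖iteratedFDeriv ℝ j φ p‖ ≤ e) ∧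
      ∀ F : Pl → E3, ContDiffOn ℝ 4 F (Metric.ball (0 : Pl) 1) →
        ConfIso φ (Metric.ball (0 : Pl) 1) F →
        (∀ p ∈ Metric.ball (0 : Pl) 1, ‖iteratedFDeriv ℝ 2 F p‖ ≤ M * r ∧
          ‖iteratedFDeriv ℝ 3 F p‖ ≤ M * r ^ 2 ∧ ‖iteratedFDeriv ℝ 4 F p‖ ≤ M * r ^ 3) →
        r / M ≤ ‖iteratedFDeriv ℝ 2 F 0‖ → False := by
  obtain ⟨ε, c0, hε, hε1, hc0, hc01, hfalse⟩ := normfam_false
  obtain ⟨M', hM', hnorm⟩ := normalize M hM
  obtain ⟨r1, hr1, hraw⟩ := raw_to_normfam M' hM' ε hε hε1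
  refine ⟨min r1 1, lt_min hr1 one_pos, fun r hr hrle m e he => ?_⟩
  have hr_r1 : r ≤ r1 := hrle.trans (min_le_left _ _)
  have hr_1 : r ≤ 1 := hrle.trans (min_le_right _ _)
  have hM'0 : 0 < M' := by linarith only [hM']
  set cs : ℝ := c0 / M' with hcs
  have hcs0 : 0 < cs := by positivity
  have hcs1 : cs ≤ 1 := by
    rw [hcs, div_le_one hM'0]; linarith only [hc01, hM']
  set qb : ℕ := 200 * m + 1000 with hqb
  have hqb1 : 1000 ≤ qb := by omega
  obtain ⟨n1, hn1⟩ := hnorm cs hcs0 hcs1 qb hqb1 r hr hr_1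
  obtain ⟨n2, hn2⟩ := hraw r hr hr_r1 cs hcs0 hcs1 qb hqb1
  obtain ⟨n3, hn3⟩ := hfalse M' hM' cs hcs0 le_rfl qb hqb1
  obtain ⟨n4, hn4⟩ := phc_props cs hcs0 hcs1 m e he qb le_rfl
  obtain ⟨n5, hn5⟩ := Gother_small cs hcs0
  set n : ℕ := max 1 (max n1 (max n2 (max n3 (max n4 n5)))) with hn
  have hn_1 : 1 ≤ n := le_max_left _ _
  have hn_n1 : n1 ≤ n := (le_max_left _ _).trans (le_max_right _ _)
  have hn_n2 : n2 ≤ n := (le_max_left _ _).trans ((le_max_right _ _).trans (le_max_right _ _))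
  have hn_n3 : n3 ≤ n := (le_max_left _ _).trans ((le_max_right _ _).trans
    ((le_max_right _ _).trans (le_max_right _ _)))
  have hn_n4 : n4 ≤ n := (le_max_left _ _).trans ((le_max_right _ _).trans
    ((le_max_right _ _).trans ((le_max_right _ _).trans (le_max_right _ _))))
  have hn_n5 : n5 ≤ n := (le_max_right _ _).trans ((le_max_right _ _).trans
    ((le_max_right _ _).trans ((le_max_right _ _).trans (le_max_right _ _))))
  by_contra hcon
  push Not at hcon
  have hr2 : 0 < r ^ 2 := by positivity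
  have hr21 : r ^ 2 ≤ 1 := pow_le_one₀ hr.le hr_1
  have hall : ∀ σ : Fin (n ^ 9) → Fin (n ^ 107) → Bool, ∃ F : Pl → E3,
      ContDiffOn ℝ 4 F (Metric.ball (0 : Pl) 1) ∧
      ConfIso (fun p => r ^ 2 * phc cs (1 / (n : ℝ) ^ qb) n σ p) (Metric.ball (0 : Pl) 1) F ∧
      (∀ p ∈ Metric.ball (0 : Pl) 1, ‖iteratedFDeriv ℝ 2 F p‖ ≤ M * r ∧
          ‖iteratedFDeriv ℝ 3 F p‖ ≤ M * r ^ 2 ∧ ‖iteratedFDeriv ℝ 4 F p‖ ≤ M * r ^ 3) ∧
      r / M ≤ ‖iteratedFDeriv ℝ 2 F 0‖ := by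
    intro σ
    obtain ⟨b1, b2, b3, b4, b5⟩ := hn4 n hn_n4 σ
    obtain ⟨F, hF⟩ := hcon (fun p => r ^ 2 * phc cs (1 / (n : ℝ) ^ qb) n σ p)
      (contDiff_const.mul b1)
      ((closure_mono (Function.support_mul_subset_right _ _)).trans b2)
      (fun p => mul_nonpos_of_nonneg_of_nonpos hr2.le (b3 p)) (mul_neg_of_pos_of_neg hr2 b4)
      (fun j hj p => by
        rw [norm_iteratedFDeriv_const_mul_le b1 hr2.le]
        exact (mul_le_of_le_one_left (norm_nonneg _) hr21).trans (b5 j hj p))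
    exact ⟨F, hF.1, hF.2.1, hF.2.2.1, hF.2.2.2.1⟩
  choose F hF1 hF2 hF3 hF4 using hall
  choose l U hU using fun σ => hn1 n hn_n1 σ (F σ) (hF1 σ) (hF2 σ) (hF3 σ) (hF4 σ)
  obtain ⟨σ, k, hcard⟩ := double_count l
  have hb0 : (0 : ℝ) ≤ 1 / (n : ℝ) ^ qb := by positivity
  have hnR : (1 : ℝ) ≤ n := by exact_mod_cast hn_1
  have hb1 : 1 / (n : ℝ) ^ qb ≤ 1 / (n : ℝ) ^ 1000 :=
    one_div_le_one_div_of_le (by positivity) (pow_le_pow_right₀ hnR hqb1)
  obtain ⟨g1, g2⟩ := hn5 n hn_n5 (1 / (n : ℝ) ^ qb) hb0 hb1 σ k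
  obtain ⟨δ, ι, b', G', S', s0, u, hb'1, hb'2, hfam, hS'⟩ := hn2 n hn_n2
    (Gother cs (1 / (n : ℝ) ^ qb) n σ k) g1 g2
    (Finset.univ.filter (fun s : Fin (n ^ 107) → Bool => l (Function.update σ k s) = k))
    (fun s => U (Function.update σ k s))
    (fun s hs => by
      have hs' : l (Function.update σ k s) = k := (Finset.mem_filter.1 hs).2
      have h := hU (Function.update σ k s)
      rw [hs'] at h
      have e1 : (fun p => phc cs (1 / (n : ℝ) ^ qb) n (Function.update σ k s)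
            (rot (ang n k) p)) = fun p => ((n : ℝ) ^ 16)⁻¹ * phi0 p
            + Gother cs (1 / (n : ℝ) ^ qb) n σ k p + 1 / (n : ℝ) ^ qb * bits cs n s p := by
        funext p
        exact phc_update_rot _ _ _ _ _ _ _
      rw [e1] at h
      exact h) hcard
  exact hn3 n hn_n3 δ ι b' G' S' s0 u hb'1 hb'2 hfam hS'


theorem iteratedFDeriv_comp_smul' {F' : Type*} [NormedAddCommGroup F'] [NormedSpace ℝ F']
    {r : ℝ} (hr : r ≠ 0) (f : Pl → F') (j : ℕ) (x : Pl) :
    iteratedFDeriv ℝ j (fun x => f (r • x)) x = r ^ j • iteratedFDeriv ℝ j f (r • x) := by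
  have h := (ContinuousLinearEquiv.smulLeft (M₁ := Pl) (R₁ := ℝ)
    (Units.mk0 r hr)).iteratedFDerivWithin_comp_right f
    (s := univ) uniqueDiffOn_univ (x := x) (mem_univ _) j
  rw [preimage_univ, iteratedFDerivWithin_univ, iteratedFDerivWithin_univ] at h
  have h2 : (f ∘ (ContinuousLinearEquiv.smulLeft (M₁ := Pl) (R₁ := ℝ) (Units.mk0 r hr)))
      = fun x => f (r • x) := rfl
  rw [h2] at h
  rw [h]
  ext m
  have h3 : (iteratedFDeriv ℝ j f (r • x)) (fun i => r • m i)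
      = r ^ j • (iteratedFDeriv ℝ j f (r • x)) m := by
    have := (iteratedFDeriv ℝ j f (r • x)).map_smul_univ (fun _ => r) m
    simpa only [Finset.prod_const, Finset.card_univ, Fintype.card_fin] using this
  exact h3

theorem norm_iteratedFDeriv_scale {r : ℝ} (hr : 0 < r) {F : Pl → E3} {x : Pl}
    (hF : ContDiffAt ℝ 4 F (r • x)) {j : ℕ} (hj : j ≤ 4) :
    ‖iteratedFDeriv ℝ j (fun x => r⁻¹ • F (r • x)) x‖
      = r⁻¹ * (r ^ j * ‖iteratedFDeriv ℝ j F (r • x)‖) := by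
  have hcd : ContDiffAt ℝ 4 (fun x : Pl => F (r • x)) x :=
    hF.comp x (contDiff_const_smul r).contDiffAt
  have h1 : iteratedFDeriv ℝ j (fun x => r⁻¹ • F (r • x)) x
      = r⁻¹ • iteratedFDeriv ℝ j (fun x => F (r • x)) x :=
    iteratedFDeriv_const_smul_apply (𝕜 := ℝ) (i := j) (a := r⁻¹)
      (hcd.of_le (by exact_mod_cast hj))
  rw [h1, iteratedFDeriv_comp_smul' hr.ne', norm_smul, norm_smul, norm_pow,
    Real.norm_of_nonneg hr.le, Real.norm_of_nonneg (inv_nonneg.2 hr.le)]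

/-- The disc lemma, centred at the origin, from Proposition U by scaling. -/
theorem disc_lemma (M : ℝ) (hM : 1 ≤ M) : ∃ r0 : ℝ, 0 < r0 ∧ ∀ r : ℝ, 0 < r → r ≤ r0 →
    ∀ (m : ℕ) (e : ℝ), 0 < e → ∃ φ : Pl → ℝ, ContDiff ℝ ∞ φ ∧
      tsupport φ ⊆ Metric.ball (0 : Pl) r ∧ (∀ p, φ p ≤ 0) ∧ φ 0 < 0 ∧
      (∀ j ≤ m, ∀ p, ‖iteratedFDeriv ℝ j φ p‖ ≤ e) ∧
      ∀ F : Pl → E3, ContDiffOn ℝ 4 F (Metric.ball (0 : Pl) r) →
        ConfIso φ (Metric.ball (0 : Pl) r) F →
        (∀ p ∈ Metric.ball (0 : Pl) r, ‖iteratedFDeriv ℝ 2 F p‖ ≤ M ∧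
          ‖iteratedFDeriv ℝ 3 F p‖ ≤ M ∧ ‖iteratedFDeriv ℝ 4 F p‖ ≤ M) →
        ‖iteratedFDeriv ℝ 2 F 0‖ < 1 / M := by
  obtain ⟨r0, hr0, hU⟩ := propU M hM
  refine ⟨min r0 1, lt_min hr0 one_pos, fun r hr hrle m e he => ?_⟩
  have hr_r0 : r ≤ r0 := hrle.trans (min_le_left _ _)
  have hr_1 : r ≤ 1 := hrle.trans (min_le_right _ _)
  obtain ⟨φ, a1, a2, a3, a4, a5, a6⟩ := hU r hr hr_r0 m (e * r ^ m) (by positivity)
  have hri : r⁻¹ ≠ 0 := inv_ne_zero hr.ne'
  refine ⟨fun x => φ (r⁻¹ • x), a1.comp (contDiff_const_smul _), ?_, fun p => a3 _, by simpa using a4,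
    ?_, ?_⟩
  · -- support
    intro x hx
    have h1 : r⁻¹ • x ∈ tsupport φ := by
      have hc : Continuous fun x : Pl => r⁻¹ • x := continuous_const_smul _
      have h2 : x ∈ closure ((fun x : Pl => r⁻¹ • x) ⁻¹' (Function.support φ)) := hx
      exact hc.closure_preimage_subset _ h2
    have h3 := a2 h1
    rw [mem_ball_zero_iff, norm_smul, norm_inv, Real.norm_of_nonneg hr.le] at h3
    rw [mem_ball_zero_iff]
    rwa [inv_mul_lt_iff₀ hr, mul_one] at h3
  · intro j hj p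
    rw [iteratedFDeriv_comp_smul' hri, norm_smul, norm_pow, norm_inv, Real.norm_of_nonneg hr.le]
    have h1 := a5 j hj (r⁻¹ • p)
    have h2 : (r⁻¹) ^ j ≤ (r⁻¹) ^ m := pow_le_pow_right₀ ((one_le_inv₀ hr).2 hr_1) hj
    calc (r⁻¹) ^ j * ‖iteratedFDeriv ℝ j φ (r⁻¹ • p)‖ ≤ (r⁻¹) ^ m * (e * r ^ m) :=
          mul_le_mul h2 h1 (norm_nonneg _) (by positivity)
      _ = e := by
          rw [inv_pow]
          (clear * - hr he; field_simp)
  · intro F hF hiso hbd
    by_contra hcon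
    push Not at hcon
    have hmem : ∀ y ∈ ball (0 : Pl) 1, r • y ∈ ball (0 : Pl) r := by
      intro y hy
      rw [mem_ball_zero_iff] at hy ⊢
      rw [norm_smul, Real.norm_of_nonneg hr.le]
      calc r * ‖y‖ < r * 1 := mul_lt_mul_of_pos_left hy hr
        _ = r := mul_one r
    have hcdF : ∀ y ∈ ball (0 : Pl) 1, ContDiffAt ℝ 4 F (r • y) := fun y hy =>
      hF.contDiffAt (isOpen_ball.mem_nhds (hmem y hy))
    refine a6 (fun y => r⁻¹ • F (r • y)) ?_ ?_ ?_ ?_
    · intro y hy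
      exact (((hcdF y hy).comp y (contDiff_const_smul r).contDiffAt).const_smul
        r⁻¹).contDiffWithinAt
    · intro y hy
      have hd : DifferentiableAt ℝ F (r • y) := (hcdF y hy).differentiableAt (by norm_num)
      have hfd : fderiv ℝ (fun y => r⁻¹ • F (r • y)) y = fderiv ℝ F (r • y) := by
        have h1 : HasFDerivAt (fun y : Pl => r • y) (r • ContinuousLinearMap.id ℝ Pl) y :=
          (hasFDerivAt_id y).const_smul r
        have h2 : HasFDerivAt (fun y => r⁻¹ • F (r • y))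
            (r⁻¹ • (fderiv ℝ F (r • y)).comp (r • ContinuousLinearMap.id ℝ Pl)) y :=
          (hd.hasFDerivAt.comp y h1).const_smul r⁻¹
        rw [h2.fderiv]
        refine ContinuousLinearMap.ext fun v => ?_
        change r⁻¹ • (fderiv ℝ F (r • y)) (r • v) = fderiv ℝ F (r • y) v
        rw [map_smul, smul_smul, inv_mul_cancel₀ hr.ne', one_smul]
      have h4 := hiso (r • y) (hmem y hy)
      have h5 : r⁻¹ • r • y = y := by rw [smul_smul, inv_mul_cancel₀ hr.ne', one_smul]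
      simp only [h5] at h4
      rw [hfd]
      exact h4
    · intro y hy
      have hb := hbd (r • y) (hmem y hy)
      rw [norm_iteratedFDeriv_scale hr (hcdF y hy) (by norm_num),
        norm_iteratedFDeriv_scale hr (hcdF y hy) (by norm_num),
        norm_iteratedFDeriv_scale hr (hcdF y hy) (by norm_num)]
      refine ⟨?_, ?_, ?_⟩
      · have e1 : r⁻¹ * (r ^ 2 * ‖iteratedFDeriv ℝ 2 F (r • y)‖)
            = ‖iteratedFDeriv ℝ 2 F (r • y)‖ * r := by (clear * - hr; field_simp)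
        rw [e1]
        exact mul_le_mul_of_nonneg_right hb.1 hr.le
      · have e1 : r⁻¹ * (r ^ 3 * ‖iteratedFDeriv ℝ 3 F (r • y)‖)
            = ‖iteratedFDeriv ℝ 3 F (r • y)‖ * r ^ 2 := by field_simp
        rw [e1]
        exact mul_le_mul_of_nonneg_right hb.2.1 (by positivity)
      · have e1 : r⁻¹ * (r ^ 4 * ‖iteratedFDeriv ℝ 4 F (r • y)‖)
            = ‖iteratedFDeriv ℝ 4 F (r • y)‖ * r ^ 3 := by field_simp
        rw [e1]
        exact mul_le_mul_of_nonneg_right hb.2.2 (by positivity)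
    · rw [norm_iteratedFDeriv_scale hr (hcdF 0 (mem_ball_self one_pos)) (by norm_num), smul_zero]
      have e1 : r⁻¹ * (r ^ 2 * ‖iteratedFDeriv ℝ 2 F 0‖)
            = ‖iteratedFDeriv ℝ 2 F 0‖ * r := by field_simp
      rw [e1]
      calc r / M = 1 / M * r := by ring
        _ ≤ ‖iteratedFDeriv ℝ 2 F 0‖ * r := mul_le_mul_of_nonneg_right hcon hr.le

end Vale.Agent.P229.D
end
end

section

section

/-!
# P229, disproof, task T20: assembly (`PROOF.md`, §1)
-/

open scoped ContDiff Topology RealInnerProductSpace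
open MeasureTheory Set

namespace Vale.Agent.P229.D

/-- Main theorem in the coordinates `ℝ × ℝ`. -/
theorem main_pl : ∃ φ : Pl → ℝ, ContDiff ℝ ∞ φ ∧ ∀ U : Set Pl, IsOpen U → (0 : Pl) ∈ U →
    ∀ F : Pl → E3, ContDiffOn ℝ 4 F U → ConfIso φ U F → False := by
  choose r0 hr0 hdl using fun n : ℕ => disc_lemma ((n : ℝ) + 1)
    (by linarith [n.cast_nonneg (α := ℝ)])
  obtain ⟨S, q, r, h1, h2, h3⟩ := exists_squares r0 hr0
  exact main_pl_of_squares h1 h2 h3 hdl
    fun hU _ _ hr hsub _ hφ hneg hc hbd _ hF hiso =>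
      exists_boundary_point hU hr hsub hφ hneg hc hbd hF hiso

/-- The disproof: a smooth (conformally flat) metric on the plane which has no `C⁴` isometric
immersion into Euclidean three-space on any neighbourhood of the origin. -/
theorem main : ∃ g : E2 → Matrix (Fin 2) (Fin 2) ℝ, IsMetricOn ∞ g Set.univ ∧
    ∀ n : WithTop ℕ∞, 4 ≤ n → ¬ LocallyRealizableAt n g 0 :=
  main_of_pl main_pl

end Vale.Agent.P229.D
end
end
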